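import Crest.Agent.R003.Sep

/-! Row 3: the arithmetic input: units are dense in tori. -/

set_option autoImplicit false
set_option linter.unusedSectionVars false

namespace Crest.Agent.R003

open Matrix

open NumberField

/-- Dedekind: a subgroup of the torus on which no nontrivial character is trivial is dense
(a regular function on the torus is a linear combination of characters;
`linearIndependent_monoidHom`). -/
theorem Cl_torus {Ω κ : Type} [Field Ω] [Fintype κ] (Γ : Subgroup (κ → Ωˣ))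
    (h : ∀ n : κ → ℤ, (∀ γ ∈ Γ, ∏ i, γ i ^ n i = 1) → n = 0) (x : κ → Ωˣ) :
    x ∈ Cl Ω (Γ : Set (κ → Ωˣ)) := by
  classical
  intro φ hφ h0
  let χ : (κ → ℤ) → (κ → Ωˣ) → Ω := fun n y => ((∏ i, y i ^ n i : Ωˣ) : Ω)
  have hsp : φ ∈ Submodule.span Ω (Set.range χ) := by
    have h1 : φ ∈ Subalgebra.toSubmodule (GA Ω Ω (κ → Ωˣ)) := hφ
    rw [GA, Algebra.adjoin_eq_span] at h1
    refine Submodule.span_mono (fun f hf => ?_) h1
    induction hf using Submonoid.closure_induction with
    | mem f hf =>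
      obtain ⟨⟨i, k | k⟩, rfl⟩ := hf
      · refine ⟨Pi.single i 1, funext fun y => ?_⟩
        show ((∏ j, y j ^ (Pi.single i 1 : κ → ℤ) j : Ωˣ) : Ω) = y i
        rw [Finset.prod_eq_single i (fun j _ hj => by simp [hj]) (by simp)]
        simp
      · refine ⟨Pi.single i (-1), funext fun y => ?_⟩
        show ((∏ j, y j ^ (Pi.single i (-1) : κ → ℤ) j : Ωˣ) : Ω) = ((y i)⁻¹ : Ωˣ)
        rw [Finset.prod_eq_single i (fun j _ hj => by simp [hj]) (by simp)]
        simp
    | one => exact ⟨0, funext fun y => by simp [χ]⟩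
    | mul a b _ _ ha hb =>
      obtain ⟨n, rfl⟩ := ha
      obtain ⟨m, rfl⟩ := hb
      refine ⟨n + m, funext fun y => ?_⟩
      simp only [χ, Pi.add_apply, Pi.mul_apply, _root_.zpow_add, Finset.prod_mul_distrib,
        Units.val_mul]
  obtain ⟨c, hc⟩ := Finsupp.mem_span_range_iff_exists_finsupp.1 hsp
  let ρ : (κ → ℤ) → (Γ →* Ω) := fun n =>
    { toFun := fun y => χ n y
      map_one' := by simp [χ]
      map_mul' := fun a b => by
        simp only [χ, Subgroup.coe_mul, Pi.mul_apply, mul_zpow, Finset.prod_mul_distrib,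
          Units.val_mul] }
  have hρ : Function.Injective ρ := by
    intro n m e
    refine sub_eq_zero.1 (h _ fun γ hγ => ?_)
    have h1 : χ n γ = χ m γ := DFunLike.congr_fun e ⟨γ, hγ⟩
    have h2 := Units.ext h1
    simp only [Pi.sub_apply, _root_.zpow_sub, Finset.prod_mul_distrib, Finset.prod_inv_distrib, h2,
      mul_inv_cancel]
  have hli := (linearIndependent_monoidHom Γ Ω).comp ρ hρ
  have hc0 : c = 0 := by
    refine linearIndependent_iff.1 hli c (funext fun y => ?_)
    have h1 := h0 y y.2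
    rw [← hc] at h1
    rw [Finsupp.linearCombination_apply, Finsupp.sum, Finset.sum_apply]
    rw [Finsupp.sum, Finset.sum_apply] at h1
    exact h1
  rw [← hc, hc0]
  simp

/-- Dirichlet: the only linear relation between the `log (w ε)` on a subgroup of finite index
(here: all `N`-th powers) of the units is the product formula
(`NumberField.Units.dirichletUnitTheorem.unitLattice_span_eq_top`, `sum_mult_mul_log`). -/
theorem log_relation {E : Type} [Field E] [NumberField E] (c : InfinitePlace E → ℝ)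
    (h : ∀ ε : (𝓞 E)ˣ, ∑ w, c w * Real.log (w (ε : E)) = 0) :
    ∃ a : ℝ, ∀ w, c w = a * w.mult := by
  obtain ⟨w₁, -, hw₁⟩ := Finset.exists_max_image Finset.univ
    (fun w : InfinitePlace E => c w / w.mult) Finset.univ_nonempty
  obtain ⟨u, hu⟩ := Units.dirichletUnitTheorem.exists_unit E w₁
  have hpos : ∀ w : InfinitePlace E, (0 : ℝ) < w.mult := fun w =>
    Nat.cast_pos.2 InfinitePlace.mult_pos
  have hw1 : c w₁ = c w₁ / w₁.mult * w₁.mult := (div_mul_cancel₀ _ (hpos w₁).ne').symm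
  have hs : ∑ w : InfinitePlace E, (c w - c w₁ / w₁.mult * w.mult) * Real.log (w (u : E)) = 0 := by
    simp only [sub_mul, Finset.sum_sub_distrib, mul_assoc, ← Finset.mul_sum, h u,
      Units.sum_mult_mul_log u, mul_zero, sub_zero]
  have hn : ∀ w ∈ (Finset.univ : Finset (InfinitePlace E)),
      0 ≤ (c w - c w₁ / w₁.mult * w.mult) * Real.log (w (u : E)) := by
    intro w hw
    by_cases e : w = w₁
    · subst e; rw [← hw1, sub_self, zero_mul]
    · exact mul_nonneg_of_nonpos_of_nonpos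
        (sub_nonpos.2 ((div_le_iff₀ (hpos w)).1 (hw₁ w hw))) (hu w e).le
  refine ⟨c w₁ / w₁.mult, fun w => ?_⟩
  by_cases e : w = w₁
  · subst e; exact hw1
  · have := (Finset.sum_eq_zero_iff_of_nonneg hn).1 hs w (Finset.mem_univ w)
    exact sub_eq_zero.1 ((mul_eq_zero.1 this).resolve_right (hu w e).ne)

/-- Multiplicative independence of the embeddings over a fixed non-real embedding `φ` of `L`,
if `L` has another infinite place: the places of the `σ i` are distinct (they restrict to `φ`, and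
`φ` is not real), and some place of `E` is not among them. -/
theorem embeddings_indep {L E : Type} [Field L] [NumberField L] [Field E] [NumberField E]
    [Algebra L E] (φ ψ : L →+* ℂ) (hφ : ¬ ComplexEmbedding.IsReal φ)
    (hψ : InfinitePlace.mk ψ ≠ InfinitePlace.mk φ) {κ : Type} [Fintype κ] (σ : κ → (E →+* ℂ))
    (hσ : Function.Injective σ) (hσφ : ∀ i, (σ i).comp (algebraMap L E) = φ) (n : κ → ℤ)
    (N : ℕ) (hN : 0 < N) (h : ∀ ε : (𝓞 E)ˣ, ∏ i, σ i ((ε ^ N : (𝓞 E)ˣ) : E) ^ n i = 1) :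
    n = 0 := by
  classical
  have hinj : Function.Injective fun i => InfinitePlace.mk (σ i) := by
    intro i j e
    rcases InfinitePlace.mk_eq_iff.1 e with e | e
    · exact hσ e
    · refine absurd (ComplexEmbedding.isReal_iff.2 ?_) hφ
      have h1 : ComplexEmbedding.conjugate φ =
          (ComplexEmbedding.conjugate (σ i)).comp (algebraMap L E) := by
        rw [← hσφ i]; rfl
      rw [h1, e, hσφ]
  obtain ⟨a, ha⟩ := log_relation (E := E)
    (fun w => ∑ i, if InfinitePlace.mk (σ i) = w then (n i : ℝ) else 0) (fun ε => by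
      have h1 := congrArg (fun z : ℂ => Real.log ‖z‖) (h ε)
      have hne : ∀ i, ‖σ i (ε : E)‖ ≠ 0 := fun i =>
        (Units.pos_at_place ε (InfinitePlace.mk (σ i))).ne'
      simp only [norm_prod, norm_zpow, norm_one, Real.log_one, Units.coe_pow, map_pow,
        norm_pow] at h1
      rw [Real.log_prod fun i _ => zpow_ne_zero _ (pow_ne_zero _ (hne i))] at h1
      simp only [Real.log_zpow, Real.log_pow, mul_left_comm _ (N : ℝ), ← Finset.mul_sum] at h1
      have h2 := (mul_eq_zero.1 h1).resolve_left (Nat.cast_ne_zero.2 hN.ne')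
      simp only [Finset.sum_mul, ite_mul, zero_mul]
      rw [Finset.sum_comm]
      simp only [Finset.sum_ite_eq, Finset.mem_univ, if_true]
      exact h2)
  have : Algebra.IsAlgebraic L E := Algebra.IsAlgebraic.of_finite L E
  obtain ⟨w', hw'⟩ := InfinitePlace.comap_surjective (K := E) (InfinitePlace.mk ψ)
  have ha0 : a = 0 := by
    have h1 := ha w'
    rw [Finset.sum_eq_zero fun i _ => if_neg fun e => hψ (by
      rw [← hw', ← e, ← hσφ i]; rfl)] at h1
    exact (mul_eq_zero.1 h1.symm).resolve_right InfinitePlace.mult_coe_ne_zero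
  funext i
  have h1 := ha (InfinitePlace.mk (σ i))
  rw [ha0, zero_mul, Finset.sum_eq_single i (fun j _ hj => if_neg fun e => hj (hinj e)) (by simp),
    if_pos rfl] at h1
  exact_mod_cast h1

/-- A power of every unit of `𝓞 E` is congruent to `1` modulo `M` (finite quotient ring). -/
theorem exists_pow_congr {E : Type} [Field E] [NumberField E] (M : 𝓞 E) (hM : M ≠ 0) :
    ∃ N : ℕ, 0 < N ∧ ∀ ε : (𝓞 E)ˣ, M ∣ ((ε ^ N : (𝓞 E)ˣ) : 𝓞 E) - 1 := by
  have : Finite (𝓞 E ⧸ Ideal.span {M}) :=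
    Ideal.finiteQuotientOfFreeOfNeBot _ (by simpa using hM)
  refine ⟨Nat.card (𝓞 E ⧸ Ideal.span {M})ˣ, Nat.card_pos, fun ε => ?_⟩
  have h1 := pow_card_eq_one' (x := Units.map (Ideal.Quotient.mk (Ideal.span {M})).toMonoidHom ε)
  rw [← map_pow] at h1
  rw [← Ideal.mem_span_singleton, ← Ideal.Quotient.eq, map_one]
  exact congrArg Units.val h1

open Polynomial in
/-- powers of units are congruent to `1` modulo `p₁(θ) * (𝓞 L)[θ]` -/
theorem h83_cond {L E : Type} [Field L] [NumberField L] [Field E] [NumberField E] [Algebra L E]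
    [Algebra (𝓞 L) E] [IsScalarTower (𝓞 L) L E] (pb : PowerBasis L E)
    (hθ : IsIntegral (𝓞 L) pb.gen) (p₁ : (𝓞 L)[X]) (h1 : aeval pb.gen p₁ ≠ 0) :
    ∃ N : ℕ, 0 < N ∧ ∀ ε : (𝓞 E)ˣ, ∃ r : (𝓞 L)[X],
      ((ε ^ N : (𝓞 E)ˣ) : E) = aeval pb.gen (1 + p₁ * r) := by
  have := pb.finite
  have hd0 : Algebra.discr L pb.basis ≠ 0 := Algebra.discr_not_zero_of_basis L pb.basis
  have hd : IsIntegral (𝓞 L) (Algebra.discr L pb.basis) :=
    Algebra.discr_isIntegral L fun i => by rw [pb.basis_eq_pow]; exact hθ.pow _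
  have hc : IsIntegral (𝓞 L) (aeval pb.gen p₁) :=
    IsIntegral.of_mem_of_fg _ hθ.fg_adjoin_singleton _ (aeval_mem_adjoin_singleton _ _)
  have hM : IsIntegral ℤ (aeval pb.gen p₁ * algebraMap L E (Algebra.discr L pb.basis)) :=
    isIntegral_trans (A := 𝓞 L) _ (hc.mul hd.algebraMap)
  obtain ⟨M, hM'⟩ : ∃ M : 𝓞 E, algebraMap (𝓞 E) E M =
      aeval pb.gen p₁ * algebraMap L E (Algebra.discr L pb.basis) := ⟨⟨_, hM⟩, rfl⟩
  obtain ⟨N, hN, h⟩ := exists_pow_congr M fun h0 =>
    mul_ne_zero h1 ((_root_.map_ne_zero _).2 hd0) (by rw [← hM', h0, map_zero])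
  refine ⟨N, hN, fun ε => ?_⟩
  obtain ⟨y, hy⟩ := h ε
  have h2 := Algebra.discr_mul_isIntegral_mem_adjoin L hθ
    (z := algebraMap (𝓞 E) E y) (IsIntegral.tower_top y.isIntegral_coe)
  rw [Algebra.adjoin_singleton_eq_range_aeval] at h2
  obtain ⟨r, hr⟩ := h2
  refine ⟨r, ?_⟩
  have h3 := congrArg (algebraMap (𝓞 E) E) hy
  rw [map_sub, map_one, map_mul, sub_eq_iff_eq_add', hM'] at h3
  have h4 : aeval pb.gen r = _ := hr
  rw [map_add, map_one, map_mul, h4, Algebra.smul_def, ← mul_assoc]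
  exact h3

open Polynomial IntermediateField in
/-- `poly_units_indep` for a field that embeds in `ℂ` over `φ` -/
theorem h83_core {L K : Type} [Field L] [NumberField L] [Field K] [Algebra L K]
    [Algebra (𝓞 L) K] [IsScalarTower (𝓞 L) L K] (φ ψ : L →+* ℂ)
    (hφ : ¬ ComplexEmbedding.IsReal φ) (hψ : InfinitePlace.mk ψ ≠ InfinitePlace.mk φ)
    (ι : K →+* ℂ) (hι : ι.comp (algebraMap L K) = φ) {κ : Type} [Fintype κ] (t : κ → K)
    (ht : Function.Injective t) (p : (𝓞 L)[X])
    (hp : p.map (algebraMap (𝓞 L) K) = ∏ i, (X - C (t i))) (n : κ → ℤ)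
    (h : ∀ q q' : (𝓞 L)[X], (∀ i, aeval (t i) q * aeval (t i) q' = 1) →
      ∏ i, aeval (t i) q ^ n i = 1) : n = 0 := by
  classical
  funext i₀
  have hi : Function.Injective (algebraMap (𝓞 L) K) := by
    rw [IsScalarTower.algebraMap_eq (𝓞 L) L K]
    exact (algebraMap L K).injective.comp (IsFractionRing.injective (𝓞 L) L)
  have : Module.IsTorsionFree (𝓞 L) K := Module.isTorsionFree_iff_algebraMap_injective.2 hi
  have hmon : p.Monic :=
    monic_of_injective hi (hp ▸ monic_prod_of_monic _ _ fun i _ => monic_X_sub_C _)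
  have hroot : ∀ i, aeval (t i) p = 0 := fun i => by
    rw [aeval_def, ← eval_map, hp, eval_prod]
    exact Finset.prod_eq_zero (Finset.mem_univ i) (by simp)
  have hint : IsIntegral (𝓞 L) (t i₀) := ⟨p, hmon, hroot i₀⟩
  have hL : IsIntegral L (t i₀) := hint.tower_top
  obtain ⟨p₁, hp₁⟩ := minpoly.isIntegrallyClosed_dvd hint (hroot i₀)
  have hmin : ∀ x : K, aeval x (minpoly L (t i₀)) = aeval x (minpoly (𝓞 L) (t i₀)) := fun x => by
    rw [minpoly.isIntegrallyClosed_eq_field_fractions' L hint, aeval_map_algebraMap]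
  have h1 : aeval (t i₀) p₁ ≠ 0 := by
    have h2 : (p.map (algebraMap (𝓞 L) K)).Separable := hp ▸ separable_prod_X_sub_C_iff.2 ht
    rw [hp₁, Polynomial.map_mul] at h2
    obtain ⟨a, b, hab⟩ := h2.isCoprime
    intro h0
    have h3 := congrArg (eval (t i₀)) hab
    rw [eval_add, eval_mul, eval_mul, eval_map_algebraMap, eval_map_algebraMap, h0, minpoly.aeval,
      eval_one] at h3
    simp at h3
  have := adjoin.finiteDimensional hL
  have : NumberField L⟮t i₀⟯ := NumberField.of_module_finite L _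
  have : IsScalarTower (𝓞 L) L⟮t i₀⟯ K := IsScalarTower.of_algebraMap_eq fun x => by
    rw [IsScalarTower.algebraMap_apply (𝓞 L) L K, IsScalarTower.algebraMap_apply (𝓞 L) L L⟮t i₀⟯,
      ← IsScalarTower.algebraMap_apply L L⟮t i₀⟯ K]
  have hgen : algebraMap L⟮t i₀⟯ K (adjoin.powerBasis hL).gen = t i₀ := rfl
  obtain ⟨N, hN, hr⟩ := h83_cond (adjoin.powerBasis hL)
    ((isIntegral_algebraMap_iff (algebraMap L⟮t i₀⟯ K).injective).1 hint) p₁ fun h0 => h1 (by
      rw [← hgen, aeval_algebraMap_apply, h0, map_zero])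
  let τ : {i // aeval (t i) (minpoly L (t i₀)) = 0} → L⟮t i₀⟯ →ₐ[L] K := fun i =>
    (adjoin.powerBasis hL).lift (t i) (by rw [adjoin.powerBasis_gen, minpoly_gen]; exact i.2)
  have hτ : ∀ i (q : (𝓞 L)[X]), τ i (aeval (adjoin.powerBasis hL).gen q) = aeval (t i) q :=
    fun i q => by
      rw [← aeval_map_algebraMap L, PowerBasis.lift_aeval, aeval_map_algebraMap]
  have key := embeddings_indep φ ψ hφ hψ (fun i => ι.comp (τ i).toRingHom)
    (fun i j e => by
      have h2 := congrArg (fun f : L⟮t i₀⟯ →+* ℂ => f (aeval (adjoin.powerBasis hL).gen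
        (X : (𝓞 L)[X]))) e
      have h3 : τ i _ = τ j _ := ι.injective h2
      rw [hτ, hτ, aeval_X, aeval_X] at h3
      exact Subtype.ext (ht h3))
    (fun i => by
      rw [← hι]
      ext x
      exact congrArg ι ((τ i).commutes x))
    (fun i => n i) N hN fun ε => by
      obtain ⟨r, hr1⟩ := hr ε
      obtain ⟨r', hr2⟩ := hr ε⁻¹
      have hout : ∀ i, aeval (t i) (minpoly L (t i₀)) ≠ 0 → ∀ r : (𝓞 L)[X],
          aeval (t i) (1 + p₁ * r) = 1 := fun i hi r => by
        have h2 := hroot i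
        rw [hp₁, map_mul, ← hmin] at h2
        rw [map_add, map_one, map_mul, (mul_eq_zero.1 h2).resolve_left hi, zero_mul, add_zero]
      have h2 := h (1 + p₁ * r) (1 + p₁ * r') fun i => by
        by_cases hi : aeval (t i) (minpoly L (t i₀)) = 0
        · rw [← hτ ⟨i, hi⟩, ← hτ ⟨i, hi⟩, ← map_mul, ← hr1, ← hr2, ← map_mul, ← Units.val_mul,
            ← mul_pow, mul_inv_cancel, one_pow, Units.val_one, map_one, map_one]
        · rw [hout i hi, hout i hi, one_mul]
      have h4 : ∏ i : {i // ¬ aeval (t i) (minpoly L (t i₀)) = 0},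
          aeval (t i) (1 + p₁ * r) ^ n i = 1 :=
        Finset.prod_eq_one fun i _ => by rw [hout i i.2, _root_.one_zpow]
      rw [← Fintype.prod_subtype_mul_prod_subtype fun i => aeval (t i) (minpoly L (t i₀)) = 0,
        h4, mul_one] at h2
      have h3 := congrArg ι h2
      rw [map_prod, map_one] at h3
      rw [← h3]
      refine Finset.prod_congr rfl fun i _ => ?_
      rw [map_zpow₀, ← hτ, hr1]
      rfl
  exact congrFun key ⟨i₀, minpoly.aeval L _⟩

/-- The arithmetic core, one variable version.  `p` is monic over `𝓞 L` with distinct roots `t i`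
in `Ω`.  The group `Γ` of all `(q (t i))_i` with `q, q' ∈ (𝓞 L)[X]`, `q (t i) * q' (t i) = 1`, has no
nontrivial trivial character.  Fix `i₀`, let `E = L(t i₀)` (`AdjoinRoot` of the irreducible factor
`p₀` of `p` over `L` with root `t i₀`, a monic polynomial over `𝓞 L`), `p = p₀ * p₁`.  There is
`0 ≠ M ∈ ℤ` (or `𝓞 L`) with `M * 𝓞 E ⊆ p₁(θ) * (𝓞 L)[θ]`; for a unit `ε ≡ 1 mod M` write
`ε = 1 + p₁(θ) r(θ)`, `q = 1 + p₁ r`: it is `1` at the roots of `p₁` and `σ ε` at the roots of `p₀`.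
Transfer to `ℂ`: the roots lie in the algebraic closure of `L` in `Ω`, which embeds in `ℂ` over `φ`
(`IsAlgClosed.lift`).  Then `embeddings_indep`. -/
theorem poly_units_indep {L : Type} [Field L] [NumberField L] (φ ψ : L →+* ℂ)
    (hφ : ¬ ComplexEmbedding.IsReal φ) (hψ : InfinitePlace.mk ψ ≠ InfinitePlace.mk φ)
    {Ω : Type} [Field Ω] [Algebra (𝓞 L) Ω] (hi : Function.Injective (algebraMap (𝓞 L) Ω))
    {κ : Type} [Fintype κ] (t : κ → Ω) (ht : Function.Injective t) (p : Polynomial (𝓞 L))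
    (hp : p.map (algebraMap (𝓞 L) Ω) = ∏ i, (Polynomial.X - Polynomial.C (t i))) (n : κ → ℤ)
    (h : ∀ (γ : κ → Ωˣ) (q q' : Polynomial (𝓞 L)), (∀ i, (γ i : Ω) = Polynomial.aeval (t i) q) →
      (∀ i, (((γ i)⁻¹ : Ωˣ) : Ω) = Polynomial.aeval (t i) q') → ∏ i, γ i ^ n i = 1) : n = 0 := by
  let _ : Algebra L Ω := (IsFractionRing.lift hi : L →+* Ω).toAlgebra
  have : IsScalarTower (𝓞 L) L Ω := IsScalarTower.of_algebraMap_eq fun x =>
    (IsFractionRing.lift_algebraMap hi x).symm
  let _ : Algebra L ℂ := φ.toAlgebra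
  have hmon : p.Monic := Polynomial.monic_of_injective hi
    (hp ▸ Polynomial.monic_prod_of_monic _ _ fun i _ => Polynomial.monic_X_sub_C _)
  have hint : ∀ i, IsIntegral (𝓞 L) (t i) := fun i => ⟨p, hmon, by
    rw [← Polynomial.eval_map, hp, Polynomial.eval_prod]
    exact Finset.prod_eq_zero (Finset.mem_univ i) (by simp)⟩
  let t' : κ → algebraicClosure L Ω := fun i =>
    ⟨t i, mem_algebraicClosure_iff'.2 (hint i).tower_top⟩
  have : IsScalarTower (𝓞 L) (algebraicClosure L Ω) Ω := IsScalarTower.of_algebraMap_eq fun x => by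
    rw [IsScalarTower.algebraMap_apply (𝓞 L) L Ω,
      IsScalarTower.algebraMap_apply (𝓞 L) L (algebraicClosure L Ω),
      ← IsScalarTower.algebraMap_apply L (algebraicClosure L Ω) Ω]
  have hj := (algebraMap (algebraicClosure L Ω) Ω).injective
  have ha : ∀ i (q : Polynomial (𝓞 L)), algebraMap (algebraicClosure L Ω) Ω
      (Polynomial.aeval (t' i) q) = Polynomial.aeval (t i) q := fun i q =>
    (Polynomial.aeval_algebraMap_apply Ω (t' i) q).symm
  let ι : algebraicClosure L Ω →ₐ[L] ℂ := IsAlgClosed.lift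
  refine h83_core φ ψ hφ hψ ι.toRingHom (RingHom.ext fun x => ι.commutes x) t'
    (fun i j e => ht (congrArg Subtype.val e)) p (Polynomial.map_injective _ hj ?_) n
    fun q q' hq => hj ?_
  · rw [Polynomial.map_map, ← IsScalarTower.algebraMap_eq, hp, Polynomial.map_prod]
    refine Finset.prod_congr rfl fun i _ => ?_
    rw [Polynomial.map_sub, Polynomial.map_X, Polynomial.map_C]
    rfl
  · have h1 : ∀ i, Polynomial.aeval (t i) q * Polynomial.aeval (t i) q' = 1 := fun i => by
      rw [← ha, ← ha, ← map_mul, hq, map_one]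
    have h2 := congrArg Units.val
      (h (fun i => ⟨_, _, h1 i, (mul_comm _ _).trans (h1 i)⟩) q q' (fun _ => rfl) fun _ => rfl)
    rw [Units.coe_prod, Units.val_one] at h2
    rw [map_prod, map_one, ← h2]
    refine Finset.prod_congr rfl fun i _ => ?_
    rw [map_zpow₀, ha, Units.val_zpow_eq_zpow_val]

theorem h83_aeval_conj {o Ω κ : Type} [CommRing o] [Field Ω] [Algebra o Ω] [Fintype κ]
    [DecidableEq κ] (g : GL κ Ω) (t : κ → Ω) (q : Polynomial o) :
    Polynomial.aeval ((g : Matrix κ κ Ω) * diagonal t * ((g⁻¹ : GL κ Ω) : Matrix κ κ Ω)) q =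
      (g : Matrix κ κ Ω) * diagonal (fun i => Polynomial.aeval (t i) q) *
        ((g⁻¹ : GL κ Ω) : Matrix κ κ Ω) := by
  induction q using Polynomial.induction_on' with
  | add a b ha hb =>
    simp only [map_add, ha, hb, ← diagonal_add, Matrix.mul_add, Matrix.add_mul]
  | monomial k a =>
    have e : (diagonal fun i => Polynomial.aeval (t i) (Polynomial.monomial k a)) =
        a • diagonal t ^ k := by
      rw [diagonal_pow, ← diagonal_smul]
      congr 1
      funext i
      rw [Polynomial.aeval_monomial, Pi.smul_apply, Pi.pow_apply, Algebra.smul_def]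
    rw [e, Polynomial.aeval_monomial, Units.conj_pow, ← Algebra.smul_def, Matrix.mul_smul,
      Matrix.smul_mul]

/-- an invertible diagonal matrix -/
def h83_D {Ω κ : Type} [Field Ω] [Fintype κ] [DecidableEq κ] (γ : κ → Ωˣ) : GL κ Ω :=
  ⟨diagonal fun i => (γ i : Ω), diagonal fun i => (((γ i)⁻¹ : Ωˣ) : Ω),
    by rw [diagonal_mul_diagonal]; simp, by rw [diagonal_mul_diagonal]; simp⟩

/-- diagonalise `b = h diag t h⁻¹`; the regular map `γ ↦ h diag γ h⁻¹` sends `Γ` to integral
matrices `q b` (with inverse `q' b`) and hits `v` (`comm_diag`). -/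
theorem tw_of_numberField {L : Type} [Field L] [NumberField L] (φ ψ : L →+* ℂ)
    (hφ : ¬ ComplexEmbedding.IsReal φ) (hψ : InfinitePlace.mk ψ ≠ InfinitePlace.mk φ)
    (Ω : Type) [Field Ω] [IsAlgClosed Ω] [Algebra (𝓞 L) Ω]
    (hi : Function.Injective (algebraMap (𝓞 L) Ω)) (κ : Type) [Fintype κ] [DecidableEq κ] :
    Tw Ω κ (𝓞 L) := by
  intro b hb hsep v hv
  obtain ⟨g, t, ht, hbt⟩ := diag_of_separable hsep
  choose b₀ hb₀ using fun i j => isInt_iff_mem.1 (isInt_matrix.1 hb i j)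
  have hp : (Matrix.of b₀).charpoly.map (algebraMap (𝓞 L) Ω) =
      ∏ i, (Polynomial.X - Polynomial.C (t i)) := by
    have e : (Matrix.of b₀).map (algebraMap (𝓞 L) Ω) = b := Matrix.ext fun i j => hb₀ i j
    rw [← charpoly_map, e, hbt, coe_units_inv, charpoly_units_conj, charpoly_diagonal]
  let Γ : Subgroup (κ → Ωˣ) :=
    { carrier := {γ | ∃ q q' : Polynomial (𝓞 L), (∀ i, (γ i : Ω) = Polynomial.aeval (t i) q) ∧
        ∀ i, (((γ i)⁻¹ : Ωˣ) : Ω) = Polynomial.aeval (t i) q'}
      mul_mem' := by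
        rintro a c ⟨q, q', h1, h2⟩ ⟨r, r', h3, h4⟩
        exact ⟨q * r, q' * r', fun i => by rw [map_mul, ← h1, ← h3, Pi.mul_apply, Units.val_mul],
          fun i => by rw [map_mul, ← h2, ← h4, Pi.mul_apply, mul_inv, Units.val_mul]⟩
      one_mem' := ⟨1, 1, fun i => by simp, fun i => by simp⟩
      inv_mem' := by
        rintro a ⟨q, q', h1, h2⟩
        exact ⟨q', q, h2, fun i => by rw [Pi.inv_apply, inv_inv, h1]⟩ }
  have hcl := Cl_torus Γ fun n hn => poly_units_indep φ ψ hφ hψ hi t ht _ hp n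
    fun γ q q' h1 h2 => hn γ ⟨q, q', h1, h2⟩
  have hD : Good Ω Ω (h83_D : (κ → Ωˣ) → GL κ Ω) :=
    good_units (Good.diagonal fun i => (Good.apply i).uval)
      (Good.diagonal fun i => (Good.apply i).uinv.uval)
  have hF : Good Ω Ω fun γ : κ → Ωˣ => g * h83_D γ * g⁻¹ :=
    ((Good.const' g).glmul hD).glmul (Good.const' g⁻¹)
  have hY : ((g⁻¹ * v * g : GL κ Ω) : Matrix κ κ Ω) * diagonal t =
      diagonal t * ((g⁻¹ * v * g : GL κ Ω) : Matrix κ κ Ω) := by
    have e : diagonal t = ((g⁻¹ : GL κ Ω) : Matrix κ κ Ω) * b * (g : Matrix κ κ Ω) := by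
      rw [hbt]
      simp only [Matrix.mul_assoc, Units.inv_mul, Matrix.mul_one, Units.inv_mul_cancel_left]
    rw [e]
    simp only [Units.val_mul, Matrix.mul_assoc, Units.mul_inv_cancel_left]
    rw [← Matrix.mul_assoc b, ← hv, Matrix.mul_assoc]
  have hYd := comm_diag ht hY
  have hne : ∀ i, ((g⁻¹ * v * g : GL κ Ω) : Matrix κ κ Ω) i i ≠ 0 := by
    have h1 := (g⁻¹ * v * g).det_ne_zero
    rw [hYd, det_diagonal] at h1
    exact fun i => Finset.prod_ne_zero_iff.1 h1 i (Finset.mem_univ i)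
  have hvx : v = g * h83_D (fun i => Units.mk0 _ (hne i)) * g⁻¹ := by
    have e : h83_D (fun i => Units.mk0 _ (hne i)) = g⁻¹ * v * g := Units.ext hYd.symm
    rw [e]
    group
  rw [hvx]
  refine hF.map_Cl (fun γ hγ => subset_Cl _ ?_) (hcl _)
  obtain ⟨q, q', h1, h2⟩ := hγ
  have e1 : ((g * h83_D γ * g⁻¹ : GL κ Ω) : Matrix κ κ Ω) = Polynomial.aeval b q := by
    rw [hbt, h83_aeval_conj, ← funext h1]
    rfl
  have e2 : (((g * h83_D γ * g⁻¹)⁻¹ : GL κ Ω) : Matrix κ κ Ω) = Polynomial.aeval b q' := by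
    rw [hbt, h83_aeval_conj, ← funext h2, conj_inv]
    rfl
  refine ⟨isInt_units.2 ⟨?_, ?_⟩, ?_⟩
  · rw [e1]
    exact (Good.polyAeval q Good.id).isInt hb
  · rw [e2]
    exact (Good.polyAeval q' Good.id).isInt hb
  · rw [e1]
    simpa using ((Commute.all q Polynomial.X).map (Polynomial.aeval b)).eq

end Crest.Agent.R003
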