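import Crest.Prelude.Def_CharVarRel
import Crest.Agent.R003.Arith

/-! Row 3: the ring of integers of `rootField K (p * q)` is nice. -/

set_option autoImplicit false
set_option linter.unusedSectionVars false

namespace Crest.Agent.R003

open NumberField Crest.NumberTheoryR.CharVarRel

/-- generated over the number field `K` by finitely many algebraic numbers -/
theorem numberField_rootField (K : Subfield ℂ) (hK : FiniteDimensional ℚ K) (n : ℕ) (hn : 0 < n) :
    NumberField (rootField K n) := by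
  have : NumberField K := { to_charZero := inferInstance, to_finiteDimensional := hK }
  obtain ⟨S, hS⟩ : ∃ S : Set ℂ, S = {z : ℂ | z ^ 2 = 2} ∪ {z : ℂ | z ^ n = 1} := ⟨_, rfl⟩
  have hfin : ∀ (m : ℕ) (a : ℂ), 0 < m → {z : ℂ | z ^ m = a}.Finite := fun m a hm =>
    (Polynomial.nthRoots m a).toFinset.finite_toSet.subset fun z hz => by
      simpa [Polynomial.mem_nthRoots hm] using hz
  have : Finite S := by
    rw [hS]
    exact ((hfin 2 2 two_pos).union (hfin n 1 hn)).to_subtype
  have hint : ∀ x ∈ S, IsIntegral K x := by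
    rw [hS]
    rintro x (hx | hx)
    · refine IsIntegral.of_pow two_pos ?_
      rw [show x ^ 2 = 2 from hx]
      exact_mod_cast (isIntegral_algebraMap (R := K) (A := ℂ) (x := 2))
    · refine IsIntegral.of_pow hn ?_
      rw [show x ^ n = 1 from hx]
      exact isIntegral_one
  have := IntermediateField.finiteDimensional_adjoin hint
  have h : NumberField (IntermediateField.adjoin K S) := NumberField.of_module_finite K _
  have e : rootField K n = (IntermediateField.adjoin K S).toSubfield := by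
    rw [IntermediateField.adjoin_toSubfield, rootField, hS, Set.union_assoc]
    congr 2
    exact Subtype.range_coe.symm
  rw [e]
  exact h

theorem ar2_unit {A : Type} [CommRing A] [IsDomain A] {p q : ℕ} (hpq : p.Coprime q) {η : A}
    (h : η ^ (p * q) = 1) (hp : η ^ p ≠ 1) (hq : η ^ q ≠ 1) : IsUnit (η - 1) := by
  have h1 : η - 1 ∣ (q : A) := (sub_one_dvd_pow_sub_one η p).trans
    (sub_one_dvd_natCast_of_pow_eq_one (by rw [← pow_mul, h]) hp)
  have h2 : η - 1 ∣ (p : A) := (sub_one_dvd_pow_sub_one η q).trans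
    (sub_one_dvd_natCast_of_pow_eq_one (by rw [← pow_mul, mul_comm, h]) hq)
  exact (Nat.Coprime.cast (R := A) hpq).isUnit_of_dvd' h2 h1

theorem ar2_zeta {A : Type} [CommRing A] [IsDomain A] {p q r : ℕ} (hp : p.Prime) (hq : q.Prime)
    (hpq : p ≠ q) (hrp : r < p) (hrq : r < q) {ζ : A} (hζ : IsPrimitiveRoot ζ (p * q)) :
    ∃ t : ℕ → Aˣ, ∀ i j, i < r → j < r → i ≠ j → IsUnit ((t i : A) - (t j : A)) := by
  have hu := hζ.isUnit (mul_pos hp.pos hq.pos).ne'
  have key : ∀ i j, i < r → j < i → IsUnit (ζ ^ i - ζ ^ j) := fun i j hi hj => by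
    obtain ⟨k, rfl⟩ := Nat.exists_eq_add_of_lt hj
    have h1 : IsUnit (ζ ^ (k + 1) - 1) := by
      refine ar2_unit ((Nat.coprime_primes hp hq).2 hpq) ?_ ?_ ?_
      · rw [← pow_mul, mul_comm, pow_mul, hζ.pow_eq_one, one_pow]
      · rw [← pow_mul, Ne, hζ.pow_eq_one_iff_dvd, mul_comm (k + 1), Nat.mul_dvd_mul_iff_left hp.pos]
        intro h
        have := Nat.le_of_dvd (Nat.succ_pos k) h
        omega
      · rw [← pow_mul, Ne, hζ.pow_eq_one_iff_dvd, Nat.mul_dvd_mul_iff_right hq.pos]
        intro h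
        have := Nat.le_of_dvd (Nat.succ_pos k) h
        omega
    have e : ζ ^ (j + k + 1) - ζ ^ j = ζ ^ j * (ζ ^ (k + 1) - 1) := by ring
    rw [e]
    exact (hu.pow j).mul h1
  refine ⟨fun i => hu.unit ^ i, fun i j hi hj hij => ?_⟩
  simp only [Units.val_pow_eq_pow_val, IsUnit.unit_spec]
  rcases lt_or_gt_of_ne hij with h | h
  · rw [← neg_sub]
    exact (key j i hj h).neg
  · exact key i j hi h

theorem ar2_conj {L : Type} [Field L] [NumberField L] {s : L} (hs : s ^ 2 = 2) (φ : L →+* ℂ) :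
    ∃ ψ : L →+* ℂ, ψ s = -φ s := by
  have hirr : Irreducible (Polynomial.X ^ 2 - Polynomial.C (2 : ℚ)) := by
    refine X_pow_sub_C_irreducible_of_prime Nat.prime_two fun b hb => ?_
    have h1 : ((b : ℝ)) ^ 2 = 2 := by exact_mod_cast hb
    have h2 : √2 = ((|b| : ℚ) : ℝ) := by
      rw [← h1, Real.sqrt_sq_eq_abs]
      simp
    exact irrational_sqrt_two ⟨_, h2.symm⟩
  have hmin : minpoly ℚ s = Polynomial.X ^ 2 - Polynomial.C (2 : ℚ) :=
    (minpoly.eq_of_irreducible_of_monic hirr (by simp [hs])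
      (Polynomial.monic_X_pow_sub_C _ two_ne_zero)).symm
  have h : -φ s ∈ (minpoly ℚ s).rootSet ℂ := by
    rw [hmin, Polynomial.mem_rootSet]
    refine ⟨hirr.ne_zero, ?_⟩
    have h1 : φ s ^ 2 = 2 := by rw [← map_pow, hs, map_ofNat]
    simp [h1]
  rw [← Embeddings.range_eval_eq_rootSet_minpoly] at h
  exact h

/-- `1 + √2` has infinite order; for a primitive `p q`-th root of unity `ζ` and `0 < k < min p q`,
`ζ ^ k` is again primitive and `1 - ζ ^ k` divides `Φ_{pq}(1) = 1`
(`Polynomial.eval_one_cyclotomic_not_prime_pow`); `φ` is the inclusion (not real, because of `ζ`),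
`ψ` is an embedding with `√2 ↦ -√2` (`√2` is irrational); `tw_of_numberField`. -/
theorem nice_rootField (K : Subfield ℂ) (hK : FiniteDimensional ℚ K) (p q r : ℕ) (hp : p.Prime)
    (hq : q.Prime) (hpq : p ≠ q) (hrp : r < p) (hrq : r < q) :
    Nice (𝓞 (rootField K (p * q))) r := by
  have hn : 0 < p * q := mul_pos hp.pos hq.pos
  have := numberField_rootField K hK (p * q) hn
  have hs2 : ((√2 : ℝ) : ℂ) ^ 2 = 2 := by
    rw [← Complex.ofReal_pow, Real.sq_sqrt (by norm_num)]
    simp
  have hsm : ((√2 : ℝ) : ℂ) ∈ rootField K (p * q) :=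
    Subfield.subset_closure (Or.inl (Or.inr hs2))
  have hζ := Complex.isPrimitiveRoot_exp (p * q) hn.ne'
  generalize Complex.exp _ = ζ at hζ
  have hζm : ζ ∈ rootField K (p * q) := Subfield.subset_closure (Or.inr hζ.pow_eq_one)
  obtain ⟨s, hs⟩ : ∃ s : rootField K (p * q), (s : ℂ) = ((√2 : ℝ) : ℂ) := ⟨⟨_, hsm⟩, rfl⟩
  obtain ⟨z, rfl⟩ : ∃ z : rootField K (p * q), (z : ℂ) = ζ := ⟨⟨_, hζm⟩, rfl⟩
  have hs3 : s ^ 2 = 2 := by
    apply (rootField K (p * q)).subtype.injective
    rw [map_pow, map_ofNat, Subfield.coe_subtype, hs, hs2]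
  have hz : IsPrimitiveRoot z (p * q) :=
    IsPrimitiveRoot.of_map_of_injective (f := (rootField K (p * q)).subtype) hζ Subtype.val_injective
  refine ⟨?_, ?_, fun Ω _ _ _ hi κ _ _ => ?_⟩
  · have hint : IsIntegral ℤ s := by
      refine IsIntegral.of_pow two_pos ?_
      rw [hs3]
      exact_mod_cast (isIntegral_algebraMap (R := ℤ) (A := rootField K (p * q)) (x := 2))
    obtain ⟨σ, hσ⟩ : ∃ σ : 𝓞 (rootField K (p * q)), algebraMap _ (rootField K (p * q)) σ = s :=
      ⟨⟨s, hint⟩, rfl⟩
    have hσ2 : σ ^ 2 = 2 := by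
      apply IsFractionRing.injective (𝓞 (rootField K (p * q))) (rootField K (p * q))
      rw [map_pow, hσ, hs3, map_ofNat]
    refine ⟨⟨σ + 1, σ - 1, by linear_combination hσ2, by linear_combination hσ2⟩, fun n hn h => ?_⟩
    have h1 : (σ + 1) ^ n = 1 := by simpa using congrArg Units.val h
    have h2 := congrArg (fun x => (rootField K (p * q)).subtype (algebraMap _ _ x)) h1
    simp only [map_pow, map_add, map_one, hσ, Subfield.coe_subtype, hs] at h2
    have h3 : (√2 + 1 : ℝ) ^ n = 1 := by exact_mod_cast h2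
    have h4 : (1 : ℝ) < √2 + 1 := by
      have : (0 : ℝ) < √2 := by positivity
      linarith
    exact (one_lt_pow₀ h4 hn.ne').ne' h3
  · have : NeZero (p * q) := ⟨hn.ne'⟩
    exact ar2_zeta hp hq hpq hrp hrq hz.toInteger_isPrimitiveRoot
  · obtain ⟨ψ, hψ⟩ := ar2_conj hs3 (rootField K (p * q)).subtype
    have hs0 : ((√2 : ℝ) : ℂ) ≠ 0 := by
      intro h
      rw [h] at hs2
      norm_num at hs2
    refine tw_of_numberField (rootField K (p * q)).subtype ψ (fun h => ?_) (fun h => ?_) Ω hi κ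
    · have h1 : (starRingEnd ℂ) (z : ℂ) = z := RingHom.congr_fun h z
      have h2 : ‖(z : ℂ)‖ = 1 := hζ.norm'_eq_one hn.ne'
      have h3 : (z : ℂ) ^ 2 = 1 := by
        rw [sq]
        nth_rewrite 2 [← h1]
        rw [Complex.mul_conj, Complex.normSq_eq_norm_sq, h2]
        simp
      have h4 := Nat.le_of_dvd two_pos (hζ.dvd_of_pow_eq_one 2 h3)
      have h5 := hp.two_le
      have h6 := hq.two_le
      nlinarith
    · rw [eq_comm, InfinitePlace.mk_eq_iff] at h
      simp only [Subfield.coe_subtype, hs] at hψ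
      rcases h with h | h
      · rw [← h, Subfield.coe_subtype, hs] at hψ
        exact hs0 (by linear_combination hψ / 2)
      · rw [← h, ComplexEmbedding.conjugate_coe_eq, Subfield.coe_subtype, hs,
          Complex.conj_ofReal] at hψ
        exact hs0 (by linear_combination hψ / 2)

end Crest.Agent.R003
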