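import Crest.Agent.R003.Coc

/-! Row 3: the dimension bound for cocycles preserving a flag. -/

set_option autoImplicit false
set_option linter.unusedSectionVars false

namespace Crest.Agent.R003

open Matrix

variable {Ω : Type} [Field Ω] {κ : Type} [Fintype κ] [DecidableEq κ] {g : ℕ}
  {k : Type} [CommRing k] [Algebra k Ω]

/-- the parabolic subalgebra -/
def parS (Ω : Type) [Field Ω] (l : κ → ℕ) : Submodule Ω (Matrix κ κ Ω) where
  carrier := {x | Par l x}
  add_mem' hx hy a b h := by simp [hx a b h, hy a b h]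
  zero_mem' _ _ _ := rfl
  smul_mem' c x hx a b h := by simp [hx a b h]

/-- its nilradical -/
def nilS (Ω : Type) [Field Ω] (l : κ → ℕ) : Submodule Ω (Matrix κ κ Ω) where
  carrier := {x | ∀ a b, ¬ l a < l b → x a b = 0}
  add_mem' hx hy a b h := by simp [hx a b h, hy a b h]
  zero_mem' _ _ _ := rfl
  smul_mem' c x hx a b h := by simp [hx a b h]

/-- cochains with values in a subspace -/
def coS (S : Submodule Ω (Matrix κ κ Ω)) (g : ℕ) : Submodule Ω (Co Ω κ g) :=
  Submodule.pi Set.univ fun _ => S.prod S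

private theorem h75_nil_iff (l : κ → ℕ) (Y : Matrix κ κ Ω) :
    Y ∈ nilS Ω l ↔ ∀ x ∈ parS Ω l, trace (Y * x) = 0 := by
  constructor
  · intro hY x hx
    simp only [trace, diag_apply, Matrix.mul_apply]
    refine Finset.sum_eq_zero fun a _ => Finset.sum_eq_zero fun b _ => ?_
    by_cases h : l a < l b
    · rw [hx b a h, mul_zero]
    · rw [hY a b h, zero_mul]
  · intro h a b hab
    have := h (single b a 1) fun i j hij => by
      rw [single_apply, if_neg]
      rintro ⟨rfl, rfl⟩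
      exact hab hij
    simpa [trace_mul_single] using this

private theorem h75_orth (S T : Submodule Ω (Matrix κ κ Ω))
    (h : ∀ Y, Y ∈ T ↔ ∀ x ∈ S, trace (Y * x) = 0) :
    Module.finrank Ω S + Module.finrank Ω T = Fintype.card κ ^ 2 := by
  let B : LinearMap.BilinForm Ω (Matrix κ κ Ω) :=
    LinearMap.mk₂ Ω (fun x Y => trace (Y * x)) (fun _ _ _ => by rw [Matrix.mul_add, trace_add])
      (fun _ _ _ => by rw [Matrix.mul_smul, trace_smul])
      (fun _ _ _ => by rw [Matrix.add_mul, trace_add])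
      (fun _ _ _ => by rw [Matrix.smul_mul, trace_smul])
  have hk : LinearMap.ker B = ⊥ := by
    refine eq_bot_iff.2 fun x hx => ?_
    rw [Submodule.mem_bot]
    ext a b
    have : trace (single b a (1 : Ω) * x) = 0 := LinearMap.congr_fun (LinearMap.mem_ker.1 hx) _
    simpa [trace_single_mul] using this
  have e : T = B.orthogonal S := by
    ext Y
    rw [h, LinearMap.BilinForm.mem_orthogonal_iff]
    rfl
  have := LinearMap.BilinForm.finrank_add_finrank_orthogonal' (B := B) S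
  rw [hk, inf_bot_eq, finrank_bot, add_zero, ← e] at this
  rw [this, Module.finrank_matrix]
  simp [sq]

theorem finrank_parS_add (l : κ → ℕ) :
    Module.finrank Ω (parS Ω l) + Module.finrank Ω (nilS Ω l) = Fintype.card κ ^ 2 :=
  h75_orth _ _ (h75_nil_iff l)
theorem card_image_le_nilS (l : κ → ℕ) :
    (Finset.univ.image l).card ≤ Module.finrank Ω (nilS Ω l) + 1 := by
  rcases isEmpty_or_nonempty κ with hκ | hκ
  · simp
  obtain ⟨a0, -, ha0⟩ := Finset.exists_min_image Finset.univ l Finset.univ_nonempty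
  set S := (Finset.univ.image l).erase (l a0) with hS
  have hm : ∀ b, l b ≠ l a0 → l b ∈ S := fun b hb =>
    Finset.mem_erase.2 ⟨hb, Finset.mem_image_of_mem l (Finset.mem_univ b)⟩
  let f : (S → Ω) →ₗ[Ω] nilS Ω l :=
    { toFun := fun v => ⟨Matrix.of fun a b =>
          if h : a = a0 ∧ l b ≠ l a0 then v ⟨l b, hm b h.2⟩ else 0, fun a b hab => by
        rw [Matrix.of_apply, dif_neg]
        rintro ⟨rfl, h⟩
        exact hab (lt_of_le_of_ne (ha0 b (Finset.mem_univ b)) h.symm)⟩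
      map_add' := fun v w => by
        ext a b
        simp only [Matrix.of_apply, Submodule.coe_add, Matrix.add_apply, Pi.add_apply]
        split_ifs <;> simp
      map_smul' := fun c v => by
        ext a b
        simp only [Matrix.of_apply, Submodule.coe_smul, Matrix.smul_apply, Pi.smul_apply,
          RingHom.id_apply]
        split_ifs <;> simp }
  have hf : Function.Injective f := by
    intro v w hvw
    funext ⟨n, hn⟩
    obtain ⟨h1, h2⟩ := Finset.mem_erase.1 hn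
    obtain ⟨b, -, rfl⟩ := Finset.mem_image.1 h2
    have := congrFun (congrFun (congrArg Subtype.val hvw) a0) b
    simpa [f, h1] using this
  have h1 := LinearMap.finrank_le_finrank_of_injective hf
  rw [Module.finrank_fintype_fun_eq_card, Fintype.card_coe, hS,
    Finset.card_erase_of_mem (Finset.mem_image_of_mem l (Finset.mem_univ a0))] at h1
  omega
theorem finrank_coS (S : Submodule Ω (Matrix κ κ Ω)) :
    Module.finrank Ω (coS S g) = 2 * g * Module.finrank Ω S := by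
  let e : coS S g ≃ₗ[Ω] (Fin g → S × S) :=
    { toFun := fun c i => (⟨(c.1 i).1, (c.2 i trivial).1⟩, ⟨(c.1 i).2, (c.2 i trivial).2⟩)
      invFun := fun f => ⟨fun i => ((f i).1, (f i).2), fun i _ => ⟨(f i).1.2, (f i).2.2⟩⟩
      map_add' := fun _ _ => rfl
      map_smul' := fun _ _ => rfl
      left_inv := fun _ => rfl
      right_inv := fun _ => rfl }
  rw [e.finrank_eq, Module.finrank_pi_fintype]
  simp only [Module.finrank_prod, Finset.sum_const, Finset.card_univ, Fintype.card_fin, smul_eq_mul]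
  ring
/-- `nilS` is the orthogonal of `parS` for the trace form -/
theorem mem_nilS_iff (l : κ → ℕ) (Y : Matrix κ κ Ω) :
    Y ∈ nilS Ω l ↔ ∀ x ∈ parS Ω l, trace (Y * x) = 0 :=
  h75_nil_iff l Y
/-- dimension of the orthogonal for the (nondegenerate) trace form -/
theorem finrank_orth (S T : Submodule Ω (Matrix κ κ Ω))
    (h : ∀ Y, Y ∈ T ↔ ∀ x ∈ S, trace (Y * x) = 0) :
    Module.finrank Ω S + Module.finrank Ω T = Fintype.card κ ^ 2 :=
  h75_orth S T h

private theorem h75_Ad_mul (a b : GL κ Ω) (Y : Matrix κ κ Ω) : Ad (a * b) Y = Ad a (Ad b Y) := by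
  simp only [Ad_apply, _root_.mul_inv_rev, Units.val_mul, Matrix.mul_assoc]

private theorem h75_Ad_one (Y : Matrix κ κ Ω) : Ad (1 : GL κ Ω) Y = Y := by
  simp [Ad_apply]

private theorem h75_trace_Ad (a : GL κ Ω) (Y x : Matrix κ κ Ω) :
    trace (Y * Ad a x) = trace (Ad a⁻¹ Y * x) := by
  rw [Ad_apply, Ad_apply, inv_inv, ← Matrix.mul_assoc, trace_mul_comm]
  simp only [Matrix.mul_assoc]

private theorem h75_nil_Ad {l : κ → ℕ} {a : GL κ Ω} (ha : Par l (a : Matrix κ κ Ω))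
    {Y : Matrix κ κ Ω} (hY : Y ∈ nilS Ω l) : Ad a Y ∈ nilS Ω l := by
  refine (mem_nilS_iff l _).2 fun x hx => ?_
  rw [← inv_inv a, ← h75_trace_Ad]
  refine (mem_nilS_iff l _).1 hY _ ?_
  rw [Ad_apply, inv_inv]
  exact ((ha.inv (Units.mul_inv a)).mul hx).mul ha

/-- the elements of the parabolic group fixing the class of `Y` modulo the nilradical -/
private def h75H (l : κ → ℕ) (Y : Matrix κ κ Ω) : Subgroup (GL κ Ω) where
  carrier := {a | Par l (a : Matrix κ κ Ω) ∧ Y - Ad a Y ∈ nilS Ω l}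
  one_mem' := ⟨(Uni.one (l := l) (R := Ω)).par, by rw [h75_Ad_one, sub_self]; exact zero_mem _⟩
  mul_mem' := fun {a b} ha hb => ⟨ha.1.mul hb.1, by
    have := add_mem ha.2 (h75_nil_Ad ha.1 hb.2)
    rwa [map_sub, sub_add_sub_cancel, ← h75_Ad_mul] at this⟩
  inv_mem' := fun {a} ha => ⟨ha.1.inv (Units.mul_inv a), by
    have := neg_mem (h75_nil_Ad (a := a⁻¹) (ha.1.inv (Units.mul_inv a)) ha.2)
    rwa [map_sub, neg_sub, ← h75_Ad_mul, inv_mul_cancel, h75_Ad_one] at this⟩

private theorem h75H_congr {l : κ → ℕ} {Y Z : Matrix κ κ Ω} (h : Y - Z ∈ nilS Ω l) {a : GL κ Ω}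
    (ha : a ∈ h75H l Z) : a ∈ h75H l Y := by
  refine ⟨ha.1, ?_⟩
  have := sub_mem (add_mem h ha.2) (h75_nil_Ad ha.1 h)
  rw [map_sub] at this
  convert this using 1
  abel

/-- The orthogonal of `fox (coS 𝔭)`.  With `trace_fox1`: for `Y i = Ad (pre ρ i)⁻¹ Y` the classes
modulo `𝔫` are fixed by `a b a⁻¹` and `[a,b] a⁻¹`, so by `a`, `b`; induction on `i` from `Y 0 = Y`.
(The elements `γ` of the parabolic group with `Y - Ad γ Y ∈ 𝔫` form a subgroup.) -/
theorem orth_fox (ρ : Fin g → GL κ Ω × GL κ Ω) (l : κ → ℕ) (hρ : ∀ x, Par l (gens ρ x))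
    (Y : Matrix κ κ Ω) (h : ∀ c ∈ coS (parS Ω l) g, trace (Y * fox ρ c) = 0) :
    cob ρ Y ∈ coS (nilS Ω l) g := by
  have hpa : ∀ i, Par l ((ρ i).1 : Matrix κ κ Ω) := fun i => hρ (i, true)
  have hpb : ∀ i, Par l ((ρ i).2 : Matrix κ κ Ω) := fun i => hρ (i, false)
  have hinv : ∀ {a : GL κ Ω}, Par l (a : Matrix κ κ Ω) →
      Par l ((a⁻¹ : GL κ Ω) : Matrix κ κ Ω) := fun {a} ha => ha.inv (Units.mul_inv a)
  have key : ∀ i, ∀ x ∈ parS Ω l, ∀ y ∈ parS Ω l,
      trace (Ad (pre ρ (i : Fin g))⁻¹ Y * fox1 (ρ i).1 (ρ i).2 (x, y)) = 0 := by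
    intro i x hx y hy
    rw [← h75_trace_Ad, ← h (Pi.single i (x, y)) fun j _ => by
      by_cases e : j = i
      · subst e
        rw [Pi.single_eq_same]
        exact ⟨hx, hy⟩
      · rw [Pi.single_eq_of_ne e]
        exact zero_mem _]
    congr 2
    rw [fox, LinearMap.sum_apply, Finset.sum_eq_single i]
    · simp
    · intro j _ e
      simp [Pi.single_eq_of_ne e]
    · simp
  have step : ∀ i : Fin g, (ρ i).1 ∈ h75H l (Ad (pre ρ i)⁻¹ Y) ∧
      (ρ i).2 ∈ h75H l (Ad (pre ρ i)⁻¹ Y) := by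
    intro i
    set Z := Ad (pre ρ i)⁻¹ Y with hZ
    have h1 : ((ρ i).1 * (ρ i).2 * (ρ i).1⁻¹)⁻¹ ∈ h75H l Z := by
      refine ⟨hinv (((hpa i).mul (hpb i)).mul (hinv (hpa i))), (mem_nilS_iff l _).2 fun x hx => ?_⟩
      have := key i x hx 0 (zero_mem _)
      rwa [trace_fox1, Matrix.mul_zero, trace_zero, add_zero] at this
    have hc : Par l ((cm (ρ i).1 (ρ i).2 : GL κ Ω) : Matrix κ κ Ω) :=
      (((hpa i).mul (hpb i)).mul (hinv (hpa i))).mul (hinv (hpb i))
    have h2 : (ρ i).1 * (cm (ρ i).1 (ρ i).2)⁻¹ ∈ h75H l Z := by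
      refine ⟨(hpa i).mul (hinv hc), ?_⟩
      have h3 : Ad (ρ i).1⁻¹ Z - Ad (cm (ρ i).1 (ρ i).2)⁻¹ Z ∈ nilS Ω l := by
        refine (mem_nilS_iff l _).2 fun y hy => ?_
        have := key i 0 (zero_mem _) y hy
        rwa [trace_fox1, Matrix.mul_zero, trace_zero, zero_add] at this
      have := h75_nil_Ad (hpa i) h3
      rwa [map_sub, ← h75_Ad_mul _ _ Z, ← h75_Ad_mul _ _ Z, mul_inv_cancel, h75_Ad_one] at this
    have ha : (ρ i).1 ∈ h75H l Z := by
      have := mul_mem (mul_mem h1 h2) (inv_mem h1)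
      convert this using 1
      unfold cm
      group
    refine ⟨ha, ?_⟩
    have := mul_mem (mul_mem (inv_mem ha) (inv_mem h1)) ha
    convert this using 1
    group
  have step2 : ∀ i : Fin g, pre ρ i ∈ h75H l Y → (ρ i).1 ∈ h75H l Y ∧ (ρ i).2 ∈ h75H l Y :=
    fun i hi => ⟨h75H_congr (inv_mem hi).2 (step i).1, h75H_congr (inv_mem hi).2 (step i).2⟩
  have hpre : ∀ n : ℕ, pre ρ n ∈ h75H l Y := by
    intro n
    induction n with
    | zero => exact one_mem _
    | succ n ih =>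
      unfold pre at ih ⊢
      by_cases hn : n < g
      · obtain ⟨ha, hb⟩ := step2 ⟨n, hn⟩ ih
        rw [List.take_add_one, List.map_append, List.prod_append,
          List.getElem?_eq_getElem (by simpa using hn)]
        refine mul_mem ih ?_
        simp only [List.getElem_finRange, Option.toList_some, List.map_cons, List.map_nil,
          List.prod_cons, List.prod_nil, mul_one]
        exact mul_mem (mul_mem (mul_mem ha hb) (inv_mem ha)) (inv_mem hb)
      · rw [List.take_of_length_le (by simp; omega)] at ih ⊢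
        exact ih
  exact fun i _ => ⟨(step2 i (hpre i)).1.2, (step2 i (hpre i)).2.2⟩

theorem h22_rank_null {V W : Type} [AddCommGroup V] [Module Ω V] [AddCommGroup W] [Module Ω W]
    [Module.Finite Ω V] (f : V →ₗ[Ω] W) (S : Submodule Ω V) :
    Module.finrank Ω (S.map f) + Module.finrank Ω ↥(LinearMap.ker f ⊓ S) = Module.finrank Ω S := by
  have h := LinearMap.finrank_range_add_finrank_ker (f.domRestrict S)
  rw [LinearMap.range_domRestrict, LinearMap.ker_domRestrict] at h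
  rw [← h, ← Submodule.finrank_map_subtype_eq S (Submodule.comap _ _), Submodule.map_comap_subtype,
    inf_comm]

theorem h22_mem_coS {S : Submodule Ω (Matrix κ κ Ω)} {c : Co Ω κ g} :
    c ∈ coS S g ↔ ∀ i, (c i).1 ∈ S ∧ (c i).2 ∈ S := by
  simp [coS, Submodule.mem_pi, Submodule.mem_prod]

theorem h22_cob_apply (ρ : Fin g → GL κ Ω × GL κ Ω) (Y : Matrix κ κ Ω) (i : Fin g) :
    cob ρ Y i = (Y - Ad (ρ i).1 Y, Y - Ad (ρ i).2 Y) := rfl

theorem h22_par_inv {l : κ → ℕ} {a : GL κ Ω} (ha : Par l (a : Matrix κ κ Ω)) :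
    Par l ((a⁻¹ : GL κ Ω) : Matrix κ κ Ω) := ha.inv (Units.mul_inv a)

theorem h22_par_Ad {l : κ → ℕ} {a : GL κ Ω} (ha : Par l (a : Matrix κ κ Ω)) {Y : Matrix κ κ Ω}
    (hY : Par l Y) : Par l (Ad a Y) := by
  rw [Ad_apply]; exact (ha.mul hY).mul (h22_par_inv ha)

theorem h22_nil_le (l : κ → ℕ) : nilS Ω l ≤ parS Ω l := fun _ hx a b h => hx a b (not_lt_of_gt h)

theorem h22_dpart_comm {l : κ → ℕ} {a : GL κ Ω} (ha : Par l (a : Matrix κ κ Ω)) {Y : Matrix κ κ Ω}
    (hY : Par l Y) (h : Y - Ad a Y ∈ nilS Ω l) :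
    dpart l Y * dpart l (a : Matrix κ κ Ω) = dpart l (a : Matrix κ κ Ω) * dpart l Y := by
  have h1 : dpart l Y = dpart l (Ad a Y) := by
    ext i j
    simp only [dpart, Matrix.of_apply]
    split_ifs with hij
    · exact sub_eq_zero.1 (h i j (by rw [hij]; exact lt_irrefl _))
    · rfl
  have h2 : Ad a Y * (a : Matrix κ κ Ω) = (a : Matrix κ κ Ω) * Y := by
    rw [Ad_apply, Matrix.mul_assoc, Units.inv_mul, Matrix.mul_one]
  calc dpart l Y * dpart l (a : Matrix κ κ Ω) = dpart l (Ad a Y * (a : Matrix κ κ Ω)) := by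
        rw [(h22_par_Ad ha hY).dpart_mul ha, ← h1]
    _ = _ := by rw [h2, ha.dpart_mul hY]

theorem h22_Ad_scalar {x : GL κ Ω} {ξ : Ω} (hx : (x : Matrix κ κ Ω) = ξ • (1 : Matrix κ κ Ω))
    (Y : Matrix κ κ Ω) : Ad x Y = Y := by
  have : (x : Matrix κ κ Ω) * Y = Y * (x : Matrix κ κ Ω) := by rw [hx]; simp
  rw [Ad_apply, this, Matrix.mul_assoc, Units.mul_inv, Matrix.mul_one]

/-- block scalars -/
def h22_scal (Ω : Type) [Field Ω] (l : κ → ℕ) :
    (↥(Finset.univ.image l) → Ω) →ₗ[Ω] Matrix κ κ Ω :=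
  Matrix.diagonalLinearMap κ Ω Ω ∘ₗ
    LinearMap.funLeft Ω Ω fun a => ⟨l a, Finset.mem_image_of_mem l (Finset.mem_univ a)⟩

theorem h22_dco_le (ρ : Fin g → GL κ Ω × GL κ Ω) (ξ : k)
    (hρ : ((hprod ρ : GL κ Ω) : Matrix κ κ Ω) = algebraMap k Ω ξ • (1 : Matrix κ κ Ω))
    (l : κ → ℕ) (hp : ∀ x, Par l (gens ρ x)) :
    LinearMap.range (dco k ρ) ≤ LinearMap.ker (fox ρ) ⊓ coS (parS Ω l) g := by
  rintro _ ⟨D, rfl⟩
  refine ⟨?_, h22_mem_coS.2 fun i => ?_⟩
  · change fox ρ (dco k ρ D) = 0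
    have : (algebraMap k Ω ξ • (1 : Matrix κ κ Ω)).map D = 0 := by
      ext a b
      by_cases h : a = b <;> simp [h, Matrix.one_apply]
    rw [fox_dco, hρ, this, Matrix.zero_mul]
  · have hD : ∀ {a : GL κ Ω}, Par l (a : Matrix κ κ Ω) →
        Par l ((a : Matrix κ κ Ω).map D * ((a⁻¹ : GL κ Ω) : Matrix κ κ Ω)) := fun {a} ha =>
      Par.mul (fun i j h => by rw [Matrix.map_apply, ha i j h, map_zero]) (h22_par_inv ha)
    exact ⟨hD (hp (i, true)), hD (hp (i, false))⟩

/-- Let `H₂` be the orthogonal of `fox (coS 𝔭)`, `H₁ = {x | cob x ∈ coS 𝔭} ⊇ H₂ + 𝔭`.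
`dim (ker fox ⊓ coS 𝔭) = 2 g dim 𝔭 - (m² - dim H₂)`, adding the coboundaries adds at most
`m² - dim H₁`, and `dim (H₂ ⊓ 𝔭) ≤ dim 𝔫 + k` by `hs` (take `dpart`). -/
theorem flag_bound (ρ : Fin g → GL κ Ω × GL κ Ω) (ξ : Ω)
    (hρ : ((hprod ρ : GL κ Ω) : Matrix κ κ Ω) = ξ • (1 : Matrix κ κ Ω))
    (l : κ → ℕ) (hp : ∀ x, Par l (gens ρ x))
    (hs : ∀ Y : Matrix κ κ Ω, BD l Y → (∀ x, Y * dpart l (gens ρ x) = dpart l (gens ρ x) * Y) →
      ∃ c : ℕ → Ω, Y = diagonal fun a => c (l a)) :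
    Module.finrank Ω ↥(LinearMap.range (cob ρ) ⊔ (LinearMap.ker (fox ρ) ⊓ coS (parS Ω l) g)) +
      Module.finrank Ω (parS Ω l) ≤ 2 * g * Module.finrank Ω (parS Ω l) +
        Module.finrank Ω (nilS Ω l) + (Finset.univ.image l).card := by
  have hpa : ∀ i, Par l ((ρ i).1 : Matrix κ κ Ω) := fun i => hp (i, true)
  have hpb : ∀ i, Par l ((ρ i).2 : Matrix κ κ Ω) := fun i => hp (i, false)
  set C := coS (parS Ω l) g with hC
  let H₂ : Submodule Ω (Matrix κ κ Ω) :=
    { carrier := {Y | ∀ x ∈ C.map (fox ρ), trace (Y * x) = 0}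
      add_mem' := fun {Y Y'} hY hY' x hx => by
        rw [Matrix.add_mul, trace_add, hY x hx, hY' x hx, add_zero]
      zero_mem' := fun x _ => by simp
      smul_mem' := fun c Y hY x hx => by rw [Matrix.smul_mul, trace_smul, hY x hx, smul_zero] }
  have e1 := finrank_orth (C.map (fox ρ)) H₂ fun _ => Iff.rfl
  have e2 := h22_rank_null (fox ρ) C
  have e3 : Module.finrank Ω C = 2 * g * Module.finrank Ω (parS Ω l) := finrank_coS _
  have hBk : LinearMap.range (cob ρ) ≤ LinearMap.ker (fox ρ) := by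
    rintro _ ⟨x, rfl⟩
    rw [LinearMap.mem_ker, fox_cob, h22_Ad_scalar hρ, sub_self]
  set H₁ := C.comap (cob ρ) with hH₁
  have e4 := Submodule.finrank_sup_add_finrank_inf_eq (LinearMap.range (cob ρ))
    (LinearMap.ker (fox ρ) ⊓ C)
  have e5 : LinearMap.range (cob ρ) ⊓ (LinearMap.ker (fox ρ) ⊓ C) = H₁.map (cob ρ) := by
    rw [hH₁, Submodule.map_comap_eq, ← inf_assoc, inf_eq_left.2 hBk]
  have e6 := h22_rank_null (cob ρ) H₁
  have e7 : LinearMap.ker (cob ρ) ⊓ H₁ = LinearMap.ker (cob ρ) := by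
    refine inf_eq_left.2 fun x hx => ?_
    rw [hH₁, Submodule.mem_comap, LinearMap.mem_ker.1 hx]
    exact C.zero_mem
  have e8 := LinearMap.finrank_range_add_finrank_ker (cob ρ)
  have e9 : Module.finrank Ω (Matrix κ κ Ω) = Fintype.card κ ^ 2 := by
    rw [Module.finrank_matrix]; simp [sq]
  have hH₂ : ∀ Y ∈ H₂, cob ρ Y ∈ coS (nilS Ω l) g := fun Y hY =>
    orth_fox ρ l hp Y fun c hc => hY _ (Submodule.mem_map_of_mem hc)
  have l1 : H₂ ⊔ parS Ω l ≤ H₁ := by
    refine sup_le (fun Y hY => ?_) fun Y hY => ?_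
    · exact h22_mem_coS.2 fun i => ⟨h22_nil_le l (h22_mem_coS.1 (hH₂ Y hY) i).1,
        h22_nil_le l (h22_mem_coS.1 (hH₂ Y hY) i).2⟩
    · exact h22_mem_coS.2 fun i =>
        ⟨(parS Ω l).sub_mem hY (h22_par_Ad (hpa i) hY), (parS Ω l).sub_mem hY (h22_par_Ad (hpb i) hY)⟩
  have l2 := Submodule.finrank_mono l1
  have e10 := Submodule.finrank_sup_add_finrank_inf_eq H₂ (parS Ω l)
  have l3 : H₂ ⊓ parS Ω l ≤ nilS Ω l ⊔ LinearMap.range (h22_scal Ω l) := by
    rintro Y ⟨hY, hY'⟩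
    have hY'' : Par l Y := hY'
    obtain ⟨c, hc⟩ := hs (dpart l Y) (dpart_bd Y) (by
      rintro ⟨i, _ | _⟩
      · exact h22_dpart_comm (hpb i) hY'' (h22_mem_coS.1 (hH₂ Y hY) i).2
      · exact h22_dpart_comm (hpa i) hY'' (h22_mem_coS.1 (hH₂ Y hY) i).1)
    refine Submodule.mem_sup.2 ⟨Y - dpart l Y, fun a b hab => ?_, dpart l Y, ⟨fun n => c n, hc.symm⟩,
      sub_add_cancel _ _⟩
    simp only [dpart, Matrix.sub_apply, Matrix.of_apply]
    split_ifs with h
    · exact sub_self _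
    · rw [hY'' a b (lt_of_le_of_ne (not_lt.1 hab) (Ne.symm h)), sub_zero]
  have l4 := Submodule.finrank_mono l3
  have l5 := Submodule.finrank_add_le_finrank_add_finrank (nilS Ω l) (LinearMap.range (h22_scal Ω l))
  have l6 : Module.finrank Ω (LinearMap.range (h22_scal Ω l)) ≤ (Finset.univ.image l).card := by
    refine (LinearMap.finrank_range_le _).trans ?_
    simp
  rw [e5] at e4
  rw [e7] at e6
  omega

/-- A point with many derivations is irreducible and all its cocycles come from derivations.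
Conjugate by `exists_flag` (`dco_cj`); the cochains of derivations of the conjugate lie in
`ker fox ⊓ coS 𝔭`; `flag_bound` gives at most `(2g-1) m² + k - (2g-2) dim 𝔫`, which is at most
`(2g-1) m²` if there are `k ≥ 2` levels.  In the irreducible case use `flag_bound` with `l = 0` and
Schur's lemma. -/
theorem generic_irr [IsAlgClosed Ω] (hg : 2 ≤ g) (ρ : Fin g → GL κ Ω × GL κ Ω) (ξ : k)
    (hρ : ((hprod ρ : GL κ Ω) : Matrix κ κ Ω) = algebraMap k Ω ξ • (1 : Matrix κ κ Ω))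
    (hdim : (2 * g - 1) * Fintype.card κ ^ 2 + 1 ≤ Module.finrank Ω (LinearMap.range (dco k ρ))) :
    Irr (gens ρ) ∧ AllDer k ρ := by
  have hirr : Irr (gens ρ) := by
    by_contra hn
    obtain ⟨h, l, h1, h2, h3⟩ := exists_flag (gens ρ)
    obtain ⟨a, b, hab⟩ := h3 hn
    have hgens : ∀ x, gens (cj ρ h) x =
        ((h⁻¹ : GL κ Ω) : Matrix κ κ Ω) * gens ρ x * (h : Matrix κ κ Ω) := by
      rintro ⟨i, _ | _⟩ <;> simp [gens, cj]
    have hρ' : ((hprod (cj ρ h) : GL κ Ω) : Matrix κ κ Ω) =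
        algebraMap k Ω ξ • (1 : Matrix κ κ Ω) := by
      rw [hprod_cj, Units.val_mul, Units.val_mul, hρ]
      simp
    have hp : ∀ x, Par l (gens (cj ρ h) x) := fun x => hgens x ▸ h1 x
    have hb := flag_bound (cj ρ h) _ hρ' l hp (by simpa only [hgens] using h2)
    let A : Co Ω κ g →ₗ[Ω] Co Ω κ g :=
      LinearMap.pi fun i => ((Ad h⁻¹).prodMap (Ad h⁻¹)) ∘ₗ LinearMap.proj i
    have hAd : Function.Injective (Ad h⁻¹) := by
      intro x y hxy
      have : ∀ x : Matrix κ κ Ω, Ad h (Ad h⁻¹ x) = x := fun x => by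
        rw [Ad_apply, Ad_apply, inv_inv]
        simp only [← Matrix.mul_assoc, Units.mul_inv, Matrix.one_mul]
        rw [Matrix.mul_assoc, Units.mul_inv, Matrix.mul_one]
      rw [← this x, hxy, this]
    have hA : Function.Injective A := by
      intro c c' hc
      funext i
      have := congrFun hc i
      exact Prod.ext (hAd (congrArg Prod.fst this)) (hAd (congrArg Prod.snd this))
    have l1 : (LinearMap.range (dco k ρ)).map A ≤ LinearMap.range (cob (cj ρ h)) ⊔
        (LinearMap.ker (fox (cj ρ h)) ⊓ coS (parS Ω l) g) := by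
      rintro _ ⟨_, ⟨D, rfl⟩, rfl⟩
      have e : A (dco k ρ D) = dco k (cj ρ h) D -
          cob (cj ρ h) (((h⁻¹ : GL κ Ω) : Matrix κ κ Ω).map D * (h : Matrix κ κ Ω)) := by
        rw [dco_cj, add_sub_cancel_right]; rfl
      rw [e]
      exact Submodule.sub_mem _ (Submodule.mem_sup_right (h22_dco_le _ ξ hρ' l hp ⟨D, rfl⟩))
        (Submodule.mem_sup_left ⟨_, rfl⟩)
    have l2 := Submodule.finrank_mono l1
    rw [← LinearEquiv.finrank_eq (Submodule.equivMapOfInjective A hA _)] at l2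
    have e1 := finrank_parS_add (Ω := Ω) l
    have e2 := card_image_le_nilS (Ω := Ω) l
    have e3 : 2 ≤ (Finset.univ.image l).card :=
      Finset.one_lt_card.2 ⟨l a, Finset.mem_image_of_mem l (Finset.mem_univ a), l b,
        Finset.mem_image_of_mem l (Finset.mem_univ b), hab⟩
    rw [← e1] at hdim
    obtain ⟨g', rfl⟩ := Nat.exists_eq_add_of_le hg
    have e4 : 2 * (2 + g') - 1 = 2 * g' + 3 := by omega
    rw [e4] at hdim
    generalize Module.finrank Ω (parS Ω l) = p at *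
    generalize Module.finrank Ω (nilS Ω l) = q at *
    nlinarith [Nat.zero_le (g' * q)]
  refine ⟨hirr, fun c hc => ?_⟩
  have hp : ∀ x, Par (fun _ : κ => 0) (gens ρ x) := fun x a b h => absurd h (lt_irrefl _)
  have hb := flag_bound ρ _ hρ (fun _ : κ => 0) hp (by
    intro Y _ hY
    have hd : ∀ x : Matrix κ κ Ω, dpart (fun _ : κ => 0) x = x := fun x => by
      ext a b; simp [dpart]
    obtain ⟨c, hc⟩ := hirr.schur (Y := Y) (by simpa only [hd] using hY)
    exact ⟨fun _ => c, by rw [hc, Matrix.smul_one_eq_diagonal]⟩)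
  have hn : nilS Ω (fun _ : κ => 0) = ⊥ := by
    refine eq_bot_iff.2 fun x hx => ?_
    rw [Submodule.mem_bot]
    ext a b
    exact hx a b (lt_irrefl _)
  have e1 := finrank_parS_add (Ω := Ω) (fun _ : κ => 0)
  have e2 := card_image_le_nilS (Ω := Ω) (fun _ : κ => 0)
  rw [hn, finrank_bot] at e1 e2 hb
  have l1 := h22_dco_le ρ ξ hρ _ hp
  have l2 := Submodule.finrank_mono (le_sup_right (a := LinearMap.range (cob ρ))
    (b := LinearMap.ker (fox ρ) ⊓ coS (parS Ω fun _ : κ => 0) g))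
  have l3 : Module.finrank Ω ↥(LinearMap.ker (fox ρ) ⊓ coS (parS Ω fun _ : κ => 0) g) ≤
      Module.finrank Ω (LinearMap.range (dco k ρ)) := by
    rw [← e1] at hdim
    obtain ⟨g', rfl⟩ := Nat.exists_eq_add_of_le hg
    have e4 : 2 * (2 + g') - 1 = 2 * g' + 3 := by omega
    rw [e4] at hdim
    generalize Module.finrank Ω (parS Ω fun _ : κ => 0) = p at *
    nlinarith
  have e := Submodule.eq_of_le_of_finrank_le l1 l3
  have hc' : c ∈ LinearMap.range (dco k ρ) := by
    rw [e]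
    exact ⟨hc, h22_mem_coS.2 fun i => ⟨fun a b h => absurd h (lt_irrefl _),
      fun a b h => absurd h (lt_irrefl _)⟩⟩
  obtain ⟨D, rfl⟩ := hc'
  exact ⟨D, 0, by simp⟩

end Crest.Agent.R003
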