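import Crest.Agent.R003.Defs2

/-! Row 3: auxiliary constructions for `CS1` (commuting pairs). -/

set_option autoImplicit false
set_option linter.unusedSectionVars false

namespace Crest.Agent.R003

open Matrix

variable {o : Type} [CommRing o] {Ω : Type} [Field Ω] [Algebra o Ω] {κ : Type} [Fintype κ]
  [DecidableEq κ]

/-- invertible diagonal matrix -/
def c6D (d : κ → Ωˣ) : GL κ Ω :=
  ⟨Matrix.diagonal fun i => (d i : Ω), Matrix.diagonal fun i => (((d i)⁻¹ : Ωˣ) : Ω),
    by simp [Matrix.diagonal_mul_diagonal], by simp [Matrix.diagonal_mul_diagonal]⟩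

theorem c6D_val (d : κ → Ωˣ) : (c6D d : Matrix κ κ Ω) = Matrix.diagonal fun i => (d i : Ω) := rfl

theorem c6D_comm (d e : κ → Ωˣ) : c6D d * c6D e = c6D e * c6D d := by
  apply Units.ext
  simp only [Units.val_mul, c6D_val, Matrix.diagonal_mul_diagonal, mul_comm]

theorem good_c6D {X : Type} [Coord Ω X] {f : X → κ → Ωˣ} (hf : Good o Ω f) :
    Good o Ω (fun x => c6D (f x)) :=
  Good.unitsMk (Good.diagonal fun i => ((Good.apply i).comp hf).uval)
    (Good.diagonal fun i => ((Good.apply i).comp hf).uinv.uval) _ _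

/-- invertible matrix from an inverse of the determinant -/
def c6U (M : Matrix κ κ Ω) (w : Ω) (hw : w * M.det = 1) : GL κ Ω :=
  ⟨M, w • M.adjugate, by rw [Matrix.mul_smul, Matrix.mul_adjugate, smul_smul, hw, one_smul],
    by rw [Matrix.smul_mul, Matrix.adjugate_mul, smul_smul, hw, one_smul]⟩

theorem c6U_val (M : Matrix κ κ Ω) (w : Ω) (hw : w * M.det = 1) :
    (c6U M w hw : Matrix κ κ Ω) = M := rfl

theorem good_c6U {X : Type} [Coord Ω X] {M : X → Matrix κ κ Ω} {w : X → Ω} (hM : Good o Ω M)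
    (hw : Good o Ω w) (h : ∀ x, w x * (M x).det = 1) :
    Good o Ω (fun x => c6U (M x) (w x) (h x)) :=
  Good.unitsMk hM (hw.msmul hM.adjugate) _ _

theorem c6_diag_ne {g h : GL κ Ω} {s : κ → Ω}
    (h1 : (g : Matrix κ κ Ω) = h * diagonal s * ((h⁻¹ : GL κ Ω) : Matrix κ κ Ω)) (i : κ) :
    s i ≠ 0 := by
  have h2 := Matrix.GeneralLinearGroup.det_ne_zero g
  rw [h1, Matrix.det_mul, Matrix.det_mul, Matrix.det_diagonal] at h2
  exact Finset.prod_ne_zero_iff.1 (right_ne_zero_of_mul (left_ne_zero_of_mul h2)) i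
    (Finset.mem_univ i)

theorem c6_aeval_conj (h : GL κ Ω) (t : κ → Ω) (p : Polynomial Ω) :
    Polynomial.aeval ((h : Matrix κ κ Ω) * diagonal t * ((h⁻¹ : GL κ Ω) : Matrix κ κ Ω)) p =
      (h : Matrix κ κ Ω) * diagonal (fun i => p.eval (t i)) * ((h⁻¹ : GL κ Ω) : Matrix κ κ Ω) := by
  induction p using Polynomial.induction_on with
  | C a =>
    simp only [Polynomial.aeval_C, Polynomial.eval_C]
    rw [Algebra.algebraMap_eq_smul_one, ← Matrix.smul_one_eq_diagonal, Matrix.mul_smul,
      Matrix.smul_mul, Matrix.mul_one, Units.mul_inv]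
  | add a b ha hb =>
    rw [map_add, ha, hb, ← Matrix.add_mul, ← Matrix.mul_add, Matrix.diagonal_add]
    simp only [Polynomial.eval_add]
  | monomial n a ih =>
    rw [pow_succ, ← mul_assoc, map_mul, ih, Polynomial.aeval_X]
    simp only [Polynomial.eval_mul_X]
    rw [← Matrix.diagonal_mul_diagonal (fun i => Polynomial.eval (t i) _) t]
    simp only [Matrix.mul_assoc, Units.inv_mul_cancel_left]

/-- a matrix commuting with a cyclic matrix is a polynomial in it -/
theorem c6_comm_cyclic {A B : Matrix κ κ Ω} (hAB : A * B = B * A) {v : κ → Ω}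
    (hv : ∀ w : κ → Ω, ∃ p : Polynomial Ω, (Polynomial.aeval A p) *ᵥ v = w) :
    ∃ p : Polynomial Ω, B = Polynomial.aeval A p := by
  obtain ⟨p, hp⟩ := hv (B *ᵥ v)
  refine ⟨p, Matrix.toLin'.injective (LinearMap.ext fun w => ?_)⟩
  obtain ⟨r, rfl⟩ := hv w
  have h1 : B * Polynomial.aeval A r = Polynomial.aeval A r * B := by
    have hc : Commute B A := hAB.symm
    induction r using Polynomial.induction_on with
    | C a => rw [Polynomial.aeval_C]; exact (Algebra.commutes a B).symm
    | add a b ha hb => rw [map_add, mul_add, add_mul, ha, hb]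
    | monomial n a _ =>
      rw [map_mul, map_pow, Polynomial.aeval_C, Polynomial.aeval_X]
      exact ((Algebra.commute_algebraMap_right a B).mul_right (hc.pow_right _)).eq
  simp only [Matrix.toLin'_apply]
  rw [Matrix.mulVec_mulVec, h1, ← Matrix.mulVec_mulVec, ← hp, Matrix.mulVec_mulVec,
    Matrix.mulVec_mulVec, ← map_mul, ← map_mul, mul_comm]

theorem c6_comm_aeval (A : Matrix κ κ Ω) (p : Polynomial Ω) :
    A * Polynomial.aeval A p = Polynomial.aeval A p * A := by
  have : A * Polynomial.aeval A p = Polynomial.aeval A (Polynomial.X * p) := by simp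
  rw [this, mul_comm, map_mul, Polynomial.aeval_X]

theorem c6_hprod_one [Subsingleton κ] {g : ℕ} (ab : Fin g → GL κ Ω × GL κ Ω) : hprod ab = 1 := by
  refine List.prod_eq_one fun x hx => ?_
  obtain ⟨i, _, rfl⟩ := List.mem_map.1 hx
  have : (ab i).1 * (ab i).2 = (ab i).2 * (ab i).1 := by
    apply Units.ext
    ext a b
    simp only [Units.val_mul, Matrix.mul_apply]
    refine Finset.sum_congr rfl fun c _ => ?_
    rw [Subsingleton.elim b a, Subsingleton.elim c a, mul_comm]
  rw [cm, this]
  group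

end Crest.Agent.R003
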