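import Mathlib

/-! Row 3: cyclic vectors (auxiliary file for `CS1`). -/

set_option autoImplicit false
set_option linter.unusedSectionVars false

namespace Crest.Agent.R003

open Matrix Polynomial

variable {K : Type} [Field K] {κ : Type} [Fintype κ] [DecidableEq κ]

theorem cs1a_end [IsAlgClosed K] {V : Type} [AddCommGroup V] [Module K V]
    [FiniteDimensional K V] (f : Module.End K V) :
    ∃ (g : Module.End K V) (v : V), g * f = f * g ∧ ∀ w, ∃ p : K[X], aeval g p v = w := by
  classical
  have htor : Module.IsTorsion K[X] (Module.AEval' f) :=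
    Module.AEval.isTorsion_of_finiteDimensional K V f
  obtain ⟨ι, hι, p, hp, e, ⟨φ⟩⟩ := Module.equiv_directSum_of_isTorsion htor
  let ψ : Module.AEval' f ≃ₗ[K[X]] (∀ i, K[X] ⧸ (K[X] ∙ p i ^ e i)) :=
    φ.trans (DirectSum.linearEquivFunOnFintype K[X] ι _)
  have hroot : ∀ i, ∃ l : K, p i ∣ X - C l := fun i => by
    obtain ⟨l, hl⟩ := IsAlgClosed.exists_root (p i) (degree_pos_of_irreducible (hp i)).ne'
    exact ⟨l, ((irreducible_X_sub_C l).associated_of_dvd (hp i)
      (dvd_iff_isRoot.2 hl)).symm.dvd⟩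
  choose l hl using hroot
  obtain ⟨μ, hμ⟩ : ∃ μ : ι → K, Function.Injective μ := by
    obtain ⟨a⟩ := (Function.Embedding.nonempty_of_card_le (α := ι) (β := Fin (Fintype.card ι))
      (by simp))
    exact ⟨fun i => Infinite.natEmbedding K (a i),
      fun i j h => a.injective (Fin.ext ((Infinite.natEmbedding K).injective h))⟩
  let c : ι → K := fun i => μ i - l i
  let T : (∀ i, K[X] ⧸ (K[X] ∙ p i ^ e i)) →ₗ[K[X]] (∀ i, K[X] ⧸ (K[X] ∙ p i ^ e i)) :=
    LinearMap.pi fun i => (X + C (c i)) • LinearMap.proj i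
  let T' : Module.AEval' f →ₗ[K[X]] Module.AEval' f :=
    ψ.symm.toLinearMap ∘ₗ T ∘ₗ ψ.toLinearMap
  let g : Module.End K V := (Module.AEval'.of f).symm.toLinearMap ∘ₗ
    (T'.restrictScalars K) ∘ₗ (Module.AEval'.of f).toLinearMap
  have hg0 : ∀ v, Module.AEval'.of f (g v) = T' (Module.AEval'.of f v) := fun v => by
    simp [g]
  have hg : ∀ v i, ψ (Module.AEval'.of f (g v)) i = (X + C (c i)) • ψ (Module.AEval'.of f v) i := by
    intro v i
    rw [hg0]
    simp [T', T]
  have hpoly : ∀ (q : K[X]) v i, ψ (Module.AEval'.of f (aeval g q v)) i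
      = q.comp (X + C (c i)) • ψ (Module.AEval'.of f v) i := by
    intro q
    induction q using Polynomial.induction_on with
    | C a =>
      intro v i
      rw [aeval_C, Module.algebraMap_end_apply, map_smul, C_comp, ← algebraMap_smul K[X] a,
        map_smul, Pi.smul_apply, Polynomial.algebraMap_apply]
      simp
    | add a b ha hb =>
      intro v i
      rw [map_add, LinearMap.add_apply, map_add, map_add, Pi.add_apply, ha, hb, add_comp,
        add_smul]
    | monomial n a h =>
      intro v i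
      rw [pow_succ, ← mul_assoc, map_mul, aeval_X, Module.End.mul_apply, h, hg, mul_comp,
        mul_comp (C a * X ^ n), X_comp, smul_smul, mul_comp]
  refine ⟨g, (Module.AEval'.of f).symm (ψ.symm fun i => Submodule.Quotient.mk 1), ?_, ?_⟩
  · ext v
    apply (Module.AEval'.of f).injective
    rw [Module.End.mul_apply, Module.End.mul_apply, hg0, ← Module.AEval'.X_smul_of,
      ← Module.AEval'.X_smul_of, hg0, map_smul]
  · intro w
    have hw : ∀ i, ∃ r : K[X], Submodule.Quotient.mk r = ψ (Module.AEval'.of f w) i :=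
      fun i => Submodule.Quotient.mk_surjective _ _
    choose r hr using hw
    have hcop : Pairwise (Function.onFun IsCoprime
        fun i => Ideal.span {((X - C (μ i)) ^ e i : K[X])}) := by
      intro i j hij
      rw [Function.onFun, Ideal.isCoprime_span_singleton_iff]
      exact (isCoprime_X_sub_C_of_isUnit_sub
        (sub_ne_zero.2 (hμ.ne hij)).isUnit).pow
    obtain ⟨q, hq⟩ := Ideal.exists_forall_sub_mem_ideal hcop
      (fun i => (r i).comp (X - C (c i)))
    refine ⟨q, ?_⟩
    apply (Module.AEval'.of f).injective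
    apply ψ.injective
    funext i
    rw [hpoly, ← hr]
    simp only [LinearEquiv.apply_symm_apply]
    rw [← Submodule.Quotient.mk_smul, Submodule.Quotient.eq, smul_eq_mul, mul_one,
      Submodule.mem_span_singleton]
    obtain ⟨a, ha⟩ := Ideal.mem_span_singleton.1 (hq i)
    obtain ⟨b, hb⟩ := pow_dvd_pow_of_dvd (hl i) (e i)
    have h1 := congrArg (fun s => s.comp (X + C (c i))) ha
    simp only [sub_comp, mul_comp, pow_comp, X_comp, C_comp, comp_assoc] at h1
    have h2 : (X + C (c i) - C (c i) : K[X]) = X := by ring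
    have h3 : (X + C (c i) - C (μ i) : K[X]) = X - C (l i) := by
      simp only [c, map_sub]; ring
    rw [h2, h3, comp_X, hb] at h1
    exact ⟨b * a.comp (X + C (c i)), by rw [h1, smul_eq_mul]; ring⟩

theorem cs1a_exists_cyclic_comm [IsAlgClosed K] (B : Matrix κ κ K) :
    ∃ (R : Matrix κ κ K) (v : κ → K), R * B = B * R ∧
      ∀ w : κ → K, ∃ p : Polynomial K, (Polynomial.aeval R p) *ᵥ v = w := by
  obtain ⟨g, v, hg, hv⟩ := cs1a_end (Matrix.toLinAlgEquiv' B)
  refine ⟨Matrix.toLinAlgEquiv'.symm g, v, ?_, fun w => ?_⟩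
  · apply (Matrix.toLinAlgEquiv' (R := K) (n := κ)).injective
    rw [map_mul, map_mul, AlgEquiv.apply_symm_apply]
    exact hg
  · obtain ⟨p, hp⟩ := hv w
    refine ⟨p, ?_⟩
    rw [← Matrix.toLinAlgEquiv'_apply, ← Polynomial.aeval_algHom_apply,
      AlgEquiv.apply_symm_apply]
    exact hp

/-- the Krylov matrix -/
noncomputable def cs1aK {S : Type} [CommRing S] (M : Matrix κ κ S) (v : κ → S) : Matrix κ κ S :=
  Matrix.of fun a b => (M ^ ((Fintype.equivFin κ b : ℕ)) *ᵥ v) a

theorem cs1a_K_mulVec (M : Matrix κ κ K) (v x : κ → K) :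
    cs1aK M v *ᵥ x = ∑ b, x b • (M ^ ((Fintype.equivFin κ b : ℕ)) *ᵥ v) := by
  funext a
  simp [cs1aK, Matrix.mulVec, dotProduct, Finset.sum_apply, mul_comm]

theorem cs1a_iff (M : Matrix κ κ K) (v : κ → K) :
    (∀ w : κ → K, ∃ p : Polynomial K, (Polynomial.aeval M p) *ᵥ v = w) ↔
      (cs1aK M v).det ≠ 0 := by
  rw [← isUnit_iff_ne_zero, ← Matrix.isUnit_iff_isUnit_det, ← Matrix.mulVec_surjective_iff_isUnit]
  constructor
  · intro h w
    obtain ⟨p, hp⟩ := h w
    rw [← aeval_modByMonic_eq_self_of_root (Matrix.aeval_self_charpoly M)] at hp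
    have hdeg : (p %ₘ M.charpoly).degree < Fintype.card κ := by
      have := degree_modByMonic_lt p (Matrix.charpoly_monic M)
      rwa [Matrix.charpoly_degree_eq_dim] at this
    set q := p %ₘ M.charpoly
    refine ⟨fun b => q.coeff (Fintype.equivFin κ b), ?_⟩
    have h1 : q = ∑ i : Fin (Fintype.card κ), monomial i (q.coeff i) := by
      rw [Polynomial.sum_fin (fun n a => monomial n a) (by simp) hdeg, sum_monomial_eq]
    rw [cs1a_K_mulVec, ← hp]
    conv_rhs => rw [h1]
    rw [map_sum, Matrix.sum_mulVec]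
    refine Fintype.sum_equiv (Fintype.equivFin κ) _ _ fun b => ?_
    rw [aeval_monomial, ← Algebra.smul_def, Matrix.smul_mulVec]
  · intro h w
    obtain ⟨x, hx⟩ := h w
    refine ⟨∑ b, C (x b) * X ^ ((Fintype.equivFin κ b : ℕ)), ?_⟩
    rw [← hx, cs1a_K_mulVec, map_sum, Matrix.sum_mulVec]
    refine Finset.sum_congr rfl fun b _ => ?_
    rw [map_mul, aeval_C, map_pow, aeval_X, ← Algebra.smul_def, Matrix.smul_mulVec]

theorem cs1a_cyclic_line (A R : Matrix κ κ K) (v : κ → K)
    (h : ∀ w : κ → K, ∃ p : Polynomial K, (Polynomial.aeval R p) *ᵥ v = w) :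
    {t : K | ¬ ∀ w : κ → K, ∃ p : Polynomial K,
      (Polynomial.aeval (A + t • (R - A)) p) *ᵥ v = w}.Finite := by
  let Mp : Matrix κ κ K[X] := A.map C + (X : K[X]) • (R - A).map C
  let q : K[X] := (cs1aK Mp fun a => C (v a)).det
  have hq : ∀ t, q.eval t = (cs1aK (A + t • (R - A)) v).det := by
    intro t
    have h1 : (evalRingHom t).mapMatrix Mp = A + t • (R - A) := by
      ext a b; simp [Mp]
    rw [← coe_evalRingHom, RingHom.map_det]
    congr 1
    ext a b
    rw [← h1]
    simp only [cs1aK, RingHom.mapMatrix_apply, Matrix.map_apply, Matrix.of_apply]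
    rw [← RingHom.mapMatrix_apply, ← map_pow]
    simp [Matrix.mulVec, dotProduct]
  have hq0 : q ≠ 0 := by
    intro h0
    have := hq 1
    rw [h0, one_smul, add_sub_cancel, eval_zero] at this
    exact (cs1a_iff R v).1 h this.symm
  refine (finite_setOfPred_isRoot hq0).subset fun t ht => ?_
  rw [Set.mem_ofPred_eq, cs1a_iff, not_not] at ht
  exact (hq t).trans ht

end Crest.Agent.R003
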