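import Mathlib

/-! Row 3: the clock and shift normal form. -/

set_option autoImplicit false
set_option linter.unusedSectionVars false

namespace Crest.Agent.R003

open Matrix Module

section
variable {Ω : Type} [Field Ω] {V : Type} [AddCommGroup V] [Module Ω V] [FiniteDimensional Ω V]

theorem csC_level (ξ : Ωˣ) (d : ℕ) (hd : orderOf ξ = d) :
    ∃ c : Ω → ZMod d, ∀ μ : Ω, μ ≠ 0 → c (((ξ⁻¹ : Ωˣ) : Ω) * μ) = c μ + 1 := by
  classical
  have h1 : ∀ u : Ωˣ, ∃ k : ℤ,
      u = (QuotientGroup.mk u : Ωˣ ⧸ Subgroup.zpowers ξ⁻¹).out * ξ⁻¹ ^ k := fun u => by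
    obtain ⟨⟨h, k, rfl⟩, e⟩ := QuotientGroup.mk_out_eq_mul (Subgroup.zpowers ξ⁻¹) u
    exact ⟨-k, by rw [e]; simp⟩
  choose k hk using h1
  have h2 : ∀ u : Ωˣ, (k (ξ⁻¹ * u) : ZMod d) = k u + 1 := fun u => by
    have e : (QuotientGroup.mk (ξ⁻¹ * u) : Ωˣ ⧸ Subgroup.zpowers ξ⁻¹) = QuotientGroup.mk u := by
      rw [mul_comm]
      exact QuotientGroup.mk_mul_of_mem _ (Subgroup.mem_zpowers _)
    have a1 := hk (ξ⁻¹ * u)
    rw [e] at a1
    have a2 : ξ⁻¹ ^ k (ξ⁻¹ * u) = ξ⁻¹ ^ (k u + 1) := by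
      apply mul_left_cancel (a := (QuotientGroup.mk u : Ωˣ ⧸ Subgroup.zpowers ξ⁻¹).out)
      rw [← a1, _root_.zpow_add_one, ← mul_assoc, ← hk u, mul_comm]
    rw [zpow_eq_zpow_iff_modEq, orderOf_inv, hd, ← ZMod.intCast_eq_intCast_iff] at a2
    rw [a2]
    push_cast
    rfl
  refine ⟨fun μ => if h : μ = 0 then 0 else k (Units.mk0 μ h), fun μ hμ => ?_⟩
  have h3 : ((ξ⁻¹ : Ωˣ) : Ω) * μ ≠ 0 := mul_ne_zero (Units.ne_zero _) hμ
  simp only [dif_neg h3, dif_neg hμ]
  rw [← h2]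
  congr 2
  ext
  simp

theorem csC_grading [IsAlgClosed Ω] (f g : End Ω V) (hg : Function.Injective g) (ξ : Ωˣ) (d : ℕ)
    (hd : orderOf ξ = d) (h : g * f = ((ξ⁻¹ : Ωˣ) : Ω) • (f * g)) :
    ∃ W : ZMod d → Submodule Ω V, iSupIndep W ∧ ⨆ k, W k = ⊤ ∧
      (∀ k, ∀ x ∈ W k, f x ∈ W (k + 1)) ∧ ∀ k, ∀ x ∈ W k, g x ∈ W k := by
  obtain ⟨c, hc⟩ := csC_level ξ d hd
  have hle : ∀ μ, g.maxGenEigenspace μ ≤ ⨆ ν ∈ {ν | c ν = c μ}, g.maxGenEigenspace ν := fun μ =>
    le_biSup (f := g.maxGenEigenspace) (show μ ∈ {ν | c ν = c μ} from rfl)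
  refine ⟨fun k => ⨆ μ ∈ {μ | c μ = k}, g.maxGenEigenspace μ, fun k => ?_, ?_, fun k => ?_,
    fun k => ?_⟩
  · refine ((End.independent_maxGenEigenspace g).disjoint_biSup_biSup
      (s := {μ | c μ = k}) (t := {μ | c μ ≠ k})
      (Set.disjoint_left.2 fun μ h1 h2 => h2 h1)).mono_right ?_
    refine iSup₂_le fun j hj => iSup₂_le fun μ hμ => ?_
    exact le_biSup (f := g.maxGenEigenspace) (show μ ∈ {μ | c μ ≠ k} from fun e => hj (hμ ▸ e))
  · rw [eq_top_iff, ← End.iSup_maxGenEigenspace_eq_top g]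
    exact iSup_le fun μ => (hle μ).trans
      (le_iSup (fun k => ⨆ μ ∈ {μ | c μ = k}, g.maxGenEigenspace μ) (c μ))
  · suffices H : (⨆ μ ∈ {μ | c μ = k}, g.maxGenEigenspace μ) ≤
        Submodule.comap f (⨆ μ ∈ {μ | c μ = k + 1}, g.maxGenEigenspace μ) from fun x hx => H hx
    refine iSup₂_le fun μ hμ x hx => ?_
    obtain ⟨m, hm⟩ := (End.mem_maxGenEigenspace _ _ _).1 hx
    by_cases h0 : μ = 0
    · rw [h0, zero_smul, sub_zero] at hm
      have : x = 0 := by
        apply Function.Injective.iterate hg m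
        rw [← End.pow_apply, ← End.pow_apply, hm, map_zero]
      rw [this]
      exact zero_mem _
    · rw [Submodule.mem_comap, ← show c μ = k from hμ, ← hc μ h0]
      refine hle _ ((End.mem_maxGenEigenspace _ _ _).2 ⟨m, ?_⟩)
      have e : ∀ m : ℕ, (g - (((ξ⁻¹ : Ωˣ) : Ω) * μ) • (1 : End Ω V)) ^ m * f =
          ((ξ⁻¹ : Ωˣ) : Ω) ^ m • (f * (g - μ • (1 : End Ω V)) ^ m) := fun m => by
        induction m with
        | zero => simp
        | succ m ih =>
          rw [pow_succ', mul_assoc, ih, mul_smul_comm, ← mul_assoc, sub_mul, h, smul_mul_assoc,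
            one_mul, mul_smul, ← smul_sub, smul_mul_assoc, smul_smul, ← pow_succ, pow_succ' (g - _),
            ← mul_assoc, mul_sub, mul_smul_comm, mul_one]
      rw [← End.mul_apply, e, LinearMap.smul_apply, End.mul_apply, hm, map_zero, smul_zero]
  · suffices H : (⨆ μ ∈ {μ | c μ = k}, g.maxGenEigenspace μ) ≤
        Submodule.comap g (⨆ μ ∈ {μ | c μ = k}, g.maxGenEigenspace μ) from fun x hx => H hx
    refine iSup₂_le fun μ hμ x hx => ?_
    rw [Submodule.mem_comap, ← show c μ = k from hμ]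
    exact hle _ (End.mapsTo_maxGenEigenspace_of_comm (Commute.refl g) μ hx)

theorem csC_pow {d : ℕ} {W : ZMod d → Submodule Ω V} {f : End Ω V}
    (hW : ∀ k, ∀ x ∈ W k, f x ∈ W (k + 1)) (m : ℕ) (k : ZMod d) (x : V) (hx : x ∈ W k) :
    (f ^ m) x ∈ W (k + m) := by
  induction m with
  | zero => simpa using hx
  | succ m ih =>
    rw [pow_succ', End.mul_apply, Nat.cast_succ, ← add_assoc]
    exact hW _ _ ih

theorem csC_basis {d : ℕ} [NeZero d] {W : ZMod d → Submodule Ω V} (h1 : iSupIndep W)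
    (h2 : ⨆ k, W k = ⊤) {f : End Ω V} (hf : Function.Injective f)
    (hW : ∀ k, ∀ x ∈ W k, f x ∈ W (k + 1)) {n : ℕ} (v : Basis (Fin n) Ω (W 0)) :
    ∃ w : Basis (ZMod d × Fin n) Ω V, ∀ k j, w (k, j) = (f ^ k.val) (v j) := by
  classical
  have hfm : ∀ m : ℕ, Function.Injective (f ^ m) := fun m => by
    rw [End.coe_pow]; exact hf.iterate m
  have li : LinearIndependent Ω fun p : ZMod d × Fin n => (f ^ p.1.val) (v p.2) := by
    rw [Fintype.linearIndependent_iff]
    intro c hc p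
    rw [Fintype.sum_prod_type] at hc
    have e : ∀ k : ZMod d, ∑ j, c (k, j) • (f ^ k.val) (v j) =
        (f ^ k.val) ((∑ j, c (k, j) • v j : W 0) : V) := fun k => by
      simp only [AddSubmonoidClass.coe_finsetSum, SetLike.val_smul, map_sum, map_smul]
    simp only [e] at hc
    have a1 := (iSupIndep_iff_finsetSum_eq_zero_imp_eq_zero W).1 h1 Finset.univ _ (fun k _ => by
      have := csC_pow hW k.val 0 _ (∑ j, c (k, j) • v j : W 0).2
      rwa [zero_add, ZMod.natCast_zmod_val] at this) hc p.1 (Finset.mem_univ _)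
    have a2 : (∑ j, c (p.1, j) • v j : W 0) = 0 :=
      Subtype.ext (hfm _ (a1.trans (map_zero _).symm))
    exact Fintype.linearIndependent_iff.1 v.linearIndependent _ a2 p.2
  have sp : ⊤ ≤ Submodule.span Ω
      (Set.range fun p : ZMod d × Fin n => (f ^ p.1.val) (v p.2)) := by
    rw [← h2]
    refine iSup_le fun k x hx => ?_
    have hd : ∀ y ∈ W k, (f ^ d) y ∈ W k := fun y hy => by
      simpa using csC_pow hW d k y hy
    obtain ⟨y, hy⟩ := LinearMap.surjective_of_injective (f := (f ^ d).restrict hd)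
      (fun a b e => Subtype.ext (hfm d (congrArg Subtype.val e))) ⟨x, hx⟩
    have hz : (f ^ (d - k.val)) y ∈ W 0 := by
      have := csC_pow hW (d - k.val) k y y.2
      rwa [Nat.cast_sub (ZMod.val_lt k).le, ZMod.natCast_self, ZMod.natCast_zmod_val, zero_sub,
        add_neg_cancel] at this
    have e : x = (f ^ k.val) ((⟨_, hz⟩ : W 0) : V) := by
      rw [← End.mul_apply, ← pow_add, Nat.add_sub_cancel' (ZMod.val_lt k).le]
      exact (congrArg Subtype.val hy).symm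
    rw [e, ← v.sum_repr ⟨_, hz⟩]
    simp only [AddSubmonoidClass.coe_finsetSum, SetLike.val_smul, map_sum, map_smul]
    exact Submodule.sum_mem _ fun j _ => Submodule.smul_mem _ _
      (Submodule.subset_span ⟨(k, j), rfl⟩)
  exact ⟨Basis.mk li sp, fun k j => Basis.mk_apply _ _ _⟩

theorem csC_unit {n : ℕ} {W : Submodule Ω V} (v : Basis (Fin n) Ω W) {f : End Ω V}
    (hf : Function.Injective f) (hW : ∀ x ∈ W, f x ∈ W) :
    IsUnit (LinearMap.toMatrixAlgEquiv v (f.restrict hW)) :=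
  ((LinearMap.isUnit_iff_ker_eq_bot _).2 (LinearMap.ker_eq_bot.2
    fun _ _ e => Subtype.ext (hf (congrArg Subtype.val e)))).map _

theorem csC_apply {n : ℕ} {W : Submodule Ω V} (v : Basis (Fin n) Ω W) {f : End Ω V}
    (hW : ∀ x ∈ W, f x ∈ W) (j : Fin n) :
    f (v j) = ∑ i, LinearMap.toMatrixAlgEquiv v (f.restrict hW) i j • (v i : V) := by
  have := congrArg Subtype.val (v.sum_repr (f.restrict hW (v j)))
  simp only [AddSubmonoidClass.coe_finsetSum, SetLike.val_smul] at this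
  simp only [LinearMap.toMatrixAlgEquiv_apply]
  exact this.symm

end

section
variable {Ω : Type} [Field Ω] {κ : Type} [Fintype κ] [DecidableEq κ]

theorem csC_conj {ι : Type} (w : Basis ι Ω (κ → Ω)) (e : κ ≃ ι) : ∃ h : GL κ Ω,
    ∀ (a : GL κ Ω) (M : Matrix κ κ Ω),
      (∀ y, (a : Matrix κ κ Ω) *ᵥ w (e y) = ∑ x, M x y • w (e x)) →
      ((h⁻¹ * a * h : GL κ Ω) : Matrix κ κ Ω) = M := by
  let _ := (Pi.basisFun Ω κ).invertibleToMatrix (w.reindex e.symm)
  refine ⟨unitOfInvertible ((Pi.basisFun Ω κ).toMatrix (w.reindex e.symm)), fun a M hM => ?_⟩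
  set h : GL κ Ω := unitOfInvertible ((Pi.basisFun Ω κ).toMatrix (w.reindex e.symm)) with hh
  have h1 : ∀ x y, (h : Matrix κ κ Ω) x y = w (e y) x := fun x y => by
    simp [hh, Basis.toMatrix_apply]
  have h2 : (a : Matrix κ κ Ω) * h = h * M := by
    ext x y
    have := congrFun (hM y) x
    simp only [Matrix.mulVec, dotProduct, Finset.sum_apply, Pi.smul_apply, smul_eq_mul] at this
    simp only [Matrix.mul_apply, h1, this, mul_comm]
  rw [mul_assoc, Units.val_mul, Units.val_mul, h2, ← Matrix.mul_assoc, Units.inv_mul,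
    Matrix.one_mul]

theorem csC_main [IsAlgClosed Ω] (a b : GL κ Ω) (ξ : Ωˣ) (d : ℕ) [NeZero d]
    (hd : orderOf ξ = d)
    (h : (a : Matrix κ κ Ω) * b = (ξ : Ω) • ((b : Matrix κ κ Ω) * a)) :
    ∃ (n : ℕ) (e : κ ≃ ZMod d × Fin n) (h : GL κ Ω) (A B : GL (Fin n) Ω), A * B = B * A ∧
      ((h⁻¹ * a * h : GL κ Ω) : Matrix κ κ Ω) = Matrix.of (fun x y =>
        if (e x).1 = (e y).1 + 1 then
          (if (e x).1 = 0 then (A : Matrix (Fin n) (Fin n) Ω) (e x).2 (e y).2
            else if (e x).2 = (e y).2 then 1 else 0) else 0) ∧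
      ((h⁻¹ * b * h : GL κ Ω) : Matrix κ κ Ω) = Matrix.of (fun x y =>
        if (e x).1 = (e y).1 then
          ((ξ⁻¹ ^ (e x).1.val : Ωˣ) : Ω) * (B : Matrix (Fin n) (Fin n) Ω) (e x).2 (e y).2 else 0) := by
  have inj : ∀ u : GL κ Ω, Function.Injective (Matrix.toLinAlgEquiv' (u : Matrix κ κ Ω)) :=
    fun u => ((Module.End.isUnit_iff _).1 (u.isUnit.map Matrix.toLinAlgEquiv')).1
  set f : End Ω (κ → Ω) := Matrix.toLinAlgEquiv' (a : Matrix κ κ Ω) with hfd
  set g : End Ω (κ → Ω) := Matrix.toLinAlgEquiv' (b : Matrix κ κ Ω) with hgd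
  have hf : Function.Injective f := inj a
  have hg : Function.Injective g := inj b
  have hfg : g * f = ((ξ⁻¹ : Ωˣ) : Ω) • (f * g) := by
    rw [hfd, hgd, ← map_mul, ← map_mul, h, map_smul, smul_smul, Units.inv_mul, one_smul]
  have hpow : ∀ m : ℕ, g * f ^ m = ((ξ⁻¹ ^ m : Ωˣ) : Ω) • (f ^ m * g) := fun m => by
    induction m with
    | zero => simp
    | succ m ih =>
      rw [pow_succ, ← mul_assoc, ih, smul_mul_assoc, mul_assoc, hfg, mul_smul_comm, smul_smul,
        ← mul_assoc, pow_succ, Units.val_mul]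
  obtain ⟨W, h1, h2, h3, h4⟩ := csC_grading f g hg ξ d hd hfg
  set v := Module.finBasis Ω (W 0)
  obtain ⟨w, hw⟩ := csC_basis h1 h2 hf h3 v
  have hd0 : ∀ y ∈ W 0, (f ^ d) y ∈ W 0 := fun y hy => by simpa using csC_pow h3 d 0 y hy
  have hfd' : Function.Injective (f ^ d) := by rw [End.coe_pow]; exact hf.iterate d
  set e := (Pi.basisFun Ω κ).indexEquiv w
  obtain ⟨k, hk⟩ := csC_conj w e
  refine ⟨_, e, k, (csC_unit v hfd' hd0).unit, (csC_unit v hg (h4 0)).unit, Units.ext ?_,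
    hk _ _ fun y => ?_, hk _ _ fun y => ?_⟩
  · rw [Units.val_mul, Units.val_mul, IsUnit.unit_spec, IsUnit.unit_spec, ← map_mul, ← map_mul]
    congr 1
    ext x
    have := LinearMap.congr_fun (hpow d) x
    rw [inv_pow, show ξ ^ d = 1 from hd ▸ pow_orderOf_eq_one ξ, inv_one, Units.val_one,
      one_smul] at this
    exact congrFun this.symm _
  · simp only [Matrix.of_apply, IsUnit.unit_spec]
    rw [e.sum_comp (fun p => (if p.1 = (e y).1 + 1 then (if p.1 = 0 then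
      LinearMap.toMatrixAlgEquiv v ((f ^ d).restrict hd0) p.2 (e y).2
        else if p.2 = (e y).2 then 1 else 0) else 0) • w p), Fintype.sum_prod_type,
      Finset.sum_eq_single ((e y).1 + 1) (fun l _ hl => by simp [hl]) (by simp)]
    obtain ⟨l, j⟩ := e y
    have e1 : (a : Matrix κ κ Ω) *ᵥ w (l, j) = (f ^ (l.val + 1)) (v j) := by
      rw [pow_succ', End.mul_apply, ← hw]; rfl
    have e2 : (l + 1).val = (l.val + 1) % d := by
      rw [← ZMod.val_natCast, Nat.cast_succ, ZMod.natCast_zmod_val]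
    simp only [if_true, e1]
    rcases (Nat.succ_le_of_lt (ZMod.val_lt l)).eq_or_lt with hl | hl
    · have hl' : l.val + 1 = d := hl
      have e3 : l + 1 = 0 := by rw [← ZMod.val_eq_zero, e2, hl', Nat.mod_self]
      simp only [e3, if_true, hw, ZMod.val_zero, pow_zero, End.one_apply, hl']
      exact csC_apply v hd0 j
    · have hl' : l.val + 1 < d := hl
      rw [Nat.mod_eq_of_lt hl'] at e2
      have e3 : l + 1 ≠ 0 := by rw [Ne, ← ZMod.val_eq_zero, e2]; omega
      simp [e3, hw, e2]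
  · simp only [Matrix.of_apply, IsUnit.unit_spec]
    rw [e.sum_comp (fun p => (if p.1 = (e y).1 then ((ξ⁻¹ ^ p.1.val : Ωˣ) : Ω) *
      LinearMap.toMatrixAlgEquiv v (g.restrict (h4 0)) p.2 (e y).2 else 0) • w p),
      Fintype.sum_prod_type, Finset.sum_eq_single (e y).1 (fun l _ hl => by simp [hl]) (by simp)]
    obtain ⟨l, j⟩ := e y
    have e1 : (b : Matrix κ κ Ω) *ᵥ w (l, j) = (g * f ^ l.val) (v j) := by
      rw [End.mul_apply, ← hw]; rfl
    rw [e1]
    simp only [if_true, hpow, LinearMap.smul_apply, End.mul_apply, csC_apply v (h4 0) j,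
      map_sum, map_smul, hw, Finset.smul_sum, smul_smul]

end

end Crest.Agent.R003
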