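import Crest.Agent.R003.Defs2

/-! Row 3: the clock and shift parametrisation of the genus one twisted variety. -/

set_option autoImplicit false
set_option linter.unusedSectionVars false

namespace Crest.Agent.R003

open Matrix

variable {o : Type} [CommRing o] {Ω : Type} [Field Ω] [Algebra o Ω] {κ : Type} [Fintype κ]
  [DecidableEq κ]

section sb
variable {d n : ℕ} [NeZero d] (e : κ ≃ ZMod d × Fin n)

/-- shifted block matrices -/
def cs1dSb (s : ZMod d) (f : ZMod d → Matrix (Fin n) (Fin n) Ω) : Matrix κ κ Ω :=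
  Matrix.of fun x y => if (e x).1 = (e y).1 + s then f (e x).1 (e x).2 (e y).2 else 0

theorem cs1d_mul (s t : ZMod d) (f g : ZMod d → Matrix (Fin n) (Fin n) Ω) :
    cs1dSb e s f * cs1dSb e t g = cs1dSb e (s + t) fun k => f k * g (k - s) := by
  ext x y
  simp only [cs1dSb, Matrix.mul_apply, Matrix.of_apply]
  rw [← e.symm.sum_comp, Fintype.sum_prod_type, Finset.sum_eq_single ((e x).1 - s)]
  · simp only [Equiv.apply_symm_apply, sub_add_cancel, if_true]
    by_cases h : (e x).1 = (e y).1 + (s + t)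
    · have h' : (e x).1 - s = (e y).1 + t := by rw [h]; ring
      simp only [if_pos h, if_pos h']
    · have h' : ¬ (e x).1 - s = (e y).1 + t := fun h' => h (by linear_combination h')
      simp only [if_neg h, if_neg h', mul_zero, Finset.sum_const_zero]
  · intro k _ hk
    have h' : ¬ (e x).1 = k + s := fun h' => hk (by rw [h']; ring)
    simp only [Equiv.apply_symm_apply, if_neg h', zero_mul, Finset.sum_const_zero]
  · simp

theorem cs1d_one : cs1dSb e 0 (fun _ => (1 : Matrix (Fin n) (Fin n) Ω)) = 1 := by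
  ext x y
  simp only [cs1dSb, Matrix.of_apply, add_zero, Matrix.one_apply, ← e.injective.eq_iff,
    Prod.ext_iff, ite_and]

theorem cs1d_smul (c : Ω) (s : ZMod d) (f : ZMod d → Matrix (Fin n) (Fin n) Ω) :
    c • cs1dSb e s f = cs1dSb e s fun k => c • f k := by
  ext x y
  simp only [cs1dSb, Matrix.of_apply, Matrix.smul_apply, smul_eq_mul, mul_ite, mul_zero]

theorem cs1d_good {X : Type} [Coord Ω X] (s : ZMod d) {f : X → ZMod d → Matrix (Fin n) (Fin n) Ω}
    (hf : ∀ k, Good o Ω fun x => f x k) : Good o Ω fun x => cs1dSb e s (f x) :=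
  good_matrix fun _ _ => Good.ite ((hf _).entry _ _) Good.zero

/-- the shift -/
def cs1dS (A : GL (Fin n) Ω) : GL κ Ω :=
  ⟨cs1dSb e 1 fun k => if k = 0 then (A : Matrix (Fin n) (Fin n) Ω) else 1,
    cs1dSb e (-1) fun k => if k + 1 = 0 then ((A⁻¹ : GL (Fin n) Ω) : Matrix (Fin n) (Fin n) Ω) else 1,
    by
      rw [cs1d_mul, add_neg_cancel, ← cs1d_one e]
      congr 1
      funext k
      by_cases h : k = 0 <;> simp [h],
    by
      rw [cs1d_mul, neg_add_cancel, ← cs1d_one e]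
      congr 1
      funext k
      by_cases h : k + 1 = 0 <;> simp [h]⟩

/-- the clock -/
def cs1dT (ζ : Ωˣ) (B : GL (Fin n) Ω) : GL κ Ω :=
  ⟨cs1dSb e 0 fun k => ((ζ⁻¹ ^ k.val : Ωˣ) : Ω) • (B : Matrix (Fin n) (Fin n) Ω),
    cs1dSb e 0 fun k => ((ζ ^ k.val : Ωˣ) : Ω) • ((B⁻¹ : GL (Fin n) Ω) : Matrix (Fin n) (Fin n) Ω),
    by
      rw [cs1d_mul, add_zero, ← cs1d_one e]
      congr 1
      funext k
      rw [sub_zero, Matrix.smul_mul, Matrix.mul_smul, smul_smul, Units.mul_inv, ← Units.val_mul,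
        ← mul_pow, inv_mul_cancel, one_pow, Units.val_one, one_smul],
    by
      rw [cs1d_mul, add_zero, ← cs1d_one e]
      congr 1
      funext k
      rw [sub_zero, Matrix.smul_mul, Matrix.mul_smul, smul_smul, Units.inv_mul, ← Units.val_mul,
        ← mul_pow, mul_inv_cancel, one_pow, Units.val_one, one_smul]⟩

theorem cs1d_rel {ζ : Ωˣ} (hd : orderOf ζ = d) {A B : GL (Fin n) Ω} (h : A * B = B * A) :
    (cs1dS e A : Matrix κ κ Ω) * cs1dT e ζ B =
      (ζ : Ω) • ((cs1dT e ζ B : Matrix κ κ Ω) * cs1dS e A) := by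
  simp only [cs1dS, cs1dT]
  rw [cs1d_mul, cs1d_mul, cs1d_smul, add_zero, zero_add]
  congr 1
  funext k
  have h1 : ζ⁻¹ ^ (k - 1).val = ζ * ζ⁻¹ ^ k.val := by
    rw [← inv_mul_eq_iff_eq_mul, ← pow_succ', pow_eq_pow_iff_modEq, orderOf_inv, hd,
      ← ZMod.natCast_eq_natCast_iff]
    simp
  have h2 : (A : Matrix (Fin n) (Fin n) Ω) * B = B * A := by
    rw [← Units.val_mul, h, Units.val_mul]
  rw [h1, sub_zero, Matrix.mul_smul, Matrix.smul_mul, smul_smul, Units.val_mul]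
  split_ifs
  · rw [h2]
  · rw [Matrix.one_mul, Matrix.mul_one]

theorem cs1d_goodS {X : Type} [Coord Ω X] {A : X → GL (Fin n) Ω} (hA : Good o Ω A) :
    Good o Ω fun x => cs1dS e (A x) :=
  good_units (cs1d_good e 1 (f := fun x k => if k = 0 then (A x : Matrix (Fin n) (Fin n) Ω) else 1)
      fun _ => Good.ite hA.uval Good.mone)
    (cs1d_good e (-1) (f := fun x k => if k + 1 = 0 then
      (((A x)⁻¹ : GL (Fin n) Ω) : Matrix (Fin n) (Fin n) Ω) else 1)
      fun _ => Good.ite hA.uinv.uval Good.mone)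

theorem cs1d_goodT (ξ : oˣ) {X : Type} [Coord Ω X] {B : X → GL (Fin n) Ω} (hB : Good o Ω B) :
    Good o Ω fun x => cs1dT e (Units.map (algebraMap o Ω : o →* Ω) ξ) (B x) := by
  refine good_units (cs1d_good e 0 (f := fun x k =>
      (((Units.map (algebraMap o Ω : o →* Ω) ξ)⁻¹ ^ k.val : Ωˣ) : Ω) •
        (B x : Matrix (Fin n) (Fin n) Ω)) fun k => Good.msmul (Good.const ?_) hB.uval)
    (cs1d_good e 0 (f := fun x k =>
      (((Units.map (algebraMap o Ω : o →* Ω) ξ) ^ k.val : Ωˣ) : Ω) •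
        (((B x)⁻¹ : GL (Fin n) Ω) : Matrix (Fin n) (Fin n) Ω))
      fun k => Good.msmul (Good.const ?_) hB.uinv.uval)
  · rw [← map_inv, ← map_pow]
    exact isInt_algebraMap _
  · rw [← map_pow]
    exact isInt_algebraMap _

end sb

theorem cs1d_cm_iff (a b : GL κ Ω) (c : Ω) :
    ((hprod (fun _ : Fin 1 => (a, b)) : GL κ Ω) : Matrix κ κ Ω) = c • (1 : Matrix κ κ Ω) ↔
      (a : Matrix κ κ Ω) * b = c • ((b : Matrix κ κ Ω) * a) := by
  have e1 : hprod (fun _ : Fin 1 => (a, b)) = (a * b) * (b * a)⁻¹ := by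
    simp [hprod, List.finRange_succ, mul_assoc]
  rw [e1, Units.val_mul, Units.mul_inv_eq_iff_eq_mul, Matrix.smul_mul, Matrix.one_mul,
    Units.val_mul, Units.val_mul]

theorem cs1d_conj {a b : GL κ Ω} {c : Ω} (h : GL κ Ω)
    (hab : (a : Matrix κ κ Ω) * b = c • ((b : Matrix κ κ Ω) * a)) :
    ((h * a * h⁻¹ : GL κ Ω) : Matrix κ κ Ω) * (h * b * h⁻¹ : GL κ Ω) =
      c • (((h * b * h⁻¹ : GL κ Ω) : Matrix κ κ Ω) * (h * a * h⁻¹ : GL κ Ω)) := by
  have e1 : ∀ u v : GL κ Ω, ((h * u * h⁻¹ : GL κ Ω) : Matrix κ κ Ω) * (h * v * h⁻¹ : GL κ Ω) =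
      (h : Matrix κ κ Ω) * ((u : Matrix κ κ Ω) * v) * (h⁻¹ : GL κ Ω) := by
    intro u v
    rw [← Units.val_mul, ← Units.val_mul, ← Units.val_mul, ← Units.val_mul]
    congr 1
    group
  rw [e1, e1, hab, Matrix.mul_smul, Matrix.smul_mul]

theorem cs1d_order [Nonempty κ] {a b : GL κ Ω} {ζ : Ωˣ}
    (hab : (a : Matrix κ κ Ω) * b = (ζ : Ω) • ((b : Matrix κ κ Ω) * a)) : orderOf ζ ≠ 0 := by
  have h1 := congrArg Matrix.det hab
  rw [Matrix.det_smul, Matrix.det_mul_comm] at h1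
  have h2 : ((b : Matrix κ κ Ω) * a).det ≠ 0 := by
    rw [← Units.val_mul]
    exact (Matrix.isUnits_det_units (b * a)).ne_zero
  have h3 : ζ ^ Fintype.card κ = 1 := by
    ext
    rw [Units.val_pow_eq_pow_val, Units.val_one]
    exact (mul_left_eq_self₀.1 h1.symm).resolve_right h2
  exact (isOfFinOrder_iff_pow_eq_one.2 ⟨_, Fintype.card_pos, h3⟩).orderOf_pos.ne'

theorem cs1d_inZ (hB : Big o Ω) (ξ : oˣ) (x : CSV Ω κ 1 (algebraMap o Ω (ξ : o))) {d n : ℕ}
    [NeZero d] (hd : orderOf (Units.map (algebraMap o Ω : o →* Ω) ξ) = d)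
    (e : κ ≃ ZMod d × Fin n) (h : GL κ Ω)
    (p : {p : GL (Fin n) Ω × GL (Fin n) Ω // p.1 * p.2 = p.2 * p.1}) (hp : InZ o Ω p)
    (h1 : h⁻¹ * (x.1 0).1 * h = cs1dS e p.1.1)
    (h2 : h⁻¹ * (x.1 0).2 * h = cs1dT e (Units.map (algebraMap o Ω : o →* Ω) ξ) p.1.2) :
    InZ o Ω x := by
  let F : GL κ Ω × {p : GL (Fin n) Ω × GL (Fin n) Ω // p.1 * p.2 = p.2 * p.1} →
      CSV Ω κ 1 (algebraMap o Ω (ξ : o)) := fun q =>
    ⟨fun _ => (q.1 * cs1dS e q.2.1.1 * q.1⁻¹,
        q.1 * cs1dT e (Units.map (algebraMap o Ω : o →* Ω) ξ) q.2.1.2 * q.1⁻¹),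
      (cs1d_cm_iff _ _ _).2 (cs1d_conj _ (cs1d_rel e hd q.2.2))⟩
  have hF : Good o Ω F := by
    refine Good.subtypeMk (Good.pi fun _ => Good.prodMk ?_ ?_) _
    · exact (Good.id.fst.glmul (cs1d_goodS e Good.id.snd.val.fst)).glmul Good.id.fst.uinv
    · exact (Good.id.fst.glmul (cs1d_goodT e ξ Good.id.snd.val.snd)).glmul Good.id.fst.uinv
  have hx : F (h, p) = x := by
    refine Subtype.ext (funext fun i => ?_)
    rw [Subsingleton.elim i 0]
    refine Prod.ext ?_ ?_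
    · show h * cs1dS e p.1.1 * h⁻¹ = _
      rw [← h1]; group
    · show h * cs1dT e _ p.1.2 * h⁻¹ = _
      rw [← h2]; group
  rw [← hx]
  exact hF.inZ ((hB.inZ_GL h).prodMk hp)

end Crest.Agent.R003
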