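import Crest.Agent.R003.Sep
import Crest.Agent.R003.CS1AuxA
import Crest.Agent.R003.CS1AuxD
import Crest.Agent.R003.CS1AuxC
import Crest.Agent.R003.CS1Aux6

/-! Row 3: commuting pairs (Motzkin-Taussky) and genus one. -/

set_option autoImplicit false
set_option linter.unusedSectionVars false

namespace Crest.Agent.R003

open Matrix

variable {o : Type} [CommRing o] {Ω : Type} [Field Ω] [Algebra o Ω] {κ : Type} [Fintype κ]
  [DecidableEq κ]

/-- Every matrix `B` commutes with a matrix `R` having a cyclic vector.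
Structure theorem (`Module.equiv_directSum_of_isTorsion` for `Module.AEval'`):
`V ≅ ⨁ Ω[X] / (X - λ i)^(e i)`; `R` acts on the summand `i` as `X + c i` with the `λ i + c i`
distinct; `v = (1, ..., 1)` is cyclic by the Chinese remainder theorem. -/
theorem exists_cyclic_comm [IsAlgClosed Ω] (B : Matrix κ κ Ω) :
    ∃ (R : Matrix κ κ Ω) (v : κ → Ω), R * B = B * R ∧
      ∀ w : κ → Ω, ∃ p : Polynomial Ω, (Polynomial.aeval R p) *ᵥ v = w := by
  exact cs1a_exists_cyclic_comm B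

/-- cyclicity is open along a line: by Cayley-Hamilton `v` is cyclic for `A` iff the vectors
`A ^ k *ᵥ v`, `k < card κ`, have nonzero determinant; along the line this is a polynomial in `t`
which does not vanish at `t = 1`. -/
theorem cyclic_line (A R : Matrix κ κ Ω) (v : κ → Ω)
    (h : ∀ w : κ → Ω, ∃ p : Polynomial Ω, (Polynomial.aeval R p) *ᵥ v = w) :
    {t : Ω | ¬ ∀ w : κ → Ω, ∃ p : Polynomial Ω,
      (Polynomial.aeval (A + t • (R - A)) p) *ᵥ v = w}.Finite := by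
  exact cs1a_cyclic_line A R v h

/-- commuting pairs of invertible matrices -/
abbrev Comm (Ω : Type) [Field Ω] (κ : Type) [Fintype κ] [DecidableEq κ] : Type :=
  {p : GL κ Ω × GL κ Ω // p.1 * p.2 = p.2 * p.1}

/-- simultaneously diagonalisable pairs: image of `GL × torus × torus` under a good map -/
theorem comm_diag_inZ (hB : Big o Ω) (x : Comm Ω κ) (h : GL κ Ω) (s t : κ → Ω)
    (h1 : (x.1.1 : Matrix κ κ Ω) = h * diagonal s * ((h⁻¹ : GL κ Ω) : Matrix κ κ Ω))
    (h2 : (x.1.2 : Matrix κ κ Ω) = h * diagonal t * ((h⁻¹ : GL κ Ω) : Matrix κ κ Ω)) :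
    InZ o Ω x := by
  let F : GL κ Ω × (κ → Ωˣ) × (κ → Ωˣ) → Comm Ω κ := fun q =>
    ⟨(q.1 * c6D q.2.1 * q.1⁻¹, q.1 * c6D q.2.2 * q.1⁻¹), by
      simp only [mul_assoc, inv_mul_cancel_left]
      rw [← mul_assoc (c6D q.2.1), c6D_comm, mul_assoc]⟩
  have hF : Good o Ω F := good_subtype_iff.2
    (((Good.id.fst.glmul (good_c6D Good.id.snd.fst)).glmul Good.id.fst.uinv).prodMk
      ((Good.id.fst.glmul (good_c6D Good.id.snd.snd)).glmul Good.id.fst.uinv))
  have := hF.inZ (x := (h, fun i => Units.mk0 (s i) (c6_diag_ne h1 i),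
      fun i => Units.mk0 (t i) (c6_diag_ne h2 i)))
    ((hB.inZ_GL h).prodMk ((InZ.pi fun i => hB.inZ_unit _).prodMk
      (InZ.pi fun i => hB.inZ_unit _)))
  convert this using 1
  exact Subtype.ext (Prod.ext (Units.ext h1) (Units.ext h2))

/-- pairs `(A, p A)`: the regular map `A' ↦ (A', p A')` on `Loc (det A' * det (p A'))`,
`Cl_separable`, `Cl_loc`, `diag_of_separable`. -/
theorem comm_poly_inZ [IsAlgClosed Ω] [CharZero Ω] (hB : Big o Ω) (x : Comm Ω κ)
    (p : Polynomial Ω) (h : (x.1.2 : Matrix κ κ Ω) = Polynomial.aeval (x.1.1 : Matrix κ κ Ω) p) :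
    InZ o Ω x := by
  let δ : Matrix κ κ Ω → Ω := fun A => A.det * (Polynomial.aeval A p).det
  have hδ : Good Ω Ω δ := Good.id.det.mul (Good.polyAeval p Good.id).det
  have e1 : ∀ q : Loc δ, (((q.1.2⁻¹ : Ωˣ) : Ω) * (Polynomial.aeval q.1.1 p).det) * q.1.1.det = 1 :=
    fun q => by
      rw [mul_assoc, mul_comm _ q.1.1.det]
      exact (congrArg _ q.2.symm).trans q.1.2.inv_mul
  have e2 : ∀ q : Loc δ, (((q.1.2⁻¹ : Ωˣ) : Ω) * q.1.1.det) * (Polynomial.aeval q.1.1 p).det = 1 :=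
    fun q => by
      rw [mul_assoc]
      exact (congrArg _ q.2.symm).trans q.1.2.inv_mul
  let F : Loc δ → Comm Ω κ := fun q =>
    ⟨(c6U _ _ (e1 q), c6U _ _ (e2 q)), Units.ext (c6_comm_aeval q.1.1 p)⟩
  have hF : Good Ω Ω F := good_subtype_iff.2
    ((good_c6U Good.id.val.fst (Good.id.val.snd.uinv.uval.mul
        (Good.polyAeval p Good.id.val.fst).det) e1).prodMk
      (good_c6U (Good.polyAeval p Good.id.val.fst)
        (Good.id.val.snd.uinv.uval.mul Good.id.val.fst.det) e2))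
  have hne : δ (x.1.1 : Matrix κ κ Ω) ≠ 0 := by
    refine mul_ne_zero (Matrix.GeneralLinearGroup.det_ne_zero _) ?_
    rw [← h]
    exact Matrix.GeneralLinearGroup.det_ne_zero _
  have h1 := Cl_loc hδ ⟨((x.1.1 : Matrix κ κ Ω), Units.mk0 _ hne), rfl⟩ (Cl_separable _)
  have h2 := hF.map_Cl (T := {y : Comm Ω κ | IsInt o Ω y}) (fun q hq => by
    obtain ⟨g, t, -, hg⟩ := diag_of_separable hq
    refine comm_diag_inZ hB (F q) g t (fun i => p.eval (t i)) hg ?_
    rw [← c6_aeval_conj, ← hg]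
    rfl) h1
  have e : F ⟨((x.1.1 : Matrix κ κ Ω), Units.mk0 _ hne), rfl⟩ = x :=
    Subtype.ext (Prod.ext (Units.ext rfl) (Units.ext h.symm))
  exact e ▸ h2

/-- Motzkin-Taussky: move `A` along the line to `R` (`Cl_curve` with `q t = det (A + t (R - A))`);
a matrix commuting with a cyclic matrix is a polynomial in it. -/
theorem comm_inZ [IsAlgClosed Ω] [CharZero Ω] (hB : Big o Ω) (x : Comm Ω κ) : InZ o Ω x := by
  obtain ⟨R, v, hRB, hv⟩ := exists_cyclic_comm (x.1.2 : Matrix κ κ Ω)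
  have hAB : (x.1.1 : Matrix κ κ Ω) * x.1.2 = x.1.2 * x.1.1 := congrArg Units.val x.2
  let L : Ω → Matrix κ κ Ω := fun t => (x.1.1 : Matrix κ κ Ω) + t • (R - x.1.1)
  have hL : Good Ω Ω L := (Good.const' _).madd (Good.id.msmul (Good.const' _))
  have hLB : ∀ t, L t * x.1.2 = x.1.2 * L t := fun t => by
    simp only [L, add_mul, mul_add, Matrix.smul_mul, Matrix.mul_smul, sub_mul, mul_sub, hAB, hRB]
  let q : Ω → Ω := fun t => (L t).det
  have hq : Good Ω Ω q := hL.det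
  have e1 : ∀ p : Loc q, ((p.1.2⁻¹ : Ωˣ) : Ω) * (L p.1.1).det = 1 := fun p =>
    (congrArg _ p.2.symm).trans p.1.2.inv_mul
  let γ : Loc q → Comm Ω κ := fun p => ⟨(c6U _ _ (e1 p), x.1.2), Units.ext (hLB p.1.1)⟩
  have hγ : Good Ω Ω γ := good_subtype_iff.2
    ((good_c6U (hL.comp Good.id.val.fst) Good.id.val.snd.uinv.uval e1).prodMk (Good.const' _))
  have hq0 : q 0 ≠ 0 := by
    simp only [q, L, zero_smul, add_zero]
    exact Matrix.GeneralLinearGroup.det_ne_zero _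
  have hfin : {t : Ω | q t = 0}.Finite := by
    by_contra hinf
    exact hq0 (Cl.eq_zero (Cl_of_infinite hinf 0) hq fun y hy => hy)
  have hinf := (hfin.union (cyclic_line (x.1.1 : Matrix κ κ Ω) R v hv)).infinite_compl
  have h1 := Cl_curve hq hγ (T := {y : Comm Ω κ | IsInt o Ω y}) (hinf.mono fun t ht => by
    simp only [Set.mem_compl_iff, Set.mem_union, Set.mem_setOf_eq, not_or, not_not] at ht
    refine ⟨⟨(t, Units.mk0 _ ht.1), rfl⟩, rfl, ?_⟩
    obtain ⟨p, hp⟩ := c6_comm_cyclic (hLB t) ht.2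
    exact comm_poly_inZ hB _ p hp) ⟨(0, Units.mk0 _ hq0), rfl⟩
  have e : γ ⟨(0, Units.mk0 _ hq0), rfl⟩ = x :=
    Subtype.ext (Prod.ext (Units.ext (by simp [γ, c6U_val, L])) rfl)
  exact e ▸ h1

/-- clock and shift normal form.  `a b = ξ b a`, `ξ` has order `d` (if `κ` is nonempty, take
determinants).  `a` permutes the generalised eigenspaces of `b` (`λ ↦ ξ⁻¹ λ`).  Let `V₀` be the sum
of the generalised eigenspaces for a set of representatives of `Ωˣ / ⟨ξ⟩`; then
`V = ⨁_{k<d} a^k V₀`; the columns of `h` are the `a^k v_j`. -/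
theorem clock_shift [IsAlgClosed Ω] (a b : GL κ Ω) (ξ : Ωˣ) (d : ℕ) [NeZero d]
    (hd : orderOf ξ = d)
    (h : (a : Matrix κ κ Ω) * b = (ξ : Ω) • ((b : Matrix κ κ Ω) * a)) :
    ∃ (n : ℕ) (e : κ ≃ ZMod d × Fin n) (h : GL κ Ω) (A B : GL (Fin n) Ω), A * B = B * A ∧
      ((h⁻¹ * a * h : GL κ Ω) : Matrix κ κ Ω) = Matrix.of (fun x y =>
        if (e x).1 = (e y).1 + 1 then
          (if (e x).1 = 0 then (A : Matrix (Fin n) (Fin n) Ω) (e x).2 (e y).2
            else if (e x).2 = (e y).2 then 1 else 0) else 0) ∧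
      ((h⁻¹ * b * h : GL κ Ω) : Matrix κ κ Ω) = Matrix.of (fun x y =>
        if (e x).1 = (e y).1 then
          ((ξ⁻¹ ^ (e x).1.val : Ωˣ) : Ω) * (B : Matrix (Fin n) (Fin n) Ω) (e x).2 (e y).2 else 0) := by
  exact csC_main a b ξ d hd h

/-- genus one: the good map `GL κ × Comm (Fin n) → CSV` given by the formulas of `clock_shift`
(with explicit inverses) hits the point. -/
theorem cs_one [IsAlgClosed Ω] [CharZero Ω] (hB : Big o Ω) (ξ : oˣ)
    (x : CSV Ω κ 1 (algebraMap o Ω (ξ : o))) : InZ o Ω x := by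
  rcases isEmpty_or_nonempty κ with hκ | hκ
  · have h0 : ∀ g : GL κ Ω, IsInt o Ω g := fun g =>
      isInt_units.2 ⟨isInt_matrix.2 fun i => isEmptyElim i, isInt_matrix.2 fun i => isEmptyElim i⟩
    exact IsInt.inZ (isInt_subtype.2 (isInt_pi.2 fun i => isInt_prod.2 ⟨h0 _, h0 _⟩))
  have hx : x.1 = fun _ => ((x.1 0).1, (x.1 0).2) := funext fun i => by rw [Subsingleton.elim i 0]
  have hab := (cs1d_cm_iff (x.1 0).1 (x.1 0).2 (algebraMap o Ω (ξ : o))).1 (hx ▸ x.2)
  have : NeZero (orderOf (Units.map (algebraMap o Ω : o →* Ω) ξ)) :=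
    ⟨cs1d_order (ζ := Units.map (algebraMap o Ω : o →* Ω) ξ) hab⟩
  obtain ⟨n, e, h, A, B, hAB, h1, h2⟩ := clock_shift (x.1 0).1 (x.1 0).2
    (Units.map (algebraMap o Ω : o →* Ω) ξ) _ rfl hab
  refine cs1d_inZ hB ξ x rfl e h ⟨(A, B), hAB⟩ (comm_inZ hB _) (Units.ext (h1.trans ?_))
    (Units.ext (h2.trans ?_))
  · ext a b
    simp only [cs1dS, cs1dSb, Matrix.of_apply]
    by_cases c1 : (e a).1 = (e b).1 + 1
    · by_cases c2 : (e a).1 = 0
      · simp only [if_pos c1, if_pos c2]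
      · simp only [if_pos c1, if_neg c2, Matrix.one_apply]
    · simp only [if_neg c1]
  · ext a b
    simp only [cs1dT, cs1dSb, Matrix.of_apply, add_zero, Matrix.smul_apply, smul_eq_mul]

theorem cs_zero (ξ : oˣ) (x : CSV Ω κ 0 (algebraMap o Ω (ξ : o))) : InZ o Ω x :=
  IsInt.inZ (isInt_subtype.2 (isInt_pi.2 fun i => i.elim0))

/-- size at most one: the commutators are trivial; if the variety is nonempty it is all of
`GL ^ (2 g)` -/
theorem cs_small (hB : Big o Ω) (h : Fintype.card κ ≤ 1) : CS Ω κ o := by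
  intro g ξ x
  haveI : Subsingleton κ := Fintype.card_le_one_iff_subsingleton.1 h
  let F : (Fin g → GL κ Ω × GL κ Ω) → CSV Ω κ g (algebraMap o Ω (ξ : o)) := fun ab =>
    ⟨ab, by rw [← x.2, c6_hprod_one, c6_hprod_one]⟩
  have hF : Good o Ω F := good_subtype_iff.2 Good.id
  exact hF.inZ (x := x.1) (InZ.pi fun i => (hB.inZ_GL _).prodMk (hB.inZ_GL _))

end Crest.Agent.R003
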