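import Crest.Agent.R003.Krull
import Crest.Agent.R003.Bound

/-! Row 3: generic points of the closed surface varieties. -/

set_option autoImplicit false
set_option linter.unusedSectionVars false

namespace Crest.Agent.R003

open Matrix

variable {o : Type} [CommRing o] {Ω : Type} [Field Ω] [Algebra o Ω] {κ : Type} [Fintype κ]
  [DecidableEq κ] {g : ℕ}

/-- matrix positions -/
abbrev GenM (κ : Type) : Type := Σ _ : κ, Σ _ : κ, Unit

/-- the variables -/
abbrev GenV (κ : Type) (g : ℕ) : Type := Σ _ : Fin g, (GenM κ ⊕ GenM κ) ⊕ (GenM κ ⊕ GenM κ)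

/-- the variable of handle `i`, generator `s`, inverse or not `t`, position `p` -/
def genVar (i : Fin g) : Bool → Bool → GenM κ → GenV κ g
  | true, false, p => ⟨i, Sum.inl (Sum.inl p)⟩
  | true, true, p => ⟨i, Sum.inl (Sum.inr p)⟩
  | false, false, p => ⟨i, Sum.inr (Sum.inl p)⟩
  | false, true, p => ⟨i, Sum.inr (Sum.inr p)⟩

/-- matrices of variables -/
def genMat {R : Type} (y : GenV κ g → R) (i : Fin g) (s t : Bool) : Matrix κ κ R :=
  Matrix.of fun a b => y (genVar i s t ⟨a, b, ()⟩)

/-- the product of the commutators -/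
def genH {R : Type} [CommRing R] (y : GenV κ g → R) : Matrix κ κ R :=
  ((List.finRange g).map fun i => genMat y i true false * genMat y i false false *
    genMat y i true true * genMat y i false true).prod

theorem genH_map {R S : Type} [CommRing R] [CommRing S] (φ : R →+* S) (y : GenV κ g → R) :
    (genH y).map φ = genH (fun s => φ (y s)) := by
  have := map_list_prod (φ.mapMatrix (m := κ)) ((List.finRange g).map fun i =>
    genMat y i true false * genMat y i false false * genMat y i true true * genMat y i false true)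
  rw [List.map_map] at this
  refine this.trans ?_
  unfold genH
  congr 1
  refine List.map_congr_left fun i _ => ?_
  simp only [Function.comp, map_mul]
  rfl

theorem genMat_mul_map {R S : Type} [CommRing R] [CommRing S] (φ : R →+* S) (y : GenV κ g → R)
    (i : Fin g) (s : Bool) : (genMat y i s false * genMat y i s true).map φ =
      genMat (fun s => φ (y s)) i s false * genMat (fun s => φ (y s)) i s true := by
  rw [Matrix.map_mul]; rfl

/-- coordinates of a representation -/
def genCo (ρ : Fin g → GL κ Ω × GL κ Ω) : GenV κ g → Ω := fun s => Coord.c (Ω := Ω) s ρ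

theorem genH_co (ρ : Fin g → GL κ Ω × GL κ Ω) :
    genH (genCo ρ) = ((hprod ρ : GL κ Ω) : Matrix κ κ Ω) := by
  have := map_list_prod (Units.coeHom (Matrix κ κ Ω))
    ((List.finRange g).map fun i => cm (ρ i).1 (ρ i).2)
  rw [List.map_map] at this
  exact this.symm

theorem genMat_co (ρ : Fin g → GL κ Ω × GL κ Ω) (i : Fin g) (s : Bool) :
    genMat (genCo ρ) i s false * genMat (genCo ρ) i s true = 1 := by
  cases s
  · exact Units.mul_inv (ρ i).2
  · exact Units.mul_inv (ρ i).1

theorem gen_exists (y : GenV κ g → Ω) (h : ∀ i s, genMat y i s false * genMat y i s true = 1) :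
    ∃ ρ : Fin g → GL κ Ω × GL κ Ω, genCo ρ = y := by
  refine ⟨fun i => (⟨_, _, h i true, mul_eq_one_comm.1 (h i true)⟩,
    ⟨_, _, h i false, mul_eq_one_comm.1 (h i false)⟩), ?_⟩
  funext s
  rcases s with ⟨i, (⟨a, b, _⟩ | ⟨a, b, _⟩) | (⟨a, b, _⟩ | ⟨a, b, _⟩)⟩ <;> rfl

theorem gen_det_hprod (ρ : Fin g → GL κ Ω × GL κ Ω) :
    ((hprod ρ : GL κ Ω) : Matrix κ κ Ω).det = 1 := by
  have : Matrix.GeneralLinearGroup.det (hprod ρ) = 1 := by
    unfold hprod
    rw [map_list_prod, List.map_map]
    refine List.prod_eq_one fun x hx => ?_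
    obtain ⟨i, -, rfl⟩ := List.mem_map.1 hx
    simp only [Function.comp, map_mul, map_inv]
    rw [mul_comm (Matrix.GeneralLinearGroup.det (ρ i).1), mul_inv_cancel_right, mul_inv_cancel]
  exact congrArg Units.val this

theorem gen_der_zero {k : Type} [CommRing k] [Algebra k Ω] (ρ : Fin g → GL κ Ω × GL κ Ω)
    {D : Derivation k Ω Ω} (hD : dco k ρ D = 0) (s : GenV κ g) : D (genCo ρ s) = 0 := by
  have key : ∀ u : GL κ Ω, (u : Matrix κ κ Ω).map D * ((u⁻¹ : GL κ Ω) : Matrix κ κ Ω) = 0 →
      (u : Matrix κ κ Ω).map D = 0 ∧ ((u⁻¹ : GL κ Ω) : Matrix κ κ Ω).map D = 0 := by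
    intro u hu
    have h1 : (u : Matrix κ κ Ω).map D = 0 := by
      have := congrArg (· * (u : Matrix κ κ Ω)) hu
      simpa only [Matrix.mul_assoc, Units.inv_mul, Matrix.mul_one, Matrix.zero_mul] using this
    have h2 := map_mul_der D ((u⁻¹ : GL κ Ω) : Matrix κ κ Ω) (u : Matrix κ κ Ω)
    have h3 : (1 : Matrix κ κ Ω).map D = 0 := by
      ext a b
      by_cases h : a = b <;> simp [h]
    rw [Units.inv_mul, h1, h3, Matrix.mul_zero, add_zero] at h2
    refine ⟨h1, ?_⟩
    have := congrArg (· * ((u⁻¹ : GL κ Ω) : Matrix κ κ Ω)) h2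
    simpa only [Matrix.mul_assoc, Units.mul_inv, Matrix.mul_one, Matrix.zero_mul] using this.symm
  rcases s with ⟨i, (⟨a, b, _⟩ | ⟨a, b, _⟩) | (⟨a, b, _⟩ | ⟨a, b, _⟩)⟩
  · exact congrFun (congrFun (key _ (congrArg Prod.fst (congrFun hD i))).1 a) b
  · exact congrFun (congrFun (key _ (congrArg Prod.fst (congrFun hD i))).2 a) b
  · exact congrFun (congrFun (key _ (congrArg Prod.snd (congrFun hD i))).1 a) b
  · exact congrFun (congrFun (key _ (congrArg Prod.snd (congrFun hD i))).2 a) b

/-- Apply `exists_generic` with the variables `Coord.κ` (entries of the `2 g` matrices and of their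
inverses, `4 g m²` variables), the `2 g m²` equations `γ * γ' = 1` and the `m² - 1` equations
`(∏ [a,b]) i j = ξ δ i j` for `(i,j) ≠ (i₀,i₀)` (the last one follows from `det = 1 = ξ ^ m`).
The map `D ↦ (D x' s)_s` factors through `dco` (since `D γ' = - γ' (D γ) γ'`), hence the rank. -/
theorem exists_generic_CSV [CharZero Ω] [Nonempty κ] (hg : 1 ≤ g) (ξ : Ω) (x : CSV Ω κ g ξ) :
    ∃ (K : Type) (_ : Field K) (_ : Algebra Ω K) (_ : IsAlgClosed K)
      (x' : CSV K κ g (algebraMap Ω K ξ)),
      (∀ F : MvPolynomial (Coord.κ Ω (CSV Ω κ g ξ)) Ω,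
        MvPolynomial.aeval (fun s => Coord.c (Ω := K) (X := CSV K κ g (algebraMap Ω K ξ)) s x') F = 0 →
        MvPolynomial.eval (fun s => Coord.c s x) F = 0) ∧
      (2 * g - 1) * Fintype.card κ ^ 2 + 1 ≤ Module.finrank K (LinearMap.range (dco Ω x'.1)) := by
  classical
  obtain ⟨i₀⟩ := ‹Nonempty κ›
  let f : (Fin g × Bool × κ × κ) ⊕ {p : κ × κ // p ≠ (i₀, i₀)} → MvPolynomial (GenV κ g) Ω :=
    Sum.elim (fun q => (genMat MvPolynomial.X q.1 q.2.1 false * genMat MvPolynomial.X q.1 q.2.1 true :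
        Matrix κ κ (MvPolynomial (GenV κ g) Ω)) q.2.2.1 q.2.2.2 - (1 : Matrix κ κ _) q.2.2.1 q.2.2.2)
      (fun p => genH MvPolynomial.X p.1.1 p.1.2 - MvPolynomial.C ξ * (1 : Matrix κ κ _) p.1.1 p.1.2)
  have hf : ∀ {K : Type} [CommRing K] (φ : MvPolynomial (GenV κ g) Ω →+* K),
      (∀ q : Fin g × Bool × κ × κ, φ (f (Sum.inl q)) =
        (genMat (fun s => φ (MvPolynomial.X s)) q.1 q.2.1 false *
          genMat (fun s => φ (MvPolynomial.X s)) q.1 q.2.1 true) q.2.2.1 q.2.2.2 -
          (1 : Matrix κ κ K) q.2.2.1 q.2.2.2) ∧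
      ∀ p : {p : κ × κ // p ≠ (i₀, i₀)}, φ (f (Sum.inr p)) =
        genH (fun s => φ (MvPolynomial.X s)) p.1.1 p.1.2 -
          φ (MvPolynomial.C ξ) * (1 : Matrix κ κ K) p.1.1 p.1.2 := by
    intro K _ φ
    have h1 : ∀ a b : κ, φ ((1 : Matrix κ κ _) a b) = (1 : Matrix κ κ K) a b := fun a b => by
      simp [Matrix.one_apply, apply_ite φ]
    refine ⟨fun q => ?_, fun p => ?_⟩
    · rw [← genMat_mul_map, ← h1, Matrix.map_apply, ← map_sub]; rfl
    · rw [← genH_map, ← h1, Matrix.map_apply, ← map_mul, ← map_sub]; rfl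
  obtain ⟨K, _, _, _, y, h1, h2, T, hT, hD⟩ := exists_generic f (genCo x.1) (by
    obtain ⟨e1, e2⟩ := hf (MvPolynomial.eval (genCo x.1))
    simp only [MvPolynomial.eval_X, MvPolynomial.eval_C] at e1 e2
    rintro (q | p)
    · rw [e1, genMat_co, sub_self]
    · rw [e2, genH_co, x.2, Matrix.smul_apply, smul_eq_mul, sub_self])
  obtain ⟨e1, e2⟩ := hf (MvPolynomial.aeval y : MvPolynomial (GenV κ g) Ω →ₐ[Ω] K).toRingHom
  simp only [AlgHom.toRingHom_eq_coe, RingHom.coe_coe, MvPolynomial.aeval_X,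
    MvPolynomial.aeval_C] at e1 e2
  obtain ⟨ρ, rfl⟩ := gen_exists y fun i s => by
    ext a b
    have := e1 (i, s, a, b)
    rw [h1] at this
    exact (sub_eq_zero.1 this.symm)
  have hoff : ∀ a b, (a, b) ≠ (i₀, i₀) → ((hprod ρ : GL κ K) : Matrix κ κ K) a b =
      algebraMap Ω K ξ * (1 : Matrix κ κ K) a b := fun a b hab => by
    have := e2 ⟨(a, b), hab⟩
    rw [h1, genH_co] at this
    exact (sub_eq_zero.1 this.symm)
  have hρ : ((hprod ρ : GL κ K) : Matrix κ κ K) = algebraMap Ω K ξ • (1 : Matrix κ κ K) := by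
    have hd : ((hprod ρ : GL κ K) : Matrix κ κ K) =
        diagonal fun a => ((hprod ρ : GL κ K) : Matrix κ κ K) a a := by
      ext a b
      by_cases hab : a = b
      · rw [hab, diagonal_apply_eq]
      · rw [diagonal_apply_ne _ hab, hoff a b (fun h => hab (by cases h; rfl)),
          Matrix.one_apply_ne hab, mul_zero]
    have d1 := gen_det_hprod ρ
    rw [hd, det_diagonal, ← Finset.mul_prod_erase _ _ (Finset.mem_univ i₀),
      Finset.prod_congr rfl (g := fun _ => algebraMap Ω K ξ) (fun a ha => by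
        rw [hoff a a (fun h => (Finset.mem_erase.1 ha).1 (by cases h; rfl)), Matrix.one_apply_eq,
          mul_one])] at d1
    have d2 := gen_det_hprod x.1
    rw [x.2, Matrix.smul_one_eq_diagonal, det_diagonal] at d2
    have d3 := congrArg (algebraMap Ω K) d2
    rw [map_prod, map_one, ← Finset.mul_prod_erase _ _ (Finset.mem_univ i₀), mul_comm] at d3
    have d4 := left_inv_eq_right_inv d1 d3
    ext a b
    by_cases hab : (a, b) = (i₀, i₀)
    · cases hab
      rw [d4, Matrix.smul_apply, Matrix.one_apply_eq, smul_eq_mul, mul_one]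
    · rw [hoff a b hab, Matrix.smul_apply, smul_eq_mul]
  refine ⟨K, inferInstance, inferInstance, inferInstance, ⟨ρ, hρ⟩, h2, ?_⟩
  choose D hD1 hD2 using hD
  have hli : LinearIndependent K fun t : T =>
      (⟨dco Ω ρ (D t t.2), LinearMap.mem_range_self _ _⟩ : LinearMap.range (dco Ω ρ)) := by
    refine Fintype.linearIndependent_iff.2 fun c hc t => ?_
    have h3 : dco Ω ρ (∑ t : T, c t • D t t.2) = 0 := by
      have := congrArg Subtype.val hc
      rw [map_sum]
      simpa using this
    have h4 := gen_der_zero ρ h3 t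
    have h5 : ∀ z : K, (∑ t : T, c t • D t t.2) z = ∑ t : T, (c t • D t t.2) z := fun z => by
      have := congrFun (map_sum Derivation.coeFnAddMonoidHom (fun t : T => c t • D t t.2)
        Finset.univ) z
      rw [Finset.sum_apply] at this
      exact this
    rw [h5, Finset.sum_eq_single t (fun s _ hs => by
      rw [Derivation.smul_apply, hD2 s s.2 t t.2 (fun h => hs (Subtype.ext h).symm), smul_zero])
      (fun h => (h (Finset.mem_univ _)).elim), Derivation.smul_apply, hD1, smul_eq_mul,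
      mul_one] at h4
    exact h4
  have h5 := hli.fintype_card_le_finrank
  rw [Fintype.card_coe] at h5
  refine le_trans ?_ h5
  have c1 : Fintype.card (GenV κ g) = g * (4 * Fintype.card κ ^ 2) := by
    simp only [GenV, GenM, Fintype.card_sigma, Fintype.card_sum, Fintype.card_unit, Finset.sum_const,
      Finset.card_univ, smul_eq_mul, Fintype.card_fin]
    ring
  have c2 : Fintype.card {p : κ × κ // p ≠ (i₀, i₀)} + 1 = Fintype.card κ ^ 2 := by
    have : 1 ≤ Fintype.card κ * Fintype.card κ :=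
      Nat.mul_pos (Fintype.card_pos_iff.2 ⟨i₀⟩) (Fintype.card_pos_iff.2 ⟨i₀⟩)
    simp [Fintype.card_subtype_compl, sq]; omega
  rw [c1, Fintype.card_sum] at hT
  simp only [Fintype.card_prod, Fintype.card_fin, Fintype.card_bool] at hT
  obtain ⟨g', rfl⟩ := Nat.exists_eq_add_of_le hg
  have e4 : 2 * (1 + g') - 1 = 2 * g' + 1 := by omega
  rw [e4]
  rw [← sq] at hT
  generalize Fintype.card κ ^ 2 = N at *
  nlinarith

/-- Transfer along a specialisation: an integral point over `K` comes from an integral point over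
`Ω` (the map `Ω → K` is injective); use `Good.exists_mvPolynomial` and `Good.aeval`. -/
theorem inZ_of_generic (ξ : oˣ) (x : CSV Ω κ g (algebraMap o Ω (ξ : o))) (K : Type) [Field K]
    [Algebra Ω K] [Algebra o K] [IsScalarTower o Ω K]
    (x' : CSV K κ g (algebraMap o K (ξ : o)))
    (h : ∀ F : MvPolynomial (Coord.κ Ω (CSV Ω κ g (algebraMap o Ω (ξ : o)))) Ω,
        MvPolynomial.aeval
          (fun s => Coord.c (Ω := K) (X := CSV K κ g (algebraMap o K (ξ : o))) s x') F = 0 →
        MvPolynomial.eval (fun s => Coord.c s x) F = 0)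
    (hx' : InZ o K x') : InZ o Ω x := by
  refine mem_Cl fun φ hφ h0 => ?_
  obtain ⟨p, hp⟩ := hφ.exists_mvPolynomial
  rw [hp]
  refine h p ?_
  have hg : Good Ω K fun y : CSV K κ g (algebraMap o K (ξ : o)) => MvPolynomial.aeval
      (fun s => Coord.c (Ω := K) (X := CSV K κ g (algebraMap o K (ξ : o))) s y) p :=
    Good.aeval p fun k => good_iff_mem.2 (GA.coord _)
  refine Cl.eq_zero hx' hg.reg fun y hy => ?_
  choose r hr using hy
  have hinj : Function.Injective (algebraMap Ω K) := (algebraMap Ω K).injective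
  have hz : (fun s : GenV κ g => algebraMap Ω K (algebraMap o Ω (r s))) = genCo y.1 := by
    funext s
    rw [← IsScalarTower.algebraMap_apply]
    exact hr s
  obtain ⟨ρ, hρ⟩ := gen_exists (fun s : GenV κ g => algebraMap o Ω (r s)) fun i s => by
    apply Matrix.map_injective hinj
    change (_ * _ : Matrix κ κ Ω).map _ = (1 : Matrix κ κ Ω).map _
    rw [genMat_mul_map, hz, genMat_co, Matrix.map_one _ (map_zero _) (map_one _)]
  have hρ' : ((hprod ρ : GL κ Ω) : Matrix κ κ Ω) = algebraMap o Ω (ξ : o) • (1 : Matrix κ κ Ω) := by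
    apply Matrix.map_injective hinj
    change ((hprod ρ : GL κ Ω) : Matrix κ κ Ω).map _ = (_ • (1 : Matrix κ κ Ω)).map _
    rw [← genH_co, genH_map, hρ, hz, genH_co, y.2]
    rw [IsScalarTower.algebraMap_apply o Ω K]
    generalize algebraMap o Ω (ξ : o) = c
    ext a b
    by_cases hab : a = b <;> simp [hab]
  have h1 := h0 ⟨ρ, hρ'⟩ fun s => ⟨r s, (congrFun hρ s).symm⟩
  rw [hp] at h1
  have h2 : MvPolynomial.aeval (fun s : GenV κ g => algebraMap Ω K (genCo ρ s)) p =
      algebraMap Ω K (MvPolynomial.aeval (genCo ρ) p) :=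
    MvPolynomial.aeval_algebraMap_apply K (genCo ρ) p
  have h3 : MvPolynomial.aeval (genCo ρ) p = 0 := h1
  rw [h3, map_zero, hρ, hz] at h2
  exact h2

end Crest.Agent.R003
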