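import Crest.Agent.R003.Sep

/-! Row 3: twisting and gluing. -/

set_option autoImplicit false
set_option linter.unusedSectionVars false

namespace Crest.Agent.R003

open Matrix

variable {o : Type} [CommRing o] {Ω : Type} [Field Ω] [Algebra o Ω] {κ : Type} [Fintype κ]
  [DecidableEq κ] {g : ℕ}

/-- closures in a subtype (`Good.exists_mvPolynomial`) -/
theorem Cl_subtype {X : Type} [Coord Ω X] {p : X → Prop} {S : Set X} (x : Subtype p)
    (hx : x.1 ∈ Cl Ω {y | y ∈ S ∧ p y}) : x ∈ Cl Ω {y : Subtype p | y.1 ∈ S} := by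
  refine mem_Cl fun φ hφ hS => ?_
  obtain ⟨q, hq⟩ := hφ.exists_mvPolynomial
  have hψ : Good Ω Ω (fun y : X => MvPolynomial.aeval (fun k => Coord.c (Ω := Ω) k y) q) :=
    Good.aeval q fun k => good_iff_mem.2 (GA.coord (X := X) k)
  rw [hq]
  exact Cl.eq_zero hx hψ fun y hy => (hq ⟨y, hy.2⟩).symm.trans (hS ⟨y, hy.2⟩ hy.1)

/-- the twist of the first handle by a matrix commuting with `b` -/
def h93tw {ξ : Ω} (x : CSV Ω κ (g + 1) ξ) (w : GL κ Ω) (hw : w * (x.1 0).2 = (x.1 0).2 * w) :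
    CSV Ω κ (g + 1) ξ :=
  ⟨fun i => if i = 0 then ((x.1 0).1 * w, (x.1 0).2) else x.1 i, by
    refine Eq.trans ?_ x.2
    unfold hprod
    congr 3
    funext i
    beta_reduce
    split_ifs with h
    · subst h
      simp only [cm, _root_.mul_inv_rev, mul_assoc]
      rw [← mul_assoc w, hw, mul_assoc, mul_inv_cancel_left]
    · rfl⟩

theorem h93tw_good {X : Type} [Coord Ω X] {ξ : Ω} {x : X → CSV Ω κ (g + 1) ξ} {w : X → GL κ Ω}
    (hx : Good o Ω x) (hw : Good o Ω w) (h : ∀ t, w t * ((x t).1 0).2 = ((x t).1 0).2 * w t) :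
    Good o Ω (fun t => h93tw (x t) (w t) (h t)) := by
  have h0 : ∀ i, Good o Ω (fun t => (x t).1 i) := fun i => (Good.apply i).comp hx.val
  exact Good.subtypeMk (Good.pi fun i =>
    Good.ite (((h0 0).fst.glmul hw).prodMk (h0 0).snd) (h0 i)) _

theorem h93tw_int (hT : Tw Ω κ o) {ξ : Ω} (x : CSV Ω κ (g + 1) ξ) (hx : IsInt o Ω x)
    (hb : ((x.1 0).2 : Matrix κ κ Ω).charpoly.Separable) (w : GL κ Ω)
    (hw : w * (x.1 0).2 = (x.1 0).2 * w) : InZ o Ω (h93tw x w hw) := by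
  have hbi : IsInt o Ω ((x.1 0).2 : Matrix κ κ Ω) :=
    (isInt_units.1 (isInt_prod.1 (isInt_pi.1 (isInt_subtype.1 hx) 0)).2).1
  have h1 := hT _ hbi hb w (congrArg Units.val hw)
  have h2 : InZ o Ω (⟨w, hw⟩ : {w : GL κ Ω // w * (x.1 0).2 = (x.1 0).2 * w}) :=
    Cl_subtype (S := {y | IsInt o Ω y}) _
      (Cl_mono (fun y hy => And.intro hy.1 (Units.ext hy.2)) h1)
  exact (h93tw_good (x := fun _ => x) (Good.const hx)
    (w := fun t : {w : GL κ Ω // w * (x.1 0).2 = (x.1 0).2 * w} => t.1) Good.id.val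
    (fun t => t.2)).inZ h2

/-- Twist along `b`.  Write `v = p b` (`comm_separable`).  On `Loc (disc b * det (p b))` the map
`(a, b, ...) ↦ (a * p b, b, ...)` is regular (inverse = adjugate / det); by `Cl_loc` it is enough to
treat integral points, where `Tw` and the regular map `w ↦ (a * w, b, ...)` on the subtype of the
`w` commuting with `b` apply. -/
theorem twist_inZ [IsAlgClosed Ω] [CharZero Ω] (hT : Tw Ω κ o) (ξ : oˣ)
    (x y : CSV Ω κ (g + 1) (algebraMap o Ω (ξ : o)))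
    (hb : ((x.1 0).2 : Matrix κ κ Ω).charpoly.Separable) (v : GL κ Ω)
    (hv : v * (x.1 0).2 = (x.1 0).2 * v) (h0 : y.1 0 = ((x.1 0).1 * v, (x.1 0).2))
    (h1 : ∀ i, i ≠ 0 → y.1 i = x.1 i) (hx : InZ o Ω x) : InZ o Ω y := by
  obtain ⟨p, hp⟩ := comm_separable hb (Y := (v : Matrix κ κ Ω)) (congrArg Units.val hv)
  have hB : Good Ω Ω (fun t : CSV Ω κ (g + 1) (algebraMap o Ω (ξ : o)) =>
      ((t.1 0).2 : Matrix κ κ Ω)) := ((Good.apply 0).comp Good.id.val).snd.uval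
  set h : CSV Ω κ (g + 1) (algebraMap o Ω (ξ : o)) → Ω := fun t =>
    disc ((t.1 0).2 : Matrix κ κ Ω) * (Polynomial.aeval ((t.1 0).2 : Matrix κ κ Ω) p).det with hh
  have hg : Good Ω Ω h := (good_disc hB).mul (Good.polyAeval p hB).det
  have hne : h x ≠ 0 := mul_ne_zero ((disc_ne_zero_iff _).2 hb) (by
    rw [← hp]; exact (Matrix.isUnits_det_units v).ne_zero)
  have hq : ∀ q : Loc h, (((q.1.2⁻¹ : Ωˣ) : Ω) * disc ((q.1.1.1 0).2 : Matrix κ κ Ω)) *
      (Polynomial.aeval ((q.1.1.1 0).2 : Matrix κ κ Ω) p).det = 1 := fun q => by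
    rw [mul_assoc]
    exact (congrArg (((q.1.2⁻¹ : Ωˣ) : Ω) * ·) q.2.symm).trans q.1.2.inv_mul
  let w : Loc h → GL κ Ω := fun q =>
    ⟨Polynomial.aeval ((q.1.1.1 0).2 : Matrix κ κ Ω) p,
      (((q.1.2⁻¹ : Ωˣ) : Ω) * disc ((q.1.1.1 0).2 : Matrix κ κ Ω)) •
        (Polynomial.aeval ((q.1.1.1 0).2 : Matrix κ κ Ω) p).adjugate,
      by rw [Matrix.mul_smul, Matrix.mul_adjugate, smul_smul, hq q, one_smul],
      by rw [Matrix.smul_mul, Matrix.adjugate_mul, smul_smul, hq q, one_smul]⟩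
  have hX : Good Ω Ω (fun q : Loc h => q.1.1) := Good.id.val.fst
  have hB' := hB.comp hX
  have hw : Good Ω Ω w := Good.unitsMk (Good.polyAeval p hB')
    ((Good.id.val.snd.uinv.uval.mul (good_disc hB')).msmul (Good.polyAeval p hB').adjugate) _ _
  have hc : ∀ q : Loc h, w q * (q.1.1.1 0).2 = (q.1.1.1 0).2 * w q := fun q => Units.ext (by
    have := (Commute.all p Polynomial.X).map
      (Polynomial.aeval (R := Ω) ((q.1.1.1 0).2 : Matrix κ κ Ω))
    rw [Polynomial.aeval_X] at this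
    exact this.eq)
  let q₀ : Loc h := ⟨(x, Units.mk0 (h x) hne), rfl⟩
  have h2 := (h93tw_good hX hw hc).map_Cl (T := {y | IsInt o Ω y})
    (fun q hq' => h93tw_int hT q.1.1 hq' ((disc_ne_zero_iff _).1 fun h0 => by
      have := hq q
      rw [h0, mul_zero, zero_mul] at this
      exact zero_ne_one this) (w q) (hc q)) (Cl_loc hg q₀ hx)
  have e : h93tw q₀.1.1 (w q₀) (hc q₀) = y := by
    refine Subtype.ext (funext fun i => ?_)
    have hwv : w q₀ = v := Units.ext hp.symm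
    simp only [h93tw]
    split_ifs with hi
    · rw [hi, h0, hwv]
    · exact (h1 i hi).symm
  rw [← e]
  exact h2

theorem glueb_diag_mul {l : κ → ℕ} (hl : Function.Injective l) {x y : Matrix κ κ Ω} (hx : Par l x)
    (hy : Par l y) (a : κ) : (x * y) a a = x a a * y a a := by
  rw [Matrix.mul_apply]
  refine Finset.sum_eq_single a (fun c _ hc => ?_) (by simp)
  rcases lt_or_gt_of_ne (hl.ne hc) with h | h
  · rw [hx a c h, zero_mul]
  · rw [hy c a h, mul_zero]

theorem glueb_aeval {l : κ → ℕ} (hl : Function.Injective l) {A : Matrix κ κ Ω} (hA : Par l A)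
    (p : Polynomial o) : Par l (Polynomial.aeval A p) ∧
      ∀ a, Polynomial.aeval A p a a = Polynomial.aeval (A a a) p := by
  have hC : ∀ c : o, Par l (algebraMap o (Matrix κ κ Ω) c) := fun c a b hab => by
    rw [Matrix.algebraMap_eq_diagonal, diagonal_apply_ne]
    rintro rfl
    exact lt_irrefl _ hab
  induction p using Polynomial.induction_on with
  | C c =>
    simp only [Polynomial.aeval_C]
    exact ⟨hC c, fun a => by simp [Matrix.algebraMap_eq_diagonal]⟩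
  | add p q hp hq =>
    simp only [map_add]
    exact ⟨fun a b hab => by rw [Matrix.add_apply, hp.1 a b hab, hq.1 a b hab, add_zero],
      fun a => by rw [Matrix.add_apply, hp.2, hq.2]⟩
  | monomial n c ih =>
    rw [pow_succ, ← mul_assoc]
    simp only [map_mul (Polynomial.aeval _) (Polynomial.C c * _), Polynomial.aeval_X]
    exact ⟨ih.1.mul hA, fun a => by rw [glueb_diag_mul hl ih.1 hA, ih.2]⟩

theorem glueb_charpoly {l : κ → ℕ} (hl : Function.Injective l) {A : Matrix κ κ Ω} (hA : Par l A) :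
    A.charpoly = ∏ i, (Polynomial.X - Polynomial.C (A i i)) := by
  let _ : LinearOrder κ := LinearOrder.lift' l hl
  convert Matrix.charpoly_of_isUpperTriangular A fun a b hab => hA a b hab

/-- Integral eigenframe of `A = diagonal z * x`: the column `j` of `n` is the column `j` of the
projector `∏_{i ≠ j} (A - z i) / (z j - z i)` (Cayley-Hamilton; the projector is triangular with
diagonal `e_j`). -/
theorem exists_eigframe {l : κ → ℕ} (hl : Function.Injective l) (z : κ → oˣ)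
    (hz : ∀ a b, a ≠ b → IsUnit ((z a : o) - (z b : o))) :
    ∃ n : {x : Matrix κ κ Ω // Uni l x} → Matrix κ κ Ω, Good o Ω n ∧ ∀ x, Uni l (n x) ∧
      (diagonal fun a => algebraMap o Ω (z a : o)) * x.1 * n x =
        n x * diagonal fun a => algebraMap o Ω (z a : o) := by
  have hu : ∀ j, IsUnit (∏ i ∈ Finset.univ.erase j, ((z j : o) - (z i : o))) := fun j =>
    IsUnit.prod_iff.2 fun i hi => hz j i (Finset.ne_of_mem_erase hi).symm
  choose u hu using fun j => (hu j).exists_left_inv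
  let p : κ → Polynomial o := fun j =>
    Polynomial.C (u j) * ∏ i ∈ Finset.univ.erase j, (Polynomial.X - Polynomial.C (z i : o))
  let A : {x : Matrix κ κ Ω // Uni l x} → Matrix κ κ Ω := fun x =>
    (diagonal fun a => algebraMap o Ω (z a : o)) * x.1
  have hAg : Good o Ω A := (Good.diagonal fun a => Good.algMap _).mmul (Good.val Good.id)
  have hD : Par l (diagonal fun a => algebraMap o Ω (z a : o)) := fun a b hab => by
    rw [diagonal_apply_ne]
    rintro rfl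
    exact lt_irrefl _ hab
  have hA : ∀ x, Par l (A x) := fun x => hD.mul x.2.par
  have hAd : ∀ x a, A x a a = algebraMap o Ω (z a : o) := fun x a => by
    refine (glueb_diag_mul hl hD x.2.par a).trans ?_
    rw [x.2 a a (lt_irrefl _)]
    simp
  refine ⟨fun x => Matrix.of fun a j => Polynomial.aeval (A x) (p j) a j,
    Good.of fun a j => (Good.polyAeval (p j) hAg).entry a j, fun x => ⟨fun a j haj => ?_, ?_⟩⟩
  · change Polynomial.aeval (A x) (p j) a j = _
    split_ifs with h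
    · subst h
      rw [(glueb_aeval hl (hA x) (p a)).2, hAd, Polynomial.aeval_algebraMap_apply]
      simp only [p, map_mul (Polynomial.aeval _), map_prod (Polynomial.aeval _), map_sub,
        Polynomial.aeval_X, Polynomial.aeval_C, Algebra.algebraMap_self_apply, hu a, map_one]
    · exact (glueb_aeval hl (hA x) (p j)).1 a j (lt_of_le_of_ne (not_lt.1 haj) (hl.ne (Ne.symm h)))
  · have h0 : Polynomial.aeval (A x) (∏ i, (Polynomial.X - Polynomial.C (z i : o))) = 0 := by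
      rw [← Polynomial.aeval_map_algebraMap Ω, ← Matrix.aeval_self_charpoly (A x),
        glueb_charpoly hl (hA x)]
      simp [Polynomial.map_prod, hAd]
    ext a j
    have h1 : (Polynomial.X - Polynomial.C (z j : o)) * p j =
        Polynomial.C (u j) * ∏ i, (Polynomial.X - Polynomial.C (z i : o)) := by
      rw [← Finset.mul_prod_erase _ _ (Finset.mem_univ j)]
      ring
    have h2 := congrArg (Polynomial.aeval (A x)) h1
    rw [map_mul, map_mul _ _ (∏ i, _), h0, mul_zero, map_sub, Polynomial.aeval_X, Polynomial.aeval_C, sub_mul,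
      sub_eq_zero] at h2
    have h3 := congrFun (congrFun h2 a) j
    rw [Matrix.algebraMap_eq_diagonal, diagonal_mul] at h3
    rw [mul_diagonal, mul_comm]
    exact h3

theorem glueb_frame {l : κ → ℕ} (hl : Function.Injective l) (z : κ → oˣ)
    (hz : ∀ a b, a ≠ b → IsUnit ((z a : o) - (z b : o))) :
    ∃ N : {x : Matrix κ κ Ω // Uni l x} → GL κ Ω, Good o Ω N ∧ (∀ x,
      (diagonal fun a => algebraMap o Ω (z a : o)) * x.1 =
        (N x : Matrix κ κ Ω) * (diagonal fun a => algebraMap o Ω (z a : o)) *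
          (((N x)⁻¹ : GL κ Ω) : Matrix κ κ Ω)) ∧ N ⟨1, Uni.one⟩ = 1 := by
  obtain ⟨n, hn, h⟩ := exists_eigframe (Ω := Ω) hl z hz
  refine ⟨fun x => ⟨n x, (n x).adjugate, (h x).1.mul_adjugate, (h x).1.adjugate_mul⟩,
    Good.unitsMk hn hn.adjugate _ _, fun x => ?_, Units.ext ?_⟩
  · change _ = n x * _ * (n x).adjugate
    rw [← (h x).2, Matrix.mul_assoc _ (n x), (h x).1.mul_adjugate, Matrix.mul_one]
  · have ht : Function.Injective fun a => algebraMap o Ω (z a : o) := fun a b hab => by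
      by_contra hne
      have := ((hz a b hne).map (algebraMap o Ω)).ne_zero
      rw [map_sub] at this
      exact this (sub_eq_zero.2 hab)
    have h1 := (h ⟨1, Uni.one⟩).2
    rw [Matrix.mul_one] at h1
    change n _ = 1
    refine (comm_diag ht h1.symm).trans (Eq.trans (congrArg diagonal (funext fun i => ?_))
      diagonal_one)
    rw [(h _).1 i i (lt_irrefl _), if_pos rfl]

theorem glueb_hprod {G : Type} [Group G] (x : Fin (g + 1) → G × G) :
    hprod x = cm (x 0).1 (x 0).2 * hprod (Fin.tail x) := by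
  simp only [hprod, List.finRange_succ, List.map_cons, List.prod_cons, List.map_map]
  rfl

/-- Gluing two punctures: the good map `FlV → CSV`,
`(ab, h, x) ↦ Fin.cons (h₀ t x₀ h₀⁻¹, h₁ n₁ n₀⁻¹ h₀⁻¹) ab`, hits the point: if `a = h t h⁻¹`
(`diag_of_charpoly`) take `h₀ = h`, `h₁ = b h`, `x₀ = x₁ = 1` (then `n₀ = n₁ = 1` by `comm_diag`). -/
theorem glue_inZ {l : κ → ℕ} (hl : Function.Injective l) (z : ℕ → oˣ)
    (hz : ∀ a b, a ≠ b → IsUnit ((z (l a) : o) - (z (l b) : o))) (ξ : oˣ)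
    (hF : ∀ d : FlV Ω g ![l, l] ![z, fun n => ξ⁻¹ * (z n)⁻¹], InZ o Ω d)
    (x : CSV Ω κ (g + 1) (algebraMap o Ω (ξ : o)))
    (hx : ((x.1 0).1 : Matrix κ κ Ω).charpoly =
      ∏ i, (Polynomial.X - Polynomial.C (algebraMap o Ω (z (l i) : o)))) : InZ o Ω x := by
  obtain ⟨N0, hN0, h0, e0⟩ := glueb_frame (Ω := Ω) hl (fun a => z (l a)) hz
  obtain ⟨N1, hN1, h1, e1⟩ := glueb_frame (Ω := Ω) hl (fun a => ξ⁻¹ * (z (l a))⁻¹) (fun a b hab => by
    have e : ((ξ⁻¹ * (z (l a))⁻¹ : oˣ) : o) - ((ξ⁻¹ * (z (l b))⁻¹ : oˣ) : o) =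
        ((ξ⁻¹ * (z (l a))⁻¹ * (z (l b))⁻¹ : oˣ) : o) * ((z (l b) : o) - (z (l a) : o)) := by
      have a1 := (z (l a)).inv_mul
      have a2 := (z (l b)).inv_mul
      simp only [Units.val_mul]
      linear_combination (-((ξ⁻¹ : oˣ) : o) * ((z (l a))⁻¹ : oˣ)) * a2 +
        (((ξ⁻¹ : oˣ) : o) * ((z (l b))⁻¹ : oˣ)) * a1
    rw [e]
    exact (Units.isUnit _).mul (hz b a hab.symm))
  let T : GL κ Ω := ⟨diagonal fun a => algebraMap o Ω (z (l a) : o),
    diagonal fun a => algebraMap o Ω ((z (l a))⁻¹ : oˣ),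
    by simp only [diagonal_mul_diagonal, ← map_mul, Units.mul_inv, map_one, diagonal_one],
    by simp only [diagonal_mul_diagonal, ← map_mul, Units.inv_mul, map_one, diagonal_one]⟩
  have hTg : ∀ (X : Type) [Coord Ω X], Good o Ω fun _ : X => T := fun X _ =>
    good_units (Good.diagonal fun a => Good.algMap _) (Good.diagonal fun a => Good.algMap _)
  have hT : (diagonal fun a => algebraMap o Ω (z (l a) : o)) = (T : Matrix κ κ Ω) := rfl
  have hξ : algebraMap o Ω (ξ : o) * algebraMap o Ω (ξ⁻¹ : oˣ) = 1 := by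
    rw [← map_mul, Units.mul_inv, map_one]
  have hT' : (diagonal fun a => algebraMap o Ω ((ξ⁻¹ * (z (l a))⁻¹ : oˣ) : o)) =
      algebraMap o Ω (ξ⁻¹ : oˣ) • ((T⁻¹ : GL κ Ω) : Matrix κ κ Ω) := by
    change _ = _ • diagonal fun a => algebraMap o Ω ((z (l a))⁻¹ : oˣ)
    rw [← diagonal_smul]
    congr 1
    funext a
    simp
  have key : ∀ (P h h' n n' : GL κ Ω), ((P : Matrix κ κ Ω) * ((h : Matrix κ κ Ω) *
      ((n : Matrix κ κ Ω) * (T : Matrix κ κ Ω) * ((n⁻¹ : GL κ Ω) : Matrix κ κ Ω)) *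
        ((h⁻¹ : GL κ Ω) : Matrix κ κ Ω) * ((h' : Matrix κ κ Ω) * ((n' : Matrix κ κ Ω) *
          (algebraMap o Ω (ξ⁻¹ : oˣ) • ((T⁻¹ : GL κ Ω) : Matrix κ κ Ω)) *
          ((n'⁻¹ : GL κ Ω) : Matrix κ κ Ω)) * ((h'⁻¹ : GL κ Ω) : Matrix κ κ Ω))) = 1) ↔
      ((cm (h * n * T * n⁻¹ * h⁻¹) (h' * n' * n⁻¹ * h⁻¹) * P : GL κ Ω) : Matrix κ κ Ω) =
        algebraMap o Ω (ξ : o) • (1 : Matrix κ κ Ω) := by
    intro P h h' n n'
    have e : cm (h * n * T * n⁻¹ * h⁻¹) (h' * n' * n⁻¹ * h⁻¹) =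
        h * (n * T * n⁻¹) * h⁻¹ * (h' * (n' * T⁻¹ * n'⁻¹) * h'⁻¹) := by
      unfold cm
      group
    rw [e, mul_eq_one_comm]
    simp only [Matrix.mul_smul, Matrix.smul_mul, ← Units.val_mul]
    constructor
    · intro h
      rw [← h, smul_smul, hξ, one_smul]
    · intro h
      rw [h, smul_smul, mul_comm, hξ, one_smul]
  have hrel : ∀ d : (Fin g → GL κ Ω × GL κ Ω) × (Fin 2 → GL κ Ω) × (Fin 2 → Matrix κ κ Ω),
      ∀ (u0 : Uni l (d.2.2 0)) (u1 : Uni l (d.2.2 1)),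
      IsFl ![l, l] ![z, fun n => ξ⁻¹ * (z n)⁻¹] d ↔
      ((cm (d.2.1 0 * N0 ⟨_, u0⟩ * T * (N0 ⟨_, u0⟩)⁻¹ * (d.2.1 0)⁻¹)
        (d.2.1 1 * N1 ⟨_, u1⟩ * (N0 ⟨_, u0⟩)⁻¹ * (d.2.1 0)⁻¹) * hprod d.1 : GL κ Ω) :
          Matrix κ κ Ω) = algebraMap o Ω (ξ : o) • (1 : Matrix κ κ Ω) := by
    intro d u0 u1
    rw [← key, ← hT, ← hT', ← h0, ← h1]
    have e : List.finRange 2 = [0, 1] := rfl
    constructor
    · intro h
      have := h.rel
      simp only [e, List.map_cons, List.map_nil, List.prod_cons, List.prod_nil, Matrix.mul_one]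
        at this
      exact this
    · intro h
      refine ⟨Fin.forall_fin_two.2 ⟨u0, u1⟩, ?_⟩
      simp only [e, List.map_cons, List.map_nil, List.prod_cons, List.prod_nil, Matrix.mul_one]
      exact h
  let F : FlV Ω g ![l, l] ![z, fun n => ξ⁻¹ * (z n)⁻¹] →
      CSV Ω κ (g + 1) (algebraMap o Ω (ξ : o)) := fun d =>
    ⟨Fin.cons (d.1.2.1 0 * N0 ⟨_, d.2.uni 0⟩ * T * (N0 ⟨_, d.2.uni 0⟩)⁻¹ * (d.1.2.1 0)⁻¹,
      d.1.2.1 1 * N1 ⟨_, d.2.uni 1⟩ * (N0 ⟨_, d.2.uni 0⟩)⁻¹ * (d.1.2.1 0)⁻¹) d.1.1, by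
      rw [glueb_hprod]
      exact (hrel d.1 (d.2.uni 0) (d.2.uni 1)).1 d.2⟩
  have hFg : Good o Ω F := by
    refine good_subtype_iff.2 (Good.pi fun i => ?_)
    have g0 : Good o Ω fun d : FlV Ω g ![l, l] ![z, fun n => ξ⁻¹ * (z n)⁻¹] =>
        N0 ⟨_, d.2.uni 0⟩ := hN0.comp (Good.subtypeMk (by fun_prop) _)
    have g1 : Good o Ω fun d : FlV Ω g ![l, l] ![z, fun n => ξ⁻¹ * (z n)⁻¹] =>
        N1 ⟨_, d.2.uni 1⟩ := hN1.comp (Good.subtypeMk (by fun_prop) _)
    have g2 : ∀ j, Good o Ω fun d : FlV Ω g ![l, l] ![z, fun n => ξ⁻¹ * (z n)⁻¹] =>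
        d.1.2.1 j := fun j => by fun_prop
    refine Fin.cases ?_ (fun i => ?_) i
    · exact (((((g2 0).glmul g0).glmul (hTg _)).glmul g0.uinv).glmul (g2 0).uinv).prodMk
        ((((g2 1).glmul g1).glmul g0.uinv).glmul (g2 0).uinv)
    · change Good o Ω fun d : FlV Ω g ![l, l] ![z, fun n => ξ⁻¹ * (z n)⁻¹] => d.1.1 i
      fun_prop
  have ht : Function.Injective fun a => algebraMap o Ω (z (l a) : o) := fun a b hab => by
    by_contra hne
    have := ((hz a b hne).map (algebraMap o Ω)).ne_zero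
    rw [map_sub] at this
    exact this (sub_eq_zero.2 hab)
  obtain ⟨h, hh⟩ := diag_of_charpoly ht hx
  have ha : (x.1 0).1 = h * T * h⁻¹ := Units.ext hh
  have e2 : h * N0 ⟨1, Uni.one⟩ * T * (N0 ⟨1, Uni.one⟩)⁻¹ * h⁻¹ = (x.1 0).1 := by
    rw [e0, ha]
    group
  have e3 : (x.1 0).2 * h * N1 ⟨1, Uni.one⟩ * (N0 ⟨1, Uni.one⟩)⁻¹ * h⁻¹ = (x.1 0).2 := by
    rw [e0, e1]
    group
  have hd : IsFl ![l, l] ![z, fun n => ξ⁻¹ * (z n)⁻¹]
      (Fin.tail x.1, ![h, (x.1 0).2 * h], fun _ => (1 : Matrix κ κ Ω)) := by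
    refine (hrel _ Uni.one Uni.one).2 ?_
    have := x.2
    rw [glueb_hprod, ← e2, ← e3] at this
    exact this
  have e4 : F ⟨_, hd⟩ = x := by
    refine Subtype.ext (Eq.trans ?_ (Fin.cons_self_tail x.1))
    exact congrArg (fun p => Fin.cons p (Fin.tail x.1)) (Prod.ext e2 e3)
  exact e4 ▸ hFg.inZ (hF _)

end Crest.Agent.R003
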