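import Crest.Agent.R003.St1

/-! Row 3: at a generic point the principal minors of a in the eigenbasis of b are nonzero. -/

set_option autoImplicit false
set_option linter.unusedSectionVars false

namespace Crest.Agent.R003

open Matrix

variable {Ω : Type} [Field Ω] {κ : Type} [Fintype κ] [DecidableEq κ] {g : ℕ}
  {k : Type} [CommRing k] [Algebra k Ω] [IsAlgClosed Ω] [CharZero Ω]

/-- principal minor -/
abbrev pminor (a : Matrix κ κ Ω) (S : Finset κ) : Ω :=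
  (a.submatrix (fun i : S => (i : κ)) (fun i : S => (i : κ))).det

private theorem st2_ne {b : GL κ Ω} {t : κ → Ω} (hb : (b : Matrix κ κ Ω) = diagonal t) (i : κ) :
    t i ≠ 0 := by
  have h := congrFun (congrFun b.mul_inv i) i
  rw [hb, diagonal_mul, one_apply_eq] at h
  exact left_ne_zero_of_mul_eq_one h

private theorem st2_inv {b : GL κ Ω} {t : κ → Ω} (hb : (b : Matrix κ κ Ω) = diagonal t) :
    ((b⁻¹ : GL κ Ω) : Matrix κ κ Ω) = diagonal fun i => (t i)⁻¹ := by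
  refine Units.inv_eq_of_mul_eq_one_right ?_
  rw [hb, diagonal_mul_diagonal, ← diagonal_one]
  congr 1
  funext i
  exact mul_inv_cancel₀ (st2_ne hb i)

private theorem st2_Ad {b : GL κ Ω} {t : κ → Ω} (hb : (b : Matrix κ κ Ω) = diagonal t)
    (x : Matrix κ κ Ω) (i j : κ) : Ad b x i j = t i * x i j * (t j)⁻¹ := by
  rw [Ad_apply, st2_inv hb, hb, mul_diagonal, diagonal_mul]

private theorem st2_Ad_inv {b : GL κ Ω} {t : κ → Ω} (hb : (b : Matrix κ κ Ω) = diagonal t)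
    (x : Matrix κ κ Ω) (i j : κ) : (x - Ad b⁻¹ x) i j = x i j * (1 - t j / t i) := by
  rw [Matrix.sub_apply, st2_Ad (st2_inv hb), inv_inv]
  ring

private theorem st2_Ad_mul (x y : GL κ Ω) (Y : Matrix κ κ Ω) : Ad (x * y) Y = Ad x (Ad y Y) := by
  simp only [Ad_apply, _root_.mul_inv_rev, Units.val_mul, Matrix.mul_assoc]

private theorem st2_c2 {ρ : Fin (g + 1) → GL κ Ω × GL κ Ω} {t : κ → Ω}
    (hb : ((ρ 0).2 : Matrix κ κ Ω) = diagonal t) (D : Derivation k Ω Ω) (x : Matrix κ κ Ω)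
    (i j : κ) : ((dco k ρ D + cob ρ x) 0).2 i j
      = (if i = j then D (t i) / t i else 0) + x i j * (1 - t i / t j) := by
  have e : ((dco k ρ D + cob ρ x) 0).2 = ((ρ 0).2 : Matrix κ κ Ω).map D
      * (((ρ 0).2⁻¹ : GL κ Ω) : Matrix κ κ Ω) + (x - Ad (ρ 0).2 x) := rfl
  rw [e, Matrix.add_apply, Matrix.sub_apply, st2_Ad hb, st2_inv hb, hb, diagonal_map (map_zero D),
    diagonal_mul_diagonal, diagonal_apply]
  congr 1
  · split_ifs
    · rw [div_eq_mul_inv]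
    · rfl
  · ring

private theorem st2_zero {A : Matrix κ κ Ω} (h : ∀ x, trace (A * x) = 0) : A = 0 :=
  ext_iff_trace_mul_right.2 fun x => by rw [h, Matrix.zero_mul, trace_zero]

/-- The logarithmic derivatives of the eigenvalues of `b` are independent: a diagonal `y` with
`∑ y i * D (t i) / t i = 0` for all `D` is orthogonal to all `c b` (`c` a cocycle), so by `fox_dual`
(`U = ⊤`, `α = 0`) it is `Ad a⁻¹ Y - Y` with `Y ∈ cutC` a scalar. -/
theorem eig_indep {ρ : Fin (g + 1) → GL κ Ω × GL κ Ω} {ξ : Ω}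
    (hρ : ((hprod ρ : GL κ Ω) : Matrix κ κ Ω) = ξ • (1 : Matrix κ κ Ω)) (hD : AllDer k ρ)
    (hC : ∀ Y ∈ cutC ρ, ∃ c : Ω, Y = c • (1 : Matrix κ κ Ω)) {t : κ → Ω}
    (hb : ((ρ 0).2 : Matrix κ κ Ω) = diagonal t) (y : κ → Ω)
    (hy : ∀ D : Derivation k Ω Ω, ∑ i, y i * (D (t i) / t i) = 0) : y = 0 := by
  obtain ⟨Y, hY1, -, hY3⟩ := fox_dual ρ ξ hρ ⊤ 0 (diagonal y) (by
    intro c hc _
    obtain ⟨D, x, rfl⟩ := hD c hc
    rw [Matrix.zero_mul, trace_zero, zero_add, ← hy D, trace]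
    refine Finset.sum_congr rfl fun i _ => ?_
    rw [diag_apply, diagonal_mul, st2_c2 hb, if_pos rfl, div_self (st2_ne hb i)]
    ring)
  have h1 : 0 - (Y - Ad (ρ 0).2⁻¹ Y) = 0 := st2_zero fun x => by
    simpa using hY3 (x, 0) trivial
  have h2 : diagonal y - (Ad (ρ 0).1⁻¹ Y - Y) = 0 := st2_zero fun x => by
    simpa using hY3 (0, x) trivial
  have hYc : Y ∈ cutC ρ := by
    rintro ⟨i, s⟩ hx
    by_cases hi : i = 0
    · subst hi
      cases s
      · have h3 : Y = Ad (ρ 0).2⁻¹ Y := by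
          rw [zero_sub, neg_eq_zero, sub_eq_zero] at h1
          exact h1
        change Y * ((ρ 0).2 : Matrix κ κ Ω) = ((ρ 0).2 : Matrix κ κ Ω) * Y
        conv_rhs => rw [h3, Ad_apply, inv_inv, ← Matrix.mul_assoc, ← Matrix.mul_assoc,
          Units.mul_inv, Matrix.one_mul]
      · exact absurd rfl hx
    · exact hY1 _ hi
  obtain ⟨c, rfl⟩ := hC Y hYc
  have h4 : Ad (ρ 0).1⁻¹ (c • (1 : Matrix κ κ Ω)) = c • (1 : Matrix κ κ Ω) := by
    rw [map_smul, Ad_apply, Matrix.mul_one, Units.mul_inv]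
  rw [h4, sub_self, sub_zero] at h2
  funext i
  simpa using congrFun (congrFun h2 i) i

/-- If `w`, `ℓ` are supported on `S` and `a w`, `ℓ a` vanish on `S`, then `ℓ (D a) w = 0` and
`ℓ (x a - a x) w = 0` for diagonal `x`.  So `tr ((a w ⊗ ℓ) * c a) = 0` for all cocycles `c` with `c b`
diagonal (then `x` is diagonal since `t` is injective).  Apply `fox_dual` with `U = ⊤ × diagonal`.
For the last claim use that `Y` commutes with `[a,b]`. -/
theorem minor_dual {ρ : Fin (g + 1) → GL κ Ω × GL κ Ω} {ξ : Ω}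
    (hρ : ((hprod ρ : GL κ Ω) : Matrix κ κ Ω) = ξ • (1 : Matrix κ κ Ω)) (hD : AllDer k ρ)
    {t : κ → Ω} (ht : Function.Injective t) (hb : ((ρ 0).2 : Matrix κ κ Ω) = diagonal t)
    (S : Finset κ) (w ℓ : κ → Ω) (hw : ∀ i, i ∉ S → w i = 0) (hℓ : ∀ i, i ∉ S → ℓ i = 0)
    (haw : ∀ i ∈ S, (((ρ 0).1 : Matrix κ κ Ω) *ᵥ w) i = 0)
    (hℓa : ∀ i ∈ S, (ℓ ᵥ* ((ρ 0).1 : Matrix κ κ Ω)) i = 0) :
    ∃ Y Y' : Matrix κ κ Ω, ((ρ 0).1 : Matrix κ κ Ω) * Y' = Y * ((ρ 0).1 : Matrix κ κ Ω) ∧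
      (∀ i, Y' i i = Y i i) ∧
      (∀ i j, Y i j * (1 - t j / t i) = (((ρ 0).1 : Matrix κ κ Ω) *ᵥ w) i * ℓ j) ∧
      (∀ i j, Y' i j * (1 - t j / t i) = w i * (ℓ ᵥ* ((ρ 0).1 : Matrix κ κ Ω)) j) := by
  obtain ⟨a, ha⟩ : ∃ a, a = (ρ 0).1 := ⟨_, rfl⟩
  rw [← ha] at haw hℓa ⊢
  let U : Submodule Ω (Matrix κ κ Ω × Matrix κ κ Ω) :=
    { carrier := {p | ∀ i j, i ≠ j → p.2 i j = 0}
      add_mem' := fun {p q} hp hq i j hij => by simp [hp i j hij, hq i j hij]
      zero_mem' := fun i j _ => rfl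
      smul_mem' := fun c p hp i j hij => by simp [hp i j hij] }
  have hz1 : ∀ f : κ → Ω, (∀ i, i ∉ S → f i = 0) → f ⬝ᵥ ((a : Matrix κ κ Ω) *ᵥ w) = 0 := by
    intro f hf
    refine Finset.sum_eq_zero fun i _ => ?_
    by_cases hi : i ∈ S
    · rw [haw i hi, mul_zero]
    · rw [hf i hi, zero_mul]
  have hz2 : ∀ f : κ → Ω, (∀ i, i ∉ S → f i = 0) → (ℓ ᵥ* (a : Matrix κ κ Ω)) ⬝ᵥ f = 0 := by
    intro f hf
    refine Finset.sum_eq_zero fun i _ => ?_
    by_cases hi : i ∈ S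
    · rw [hℓa i hi, zero_mul]
    · rw [hf i hi, mul_zero]
  have hia : ((a⁻¹ : GL κ Ω) : Matrix κ κ Ω) *ᵥ ((a : Matrix κ κ Ω) *ᵥ w) = w := by
    rw [mulVec_mulVec, Units.inv_mul, one_mulVec]
  obtain ⟨Y, -, hY2, hY3⟩ := fox_dual ρ ξ hρ U (vecMulVec ((a : Matrix κ κ Ω) *ᵥ w) ℓ) 0 (by
    intro c hc hU
    obtain ⟨D, x, rfl⟩ := hD c hc
    have hx : x = diagonal fun i => x i i := by
      ext i j
      by_cases hij : i = j
      · subst hij
        rw [diagonal_apply_eq]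
      · rw [diagonal_apply_ne _ hij]
        have h1 := hU i j hij
        rw [st2_c2 hb, if_neg hij, zero_add] at h1
        refine (mul_eq_zero.1 h1).resolve_right fun h2 => hij (ht ?_)
        rw [sub_eq_zero, eq_comm, div_eq_one_iff_eq (st2_ne hb j)] at h2
        exact h2
    have e : ((dco k ρ D + cob ρ x) 0).1 = (a : Matrix κ κ Ω).map D
        * ((a⁻¹ : GL κ Ω) : Matrix κ κ Ω) + (x - Ad a x) := by
      rw [ha]
      rfl
    rw [Matrix.zero_mul, trace_zero, add_zero, vecMulVec_mul, trace_vecMulVec, dotProduct_comm,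
      ← dotProduct_mulVec, e, add_mulVec, sub_mulVec, Ad_apply, ← mulVec_mulVec, hia,
      ← mulVec_mulVec, hia, ← mulVec_mulVec, dotProduct_add, dotProduct_sub]
    have h1 : ℓ ⬝ᵥ (x *ᵥ ((a : Matrix κ κ Ω) *ᵥ w)) = 0 := by
      rw [dotProduct_mulVec]
      refine hz1 _ fun i hi => ?_
      rw [hx, vecMul_diagonal, hℓ i hi, zero_mul]
    have h2 : ℓ ⬝ᵥ ((a : Matrix κ κ Ω) *ᵥ (x *ᵥ w)) = 0 := by
      rw [dotProduct_mulVec]
      refine hz2 _ fun i hi => ?_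
      rw [hx, mulVec_diagonal, hw i hi, mul_zero]
    have h3 : ℓ ⬝ᵥ ((a : Matrix κ κ Ω) *ᵥ fun i => D (w i)) = 0 := by
      rw [dotProduct_mulVec]
      exact hz2 _ fun i hi => by rw [hw i hi, map_zero]
    have h4 : ∀ i, D (((a : Matrix κ κ Ω) *ᵥ w) i) = ((a : Matrix κ κ Ω).map D *ᵥ w) i
        + ((a : Matrix κ κ Ω) *ᵥ fun i => D (w i)) i := by
      intro i
      simp only [mulVec, dotProduct, map_sum, Derivation.leibniz, smul_eq_mul, map_apply,
        ← Finset.sum_add_distrib]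
      exact Finset.sum_congr rfl fun j _ => by ring
    have h5 : ℓ ⬝ᵥ ((a : Matrix κ κ Ω).map D *ᵥ w + (a : Matrix κ κ Ω) *ᵥ fun i => D (w i))
        = 0 := by
      refine Finset.sum_eq_zero fun i _ => ?_
      by_cases hi : i ∈ S
      · rw [Pi.add_apply, ← h4, haw i hi, map_zero, mul_zero]
      · rw [hℓ i hi, zero_mul]
    rw [dotProduct_add, h3, add_zero] at h5
    rw [h1, h2, h5]
    simp)
  rw [← ha] at hY2 hY3
  have h1 : vecMulVec ((a : Matrix κ κ Ω) *ᵥ w) ℓ = Y - Ad (ρ 0).2⁻¹ Y :=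
    sub_eq_zero.1 (st2_zero fun x => by simpa using hY3 (x, 0) (fun _ _ _ => rfl))
  refine ⟨Y, Ad a⁻¹ Y, ?_, fun i => ?_, fun i j => ?_, fun i j => ?_⟩
  · rw [Ad_apply, inv_inv, ← Matrix.mul_assoc, ← Matrix.mul_assoc, Units.mul_inv, Matrix.one_mul]
  · have h2 := hY3 (0, single i i 1) (fun p q hpq => by
      refine single_apply_of_ne _ _ _ _ _ ?_
      rintro ⟨rfl, rfl⟩
      exact hpq rfl)
    rw [Matrix.mul_zero, trace_zero, zero_add, trace_mul_single] at h2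
    have h3 : Y i i - Ad a⁻¹ Y i i = 0 := by simpa using h2
    exact (sub_eq_zero.1 h3).symm
  · rw [← st2_Ad_inv hb, ← h1, vecMulVec_apply]
  · have h2 : Ad (ρ 0).2⁻¹ (Ad a⁻¹ Y) = Ad a⁻¹ (Ad (ρ 0).2⁻¹ Y) := by
      conv_lhs => rw [← hY2]
      rw [← st2_Ad_mul, ← st2_Ad_mul, ← st2_Ad_mul]
      congr 2
      group
    rw [← st2_Ad_inv hb, h2, ← map_sub, ← h1, Ad_apply, inv_inv, mul_vecMulVec, hia,
      vecMulVec_mul, vecMulVec_apply]

theorem St2b_sum (T : Finset κ) {f : κ → Ω} (hf : ∀ i, i ∉ T → f i = 0) :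
    ∑ i : T, f i = ∑ i, f i := by
  rw [Finset.sum_coe_sort T f]
  exact Finset.sum_subset (Finset.subset_univ _) fun i _ hi => hf i hi

theorem St2b_ker {a : Matrix κ κ Ω} {T : Finset κ} (hT : pminor a T ≠ 0) {v : κ → Ω}
    (hv : ∀ i, i ∉ T → v i = 0) (hav : ∀ i ∈ T, (a *ᵥ v) i = 0) : v = 0 := by
  have h := Matrix.eq_zero_of_mulVec_eq_zero hT (v := fun i : T => v i) (funext fun i => by
    rw [Pi.zero_apply, ← hav i i.2]
    exact St2b_sum T (f := fun j => a i j * v j) fun j hj => by rw [hv j hj, mul_zero])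
  funext i
  by_cases hi : i ∈ T
  · exact congrFun h ⟨i, hi⟩
  · exact hv i hi

theorem St2b_ex {a : Matrix κ κ Ω} {S : Finset κ} (hS : pminor a S = 0) :
    ∃ w : κ → Ω, w ≠ 0 ∧ (∀ i, i ∉ S → w i = 0) ∧ ∀ i ∈ S, (a *ᵥ w) i = 0 := by
  obtain ⟨v, hv0, hv⟩ := Matrix.exists_mulVec_eq_zero_iff.2 hS
  refine ⟨fun i => if h : i ∈ S then v ⟨i, h⟩ else 0, fun h0 => hv0 (funext fun i => ?_),
    fun i hi => dif_neg hi, fun i hi => ?_⟩
  · have := congrFun h0 i
    simpa [i.2] using this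
  · have := congrFun hv ⟨i, hi⟩
    refine Eq.trans ?_ this
    refine (St2b_sum S (f := fun j => a i j * if h : j ∈ S then v ⟨j, h⟩ else 0)
      fun j hj => by rw [dif_neg hj, mul_zero]).symm.trans ?_
    exact Finset.sum_congr rfl fun j _ => by rw [dif_pos j.2]; rfl

theorem St2b_tr (a : Matrix κ κ Ω) (S : Finset κ) : pminor aᵀ S = pminor a S := by
  rw [pminor, pminor, ← transpose_submatrix, det_transpose]

/-- Pure linear algebra.  `S` is a minimal set with vanishing principal minor.  Off the diagonal,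
`Y` lives on `Sᶜ × S` and `Y'` on `S × Sᶜ`.  The `S × S` block of `a Y' = Y a` says that `a_S`
commutes with the diagonal `Δ` of `Y`, so `a_S` is block diagonal, by minimality `Δ` is constant on
`S`, subtract it.  By minimality `w` has full support on `S` and spans the kernel of `a_S`.
Apply `ℓ` to the `S × Sᶜ` block: `(ℓ a) j * Δ j = 0`; for `j` with `(ℓ a) j ≠ 0` the column `j` of `Y'`
is in the kernel of `a_S`, so `t` is constant on `S`: `S = {i₀}`.  Similarly `Δ i * (a w) i = 0`.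
The entry `(i, j)` with `a i i₀ ≠ 0`, `a i₀ j ≠ 0` gives `t i * t j = t i₀ ^ 2`. -/
theorem minor_la {a : Matrix κ κ Ω} (ha : a.det ≠ 0) {t : κ → Ω} (ht : Function.Injective t)
    (ht0 : ∀ i, t i ≠ 0) (S : Finset κ) (hS : pminor a S = 0)
    (hmin : ∀ T : Finset κ, T ⊂ S → pminor a T ≠ 0)
    (h : ∀ w ℓ : κ → Ω, (∀ i, i ∉ S → w i = 0) → (∀ i, i ∉ S → ℓ i = 0) →
      (∀ i ∈ S, (a *ᵥ w) i = 0) → (∀ i ∈ S, (ℓ ᵥ* a) i = 0) →
      ∃ Y Y' : Matrix κ κ Ω, a * Y' = Y * a ∧ (∀ i, Y' i i = Y i i) ∧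
        (∀ i j, Y i j * (1 - t j / t i) = (a *ᵥ w) i * ℓ j) ∧
        (∀ i j, Y' i j * (1 - t j / t i) = w i * (ℓ ᵥ* a) j)) :
    ∃ i j i₀, i ≠ i₀ ∧ j ≠ i₀ ∧ t i * t j = t i₀ ^ 2 := by
  have hfull : ∀ (b : Matrix κ κ Ω), (∀ T : Finset κ, T ⊂ S → pminor b T ≠ 0) → ∀ v : κ → Ω,
      (∀ i, i ∉ S → v i = 0) → (∀ i ∈ S, (b *ᵥ v) i = 0) → ∀ i ∈ S, v i = 0 → v = 0 := by
    intro b hb v hv hbv i hi h0
    refine St2b_ker (hb _ (Finset.erase_ssubset hi)) (fun j hj => ?_)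
      fun j hj => hbv j (Finset.mem_of_mem_erase hj)
    by_cases hji : j = i
    · rw [hji, h0]
    · exact hv j fun hjS => hj (Finset.mem_erase.2 ⟨hji, hjS⟩)
  obtain ⟨w, hw0, hw, haw⟩ := St2b_ex hS
  obtain ⟨ℓ, hℓ0, hℓ, hℓa⟩ := St2b_ex ((St2b_tr a S).trans hS)
  have hwS : ∀ i ∈ S, w i ≠ 0 := fun i hi h0 => hw0 (hfull a hmin w hw haw i hi h0)
  have hℓS : ∀ i ∈ S, ℓ i ≠ 0 := fun i hi h0 =>
    hℓ0 (hfull aᵀ (fun T hT => (St2b_tr a T).trans_ne (hmin T hT)) ℓ hℓ hℓa i hi h0)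
  rw [mulVec_transpose] at hℓa
  have hspan : ∀ v : κ → Ω, (∀ i, i ∉ S → v i = 0) → (∀ i ∈ S, (a *ᵥ v) i = 0) →
      ∀ i ∈ S, ∀ j, w i * v j = v i * w j := by
    intro v hv hav i hi j
    have := hfull a hmin (w i • v - v i • w) (fun j hj => by simp [hv j hj, hw j hj])
      (fun j hj => by simp [mulVec_sub, mulVec_smul, hav j hj, haw j hj]) i hi
      (by simp [mul_comm])
    have := congrFun this j
    simpa [sub_eq_zero] using this
  obtain ⟨i₀, hi₀⟩ : ∃ i₀, i₀ ∈ S := by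
    by_contra hc
    exact hw0 (funext fun i => hw i fun hi => hc ⟨i, hi⟩)
  obtain ⟨i, hi⟩ : ∃ i, (a *ᵥ w) i ≠ 0 := by
    by_contra hc
    push Not at hc
    exact hw0 (Matrix.eq_zero_of_mulVec_eq_zero ha (funext hc))
  obtain ⟨j, hj⟩ : ∃ j, (ℓ ᵥ* a) j ≠ 0 := by
    by_contra hc
    push Not at hc
    exact hℓ0 (Matrix.eq_zero_of_vecMul_eq_zero ha (funext hc))
  have hiS : i ∉ S := fun h' => hi (haw i h')
  have hjS : j ∉ S := fun h' => hj (hℓa j h')
  obtain ⟨Y, Y', hY, hΔ, h1, h2⟩ := h w ℓ hw hℓ haw hℓa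
  have hf : ∀ p q, p ≠ q → 1 - t q / t p ≠ 0 := fun p q hpq h0 => by
    rw [sub_eq_zero, eq_div_iff (ht0 p), one_mul] at h0
    exact hpq (ht h0)
  have y1 : ∀ p q, p ≠ q → p ∈ S → Y p q = 0 := fun p q hpq hp =>
    (mul_eq_zero.1 (by rw [h1, haw p hp, zero_mul])).resolve_right (hf p q hpq)
  have y2 : ∀ p q, p ≠ q → q ∉ S → Y p q = 0 := fun p q hpq hq =>
    (mul_eq_zero.1 (by rw [h1, hℓ q hq, mul_zero])).resolve_right (hf p q hpq)
  have y3 : ∀ p q, p ≠ q → p ∉ S → Y' p q = 0 := fun p q hpq hp =>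
    (mul_eq_zero.1 (by rw [h2, hw p hp, zero_mul])).resolve_right (hf p q hpq)
  have y4 : ∀ p q, p ≠ q → q ∈ S → Y' p q = 0 := fun p q hpq hq =>
    (mul_eq_zero.1 (by rw [h2, hℓa q hq, mul_zero])).resolve_right (hf p q hpq)
  have r1 : ∀ p ∈ S, ∀ q, (Y * a) p q = Y p p * a p q := fun p hp q => by
    rw [mul_apply]
    exact Finset.sum_eq_single p (fun r _ hr => by rw [y1 p r hr.symm hp, zero_mul]) (by simp)
  have r2 : ∀ q ∈ S, ∀ p, (a * Y') p q = a p q * Y q q := fun q hq p => by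
    rw [mul_apply, ← hΔ]
    exact Finset.sum_eq_single q (fun r _ hr => by rw [y4 r q hr hq, mul_zero]) (by simp)
  have hc : ∀ p ∈ S, Y p p = Y i₀ i₀ := by
    intro p hp
    have := hspan (fun r => Y r r * w r) (fun r hr => by simp only [hw r hr, mul_zero])
      (fun r hr => by
        have e : (a *ᵥ fun r => Y r r * w r) r = Y r r * (a *ᵥ w) r := by
          simp only [mulVec, dotProduct, Finset.mul_sum]
          refine Finset.sum_congr rfl fun q _ => ?_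
          by_cases hq : q ∈ S
          · rw [← mul_assoc, ← r2 q hq, hY, r1 r hr, mul_assoc]
          · simp only [hw q hq, mul_zero]
        rw [e, haw r hr, mul_zero]) i₀ hi₀ p
    refine mul_left_cancel₀ (mul_ne_zero (hwS i₀ hi₀) (hwS p hp)) ?_
    linear_combination this
  have hcj : Y j j = Y i₀ i₀ := by
    have e1 : (ℓ ᵥ* (a * Y')) j = (ℓ ᵥ* a) j * Y j j := by
      rw [← vecMul_vecMul, ← hΔ]
      change ∑ r, (ℓ ᵥ* a) r * Y' r j = _
      refine Finset.sum_eq_single j (fun r _ hr => ?_) (by simp)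
      by_cases hrS : r ∈ S
      · rw [hℓa r hrS, zero_mul]
      · rw [y3 r j hr hrS, mul_zero]
    have e2 : (ℓ ᵥ* (Y * a)) j = (ℓ ᵥ* a) j * Y i₀ i₀ := by
      change ∑ r, ℓ r * (Y * a) r j = (∑ r, ℓ r * a r j) * _
      rw [Finset.sum_mul]
      refine Finset.sum_congr rfl fun r _ => ?_
      by_cases hrS : r ∈ S
      · rw [r1 r hrS, hc r hrS]; ring
      · simp only [hℓ r hrS, zero_mul]
    rw [hY, e2] at e1
    exact (mul_left_cancel₀ hj e1).symm
  have hci : Y i i = Y i₀ i₀ := by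
    have e1 : ((Y * a) *ᵥ w) i = (a *ᵥ w) i * Y i i := by
      rw [← mulVec_mulVec, mul_comm]
      change ∑ r, Y i r * (a *ᵥ w) r = _
      refine Finset.sum_eq_single i (fun r _ hr => ?_) (by simp)
      by_cases hrS : r ∈ S
      · rw [haw r hrS, mul_zero]
      · rw [y2 i r hr.symm hrS, zero_mul]
    have e2 : ((a * Y') *ᵥ w) i = (a *ᵥ w) i * Y i₀ i₀ := by
      change ∑ r, (a * Y') i r * w r = (∑ r, a i r * w r) * _
      rw [Finset.sum_mul]
      refine Finset.sum_congr rfl fun r _ => ?_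
      by_cases hrS : r ∈ S
      · rw [r2 r hrS, hc r hrS]; ring
      · simp only [hw r hrS, mul_zero, zero_mul]
    rw [← hY, e2] at e1
    exact (mul_left_cancel₀ hi e1).symm
  have hone : ∀ p ∈ S, p = i₀ := by
    intro p hp
    have := hspan (fun r => if r ∈ S then Y' r j else 0) (fun r hr => if_neg hr)
      (fun r hr => by
        have e : (a * Y') r j = (a *ᵥ fun r => if r ∈ S then Y' r j else 0) r + a r j * Y j j := by
          rw [← hΔ, ← Finset.sum_ite_eq_of_mem' Finset.univ j (fun q => a r q * Y' q j)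
            (Finset.mem_univ j)]
          simp only [mul_apply, mulVec, dotProduct, ← Finset.sum_add_distrib]
          refine Finset.sum_congr rfl fun q _ => ?_
          by_cases hq : q ∈ S
          · rw [if_pos hq, if_neg (fun e : q = j => hjS (e ▸ hq)), add_zero]
          · rw [if_neg hq, mul_zero, zero_add]
            split_ifs with e
            · rfl
            · rw [y3 q j e hq, mul_zero]
        rw [hY, r1 r hr, hc r hr, hcj] at e
        linear_combination -e) i₀ hi₀ p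
    simp only [if_pos hp, if_pos hi₀] at this
    have e1 := h2 p j
    have e2 := h2 i₀ j
    have e3 : t j / t p = t j / t i₀ := by
      refine mul_left_cancel₀ (mul_ne_zero (mul_ne_zero (hwS i₀ hi₀) (hwS p hp)) hj) ?_
      linear_combination (w p * (1 - t j / t p)) * e2 - (w i₀ * (1 - t j / t i₀)) * e1 +
        ((1 - t j / t p) * (1 - t j / t i₀)) * this
    rw [div_eq_div_iff (ht0 p) (ht0 i₀)] at e3
    exact ht (mul_left_cancel₀ (ht0 j) e3).symm
  have hii : i ≠ i₀ := fun e => hiS (e ▸ hi₀)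
  have hjj : j ≠ i₀ := fun e => hjS (e ▸ hi₀)
  refine ⟨i, j, i₀, hii, hjj, ?_⟩
  have hu : (a *ᵥ w) i = a i i₀ * w i₀ :=
    Finset.sum_eq_single i₀ (fun r _ hr => by rw [hw r fun h' => hr (hone r h'), mul_zero])
      (by simp)
  have hm : (ℓ ᵥ* a) j = ℓ i₀ * a i₀ j :=
    Finset.sum_eq_single i₀ (fun r _ hr => by rw [hℓ r fun h' => hr (hone r h'), zero_mul])
      (by simp)
  have e1 : (a * Y') i j = a i j * Y' j j + a i i₀ * Y' i₀ j := by
    rw [mul_apply]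
    exact Finset.sum_eq_add_of_mem j i₀ (Finset.mem_univ _) (Finset.mem_univ _) hjj
      fun r _ hr => by rw [y3 r j hr.1 fun h' => hr.2 (hone r h'), mul_zero]
  have e2 : (Y * a) i j = Y i i * a i j + Y i i₀ * a i₀ j := by
    rw [mul_apply]
    exact Finset.sum_eq_add_of_mem i i₀ (Finset.mem_univ _) (Finset.mem_univ _) hii
      fun r _ hr => by rw [y2 i r hr.1.symm fun h' => hr.2 (hone r h'), zero_mul]
  rw [hY, e2, hΔ, hci, hcj] at e1
  have e3 := h1 i i₀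
  have e4 := h2 i₀ j
  have e5 : t i₀ / t i = t j / t i₀ := by
    refine mul_left_cancel₀ (mul_ne_zero hi hj) ?_
    rw [hu] at e3
    rw [hm] at e4
    rw [hu, hm]
    linear_combination (a i₀ j * (1 - t j / t i₀)) * (-e3) + (a i i₀ * (1 - t i₀ / t i)) * e4 +
      ((1 - t i₀ / t i) * (1 - t j / t i₀)) * e1
  rw [div_eq_div_iff (ht0 i) (ht0 i₀)] at e5
  linear_combination -e5

/-- `step1`, conjugate so that `b` is diagonal (`diag_of_separable`, `AllDer.cj`, `irr_cj`,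
`hprod_cj`), take a minimal vanishing minor; `t i * t j = t i₀ ^ 2` contradicts `eig_indep`
(`y = e_i + e_j - 2 e_{i₀}`). -/
theorem step2 {ρ : Fin (g + 2) → GL κ Ω × GL κ Ω} {ξ : Ω}
    (hρ : ((hprod ρ : GL κ Ω) : Matrix κ κ Ω) = ξ • (1 : Matrix κ κ Ω)) (hI : Irr (gens ρ))
    (hD : AllDer k ρ) :
    ∃ (h : GL κ Ω) (t : κ → Ω), Function.Injective t ∧
      ((h⁻¹ * (ρ 0).2 * h : GL κ Ω) : Matrix κ κ Ω) = diagonal t ∧
      ∀ S : Finset κ, pminor ((h⁻¹ * (ρ 0).1 * h : GL κ Ω) : Matrix κ κ Ω) S ≠ 0 := by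
  obtain ⟨h, t, ht, hb⟩ := diag_of_separable (step1 hρ hI hD).2
  have hρ' : ((hprod (cj ρ h) : GL κ Ω) : Matrix κ κ Ω) = ξ • (1 : Matrix κ κ Ω) := by
    rw [hprod_cj, Units.val_mul, Units.val_mul, hρ, Matrix.mul_smul, Matrix.mul_one,
      Matrix.smul_mul, Units.inv_mul]
  have hD' := hD.cj h
  have hb' : ((cj ρ h 0).2 : Matrix κ κ Ω) = diagonal t := by
    change ((h⁻¹ * (ρ 0).2 * h : GL κ Ω) : Matrix κ κ Ω) = diagonal t
    rw [Units.val_mul, Units.val_mul, hb, ← Matrix.mul_assoc, ← Matrix.mul_assoc, Units.inv_mul,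
      Matrix.one_mul, Matrix.mul_assoc, Units.inv_mul, Matrix.mul_one]
  refine ⟨h, t, ht, hb', ?_⟩
  by_contra hcon
  push Not at hcon
  obtain ⟨S, hS, hmin⟩ := (wellFounded_lt (α := Finset κ)).has_min
    {S | pminor ((cj ρ h 0).1 : Matrix κ κ Ω) S = 0} hcon
  have ht0 := st2_ne hb'
  obtain ⟨i, j, i₀, hi, hj, hij⟩ := minor_la (a := ((cj ρ h 0).1 : Matrix κ κ Ω))
    (Matrix.GeneralLinearGroup.det_ne_zero _) ht ht0 S hS (fun T hT h0 => hmin T h0 hT)
    (fun w ℓ => minor_dual hρ' hD' ht hb' S w ℓ)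
  have h1 := eig_indep hρ' hD' (step1 hρ' (irr_cj hI h) hD').1 hb'
    (Pi.single i 1 + Pi.single j 1 - Pi.single i₀ 2) (by
      intro D
      change (Pi.single i 1 + Pi.single j 1 - Pi.single i₀ 2 : κ → Ω) ⬝ᵥ
        (fun l => D (t l) / t l) = 0
      rw [sub_dotProduct, add_dotProduct, single_dotProduct, single_dotProduct, single_dotProduct]
      have h2 := congrArg D hij
      rw [sq, Derivation.leibniz, Derivation.leibniz, smul_eq_mul, smul_eq_mul, smul_eq_mul] at h2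
      have h3 := ht0 i
      have h4 := ht0 j
      have h5 := ht0 i₀
      have h6 : D (t i) / t i + D (t j) / t j = (t i * D (t j) + t j * D (t i)) / (t i * t j) := by
        field_simp
        ring
      rw [one_mul, one_mul, h6, h2, hij]
      field_simp
      ring)
  have h2 := congrFun h1 i₀
  simp [Pi.single_eq_of_ne hi.symm, Pi.single_eq_of_ne hj.symm] at h2

end Crest.Agent.R003
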