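import Crest.Agent.R003.W1

/-! Row 3: words in a group; several faces. -/

set_option autoImplicit false
set_option linter.unusedSectionVars false

namespace Crest.Agent.R003

open Matrix

variable {o : Type} [CommRing o] {Ω : Type} [Field Ω] [Algebra o Ω] {κ : Type} [Fintype κ]
  [DecidableEq κ]

/-- scalar matrices -/
def h2sc (Ω : Type) [Field Ω] [Algebra o Ω] (κ : Type) [Fintype κ] [DecidableEq κ] :
    oˣ →* GL κ Ω := Units.map (algebraMap o (Matrix κ κ Ω)).toMonoidHom

theorem h2sc_iff {g : GL κ Ω} {c : oˣ} :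
    (g : Matrix κ κ Ω) = algebraMap o Ω (c : o) • (1 : Matrix κ κ Ω) ↔ g = h2sc Ω κ c := by
  rw [algebraMap_smul, ← Algebra.algebraMap_eq_smul_one, Units.ext_iff]
  rfl

theorem h2sc_comm (c : oˣ) (g : GL κ Ω) : h2sc Ω κ c * g = g * h2sc Ω κ c :=
  Units.ext (Algebra.commutes _ _)

theorem h2sc_good {X : Type} [Coord Ω X] (c : oˣ) : Good o Ω (fun _ : X => h2sc Ω κ c) := by
  refine good_units ?_ ?_
  · rw [h2sc_iff.2 rfl]
    fun_prop
  · rw [← map_inv, h2sc_iff.2 rfl]
    fun_prop

theorem h80_rot {G : Type} [Group G] {c : G} (hc : ∀ g, c * g = g * c) (v X v' : G) :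
    v * (X * v') = c ↔ X * (v' * v) = c := by
  rw [← eq_inv_mul_iff_mul_eq, ← hc, eq_mul_inv_iff_mul_eq, mul_assoc]

theorem h80_merge {G : Type} [Group G] {c c' : G} (hc : ∀ g, c * g = g * c)
    (hc' : ∀ g, c' * g = g * c') (u w w' : G) :
    w * ((c * u⁻¹)⁻¹ * w') = c' ↔ u * (w' * w) = c * c' := by
  rw [h80_rot hc', hc, _root_.mul_inv_rev, inv_inv, mul_assoc, inv_mul_eq_iff_eq_mul]

theorem h80_letter {E : Type} {x y : E × Bool} (h : y.1 = x.1) : y = x ∨ y = ng x := by
  rcases x with ⟨e, _ | _⟩ <;> rcases y with ⟨e', _ | _⟩ <;> simp_all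

theorem h80_ngng {E : Type} (x : E × Bool) : ng (ng x) = x := by
  rcases x with ⟨e, _ | _⟩ <;> rfl

/-- Induction on the number of faces.  No face: `Big.inZ_GL`, `InZ.pi`.  If the first face `f` is
closed under `ng`, every solution is the image of a pair (solution of `[f]`, solution of the rest)
under the good map which takes the letters of `f` from the first one.  Otherwise a letter `x` of
`f = v x v'` has its inverse in another face `w x⁻¹ w'`; up to rotation (the scalars are central)
the faces are `x (v' v) = c`, `x⁻¹ (w' w) = c'`; replace them by the face `v' v w' w = c c'`;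
the good map back sets `x := c (v' v)⁻¹` (`Function.update`). -/
theorem words_dense {E : Type} [Finite E] (hB : Big o Ω) (hCS : CS Ω κ o)
    (F : List (List (E × Bool) × oˣ)) (h : WOk (F.flatMap Prod.fst)) (A : WS Ω κ F) :
    InZ o Ω A := by
  classical
  induction hn : F.length generalizing F with
  | zero =>
    obtain rfl := List.length_eq_zero_iff.1 hn
    have hg : Good o Ω fun B : E → GL κ Ω => (⟨B, by simp⟩ : WS Ω κ ([] : List (_ × oˣ))) :=
      Good.subtypeMk Good.id _
    exact hg.inZ (InZ.pi fun e => hB.inZ_GL (A.1 e))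
  | succ n ih =>
    obtain ⟨⟨f, c⟩, R, rfl⟩ := List.exists_cons_of_length_eq_add_one hn
    rw [List.length_cons, add_left_inj] at hn
    rw [List.flatMap_cons] at h
    obtain ⟨n1, n2, n3⟩ := List.nodup_append.1 h.nodup
    by_cases hcl : ∀ x ∈ f, ng x ∈ f
    · have hR : WOk (R.flatMap Prod.fst) := ⟨n2, fun x hx =>
        (List.mem_append.1 (h.neg x (List.mem_append_right _ hx))).resolve_left fun h1 =>
          n3 _ (hcl _ h1) _ hx (h80_ngng x)⟩
      have hm : ∀ x : E × Bool, (x.1, true) ∈ f ↔ x ∈ f := fun x => by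
        rcases h80_letter (x := x) (y := (x.1, true)) rfl with e | e <;> rw [e]
        exact ⟨fun h1 => h80_ngng x ▸ hcl _ h1, hcl x⟩
      have hW : ∀ p : WS Ω κ [(f, c)] × WS Ω κ R, ∀ g ∈ (f, c) :: R,
          ((wev (fun e => if (e, true) ∈ f then p.1.1 e else p.2.1 e) g.1 : GL κ Ω) :
            Matrix κ κ Ω) = algebraMap o Ω (g.2 : o) • (1 : Matrix κ κ Ω) := by
        intro p g hg
        rcases List.mem_cons.1 hg with rfl | hg
        · rw [wev_congr (B := p.1.1) fun x hx => if_pos ((hm x).2 hx)]
          exact p.1.2 _ List.mem_cons_self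
        · rw [wev_congr (B := p.2.1) fun x hx => if_neg fun h1 =>
            n3 _ ((hm x).1 h1) _ (List.mem_flatMap.2 ⟨g, hg, hx⟩) rfl]
          exact p.2.2 g hg
      have g1 : ∀ e, Good o Ω fun p : WS Ω κ [(f, c)] × WS Ω κ R => p.1.1 e := fun e =>
        (Good.apply e).comp (f := fun p : WS Ω κ [(f, c)] × WS Ω κ R => p.1.1) Good.id.fst.val
      have g2 : ∀ e, Good o Ω fun p : WS Ω κ [(f, c)] × WS Ω κ R => p.2.1 e := fun e =>
        (Good.apply e).comp (f := fun p : WS Ω κ [(f, c)] × WS Ω κ R => p.2.1) Good.id.snd.val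
      have hg : Good o Ω fun p : WS Ω κ [(f, c)] × WS Ω κ R => (⟨_, hW p⟩ : WS Ω κ ((f, c) :: R)) :=
        Good.subtypeMk (Good.pi fun e => (g1 e).ite (g2 e)) _
      have := hg.inZ ((single_face hB hCS f c ⟨n1, hcl⟩ ⟨A.1, fun g hg => A.2 g
        (List.mem_cons.2 (Or.inl (List.mem_singleton.1 hg)))⟩).prodMk
        (ih R hR ⟨A.1, fun g hg => A.2 g (List.mem_cons_of_mem _ hg)⟩ hn))
      simpa only [ite_self] using this
    · push Not at hcl
      obtain ⟨x, hx, hx'⟩ := hcl
      obtain ⟨⟨g, c'⟩, hgR, hxg⟩ := List.mem_flatMap.1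
        ((List.mem_append.1 (h.neg x (List.mem_append_left _ hx))).resolve_left hx')
      obtain ⟨v, v', rfl⟩ := List.append_of_mem hx
      obtain ⟨w, w', rfl⟩ := List.append_of_mem (show ng x ∈ g from hxg)
      obtain ⟨R₁, R₂, rfl⟩ := List.append_of_mem hgR
      let F' : List (List (E × Bool) × oˣ) := ((v' ++ v) ++ (w' ++ w), c * c') :: (R₁ ++ R₂)
      have hp : ((v ++ x :: v') ++ (R₁ ++ (w ++ ng x :: w', c') :: R₂).flatMap Prod.fst).Perm
          (x :: ng x :: F'.flatMap Prod.fst) := by
        simp only [F', List.flatMap_cons, List.flatMap_append, List.perm_iff_count,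
          List.count_append, List.count_cons]
        intro y
        omega
      have nd := hp.nodup_iff.1 h.nodup
      rw [List.nodup_cons, List.nodup_cons, List.mem_cons, not_or] at nd
      have hF' : WOk (F'.flatMap Prod.fst) := ⟨nd.2.2, fun y hy => by
        have := hp.mem_iff.1 (h.neg y (hp.mem_iff.2 (by simp [hy])))
        rcases List.mem_cons.1 this with e | this
        · exact absurd (by rw [← e, h80_ngng]; exact hy) nd.2.1
        · rcases List.mem_cons.1 this with e | this
          · exact absurd (by rw [← h80_ngng x, ← e, h80_ngng]; exact hy) nd.1.2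
          · exact this⟩
      have hne : ∀ y ∈ F'.flatMap Prod.fst, y.1 ≠ x.1 := fun y hy e => by
        rcases h80_letter e with rfl | rfl
        · exact nd.1.2 hy
        · exact nd.2.1 hy
      let val : (E → GL κ Ω) → GL κ Ω := fun B => h2sc Ω κ c * (wev B (v' ++ v))⁻¹
      let Φ : (E → GL κ Ω) → E → GL κ Ω := fun B =>
        Function.update B x.1 (if x.2 then val B else (val B)⁻¹)
      have Φ1 : ∀ B, wev (Φ B) [x] = val B := fun B => by
        rcases x with ⟨e, _ | _⟩ <;> simp [wev, Φ]
      have Φ2 : ∀ B u, (∀ y ∈ u, y ∈ F'.flatMap Prod.fst) → wev (Φ B) u = wev B u :=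
        fun B u hu => wev_congr fun y hy => Function.update_of_ne (hne y (hu y hy)) _ _
      have hA1 : wev A.1 [x] = val A.1 := by
        have := h2sc_iff.1 (A.2 _ List.mem_cons_self)
        rw [wev_append, wev_cons, h80_rot (h2sc_comm c), ← wev_append] at this
        exact eq_mul_inv_of_mul_eq this
      have hA : ∀ g ∈ F', ((wev A.1 g.1 : GL κ Ω) : Matrix κ κ Ω) =
          algebraMap o Ω (g.2 : o) • (1 : Matrix κ κ Ω) := by
        intro g hg
        rcases List.mem_cons.1 hg with rfl | hg
        · have := h2sc_iff.1 (A.2 _ (List.mem_cons_of_mem _ hgR))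
          rw [wev_append, wev_cons, wev_ng, hA1, h80_merge (h2sc_comm c) (h2sc_comm c'),
            ← wev_append, ← wev_append, ← map_mul] at this
          exact h2sc_iff.2 this
        · refine A.2 g (List.mem_cons_of_mem _ ?_)
          rw [List.mem_append] at hg
          rw [List.mem_append, List.mem_cons]
          tauto
      have hW : ∀ B : WS Ω κ F',
          ∀ g ∈ (v ++ x :: v', c) :: (R₁ ++ (w ++ ng x :: w', c') :: R₂),
          ((wev (Φ B.1) g.1 : GL κ Ω) : Matrix κ κ Ω) =
            algebraMap o Ω (g.2 : o) • (1 : Matrix κ κ Ω) := by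
        intro B g hg
        have hrest : ∀ g ∈ R₁ ++ R₂, ((wev (Φ B.1) g.1 : GL κ Ω) : Matrix κ κ Ω) =
            algebraMap o Ω (g.2 : o) • (1 : Matrix κ κ Ω) := fun g hg => by
          rw [Φ2 _ _ fun y hy => List.mem_flatMap.2 ⟨g, List.mem_cons_of_mem _ hg, hy⟩]
          exact B.2 g (List.mem_cons_of_mem _ hg)
        rcases List.mem_cons.1 hg with rfl | hg
        · rw [h2sc_iff, wev_append, wev_cons, h80_rot (h2sc_comm c), ← wev_append, Φ1,
            Φ2 _ _ fun y hy => by simp only [F', List.flatMap_cons, List.mem_append] at hy ⊢; tauto]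
          exact inv_mul_cancel_right _ _
        · rcases List.mem_append.1 hg with hg | hg
          · exact hrest g (List.mem_append_left _ hg)
          · rcases List.mem_cons.1 hg with rfl | hg
            · have := h2sc_iff.1 (B.2 _ List.mem_cons_self)
              rw [h2sc_iff, wev_append, wev_cons, wev_ng, Φ1,
                h80_merge (h2sc_comm c) (h2sc_comm c'), ← wev_append, Φ2 _ _ fun y hy => by
                  simp only [F', List.flatMap_cons, List.mem_append] at hy ⊢; tauto,
                ← wev_append, ← map_mul]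
              exact this
            · exact hrest g (List.mem_append_right _ hg)
      have gB : ∀ e, Good o Ω fun B : WS Ω κ F' => B.1 e := fun e =>
        (Good.apply e).comp Good.id.val
      have gv : Good o Ω fun B : WS Ω κ F' => val B.1 :=
        (h2sc_good c).glmul (good_wev gB _).uinv
      have hg : Good o Ω fun B : WS Ω κ F' => (⟨Φ B.1, hW B⟩ : WS Ω κ _) :=
        Good.subtypeMk (Good.pi fun e => by
          simp only [Function.update_apply]
          exact (gv.ite gv.uinv).ite (gB e)) _
      have hΦ : Φ A.1 = A.1 := by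
        refine Function.update_eq_self_iff.2 ?_
        rw [← hA1]
        rcases x with ⟨e, _ | _⟩ <;> simp [wev]
      have := hg.inZ (ih F' hF' ⟨A.1, hA⟩ (by
        simp only [F', List.length_cons, List.length_append] at hn ⊢
        omega))
      simpa only [hΦ] using this

theorem h2_prod {H E : Type} (s : H → oˣ) (l : H → List (E × Bool)) (B : E → GL κ Ω) (L : List H) :
    (L.map fun p => h2sc Ω κ (s p) * wev B (l p)).prod =
      h2sc Ω κ (L.map s).prod * wev B (L.flatMap l) := by
  induction L with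
  | nil => simp [wev_nil]
  | cons p L ih =>
    rw [List.map_cons, List.prod_cons, ih, List.map_cons, List.prod_cons, List.flatMap_cons,
      wev_append, map_mul, mul_assoc, mul_assoc, ← mul_assoc (wev B (l p)), ← h2sc_comm, mul_assoc]

/-- the cycle through `p` as a list -/
noncomputable def h2cyc {H : Type} (π : Equiv.Perm H) (p : H) : List H :=
  (List.range (Function.minimalPeriod π p)).map fun j => (π ^ j) p

theorem h2cyc_mem {H : Type} [Finite H] {π : Equiv.Perm H} {p q : H} :
    q ∈ h2cyc π p ↔ π.SameCycle p q := by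
  refine ⟨fun h => ?_, fun h => ?_⟩
  · obtain ⟨j, -, rfl⟩ := List.mem_map.1 h
    exact ⟨j, by rw [zpow_natCast]⟩
  · obtain ⟨j, rfl⟩ := h.exists_nat_pow_eq
    refine List.mem_map.2 ⟨j % Function.minimalPeriod π p, List.mem_range.2 (Nat.mod_lt _
      (Function.minimalPeriod_pos_of_mem_periodicPts (π.injective.mem_periodicPts p))), ?_⟩
    exact Function.iterate_mod_minimalPeriod_eq

theorem h2cyc_nodup {H : Type} (π : Equiv.Perm H) (p : H) : (h2cyc π p).Nodup :=
  List.nodup_range.map_on fun _ hi _ hj h =>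
    Function.iterate_injOn_Iio_minimalPeriod (List.mem_range.1 hi) (List.mem_range.1 hj) h

theorem h2cyc_step {H G : Type} [Finite H] [Group G] {π : Equiv.Perm H} {A : H → G} {p : H}
    (h : ((h2cyc π p).map A).prod = 1) : ((h2cyc π (π p)).map A).prod = 1 := by
  have hp := π.injective.mem_periodicPts p
  obtain ⟨m, hm⟩ := Nat.exists_eq_add_one.2 (Function.minimalPeriod_pos_of_mem_periodicPts hp)
  have e : (π ^ m) (π p) = p := by
    have := Function.iterate_minimalPeriod (f := π) (x := p)
    rwa [hm] at this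
  rw [h2cyc, hm, List.range_succ_eq_map, List.map_cons, List.map_cons, List.prod_cons,
    List.map_map, List.map_map] at h
  rw [h2cyc, Function.minimalPeriod_apply hp, hm, List.range_succ, List.map_append, List.map_append,
    List.prod_append, List.map_singleton, List.map_singleton, List.prod_singleton, e, List.map_map]
  exact mul_eq_one_comm.1 h

theorem h2cyc_all {H G : Type} [Finite H] [Group G] {π : Equiv.Perm H} {A : H → G} {p q : H}
    (hq : π.SameCycle p q) (h : ((h2cyc π p).map A).prod = 1) : ((h2cyc π q).map A).prod = 1 := by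
  obtain ⟨j, rfl⟩ := hq.exists_nat_pow_eq
  clear hq
  induction j with
  | zero => exact h
  | succ j ih => rw [pow_succ', Equiv.Perm.mul_apply]; exact h2cyc_step ih

/-- From permutations to lists.  Fix a linear order on `H` (`Fintype.equivFin`); take `E = H`.
The half edge `p` contributes the letter `(p, true)` and the scalar `1` if `p < τ p`, the letter
`(τ p, false)` and the scalar `u p` if `τ p < p` (then `A p = u p • (A (τ p))⁻¹`), and only the scalar
`u p` if `τ p = p`.  One face for every cycle of `π` (list `p₀, π p₀, ...` for one representative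
`p₀` of every cycle, e.g. the least element), with the inverse of the product of the scalars.
The face relation at one point of a cycle gives it at all points (conjugation).
The good map `WS → IsWord` rebuilds `A` from the letters `p < τ p`. -/
theorem qp_of_cs (hB : Big o Ω) (hCS : CS Ω κ o) : QP Ω κ o := by
  intro H _ _ τ u π hτ hu A
  classical
  let _ : LinearOrder H := LinearOrder.lift' _ (Fintype.equivFin H).injective
  let l : H → List (H × Bool) := fun p =>
    if p < τ p then [(p, true)] else if τ p < p then [(τ p, false)] else []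
  let s : H → oˣ := fun p => if p < τ p then 1 else u p
  let rb : (H → GL κ Ω) → H → GL κ Ω := fun B p => h2sc Ω κ (s p) * wev B (l p)
  have r1 : ∀ B p, p < τ p → rb B p = B p := fun B p h => by simp [rb, s, l, h, wev]
  have r2 : ∀ B p, τ p < p → rb B p = h2sc Ω κ (u p) * (B (τ p))⁻¹ := fun B p h => by
    simp [rb, s, l, h, h.not_gt, wev]
  have r3 : ∀ B p, τ p = p → rb B p = h2sc Ω κ (u p) := fun B p h => by simp [rb, s, l, h, wev]
  have hl : ∀ p x, x ∈ l p ↔ p < τ p ∧ x = (p, true) ∨ τ p < p ∧ x = (τ p, false) := fun p x => by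
    rcases lt_trichotomy p (τ p) with h | h | h
    · simp [l, h, h.not_gt]
    · simp [l, ← h]
    · simp [l, h, h.not_gt]
  let R := (Finset.univ : Finset (Quotient (Equiv.Perm.SameCycle.setoid π))).toList
  let F : List (List (H × Bool) × oˣ) :=
    R.map fun c => ((h2cyc π c.out).flatMap l, ((h2cyc π c.out).map s).prod⁻¹)
  have hF : ∀ B : H → GL κ Ω, (∀ f ∈ F, ((wev B f.1 : GL κ Ω) : Matrix κ κ Ω) =
      algebraMap o Ω (f.2 : o) • (1 : Matrix κ κ Ω)) ↔
      ∀ p, ((h2cyc π p).map (rb B)).prod = 1 := fun B => by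
    refine ⟨fun h p => h2cyc_all (Quotient.mk_out (s := Equiv.Perm.SameCycle.setoid π) p) ?_,
      fun h f hf => ?_⟩
    · have := h2sc_iff.1 (h _ (List.mem_map.2 ⟨⟦p⟧, by simp [R], rfl⟩))
      rw [h2_prod, this, map_inv, mul_inv_cancel]
    · obtain ⟨c, -, rfl⟩ := List.mem_map.1 hf
      have := h c.out
      rw [h2_prod] at this
      rw [h2sc_iff, map_inv]
      exact eq_inv_of_mul_eq_one_right this
  have hM : ∀ p, p ∈ R.flatMap fun c => h2cyc π c.out := fun p => List.mem_flatMap.2
    ⟨⟦p⟧, by simp [R], h2cyc_mem.2 (Quotient.mk_out (s := Equiv.Perm.SameCycle.setoid π) p)⟩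
  have hok : WOk (F.flatMap Prod.fst) := by
    have e : F.flatMap Prod.fst = (R.flatMap fun c => h2cyc π c.out).flatMap l := by
      rw [List.flatMap_map, List.flatMap_assoc]
    rw [e]
    refine ⟨List.nodup_flatMap.2 ⟨fun p _ => ?g1, List.Pairwise.imp (fun {p q} hpq x hp hq => hpq ?g2)
      (List.nodup_flatMap.2 ⟨fun c _ => h2cyc_nodup _ _, List.Pairwise.imp
        (fun {c d} hcd x hc hd => hcd ?g3) (Finset.nodup_toList _)⟩)⟩, fun x hx => ?g4⟩
    case g1 =>
      simp only [l]
      split_ifs <;> simp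
    case g2 =>
      rcases (hl _ _).1 hp with ⟨-, rfl⟩ | ⟨-, rfl⟩ <;> rcases (hl _ _).1 hq with ⟨-, h⟩ | ⟨-, h⟩
      · exact (Prod.ext_iff.1 h).1
      · simp at h
      · simp at h
      · rw [← hτ p, ← hτ q]
        exact congrArg τ (Prod.ext_iff.1 h).1
    case g3 => exact Quotient.out_equiv_out.1 ((h2cyc_mem.1 hc).trans (h2cyc_mem.1 hd).symm)
    case g4 =>
      obtain ⟨p, -, hp⟩ := List.mem_flatMap.1 hx
      refine List.mem_flatMap.2 ⟨τ p, hM _, (hl _ _).2 ?_⟩
      rw [hτ]
      rcases (hl _ _).1 hp with ⟨h, rfl⟩ | ⟨h, rfl⟩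
      · exact Or.inr ⟨h, rfl⟩
      · exact Or.inl ⟨h, rfl⟩
  have hA : rb A.1 = A.1 := funext fun p => by
    rcases lt_trichotomy p (τ p) with h | h | h
    · exact r1 _ _ h
    · rw [r3 _ _ h.symm, h2sc_iff.1 (A.2.fix p h.symm)]
    · rw [r2 _ _ h, ← h2sc_iff.1 ((Units.val_mul _ _).trans (A.2.sq p h.ne)), mul_inv_cancel_right]
  have hW : ∀ B : WS Ω κ F, IsWord Ω κ o τ u π (rb B.1) := fun B => by
    refine ⟨fun p h => h2sc_iff.2 (r3 _ _ h), fun p h => ?_, fun p => ?_⟩
    · rw [← Units.val_mul, h2sc_iff]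
      rcases lt_or_gt_of_ne h with h | h
      · rw [r2 _ _ h, r1 _ _ (by rwa [hτ]), inv_mul_cancel_right]
      · rw [r1 _ _ h, r2 _ _ (by rwa [hτ]), hτ, hu, h2sc_comm, mul_inv_cancel_left]
    · have := (hF _).1 B.2 p
      rwa [h2cyc, List.map_map] at this
  have hg : Good o Ω fun B : WS Ω κ F =>
      (⟨rb B.1, hW B⟩ : {A : H → GL κ Ω // IsWord Ω κ o τ u π A}) :=
    Good.subtypeMk (Good.pi fun p => (h2sc_good _).glmul (good_wev (fun e => (Good.apply e).comp Good.id.val) _)) _
  have := hg.inZ (words_dense hB hCS F hok ⟨A.1, (hF _).2 fun p => by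
    rw [hA, h2cyc, List.map_map]
    exact A.2.face p⟩)
  simpa only [hA] using this

end Crest.Agent.R003
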