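import Crest.Agent.R003.Init
import Crest.Agent.R003.W2
import Crest.Agent.R003.CS1
import Crest.Agent.R003.St2
import Crest.Agent.R003.Gen
import Crest.Agent.R003.Glue

/-! Row 3: closed surfaces, all genera. -/

set_option autoImplicit false
set_option linter.unusedSectionVars false

namespace Crest.Agent.R003

open Matrix

variable {o : Type} [CommRing o]

/-- the generic point is in the closure of the integral points -/
theorem cs_generic {r : ℕ} (hN : Nice o r) {Ω : Type} [Field Ω] [IsAlgClosed Ω] [CharZero Ω]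
    [Algebra o Ω] (hi : Function.Injective (algebraMap o Ω)) {κ : Type} [Fintype κ] [DecidableEq κ]
    (hr : Fintype.card κ ≤ r) (h2 : 2 ≤ Fintype.card κ)
    (hQ : ∀ m ≤ Fintype.card κ - 1, QP Ω (Fin m) o) {g : ℕ} (ξ : oˣ)
    (x : CSV Ω κ (g + 2) (algebraMap o Ω (ξ : o))) {k : Type} [CommRing k] [Algebra k Ω]
    (hI : Irr (gens x.1)) (hD : AllDer k x.1) : InZ o Ω x := by
  obtain ⟨h, t, ht, hb, ha⟩ := step2 x.2 hI hD
  obtain ⟨z, hz⟩ := hN.zeta
  set l : κ → ℕ := fun a => (Fintype.equivFin κ a : ℕ) with hl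
  have hli : Function.Injective l := Fin.val_injective.comp (Fintype.equivFin κ).injective
  have hlr : ∀ a, l a < r := fun a => (Fintype.equivFin κ a).2.trans_le hr
  obtain ⟨d, hd⟩ := friedland _ ha fun a => algebraMap o Ω (z (l a) : o)
  have hd0 : (diagonal d).det ≠ 0 := by
    intro h0
    have h1 := Matrix.det_eq_sign_charpoly_coeff
      (((h⁻¹ * (x.1 0).1 * h : GL κ Ω) : Matrix κ κ Ω) * diagonal d)
    rw [det_mul, h0, mul_zero, hd, Polynomial.coeff_zero_eq_eval_zero, Polynomial.eval_prod] at h1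
    refine mul_ne_zero (pow_ne_zero _ (neg_ne_zero.2 one_ne_zero)) ?_ h1.symm
    refine Finset.prod_ne_zero_iff.2 fun a _ => ?_
    simpa using ((z (l a)).isUnit.map (algebraMap o Ω)).ne_zero
  obtain ⟨D, hD'⟩ : ∃ D : GL κ Ω, (D : Matrix κ κ Ω) = diagonal d :=
    ⟨Matrix.GeneralLinearGroup.mkOfDetNeZero _ hd0, rfl⟩
  obtain ⟨v, hvd⟩ : ∃ v : GL κ Ω, v = h * D * h⁻¹ := ⟨_, rfl⟩
  have hv : v * (x.1 0).2 = (x.1 0).2 * v := by
    have e : D * (h⁻¹ * (x.1 0).2 * h) = (h⁻¹ * (x.1 0).2 * h) * D := by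
      apply Units.ext
      rw [Units.val_mul, Units.val_mul (h⁻¹ * (x.1 0).2 * h), hb, hD', diagonal_mul_diagonal,
        diagonal_mul_diagonal]
      simp [mul_comm]
    calc v * (x.1 0).2 = h * (D * (h⁻¹ * (x.1 0).2 * h)) * h⁻¹ := by rw [hvd]; group
      _ = (x.1 0).2 * v := by rw [e, hvd]; group
  have hcm : cm ((x.1 0).1 * v) (x.1 0).2 = cm (x.1 0).1 (x.1 0).2 := by
    calc cm ((x.1 0).1 * v) (x.1 0).2
        = (x.1 0).1 * (v * (x.1 0).2) * v⁻¹ * (x.1 0).1⁻¹ * (x.1 0).2⁻¹ := by simp only [cm]; group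
      _ = _ := by rw [hv]; simp only [cm]; group
  obtain ⟨y, hy0, hy1⟩ : ∃ y : CSV Ω κ (g + 2) (algebraMap o Ω (ξ : o)),
      y.1 0 = ((x.1 0).1 * v, (x.1 0).2) ∧ ∀ i, i ≠ 0 → x.1 i = y.1 i := by
    refine ⟨⟨Function.update x.1 0 ((x.1 0).1 * v, (x.1 0).2), Eq.trans ?_ x.2⟩, by simp,
      fun i hi => by simp [Function.update_of_ne hi]⟩
    congr 1
    unfold hprod
    congr 1
    refine List.map_congr_left fun i _ => ?_
    by_cases h0 : i = 0
    · subst h0; simpa using hcm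
    · simp [Function.update_of_ne h0]
  have hB := hN.bigΩ hi
  have hy : InZ o Ω y := by
    refine glue_inZ hli z (fun a b hab => hz _ _ (hlr a) (hlr b) (hli.ne hab)) ξ
      (fun d => flv_two hB h2 hQ _ _ (fun j => by fin_cases j <;> exact hli) d) y ?_
    rw [← hd, hy0]
    have e : (x.1 0).1 * v = h * ((h⁻¹ * (x.1 0).1 * h) * D) * h⁻¹ := by rw [hvd]; group
    have e2 := Matrix.charpoly_units_conj h
      ((((h⁻¹ * (x.1 0).1 * h) * D : GL κ Ω)) : Matrix κ κ Ω)
    rw [← Matrix.coe_units_inv, ← Units.val_mul, ← Units.val_mul, ← e, Units.val_mul _ D,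
      hD'] at e2
    exact e2
  refine twist_inZ (hN.tw Ω hi κ) ξ y x ?_ v⁻¹ ?_ ?_ hy1 hy
  · rw [hy0]
    have e : (x.1 0).2 = h * (h⁻¹ * (x.1 0).2 * h) * h⁻¹ := by group
    have := separable_diag h ht
    rwa [← hb, ← Units.val_mul, ← Units.val_mul, ← e] at this
  · rw [hy0]
    calc v⁻¹ * (x.1 0).2 = v⁻¹ * ((x.1 0).2 * v) * v⁻¹ := by group
      _ = (x.1 0).2 * v⁻¹ := by rw [← hv]; group
  · rw [hy0]; simp

theorem cs_all {r : ℕ} (hN : Nice o r) (n : ℕ) (hn : n ≤ r) :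
    ∀ (Ω : Type) [Field Ω] [IsAlgClosed Ω] [CharZero Ω] [Algebra o Ω],
      Function.Injective (algebraMap o Ω) → ∀ (κ : Type) [Fintype κ] [DecidableEq κ],
      Fintype.card κ ≤ n → CS Ω κ o := by
  induction n with
  | zero => exact fun Ω _ _ _ _ hi κ _ _ h => cs_small (hN.bigΩ hi) (by omega)
  | succ n ih =>
    intro Ω _ _ _ _ hi κ _ _ h
    by_cases h2 : Fintype.card κ ≤ 1
    · exact cs_small (hN.bigΩ hi) h2
    intro g ξ x
    obtain _ | _ | g := g
    · exact cs_zero ξ x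
    · exact cs_one (hN.bigΩ hi) ξ x
    have : Nonempty κ := Fintype.card_pos_iff.1 (by omega)
    obtain ⟨K, _, _, _, x', hx, hdim⟩ := exists_generic_CSV (by omega) _ x
    let : Algebra o K := ((algebraMap Ω K).comp (algebraMap o Ω)).toAlgebra
    have : IsScalarTower o Ω K := IsScalarTower.of_algebraMap_eq fun _ => rfl
    have : CharZero K := charZero_of_injective_algebraMap (algebraMap Ω K).injective
    have hiK : Function.Injective (algebraMap o K) := (algebraMap Ω K).injective.comp hi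
    obtain ⟨hI, hD⟩ := generic_irr (by omega) x'.1 _ x'.2 hdim
    refine inZ_of_generic ξ x K x' hx ?_
    refine cs_generic hN hiK (by omega) (by omega) (fun m hm => ?_) ξ x' hI hD
    exact qp_of_cs (hN.bigΩ hiK) (ih (by omega) K hiK _ (by simp; omega))

theorem flDense_all {r : ℕ} (hN : Nice o r) (Ω : Type) [Field Ω] [IsAlgClosed Ω] [CharZero Ω]
    [Algebra o Ω] (hi : Function.Injective (algebraMap o Ω)) (κ : Type) [Fintype κ] [DecidableEq κ]
    (h : Fintype.card κ ≤ r) : FlDense o Ω κ :=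
  flv_all (hN.bigΩ hi) fun m hm =>
    qp_of_cs (hN.bigΩ hi) (cs_all hN r le_rfl Ω hi _ (by simp; omega))

end Crest.Agent.R003
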