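import Mathlib

/-! Row 3: similarity from ranks (auxiliary file for `Cls`). -/

set_option autoImplicit false
set_option linter.unusedSectionVars false

namespace Crest.Agent.R003

open Polynomial Module

variable {K : Type} [Field K]

theorem clsa_glue {V U : Type} [AddCommGroup V] [Module K V] [AddCommGroup U] [Module K U]
    (W S : Submodule K V) (d : W →ₗ[K] U) (ψ : S →ₗ[K] U)
    (h : ∀ (x : W) (y : S), (x : V) = y → d x = ψ y) :
    ∃ D : V →ₗ[K] U, (∀ x : W, D x = d x) ∧ ∀ y : S, D y = ψ y := by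
  let f : V →ₗ.[K] U := ⟨W, d⟩
  let g : V →ₗ.[K] U := ⟨S, ψ⟩
  obtain ⟨D, hD⟩ := LinearMap.exists_extend (LinearPMap.sup f g h).toFun
  refine ⟨D, fun x => ?_, fun y => ?_⟩
  · obtain ⟨z, hz1, hz2⟩ := LinearPMap.exists_of_le (LinearPMap.left_le_sup f g h) x
    have := LinearMap.congr_fun hD z
    rw [LinearMap.comp_apply, Submodule.subtype_apply, ← hz1] at this
    exact this.trans hz2.symm
  · obtain ⟨z, hz1, hz2⟩ := LinearPMap.exists_of_le (LinearPMap.right_le_sup f g h) y
    have := LinearMap.congr_fun hD z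
    rw [LinearMap.comp_apply, Submodule.subtype_apply, ← hz1] at this
    exact this.trans hz2.symm

theorem clsa_ext_inj {V U : Type} [AddCommGroup V] [Module K V] [FiniteDimensional K V]
    [AddCommGroup U] [Module K U] [FiniteDimensional K U] (hd : finrank K V = finrank K U)
    (W : Submodule K V) (d : W →ₗ[K] U) (hinj : Function.Injective d) :
    ∃ ψ : V ≃ₗ[K] U, ∀ x : W, ψ x = d x := by
  let e : V ≃ₗ[K] U := LinearEquiv.ofFinrankEq V U hd
  let d' : W →ₗ[K] V := e.symm.toLinearMap ∘ₗ d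
  have hd' : Function.Injective d' := e.symm.injective.comp hinj
  obtain ⟨g, hg⟩ := Submodule.exists_linearEquiv_restrict_eq (LinearEquiv.ofInjective d' hd')
  refine ⟨g.trans e, fun x => ?_⟩
  rw [LinearEquiv.trans_apply, ← hg, LinearEquiv.ofInjective_apply]
  simp [d']

theorem clsa_lift_iso {V V' : Type} [AddCommGroup V] [Module K V] [FiniteDimensional K V]
    [AddCommGroup V'] [Module K V'] [FiniteDimensional K V'] (N : V →ₗ[K] V) (N' : V' →ₗ[K] V')
    (hd : Module.finrank K V = Module.finrank K V')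
    (φ : LinearMap.range N ≃ₗ[K] LinearMap.range N')
    (hφ : ∀ w : LinearMap.range N, (φ ⟨N w, LinearMap.mem_range_self N _⟩ : V') = N' (φ w)) :
    ∃ Φ : V ≃ₗ[K] V', ∀ v, Φ (N v) = N' (Φ v) := by
  obtain ⟨s, hs⟩ := N'.rangeRestrict.exists_rightInverse_of_surjective N'.range_rangeRestrict
  have hs' : ∀ w, N' (s w) = w := fun w =>
    congrArg Subtype.val (LinearMap.congr_fun hs w)
  let Φ₁ : V →ₗ[K] V' := s ∘ₗ φ.toLinearMap ∘ₗ N.rangeRestrict
  have hΦ₁ : ∀ v, N' (Φ₁ v) = φ ⟨N v, LinearMap.mem_range_self N _⟩ := fun v => hs' _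
  have hΦ₁0 : ∀ v, N v = 0 → Φ₁ v = 0 := fun v hv => by
    have : N.rangeRestrict v = 0 := Subtype.ext hv
    simp [Φ₁, this]
  let d₀ : LinearMap.range N →ₗ[K] V' :=
    (LinearMap.range N').subtype ∘ₗ φ.toLinearMap - Φ₁ ∘ₗ (LinearMap.range N).subtype
  have hd₀ : ∀ w, d₀ w = φ w - Φ₁ w := fun w => rfl
  let d : LinearMap.range N →ₗ[K] LinearMap.ker N' := d₀.codRestrict _ fun w => by
    rw [LinearMap.mem_ker, hd₀, map_sub, hΦ₁, hφ, sub_self]
  have hk : finrank K (LinearMap.ker N) = finrank K (LinearMap.ker N') := by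
    have h1 := N.finrank_range_add_finrank_ker
    have h2 := N'.finrank_range_add_finrank_ker
    have h3 := φ.finrank_eq
    omega
  let W₁ : Submodule K (LinearMap.ker N) := (LinearMap.range N).comap (LinearMap.ker N).subtype
  let j : W₁ →ₗ[K] LinearMap.range N :=
    ((LinearMap.ker N).subtype ∘ₗ W₁.subtype).codRestrict _ fun x => x.2
  have hj : ∀ x : W₁, ((j x : LinearMap.range N) : V) = ((x : LinearMap.ker N) : V) := fun x => rfl
  have hinj : Function.Injective (d ∘ₗ j) := by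
    rw [← LinearMap.ker_eq_bot, LinearMap.ker_eq_bot']
    intro x hx
    have h1 : d₀ (j x) = 0 := congrArg Subtype.val hx
    rw [hd₀, hj, hΦ₁0 _ x.1.2, sub_zero] at h1
    have h2 : j x = 0 := φ.map_eq_zero_iff.1 (Subtype.ext h1)
    exact Subtype.ext (Subtype.ext ((hj x).symm.trans (congrArg Subtype.val h2)))
  obtain ⟨ψ, hψ⟩ := clsa_ext_inj hk W₁ (d ∘ₗ j) hinj
  obtain ⟨D, hD1, hD2⟩ := clsa_glue (LinearMap.range N) (LinearMap.ker N) d ψ.toLinearMap (by
    intro x y hxy
    have hy : y ∈ W₁ := by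
      change (y : V) ∈ LinearMap.range N
      rw [← hxy]; exact x.2
    have h1 := hψ ⟨y, hy⟩
    have h2 : j ⟨y, hy⟩ = x := Subtype.ext hxy.symm
    rw [LinearMap.comp_apply, h2] at h1
    exact h1.symm)
  let Φ : V →ₗ[K] V' := Φ₁ + (LinearMap.ker N').subtype ∘ₗ D
  have hΦ : ∀ v, Φ v = Φ₁ v + (D v : V') := fun v => rfl
  have hNΦ : ∀ v, N' (Φ v) = φ ⟨N v, LinearMap.mem_range_self N _⟩ := fun v => by
    rw [hΦ, map_add, hΦ₁, (D v).2, add_zero]
  have hΦinj : Function.Injective Φ := by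
    rw [← LinearMap.ker_eq_bot, LinearMap.ker_eq_bot']
    intro v hv
    have h1 := hNΦ v
    rw [hv, map_zero] at h1
    have h2 : N v = 0 := congrArg Subtype.val (φ.map_eq_zero_iff.1 (Subtype.ext h1.symm))
    rw [hΦ, hΦ₁0 v h2, zero_add] at hv
    have h3 := hD2 ⟨v, h2⟩
    have h4 : ψ ⟨v, h2⟩ = 0 := h3.symm.trans (Subtype.ext hv)
    exact congrArg Subtype.val (ψ.map_eq_zero_iff.1 h4)
  refine ⟨LinearEquiv.ofInjectiveOfFinrankEq Φ hΦinj hd, fun v => ?_⟩
  change Φ (N v) = N' (Φ v)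
  rw [hNΦ, hΦ]
  have h1 := congrArg Subtype.val (hD1 ⟨N v, LinearMap.mem_range_self N _⟩)
  change (D (N v) : V') = d₀ ⟨N v, LinearMap.mem_range_self N _⟩ at h1
  rw [h1, hd₀]
  simp

theorem clsa_aeval_restrict {V : Type} [AddCommGroup V] [Module K V] (f : End K V)
    {W : Submodule K V} (h : ∀ x ∈ W, f x ∈ W) (p : K[X]) (x : W) :
    ((aeval (f.restrict h) p x : W) : V) = aeval f p x := by
  induction p using Polynomial.induction_on generalizing x with
  | C a => simp [Module.algebraMap_end_apply]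
  | add a b ha hb => simp [ha, hb]
  | monomial n a ih =>
    rw [pow_succ, ← mul_assoc, map_mul, map_mul (aeval f), aeval_X, aeval_X, End.mul_apply,
      End.mul_apply, ih]
    rfl

theorem clsa_rank_restrict {V : Type} [AddCommGroup V] [Module K V] (f : End K V) (q : K[X])
    (h : ∀ x ∈ LinearMap.range (aeval f q), f x ∈ LinearMap.range (aeval f q)) (p : K[X]) :
    finrank K (LinearMap.range (aeval (f.restrict h) p))
      = finrank K (LinearMap.range (aeval f (p * q))) := by
  rw [← Submodule.finrank_map_subtype_eq]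
  suffices hs : Submodule.map (LinearMap.range (aeval f q)).subtype
      (LinearMap.range (aeval (f.restrict h) p)) = LinearMap.range (aeval f (p * q)) by rw [hs]
  ext v
  simp only [Submodule.mem_map, LinearMap.mem_range, Submodule.subtype_apply, map_mul,
    End.mul_apply]
  constructor
  · rintro ⟨_, ⟨x, rfl⟩, rfl⟩
    obtain ⟨y, hy⟩ := x.2
    exact ⟨y, by rw [clsa_aeval_restrict, hy]⟩
  · rintro ⟨y, rfl⟩
    exact ⟨_, ⟨⟨aeval f q y, y, rfl⟩, rfl⟩, clsa_aeval_restrict f h p _⟩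

theorem clsa_inv {V : Type} [AddCommGroup V] [Module K V] (f : End K V) (q : K[X]) :
    ∀ x ∈ LinearMap.range (aeval f q), f x ∈ LinearMap.range (aeval f q) := by
  rintro _ ⟨y, rfl⟩
  refine ⟨f y, ?_⟩
  have : aeval f (q * X) y = aeval f (X * q) y := by rw [mul_comm]
  simpa using this

theorem clsa_conj (n : ℕ) : ∀ (ξ : ℕ → K) {V V' : Type} [AddCommGroup V] [Module K V]
    [FiniteDimensional K V] [AddCommGroup V'] [Module K V'] [FiniteDimensional K V']
    (f : End K V) (f' : End K V'),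
    aeval f (∏ l ∈ Finset.range n, (X - C (ξ l))) = 0 →
    (∀ k ≤ n, finrank K (LinearMap.range (aeval f (∏ l ∈ Finset.range k, (X - C (ξ l)))))
      = finrank K (LinearMap.range (aeval f' (∏ l ∈ Finset.range k, (X - C (ξ l)))))) →
    ∃ Φ : V ≃ₗ[K] V', ∀ v, Φ (f v) = f' (Φ v) := by
  have hdim : ∀ {V : Type} [AddCommGroup V] [Module K V] (f : End K V) (ξ : ℕ → K),
      finrank K (LinearMap.range (aeval f (∏ l ∈ Finset.range 0, (X - C (ξ l)))))
        = finrank K V := by
    intro V _ _ f ξ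
    rw [Finset.range_zero, Finset.prod_empty, map_one, End.one_eq_id, LinearMap.range_id,
      finrank_top]
  induction n with
  | zero =>
    intro ξ V V' _ _ _ _ _ _ f f' h0 h
    have hd := h 0 le_rfl
    rw [hdim, hdim] at hd
    have hV : ∀ v : V, v = 0 := fun v => by
      simpa using LinearMap.congr_fun h0 v
    refine ⟨LinearEquiv.ofFinrankEq V V' hd, fun v => ?_⟩
    rw [hV v]; simp
  | succ n ih =>
    intro ξ V V' _ _ _ _ _ _ f f' h0 h
    have hd := h 0 (Nat.zero_le _)
    rw [hdim, hdim] at hd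
    obtain ⟨φ, hφ⟩ := ih (fun l => ξ (l + 1)) (f.restrict (clsa_inv f (X - C (ξ 0))))
      (f'.restrict (clsa_inv f' (X - C (ξ 0)))) (by
        ext x
        obtain ⟨y, hy⟩ := x.2
        rw [clsa_aeval_restrict, ← hy, ← End.mul_apply, ← map_mul,
          ← Finset.prod_range_succ' (fun l => (X - C (ξ l) : K[X])), h0]
        rfl) (by
        intro k hk
        rw [clsa_rank_restrict, clsa_rank_restrict,
          ← Finset.prod_range_succ' (fun l => (X - C (ξ l) : K[X]))]
        exact h (k + 1) (by omega))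
    have hN : ∀ {V : Type} [AddCommGroup V] [Module K V] (f : End K V) (v : V),
        aeval f (X - C (ξ 0)) v = f v - ξ 0 • v := by
      intro V _ _ f v
      simp [Module.algebraMap_end_apply]
    obtain ⟨Φ, hΦ⟩ := clsa_lift_iso (aeval f (X - C (ξ 0))) (aeval f' (X - C (ξ 0))) hd φ (by
      intro w
      have h1 : (⟨aeval f (X - C (ξ 0)) w, LinearMap.mem_range_self _ _⟩ :
          LinearMap.range (aeval f (X - C (ξ 0))))
          = f.restrict (clsa_inv f (X - C (ξ 0))) w - ξ 0 • w := Subtype.ext (hN f w)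
      rw [h1, map_sub φ, map_smul φ, hφ, hN f']
      rfl)
    refine ⟨Φ, fun v => ?_⟩
    have := hΦ v
    rw [hN, hN, map_sub, map_smul] at this
    exact sub_left_injective this

theorem clsa_conj_of_rank {κ : Type} [Fintype κ] [DecidableEq κ] (ξ : ℕ → K) (n : ℕ)
    (c c' : Matrix κ κ K) (h0 : aeval c (∏ l ∈ Finset.range n, (X - C (ξ l))) = 0)
    (h : ∀ k ≤ n, (aeval c (∏ l ∈ Finset.range k, (X - C (ξ l)))).rank
      = (aeval c' (∏ l ∈ Finset.range k, (X - C (ξ l)))).rank) :
    ∃ h : GL κ K, c' = (h : Matrix κ κ K) * c * ((h⁻¹ : GL κ K) : Matrix κ κ K) := by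
  have hr : ∀ (c : Matrix κ κ K) (p : K[X]),
      finrank K (LinearMap.range (aeval (Matrix.toLinAlgEquiv' c) p)) = (aeval c p).rank := by
    intro c p
    rw [Polynomial.aeval_algHom_apply]
    rfl
  obtain ⟨Φ, hΦ⟩ := clsa_conj n ξ (Matrix.toLinAlgEquiv' c) (Matrix.toLinAlgEquiv' c')
    (by rw [Polynomial.aeval_algHom_apply, h0, map_zero])
    (fun k hk => by rw [hr, hr]; exact h k hk)
  let u : GL κ K := ⟨LinearMap.toMatrix' Φ.toLinearMap, LinearMap.toMatrix' Φ.symm.toLinearMap,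
    by rw [← LinearMap.toMatrix'_comp]; simp, by rw [← LinearMap.toMatrix'_comp]; simp⟩
  refine ⟨u, ?_⟩
  have h1 : c' * (u : Matrix κ κ K) = (u : Matrix κ κ K) * c := by
    apply Matrix.toLin'.injective
    rw [Matrix.toLin'_mul, Matrix.toLin'_mul]
    simp only [u, Matrix.toLin'_toMatrix']
    refine LinearMap.ext fun v => ?_
    exact (hΦ v).symm
  rw [← h1, mul_assoc, Units.mul_inv, mul_one]

end Crest.Agent.R003
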