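import Crest.Agent.R003.Sep

/-! Row 3: Burnside's theorem, openness of irreducibility, semisimple families. -/

set_option autoImplicit false
set_option linter.unusedSectionVars false

namespace Crest.Agent.R003

open Matrix Module

section
variable {Ω : Type} [Field Ω] {V V' : Type} [AddCommGroup V] [Module Ω V] [AddCommGroup V']
  [Module Ω V'] {J : Type}

/-- semisimple family of maps -/
def clC_SS (Ω : Type) [Field Ω] {V : Type} [AddCommGroup V] [Module Ω V] {J : Type}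
    (f : J → V → V) : Prop :=
  ∀ W : Submodule Ω V, (∀ j, ∀ v ∈ W, f j v ∈ W) →
    ∃ W' : Submodule Ω V, (∀ j, ∀ v ∈ W', f j v ∈ W') ∧ IsCompl W W'

theorem clC_SS.of_inj {f : J → V → V} {f' : J → V' → V'} (h : clC_SS Ω f) (L : V' →ₗ[Ω] V)
    (hL : Function.Injective L) (hc : ∀ j v, f j (L v) = L (f' j v)) : clC_SS Ω f' := by
  intro W hW
  obtain ⟨C, h1, h2⟩ := h (W.map L) (by
    rintro j _ ⟨v, hv, rfl⟩
    exact ⟨_, hW j v hv, (hc j v).symm⟩)
  refine ⟨C.comap L, fun j v hv => ?_, Submodule.disjoint_def.2 fun v h3 h4 => ?_,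
    codisjoint_iff.2 (eq_top_iff.2 fun v _ => ?_)⟩
  · rw [Submodule.mem_comap, ← hc]
    exact h1 j _ hv
  · exact hL ((Submodule.disjoint_def.1 h2.1 _ ⟨v, h3, rfl⟩ h4).trans (map_zero L).symm)
  · obtain ⟨_, ⟨w, hw, rfl⟩, c, hc', e⟩ := Submodule.mem_sup.1
      (show L v ∈ W.map L ⊔ C by rw [h2.sup_eq_top]; trivial)
    refine Submodule.mem_sup.2 ⟨w, hw, v - w, ?_, by abel⟩
    rw [Submodule.mem_comap, map_sub, ← e, add_sub_cancel_left]
    exact hc'

theorem clC_SS.prod {f : J → V →ₗ[Ω] V} {f' : J → V' →ₗ[Ω] V'} (h : clC_SS Ω fun j => f j)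
    (h' : clC_SS Ω fun j => f' j) :
    clC_SS Ω fun j (p : V × V') => (f j p.1, f' j p.2) := by
  intro W hW
  obtain ⟨C, h1, h2⟩ := h (W.comap (LinearMap.inl Ω V V')) fun j v hv => by
    simpa using hW j _ hv
  obtain ⟨C', h3, h4⟩ := h' (W.map (LinearMap.snd Ω V V')) (by
    rintro j _ ⟨p, hp, rfl⟩
    exact ⟨_, hW j p hp, rfl⟩)
  refine ⟨C.prod C', fun j p hp => ⟨h1 j _ hp.1, h3 j _ hp.2⟩,
    Submodule.disjoint_def.2 fun p a1 a2 => ?_, codisjoint_iff.2 (eq_top_iff.2 fun p _ => ?_)⟩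
  · have e2 : p.2 = 0 := Submodule.disjoint_def.1 h4.1 _ ⟨p, a1, rfl⟩ a2.2
    have e1 : p.1 = 0 := Submodule.disjoint_def.1 h2.1 _ (by
      rw [Submodule.mem_comap, LinearMap.inl_apply, ← e2]; exact a1) a2.1
    exact Prod.ext e1 e2
  · obtain ⟨_, ⟨u, hu, rfl⟩, c', hc', e'⟩ := Submodule.mem_sup.1
      (show p.2 ∈ W.map (LinearMap.snd Ω V V') ⊔ C' by rw [h4.sup_eq_top]; trivial)
    obtain ⟨w, hw, c, hc, e⟩ := Submodule.mem_sup.1
      (show p.1 - u.1 ∈ W.comap (LinearMap.inl Ω V V') ⊔ C by rw [h2.sup_eq_top]; trivial)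
    refine Submodule.mem_sup.2 ⟨u + (w, 0), W.add_mem hu hw, (c, c'), ⟨hc, hc'⟩, Prod.ext ?_ ?_⟩
    · simp only [Prod.fst_add]
      rw [add_assoc, e, add_sub_cancel]
    · simpa using e'

end

variable {Ω : Type} [Field Ω] {κ : Type} [Fintype κ] [DecidableEq κ] {J : Type}

theorem clC_irr_ss {A : J → Matrix κ κ Ω} (h : Irr A) : clC_SS Ω fun j v => A j *ᵥ v := by
  intro W hW
  rcases h W hW with rfl | rfl
  · exact ⟨⊤, fun _ _ _ => trivial, isCompl_bot_top⟩
  · exact ⟨⊥, fun j v hv => by simp [(Submodule.mem_bot Ω).1 hv],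
      isCompl_top_bot⟩

theorem clC_adjoin {A : J → Matrix κ κ Ω} {W : Submodule Ω (κ → Ω)}
    (hW : ∀ j, ∀ v ∈ W, A j *ᵥ v ∈ W) {M : Matrix κ κ Ω}
    (hM : M ∈ Algebra.adjoin Ω (Set.range A)) : ∀ v ∈ W, M *ᵥ v ∈ W := by
  induction hM using Algebra.adjoin_induction with
  | mem x h => obtain ⟨j, rfl⟩ := h; exact hW j
  | algebraMap r =>
    intro v hv
    rw [Algebra.algebraMap_eq_smul_one, smul_mulVec, one_mulVec]
    exact W.smul_mem _ hv
  | add a b _ _ ha hb => intro v hv; rw [add_mulVec]; exact W.add_mem (ha v hv) (hb v hv)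
  | mul a b _ _ ha hb => intro v hv; rw [← mulVec_mulVec]; exact ha _ (hb v hv)

theorem clC_burnside [IsAlgClosed Ω] {A : J → Matrix κ κ Ω} (h : Irr A) :
    Algebra.adjoin Ω (Set.range A) = ⊤ := by
  classical
  set R := Algebra.adjoin Ω (Set.range A) with hR
  have hmem : ∀ j, A j ∈ R := fun j => Algebra.subset_adjoin ⟨j, rfl⟩
  have : IsSemisimpleModule R (κ → Ω) := by
    refine (isSemisimpleModule_iff _ _).2 ⟨fun W => ?_⟩
    rcases h (W.restrictScalars Ω) (fun j v hv => W.smul_mem (⟨A j, hmem j⟩ : R) hv) with e | e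
    · rw [(Submodule.restrictScalars_eq_bot_iff _ _ _).1 e]; exact ⟨⊤, isCompl_bot_top⟩
    · rw [(Submodule.restrictScalars_eq_top_iff _ _ _).1 e]; exact ⟨⊥, isCompl_top_bot⟩
  refine eq_top_iff.2 fun M _ => ?_
  have hs : ∀ φ : End R (κ → Ω), ∃ c : Ω, ∀ v, φ v = c • v := fun φ => by
    obtain ⟨c, hc⟩ := h.schur (Y := LinearMap.toMatrix' (φ.restrictScalars Ω)) fun j => by
      refine Matrix.ext_of_mulVec_single fun i => ?_
      rw [← mulVec_mulVec, ← mulVec_mulVec, LinearMap.toMatrix'_mulVec, LinearMap.toMatrix'_mulVec]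
      exact φ.map_smul (⟨A j, hmem j⟩ : R) _
    refine ⟨c, fun v => ?_⟩
    have := LinearMap.toMatrix'_mulVec (φ.restrictScalars Ω) v
    rw [hc, smul_mulVec, one_mulVec] at this
    exact this.symm
  let f : End (End R (κ → Ω)) (κ → Ω) :=
    { toFun := fun v => M *ᵥ v
      map_add' := fun a b => mulVec_add _ _ _
      map_smul' := fun φ v => by
        obtain ⟨c, hc⟩ := hs φ
        simp only [End.smul_def, hc, RingHom.id_apply, mulVec_smul] }
  obtain ⟨r, hr⟩ := jacobson_density f (Finset.univ.image fun i : κ => Pi.single i 1)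
  have : M = r := Matrix.ext_of_mulVec_single fun i =>
    hr _ (Finset.mem_image_of_mem _ (Finset.mem_univ i))
  rw [this]
  exact r.2

theorem clC_good_lin {X : Type} [Coord Ω X] {f : X → Matrix κ κ Ω} (hf : Good Ω Ω f)
    (L : Matrix κ κ Ω →ₗ[Ω] Ω) : Good Ω Ω fun x => L (f x) := by
  have e : (fun x => L (f x)) = fun x => ∑ i, ∑ j, f x i j * L (Matrix.single i j 1) := by
    funext x
    conv_lhs => rw [Matrix.matrix_eq_sum_single (f x)]
    simp only [map_sum]
    refine Finset.sum_congr rfl fun i _ => Finset.sum_congr rfl fun j _ => ?_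
    rw [← smul_eq_mul, ← map_smul, Matrix.smul_single, smul_eq_mul, mul_one]
  rw [e]
  exact Good.sum fun i => Good.sum fun j => (hf.entry i j).mul (Good.const' _)

theorem clC_good_word (w : List J) :
    Good Ω Ω fun A : J → Matrix κ κ Ω => (w.map A).prod := by
  induction w with
  | nil => simpa using Good.mone
  | cons a w ih =>
    simp only [List.map_cons, List.prod_cons]
    exact (Good.apply a).mmul ih

theorem clC_irr_top {A : J → Matrix κ κ Ω} (h : Algebra.adjoin Ω (Set.range A) = ⊤) : Irr A := by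
  intro W hW
  rw [or_iff_not_imp_left]
  intro h0
  obtain ⟨v, hv, hv0⟩ := (Submodule.ne_bot_iff W).1 h0
  obtain ⟨i, hi⟩ := Function.ne_iff.1 hv0
  refine eq_top_iff.2 fun u _ => ?_
  have := clC_adjoin hW (M := Matrix.vecMulVec u (Pi.single i (v i)⁻¹)) (by rw [h]; trivial) v hv
  rwa [Matrix.vecMulVec_mulVec, single_dotProduct, inv_mul_cancel₀ hi, MulOpposite.op_one,
    one_smul] at this

theorem clC_irr_open [IsAlgClosed Ω] {A : J → Matrix κ κ Ω} (h : Irr A) :
    ∃ φ : (J → Matrix κ κ Ω) → Ω, Good Ω Ω φ ∧ φ A ≠ 0 ∧ ∀ A', φ A' ≠ 0 → Irr A' := by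
  classical
  have h1 : Submodule.span Ω (Set.range fun w : List J => (w.map A).prod) = ⊤ := by
    refine eq_top_iff.2 fun M _ => ?_
    have hM : M ∈ Subalgebra.toSubmodule (Algebra.adjoin Ω (Set.range A)) := by
      rw [clC_burnside h]; trivial
    rw [Algebra.adjoin_eq_span] at hM
    refine Submodule.span_mono (fun x hx => ?_) hM
    induction hx using Submonoid.closure_induction with
    | mem x h => obtain ⟨j, rfl⟩ := h; exact ⟨[j], by simp⟩
    | one => exact ⟨[], by simp⟩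
    | mul a b _ _ ha hb =>
      obtain ⟨u, rfl⟩ := ha
      obtain ⟨w, rfl⟩ := hb
      exact ⟨u ++ w, by simp⟩
  obtain ⟨b, hb, h2, h3⟩ := exists_linearIndependent Ω
    (Set.range fun w : List J => (w.map A).prod)
  let e : Basis b Ω (Matrix κ κ Ω) := Basis.mk h3 (by rw [Subtype.range_coe, h2, h1])
  let _ : Fintype b := FiniteDimensional.fintypeBasisIndex e
  choose w hw using fun q : b => hb q.2
  refine ⟨fun A' => e.det fun q => ((w q).map A').prod, ?_, ?_, fun A' hA' => ?_⟩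
  · simp only [Basis.det_apply]
    exact Good.det (good_matrix fun p q => clC_good_lin (clC_good_word (w q)) (e.coord p))
  · have : (fun q => ((w q).map A).prod) = e := funext fun q => by
      rw [Basis.mk_apply]; exact hw q
    simp only [this, Basis.det_self, ne_eq, one_ne_zero, not_false_eq_true]
  · have h4 := ((Basis.is_basis_iff_det e).2 (Ne.isUnit hA')).2
    refine clC_irr_top (eq_top_iff.2 fun M _ => ?_)
    have : M ∈ Subalgebra.toSubmodule (Algebra.adjoin Ω (Set.range A')) := by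
      refine (Submodule.span_le.2 ?_ : _ ≤ _) (h4.ge trivial)
      rintro _ ⟨q, rfl⟩
      refine list_prod_mem (S := Algebra.adjoin Ω (Set.range A')) fun x hx => ?_
      obtain ⟨j, -, rfl⟩ := List.mem_map.1 hx
      exact Algebra.subset_adjoin ⟨j, rfl⟩
    exact this

theorem clC_sum {κ₁ κ₂ : Type} [Fintype κ₁] [DecidableEq κ₁] [Fintype κ₂] [DecidableEq κ₂]
    (e : κ₁ ⊕ κ₂ ≃ κ) {A : J → Matrix κ₁ κ₁ Ω} {B : J → Matrix κ₂ κ₂ Ω}
    (hA : clC_SS Ω fun j v => A j *ᵥ v) (hB : clC_SS Ω fun j v => B j *ᵥ v) :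
    clC_SS Ω fun j v => Matrix.reindex e e (fromBlocks (A j) 0 0 (B j)) *ᵥ v := by
  refine (clC_SS.prod (f := fun j => (A j).mulVecLin) (f' := fun j => (B j).mulVecLin) hA hB).of_inj
    ((LinearEquiv.funCongrLeft Ω Ω e).trans
      (LinearEquiv.sumArrowLequivProdArrow κ₁ κ₂ Ω Ω)).toLinearMap
    (LinearEquiv.injective _) fun j v => ?_
  rw [reindex_apply, submatrix_mulVec_equiv, fromBlocks_mulVec]
  refine Prod.ext (funext fun a => ?_) (funext fun a => ?_)
  · simp [Function.comp_def]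
    rfl
  · simp [Function.comp_def]
    rfl

theorem clC_conj {ι : Type} (w : Basis ι Ω (κ → Ω)) (e : ι ≃ κ) : ∃ h : GL κ Ω,
    ∀ (a M : Matrix κ κ Ω), (∀ y, a *ᵥ w (e.symm y) = ∑ x, M x y • w (e.symm x)) →
      ((h⁻¹ : GL κ Ω) : Matrix κ κ Ω) * a * (h : Matrix κ κ Ω) = M := by
  let _ := (Pi.basisFun Ω κ).invertibleToMatrix (w.reindex e)
  refine ⟨unitOfInvertible ((Pi.basisFun Ω κ).toMatrix (w.reindex e)), fun a M hM => ?_⟩
  set h : GL κ Ω := unitOfInvertible ((Pi.basisFun Ω κ).toMatrix (w.reindex e)) with hh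
  have h1 : ∀ x y, (h : Matrix κ κ Ω) x y = w (e.symm y) x := fun x y => by
    simp [hh, Basis.toMatrix_apply]
  have h2 : a * h = h * M := by
    ext x y
    have := congrFun (hM y) x
    simp only [Matrix.mulVec, dotProduct, Finset.sum_apply, Pi.smul_apply, smul_eq_mul] at this
    simp only [Matrix.mul_apply, h1, this, mul_comm]
  rw [Matrix.mul_assoc, h2, ← Matrix.mul_assoc, Units.inv_mul, Matrix.one_mul]

theorem clC_restrict {A : J → Matrix κ κ Ω} (h : clC_SS Ω fun j v => A j *ᵥ v)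
    {W : Submodule Ω (κ → Ω)} (hW : ∀ j, ∀ v ∈ W, A j *ᵥ v ∈ W) {n : ℕ} (v : Basis (Fin n) Ω W) :
    ∃ B : J → Matrix (Fin n) (Fin n) Ω, (clC_SS Ω fun j u => B j *ᵥ u) ∧
      ∀ j b, A j *ᵥ (v b : κ → Ω) = ∑ a, B j a b • (v a : κ → Ω) := by
  have key : ∀ j b, A j *ᵥ (v b : κ → Ω) =
      ∑ a, LinearMap.toMatrix v v ((A j).mulVecLin.restrict (hW j)) a b • (v a : κ → Ω) := by
    intro j b
    have := congrArg Subtype.val (v.sum_repr ((A j).mulVecLin.restrict (hW j) (v b)))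
    simp only [AddSubmonoidClass.coe_finsetSum, SetLike.val_smul] at this
    simp only [LinearMap.toMatrix_apply]
    exact this.symm
  refine ⟨_, h.of_inj (W.subtype ∘ₗ v.equivFun.symm.toLinearMap)
    (W.injective_subtype.comp v.equivFun.symm.injective) fun j u => ?_, key⟩
  simp only [LinearMap.comp_apply, LinearEquiv.coe_coe, Basis.equivFun_symm_apply,
    Submodule.subtype_apply, AddSubmonoidClass.coe_finsetSum, SetLike.val_smul, mulVec_sum,
    mulVec_smul, key, Finset.smul_sum, smul_smul]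
  rw [Finset.sum_comm]
  simp only [Matrix.mulVec, dotProduct, Finset.sum_smul, mul_comm]

theorem clC_split {A : J → Matrix κ κ Ω} (h : clC_SS Ω fun j v => A j *ᵥ v) (hn : ¬ Irr A) :
    ∃ (n₁ n₂ : ℕ) (e : Fin n₁ ⊕ Fin n₂ ≃ κ) (g : GL κ Ω) (A₁ : J → Matrix (Fin n₁) (Fin n₁) Ω)
      (A₂ : J → Matrix (Fin n₂) (Fin n₂) Ω), 0 < n₁ ∧ 0 < n₂ ∧
      (clC_SS Ω fun j v => A₁ j *ᵥ v) ∧ (clC_SS Ω fun j v => A₂ j *ᵥ v) ∧
      ∀ j, ((g⁻¹ : GL κ Ω) : Matrix κ κ Ω) * A j * (g : Matrix κ κ Ω) =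
        Matrix.reindex e e (fromBlocks (A₁ j) 0 0 (A₂ j)) := by
  unfold Irr at hn
  push Not at hn
  obtain ⟨W, hW, h0, h1⟩ := hn
  obtain ⟨W', hW', hc⟩ := h W hW
  have h2 : W' ≠ ⊥ := fun e => h1 (by rw [← hc.sup_eq_top, e, sup_bot_eq])
  set v := Module.finBasis Ω W
  set v' := Module.finBasis Ω W'
  obtain ⟨A₁, a1, a2⟩ := clC_restrict h hW v
  obtain ⟨A₂, b1, b2⟩ := clC_restrict h hW' v'
  set w := (v.prod v').map (Submodule.prodEquivOfIsCompl W W' hc) with hw
  have w1 : ∀ a, w (Sum.inl a) = v a := fun a => by simp [hw]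
  have w2 : ∀ a, w (Sum.inr a) = v' a := fun a => by simp [hw]
  set e := w.indexEquiv (Pi.basisFun Ω κ)
  obtain ⟨g, hg⟩ := clC_conj w e
  refine ⟨_, _, e, g, A₁, A₂, Nat.pos_of_ne_zero fun e => h0 (Submodule.finrank_eq_zero.1 e),
    Nat.pos_of_ne_zero fun e => h2 (Submodule.finrank_eq_zero.1 e), a1, b1,
    fun j => hg _ _ fun y => ?_⟩
  simp only [reindex_apply, submatrix_apply]
  rw [e.symm.sum_comp fun p => fromBlocks (A₁ j) 0 0 (A₂ j) p (e.symm y) • w p,
    Fintype.sum_sum_type]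
  rcases e.symm y with b | b
  · simp [w1, w2, a2]
  · simp [w1, w2, b2]

end Crest.Agent.R003
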