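import Crest.Agent.R003.Sep
import Crest.Agent.R003.ClsAuxC
import Crest.Agent.R003.ClsAuxA

/-! Row 3: conjugacy classes, flags and open conditions. -/

set_option autoImplicit false
set_option linter.unusedSectionVars false

namespace Crest.Agent.R003

open Matrix

variable {Ω : Type} [Field Ω] {κ : Type} [Fintype κ] [DecidableEq κ]

/-- partial products `∏_{l<k} (c - ξ l)` -/
noncomputable def pp (ξ : ℕ → Ω) (c : Matrix κ κ Ω) (k : ℕ) : Matrix κ κ Ω :=
  Polynomial.aeval c (∏ l ∈ Finset.range k, (Polynomial.X - Polynomial.C (ξ l)))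

/-- An isomorphism `φ` between the images of `N` and `N'` commuting with `N`, `N'` lifts.
Let `W = range N`, `K = ker N`; `V = W ⊕ C₁ ⊕ C₂` with `K = (W ⊓ K) ⊕ C₁`; send `C₁` isomorphically to
a complement of `W' ⊓ K'` in `K'` and a basis vector `c` of `C₂` to a preimage of `φ (N c)`. -/
theorem lift_iso {V V' : Type} [AddCommGroup V] [Module Ω V] [FiniteDimensional Ω V]
    [AddCommGroup V'] [Module Ω V'] [FiniteDimensional Ω V'] (N : V →ₗ[Ω] V) (N' : V' →ₗ[Ω] V')
    (hd : Module.finrank Ω V = Module.finrank Ω V')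
    (φ : LinearMap.range N ≃ₗ[Ω] LinearMap.range N')
    (hφ : ∀ w : LinearMap.range N, (φ ⟨N w, LinearMap.mem_range_self N _⟩ : V') = N' (φ w)) :
    ∃ Φ : V ≃ₗ[Ω] V', ∀ v, Φ (N v) = N' (Φ v) := by
  exact clsa_lift_iso N N' hd φ hφ

/-- Equal ranks of the partial products imply similarity.  Prove the version for endomorphisms of
finite dimensional spaces by induction on `n` (restrict to the range of `c - ξ 0`, shift `ξ`) with
`lift_iso`. -/
theorem conj_of_rank (ξ : ℕ → Ω) (n : ℕ) (c c' : Matrix κ κ Ω) (h0 : pp ξ c n = 0)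
    (h : ∀ k ≤ n, (pp ξ c k).rank = (pp ξ c' k).rank) :
    ∃ h : GL κ Ω, c' = (h : Matrix κ κ Ω) * c * ((h⁻¹ : GL κ Ω) : Matrix κ κ Ω) := by
  exact clsa_conj_of_rank ξ n c c' h0 h

private theorem flagb_set (K : ℕ → Submodule Ω (κ → Ω)) (hK : Monotone K) (n : ℕ) :
    ∃ s : Set (κ → Ω), LinearIndepOn Ω id s ∧ s ⊆ K n ∧
      ∀ k ≤ n, K k ≤ Submodule.span Ω (s ∩ K k) := by
  induction n with
  | zero =>
    obtain ⟨s, h1, -, h2, h3⟩ := exists_linearIndepOn_id_extension
      (linearIndepOn_empty Ω (id : (κ → Ω) → κ → Ω)) (Set.empty_subset (K 0 : Set (κ → Ω)))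
    refine ⟨s, h3, h1, fun k hk => ?_⟩
    obtain rfl := Nat.le_zero.1 hk
    rw [Set.inter_eq_left.2 h1]
    exact h2
  | succ n ih =>
    obtain ⟨s, h1, h2, h3⟩ := ih
    obtain ⟨t, g1, g2, g3, g4⟩ := exists_linearIndepOn_id_extension h1
      (h2.trans (hK (Nat.le_succ n)) : s ⊆ (K (n + 1) : Set (κ → Ω)))
    refine ⟨t, g4, g1, fun k hk => ?_⟩
    rcases hk.eq_or_lt with rfl | hk
    · rw [Set.inter_eq_left.2 g1]
      exact g3
    · exact (h3 k (Nat.lt_succ_iff.1 hk)).trans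
        (Submodule.span_mono (Set.inter_subset_inter_left _ g2))

private theorem flagb_basis (K : ℕ → Submodule Ω (κ → Ω)) (hK : Monotone K) (n : ℕ)
    (hn : K n = ⊤) : ∃ b : Module.Basis κ Ω (κ → Ω),
      ∀ k, K k ≤ Submodule.span Ω (b '' {a | b a ∈ K k}) := by
  obtain ⟨s, h1, -, h3⟩ := flagb_set K hK n
  have h4 : ⊤ ≤ Submodule.span Ω (Set.range (Subtype.val : s → κ → Ω)) := by
    rw [Subtype.range_coe, ← hn]
    exact (h3 n le_rfl).trans (Submodule.span_mono Set.inter_subset_left)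
  let b₀ : Module.Basis s Ω (κ → Ω) := Module.Basis.mk h1 h4
  let b := b₀.reindex (b₀.indexEquiv (Pi.basisFun Ω κ))
  have hb : Set.range b = s := by
    rw [Module.Basis.range_reindex, Module.Basis.coe_mk]
    exact Subtype.range_coe
  have hb' : ∀ k, b '' {a | b a ∈ K k} = s ∩ K k := fun k => by
    rw [← hb, ← Set.image_preimage_eq_range_inter]; rfl
  refine ⟨b, fun k => ?_⟩
  rw [hb']
  rcases le_total k n with hk | hk
  · exact h3 k hk
  · have : K k = K n := by rw [hn]; exact top_le_iff.1 (hn ▸ hK hk)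
    rw [this]
    exact h3 n le_rfl

/-- a basis adapted to a flag of subspaces (induction on `n`, extending bases) -/
theorem exists_flag_basis (K : ℕ → Submodule Ω (κ → Ω)) (hK : Monotone K) (h0 : K 0 = ⊥) (n : ℕ)
    (hn : K n = ⊤) : ∃ (h : GL κ Ω) (l : κ → ℕ), (∀ a, l a < n) ∧
      ∀ k (v : κ → Ω), (h : Matrix κ κ Ω) *ᵥ v ∈ K k ↔ ∀ a, k ≤ l a → v a = 0 := by
  classical
  obtain ⟨b, hb⟩ := flagb_basis K hK n hn
  have hex : ∀ a, ∃ k, b a ∈ K (k + 1) := fun a => ⟨n, hK (Nat.le_succ n) (hn ▸ Submodule.mem_top)⟩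
  have hl : ∀ a k, b a ∈ K k ↔ Nat.find (hex a) < k := fun a k => by
    constructor
    · intro h
      rcases k with _ | k
      · rw [h0, Submodule.mem_bot] at h
        exact (b.ne_zero a h).elim
      · exact Nat.lt_succ_iff.2 (Nat.find_min' _ h)
    · intro h
      exact hK (Nat.succ_le_of_lt h) (Nat.find_spec (hex a))
  letI := (Pi.basisFun Ω κ).invertibleToMatrix b
  have hv : ∀ v : κ → Ω, (Pi.basisFun Ω κ).toMatrix b *ᵥ v = ∑ a, v a • b a := fun v => by
    ext i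
    simp [mulVec, dotProduct, Module.Basis.toMatrix_apply, mul_comm]
  refine ⟨unitOfInvertible ((Pi.basisFun Ω κ).toMatrix b), fun a => Nat.find (hex a),
    fun a => (hl a n).1 (hn ▸ Submodule.mem_top), fun k v => ?_⟩
  rw [val_unitOfInvertible, hv]
  constructor
  · intro h a ha
    have h1 := b.mem_span_image.1 (hb k h)
    by_contra h2
    have h3 : a ∈ (b.repr (∑ a, v a • b a)).support := by
      rw [Finsupp.mem_support_iff, b.repr_sum_self]; exact h2
    exact ((hl a k).1 (h1 h3)).not_ge ha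
  · intro h
    refine Submodule.sum_mem _ fun a _ => ?_
    rcases lt_or_ge (Nat.find (hex a)) k with ha | ha
    · exact Submodule.smul_mem _ _ ((hl a k).2 ha)
    · rw [h a ha, zero_smul]; exact Submodule.zero_mem _

private theorem flagb_succ (ξ : ℕ → Ω) (c : Matrix κ κ Ω) (k : ℕ) :
    pp ξ c (k + 1) = pp ξ c k * (c - ξ k • (1 : Matrix κ κ Ω)) := by
  unfold pp
  rw [Finset.prod_range_succ, map_mul, map_sub, Polynomial.aeval_X, Polynomial.aeval_C,
    Algebra.algebraMap_eq_smul_one]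

private theorem flagb_succ' (ξ : ℕ → Ω) (c : Matrix κ κ Ω) (k : ℕ) :
    pp ξ c (k + 1) = (c - ξ k • (1 : Matrix κ κ Ω)) * pp ξ c k := by
  unfold pp
  rw [Finset.prod_range_succ, mul_comm, map_mul, map_sub, Polynomial.aeval_X, Polynomial.aeval_C,
    Algebra.algebraMap_eq_smul_one]

private theorem flagb_rank (h : GL κ Ω) (l : κ → ℕ) (k : ℕ) :
    ((h : Matrix κ κ Ω) * diagonal fun a => if l a < k then (1 : Ω) else 0).rank =
      (Finset.univ.filter fun a => l a < k).card := by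
  classical
  rw [rank_mul_eq_right_of_isUnit_det _ _ ((isUnit_iff_isUnit_det _).1 h.isUnit), rank_diagonal,
    Fintype.card_subtype]
  congr 1
  ext a
  simp

private theorem flagb_conj (h : GL κ Ω) (y : Matrix κ κ Ω) (t : Ω) (v : κ → Ω) :
    ((h : Matrix κ κ Ω) * y * ((h⁻¹ : GL κ Ω) : Matrix κ κ Ω) - t • (1 : Matrix κ κ Ω)) *ᵥ
      ((h : Matrix κ κ Ω) *ᵥ v) = (h : Matrix κ κ Ω) *ᵥ ((y - t • (1 : Matrix κ κ Ω)) *ᵥ v) := by
  rw [mulVec_mulVec, mulVec_mulVec, Matrix.sub_mul, Matrix.mul_sub, Matrix.mul_assoc _ _ h.val,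
    Units.inv_mul, Matrix.mul_one, Matrix.smul_mul, Matrix.mul_smul, Matrix.one_mul, Matrix.mul_one]

/-- the flag `K k = ker (pp ξ c k)`; `c` acts on `K (k+1) / K k` as `ξ k` -/
theorem exists_flag_form (ξ : ℕ → Ω) (hξ : ∀ l, ξ l ≠ 0) (n : ℕ) (c : Matrix κ κ Ω)
    (h0 : pp ξ c n = 0) : ∃ (h : GL κ Ω) (l : κ → ℕ) (x : Matrix κ κ Ω), Uni l x ∧
      c = (h : Matrix κ κ Ω) * ((diagonal fun a => ξ (l a)) * x) *
        ((h⁻¹ : GL κ Ω) : Matrix κ κ Ω) ∧
      ∀ k, (pp ξ c k).rank + (Finset.univ.filter fun a => l a < k).card = Fintype.card κ := by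
  classical
  obtain ⟨h, l, -, hl⟩ := exists_flag_basis (fun k => LinearMap.ker (pp ξ c k).mulVecLin)
    (monotone_nat_of_le_succ fun k v hv => by
      rw [LinearMap.mem_ker, mulVecLin_apply] at hv ⊢
      rw [flagb_succ', ← mulVec_mulVec, hv, mulVec_zero])
    (by simp [pp]) n (by simp [h0])
  simp only [LinearMap.mem_ker, mulVecLin_apply] at hl
  set y : Matrix κ κ Ω := ((h⁻¹ : GL κ Ω) : Matrix κ κ Ω) * c * (h : Matrix κ κ Ω) with hy
  have hc : c = (h : Matrix κ κ Ω) * y * ((h⁻¹ : GL κ Ω) : Matrix κ κ Ω) := by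
    rw [hy, ← Matrix.mul_assoc, ← Matrix.mul_assoc, Units.mul_inv, Matrix.one_mul,
      Matrix.mul_assoc, Units.mul_inv, Matrix.mul_one]
  refine ⟨h, l, (diagonal fun a => (ξ (l a))⁻¹) * y, fun a b hab => ?_, ?_, fun k => ?_⟩
  · have h1 := (hl (l b + 1) (Pi.single b 1)).2 fun a ha =>
      Pi.single_eq_of_ne (fun e => by rw [e] at ha; omega) _
    rw [flagb_succ, ← mulVec_mulVec] at h1
    have h2 : (c - ξ (l b) • (1 : Matrix κ κ Ω)) *ᵥ ((h : Matrix κ κ Ω) *ᵥ Pi.single b 1) =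
        (h : Matrix κ κ Ω) *ᵥ ((y - ξ (l b) • (1 : Matrix κ κ Ω)) *ᵥ Pi.single b 1) := by
      rw [← flagb_conj, ← hc]
    rw [h2] at h1
    have h3 := (hl (l b) _).1 h1 a (not_lt.1 hab)
    rw [mulVec_single_one, col_apply, Matrix.sub_apply, sub_eq_zero, Matrix.smul_apply,
      Matrix.one_apply] at h3
    rw [diagonal_mul, h3]
    split_ifs with e
    · rw [e, smul_eq_mul, mul_one, inv_mul_cancel₀ (hξ _)]
    · simp
  · rw [← Matrix.mul_assoc (diagonal _), diagonal_mul_diagonal]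
    simp only [mul_inv_cancel₀ (hξ _), diagonal_one, Matrix.one_mul]
    exact hc
  · have h1 : LinearMap.ker (pp ξ c k).mulVecLin = LinearMap.range
        ((h : Matrix κ κ Ω) * diagonal fun a => if l a < k then (1 : Ω) else 0).mulVecLin := by
      ext w
      simp only [LinearMap.mem_ker, LinearMap.mem_range, mulVecLin_apply]
      constructor
      · intro hw
        have e : w = (h : Matrix κ κ Ω) *ᵥ (((h⁻¹ : GL κ Ω) : Matrix κ κ Ω) *ᵥ w) := by
          rw [mulVec_mulVec, Units.mul_inv, one_mulVec]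
        rw [e] at hw ⊢
        refine ⟨((h⁻¹ : GL κ Ω) : Matrix κ κ Ω) *ᵥ w, ?_⟩
        rw [← mulVec_mulVec, ← e]
        conv_rhs => rw [e]
        congr 1
        ext a
        rw [mulVec_diagonal]
        split_ifs with ha
        · rw [one_mul]
        · rw [zero_mul, (hl k _).1 hw a (not_lt.1 ha)]
      · rintro ⟨v, rfl⟩
        rw [← mulVec_mulVec]
        refine (hl k _).2 fun a ha => ?_
        rw [mulVec_diagonal, if_neg (not_lt.2 ha), zero_mul]
    rw [← flagb_rank h l k, rank, rank, ← h1, LinearMap.finrank_range_add_finrank_ker,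
      Module.finrank_pi]

/-- `pp ξ c k` kills the coordinate vectors of level `< k` -/
theorem rank_pp_le (ξ : ℕ → Ω) (h : GL κ Ω) (l : κ → ℕ) (x : Matrix κ κ Ω) (hx : Uni l x) (k : ℕ) :
    (pp ξ ((h : Matrix κ κ Ω) * ((diagonal fun a => ξ (l a)) * x) *
        ((h⁻¹ : GL κ Ω) : Matrix κ κ Ω)) k).rank +
      (Finset.univ.filter fun a => l a < k).card ≤ Fintype.card κ := by
  have key : ∀ k (v : κ → Ω), (∀ a, k ≤ l a → v a = 0) →
      pp ξ ((h : Matrix κ κ Ω) * ((diagonal fun a => ξ (l a)) * x) *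
        ((h⁻¹ : GL κ Ω) : Matrix κ κ Ω)) k *ᵥ ((h : Matrix κ κ Ω) *ᵥ v) = 0 := by
    intro k
    induction k with
    | zero =>
      intro v hv
      have : v = 0 := funext fun a => hv a (Nat.zero_le _)
      rw [this, mulVec_zero, mulVec_zero]
    | succ k ih =>
      intro v hv
      rw [flagb_succ, ← mulVec_mulVec, flagb_conj]
      refine ih _ fun a ha => ?_
      have h1 : (x *ᵥ v) a = v a := by
        rw [mulVec, dotProduct, Finset.sum_eq_single a]
        · rw [hx a a (lt_irrefl _), if_pos rfl, one_mul]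
        · intro b _ hb
          by_cases hab : l a < l b
          · rw [hv b (by omega), mul_zero]
          · rw [hx a b hab, if_neg hb.symm, zero_mul]
        · simp
      rw [sub_mulVec, ← mulVec_mulVec, Pi.sub_apply, mulVec_diagonal, h1, smul_mulVec, one_mulVec,
        Pi.smul_apply, smul_eq_mul]
      rcases ha.eq_or_lt with e | e
      · rw [e, sub_self]
      · rw [hv a e, mul_zero, mul_zero, sub_self]
  rw [← flagb_rank h l k]
  refine rank_add_rank_le_card_of_mul_eq_zero ?_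
  refine Matrix.ext_of_mulVec_single fun b => ?_
  rw [zero_mulVec, ← mulVec_mulVec, ← mulVec_mulVec]
  refine key k _ fun a ha => ?_
  rw [mulVec_diagonal, if_neg (not_lt.2 ha), zero_mul]

/-- the rank is lower semicontinuous (a nonzero minor of maximal size, or `det (P * A * Q)` for
fixed rectangular `P`, `Q` with `P * A₀ * Q = 1`) -/
theorem rank_open (A₀ : Matrix κ κ Ω) : ∃ φ : Matrix κ κ Ω → Ω, Good Ω Ω φ ∧ φ A₀ ≠ 0 ∧
    ∀ A, φ A ≠ 0 → A₀.rank ≤ A.rank := by
  obtain ⟨V, U, e, -, -, h⟩ := exists_rank_normal_form A₀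
  refine ⟨fun A => ((V * A * U).submatrix (fun i => e.symm (Sum.inl i))
    (fun i => e.symm (Sum.inl i))).det,
    (((Good.const' V).mmul Good.id).mmul (Good.const' U)).submatrix _ _ |>.det, ?_, fun A hA => ?_⟩
  · have : (V * A₀ * U).submatrix (fun i => e.symm (Sum.inl i)) (fun i => e.symm (Sum.inl i)) = 1 := by
      rw [h]
      ext i j
      simp
    simp only [this, det_one]
    exact one_ne_zero
  · have h1 := rank_of_det_ne_zero hA
    rw [Fintype.card_fin] at h1
    exact h1.symm.trans_le ((rank_submatrix_le _ _ _).trans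
      ((rank_mul_le_left _ _).trans (rank_mul_le_right _ _)))

/-- Burnside's theorem (Jacobson density + Schur, see `Mathlib.RingTheory.SimpleModule.*`) -/
theorem burnside [IsAlgClosed Ω] {J : Type} {A : J → Matrix κ κ Ω} (h : Irr A) :
    Algebra.adjoin Ω (Set.range A) = ⊤ := by
  exact clC_burnside h

/-- irreducibility is open: choose words in the `A j` forming a basis of all matrices
(`Algebra.adjoin_eq_span`, `exists_linearIndependent`), `φ` is the determinant of their entries -/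
theorem irr_open [IsAlgClosed Ω] {J : Type} {A : J → Matrix κ κ Ω} (h : Irr A) :
    ∃ φ : (J → Matrix κ κ Ω) → Ω, Good Ω Ω φ ∧ φ A ≠ 0 ∧ ∀ A', φ A' ≠ 0 → Irr A' := by
  exact clC_irr_open h

/-- semisimple family of matrices -/
def SS {J : Type} (A : J → Matrix κ κ Ω) : Prop :=
  ∀ W : Submodule Ω (κ → Ω), (∀ j, ∀ v ∈ W, A j *ᵥ v ∈ W) →
    ∃ W' : Submodule Ω (κ → Ω), (∀ j, ∀ v ∈ W', A j *ᵥ v ∈ W') ∧ IsCompl W W'

theorem Irr.ss {J : Type} {A : J → Matrix κ κ Ω} (h : Irr A) : SS A := by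
  exact clC_irr_ss h

/-- block sums of semisimple families are semisimple (e.g. via `IsSemisimpleModule` over
`FreeAlgebra Ω J`, or directly) -/
theorem SS.sum {J κ₁ κ₂ : Type} [Fintype κ₁] [DecidableEq κ₁] [Fintype κ₂] [DecidableEq κ₂]
    (e : κ₁ ⊕ κ₂ ≃ κ) {A : J → Matrix κ₁ κ₁ Ω} {B : J → Matrix κ₂ κ₂ Ω} (hA : SS A) (hB : SS B) :
    SS fun j => Matrix.reindex e e (fromBlocks (A j) 0 0 (B j)) := by
  exact clC_sum e hA hB

/-- a semisimple reducible family splits -/
theorem SS.split {J : Type} {A : J → Matrix κ κ Ω} (h : SS A) (hn : ¬ Irr A) :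
    ∃ (n₁ n₂ : ℕ) (e : Fin n₁ ⊕ Fin n₂ ≃ κ) (g : GL κ Ω) (A₁ : J → Matrix (Fin n₁) (Fin n₁) Ω)
      (A₂ : J → Matrix (Fin n₂) (Fin n₂) Ω), 0 < n₁ ∧ 0 < n₂ ∧ SS A₁ ∧ SS A₂ ∧
      ∀ j, ((g⁻¹ : GL κ Ω) : Matrix κ κ Ω) * A j * (g : Matrix κ κ Ω) =
        Matrix.reindex e e (fromBlocks (A₁ j) 0 0 (A₂ j)) := by
  exact clC_split h hn

end Crest.Agent.R003
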