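import Crest.Agent.R003.Sep

/-! Row 3: cocycles, derivations, dimension bound. -/

set_option autoImplicit false
set_option linter.unusedSectionVars false

namespace Crest.Agent.R003

open Matrix

variable {Ω : Type} [Field Ω] {κ : Type} [Fintype κ] [DecidableEq κ] {g : ℕ}

/-- conjugation -/
def Ad (x : GL κ Ω) : Matrix κ κ Ω →ₗ[Ω] Matrix κ κ Ω :=
  LinearMap.mulLeftRight Ω ((x : Matrix κ κ Ω), ((x⁻¹ : GL κ Ω) : Matrix κ κ Ω))

theorem Ad_apply (x : GL κ Ω) (Y : Matrix κ κ Ω) :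
    Ad x Y = (x : Matrix κ κ Ω) * Y * ((x⁻¹ : GL κ Ω) : Matrix κ κ Ω) := by
  simp [Ad, Matrix.mul_assoc]

/-- cochains -/
abbrev Co (Ω κ : Type) (g : ℕ) : Type := Fin g → Matrix κ κ Ω × Matrix κ κ Ω

/-- Fox derivative of a commutator: `(x, y) ↦ x + Ad a y - Ad (a b a⁻¹) x - Ad [a,b] y` -/
def fox1 (a b : GL κ Ω) : Matrix κ κ Ω × Matrix κ κ Ω →ₗ[Ω] Matrix κ κ Ω :=
  (LinearMap.id - Ad (a * b * a⁻¹)) ∘ₗ LinearMap.fst Ω _ _ +
    (Ad a - Ad (cm a b)) ∘ₗ LinearMap.snd Ω _ _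

/-- product of the first `i` commutators -/
def pre (ρ : Fin g → GL κ Ω × GL κ Ω) (i : ℕ) : GL κ Ω :=
  (((List.finRange g).take i).map fun j => cm (ρ j).1 (ρ j).2).prod

/-- Fox derivative of the surface relation -/
def fox (ρ : Fin g → GL κ Ω × GL κ Ω) : Co Ω κ g →ₗ[Ω] Matrix κ κ Ω :=
  ∑ i : Fin g, Ad (pre ρ i) ∘ₗ fox1 (ρ i).1 (ρ i).2 ∘ₗ LinearMap.proj i

/-- coboundaries `x ↦ (x - Ad γ x)_γ` -/
def cob (ρ : Fin g → GL κ Ω × GL κ Ω) : Matrix κ κ Ω →ₗ[Ω] Co Ω κ g :=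
  LinearMap.pi fun i => (LinearMap.id - Ad (ρ i).1).prod (LinearMap.id - Ad (ρ i).2)

variable (k : Type) [CommRing k] [Algebra k Ω]

/-- the cochain `(D γ * γ⁻¹)_γ` of a derivation -/
def dco (ρ : Fin g → GL κ Ω × GL κ Ω) : Derivation k Ω Ω →ₗ[Ω] Co Ω κ g where
  toFun D := fun i =>
    (((ρ i).1 : Matrix κ κ Ω).map D * (((ρ i).1⁻¹ : GL κ Ω) : Matrix κ κ Ω),
      ((ρ i).2 : Matrix κ κ Ω).map D * (((ρ i).2⁻¹ : GL κ Ω) : Matrix κ κ Ω))
  map_add' D D' := by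
    funext i; ext a b <;> simp [Matrix.mul_apply, add_mul, Finset.sum_add_distrib]
  map_smul' c D := by
    funext i; ext a b <;> simp [Matrix.mul_apply, Finset.mul_sum, mul_assoc]

/-- every cocycle comes from a derivation, up to a coboundary -/
def AllDer (ρ : Fin g → GL κ Ω × GL κ Ω) : Prop :=
  ∀ c, fox ρ c = 0 → ∃ (D : Derivation k Ω Ω) (x : Matrix κ κ Ω), c = dco k ρ D + cob ρ x

variable {k}

/-- the generators -/
def gens (ρ : Fin g → GL κ Ω × GL κ Ω) : Fin g × Bool → Matrix κ κ Ω :=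
  fun x => if x.2 then ((ρ x.1).1 : Matrix κ κ Ω) else ((ρ x.1).2 : Matrix κ κ Ω)

/-- conjugate representation -/
def cj (ρ : Fin g → GL κ Ω × GL κ Ω) (h : GL κ Ω) : Fin g → GL κ Ω × GL κ Ω :=
  fun i => (h⁻¹ * (ρ i).1 * h, h⁻¹ * (ρ i).2 * h)

theorem map_mul_der {l m n : Type} [Fintype m] (D : Derivation k Ω Ω) (A : Matrix l m Ω)
    (B : Matrix m n Ω) : (A * B).map D = A.map D * B + A * B.map D := by
  ext i j
  simp only [Matrix.map_apply, Matrix.mul_apply, Matrix.add_apply, map_sum, Derivation.leibniz,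
    smul_eq_mul, ← Finset.sum_add_distrib]
  exact Finset.sum_congr rfl fun x _ => by ring

theorem coca_Ad_mul (x y : GL κ Ω) (Y : Matrix κ κ Ω) : Ad (x * y) Y = Ad x (Ad y Y) := by
  simp only [Ad_apply, _root_.mul_inv_rev, Units.val_mul, Matrix.mul_assoc]

theorem coca_Ad_one (Y : Matrix κ κ Ω) : Ad (1 : GL κ Ω) Y = Y := by
  simp [Ad_apply]

theorem coca_Ad_cj (h p : GL κ Ω) (Y : Matrix κ κ Ω) :
    Ad (h⁻¹ * p * h) (Ad h⁻¹ Y) = Ad h⁻¹ (Ad p Y) := by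
  rw [← coca_Ad_mul, ← coca_Ad_mul, mul_inv_cancel_right]

theorem coca_cm_cj (h a b : GL κ Ω) : cm (h⁻¹ * a * h) (h⁻¹ * b * h) = h⁻¹ * cm a b * h := by
  simp only [cm]; group

theorem coca_prod_cj {J : Type} (h : GL κ Ω) (f : J → GL κ Ω) (l : List J) :
    (l.map fun j => h⁻¹ * f j * h).prod = h⁻¹ * (l.map f).prod * h := by
  induction l with
  | nil => simp
  | cons a l ih => simp only [List.map_cons, List.prod_cons, ih]; group

theorem coca_pre_cj (ρ : Fin g → GL κ Ω × GL κ Ω) (h : GL κ Ω) (i : ℕ) :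
    pre (cj ρ h) i = h⁻¹ * pre ρ i * h := by
  simp only [pre, cj, coca_cm_cj, coca_prod_cj]

theorem coca_pre_zero (ρ : Fin g → GL κ Ω × GL κ Ω) : pre ρ 0 = 1 := by simp [pre]

theorem coca_pre_top (ρ : Fin g → GL κ Ω × GL κ Ω) : pre ρ g = hprod ρ := by
  rw [pre, hprod, List.take_of_length_le (by simp)]

theorem coca_pre_succ (ρ : Fin g → GL κ Ω × GL κ Ω) (i : Fin g) :
    pre ρ (i + 1) = pre ρ i * cm (ρ i).1 (ρ i).2 := by
  rw [pre, pre, List.take_succ_eq_append_getElem (by simp), List.map_append, List.prod_append]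
  simp

theorem coca_fox1_apply (a b : GL κ Ω) (x y : Matrix κ κ Ω) :
    fox1 a b (x, y) = x - Ad (a * b * a⁻¹) x + (Ad a y - Ad (cm a b) y) := by
  simp [fox1]

theorem coca_fox_apply (ρ : Fin g → GL κ Ω × GL κ Ω) (c : Co Ω κ g) :
    fox ρ c = ∑ i : Fin g, Ad (pre ρ i) (fox1 (ρ i).1 (ρ i).2 (c i)) := by
  simp [fox]

section crossed
variable {φ : GL κ Ω → Matrix κ κ Ω} (hφ : ∀ x y, φ (x * y) = φ x + Ad x (φ y))
include hφ

theorem coca_one : φ 1 = 0 := by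
  have := hφ 1 1
  rw [mul_one, coca_Ad_one] at this
  simpa using this

theorem coca_inv (x y : GL κ Ω) : φ (x * y⁻¹) = φ x - Ad (x * y⁻¹) (φ y) := by
  have := hφ (x * y⁻¹) y
  rw [inv_mul_cancel_right] at this
  rw [this]; abel

theorem coca_fox1 (a b : GL κ Ω) : fox1 a b (φ a, φ b) = φ (cm a b) := by
  rw [coca_fox1_apply]
  have e : cm a b = a * b * a⁻¹ * b⁻¹ := rfl
  rw [e, coca_inv hφ, coca_inv hφ, hφ]
  abel

theorem coca_fox (ρ : Fin g → GL κ Ω × GL κ Ω) :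
    fox ρ (fun i => (φ (ρ i).1, φ (ρ i).2)) = φ (hprod ρ) := by
  rw [coca_fox_apply]
  have h1 : ∀ i : Fin g, Ad (pre ρ i) (fox1 (ρ i).1 (ρ i).2 (φ (ρ i).1, φ (ρ i).2)) =
      φ (pre ρ (i + 1)) - φ (pre ρ i) := fun i => by
    rw [coca_fox1 hφ, coca_pre_succ, hφ (pre ρ i)]; abel
  simp only [h1]
  rw [Fin.sum_univ_eq_sum_range (fun i => φ (pre ρ (i + 1)) - φ (pre ρ i)),
    Finset.sum_range_sub (fun i => φ (pre ρ i)), coca_pre_top, coca_pre_zero, coca_one hφ, sub_zero]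

theorem coca_cj (h a : GL κ Ω) :
    φ (h⁻¹ * a * h) = Ad h⁻¹ (φ a) + (φ h⁻¹ - Ad (h⁻¹ * a * h) (φ h⁻¹)) := by
  have := coca_inv hφ (h⁻¹ * a) h⁻¹
  rw [inv_inv] at this
  rw [this, hφ]; abel

end crossed

theorem coca_der (D : Derivation k Ω Ω) (x y : GL κ Ω) :
    ((x * y : GL κ Ω) : Matrix κ κ Ω).map D * (((x * y)⁻¹ : GL κ Ω) : Matrix κ κ Ω) =
      (x : Matrix κ κ Ω).map D * ((x⁻¹ : GL κ Ω) : Matrix κ κ Ω) +
        Ad x ((y : Matrix κ κ Ω).map D * ((y⁻¹ : GL κ Ω) : Matrix κ κ Ω)) := by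
  rw [Ad_apply, _root_.mul_inv_rev, Units.val_mul, Units.val_mul, map_mul_der, Matrix.add_mul,
    Matrix.mul_assoc, Units.mul_inv_cancel_left]
  simp only [Matrix.mul_assoc]

theorem hprod_cj (ρ : Fin g → GL κ Ω × GL κ Ω) (h : GL κ Ω) :
    hprod (cj ρ h) = h⁻¹ * hprod ρ * h := by
  rw [← coca_pre_top, ← coca_pre_top, coca_pre_cj]

theorem irr_cj {ρ : Fin g → GL κ Ω × GL κ Ω} (hρ : Irr (gens ρ)) (h : GL κ Ω) :
    Irr (gens (cj ρ h)) := by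
  have e : gens (cj ρ h) =
      fun j => ((h⁻¹ : GL κ Ω) : Matrix κ κ Ω) * gens ρ j * (h : Matrix κ κ Ω) := by
    funext j
    simp only [gens, cj, Units.val_mul]
    split_ifs <;> rfl
  rw [e]
  exact hρ.conj h

/-- Leibniz rule: `D (hprod ρ) * (hprod ρ)⁻¹ = fox ρ (dco ρ D)` -/
theorem fox_dco (ρ : Fin g → GL κ Ω × GL κ Ω) (D : Derivation k Ω Ω) :
    fox ρ (dco k ρ D) = ((hprod ρ : GL κ Ω) : Matrix κ κ Ω).map D *
      (((hprod ρ)⁻¹ : GL κ Ω) : Matrix κ κ Ω) := by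
  exact coca_fox (φ := fun x => (x : Matrix κ κ Ω).map D * ((x⁻¹ : GL κ Ω) : Matrix κ κ Ω))
    (coca_der D) ρ

/-- telescoping -/
theorem fox_cob (ρ : Fin g → GL κ Ω × GL κ Ω) (x : Matrix κ κ Ω) :
    fox ρ (cob ρ x) = x - Ad (hprod ρ) x := by
  exact coca_fox (φ := fun γ => x - Ad γ x)
    (fun a b => by rw [map_sub, coca_Ad_mul]; abel) ρ

theorem fox_cj (ρ : Fin g → GL κ Ω × GL κ Ω) (h : GL κ Ω) (c : Co Ω κ g) :
    fox (cj ρ h) (fun i => (Ad h⁻¹ (c i).1, Ad h⁻¹ (c i).2)) = Ad h⁻¹ (fox ρ c) := by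
  rw [coca_fox_apply, coca_fox_apply, map_sum]
  refine Finset.sum_congr rfl fun i _ => ?_
  rw [coca_pre_cj, ← coca_Ad_cj h (pre ρ i)]
  congr 1
  have e : h⁻¹ * (ρ i).1 * h * (h⁻¹ * (ρ i).2 * h) * (h⁻¹ * (ρ i).1 * h)⁻¹ =
      h⁻¹ * ((ρ i).1 * (ρ i).2 * (ρ i).1⁻¹) * h := by group
  rw [show fox1 (ρ i).1 (ρ i).2 (c i) = _ from coca_fox1_apply _ _ (c i).1 (c i).2]
  simp only [cj, coca_fox1_apply, e, coca_cm_cj, coca_Ad_cj, map_add, map_sub]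

theorem cob_cj (ρ : Fin g → GL κ Ω × GL κ Ω) (h : GL κ Ω) (x : Matrix κ κ Ω) :
    cob (cj ρ h) (Ad h⁻¹ x) = fun i => (Ad h⁻¹ (cob ρ x i).1, Ad h⁻¹ (cob ρ x i).2) := by
  funext i
  change (Ad h⁻¹ x - Ad (h⁻¹ * (ρ i).1 * h) (Ad h⁻¹ x), Ad h⁻¹ x - Ad (h⁻¹ * (ρ i).2 * h) (Ad h⁻¹ x))
    = (Ad h⁻¹ (x - Ad (ρ i).1 x), Ad h⁻¹ (x - Ad (ρ i).2 x))
  simp only [coca_Ad_cj, map_sub]

theorem dco_cj (ρ : Fin g → GL κ Ω × GL κ Ω) (h : GL κ Ω) (D : Derivation k Ω Ω) :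
    dco k (cj ρ h) D = (fun i => (Ad h⁻¹ (dco k ρ D i).1, Ad h⁻¹ (dco k ρ D i).2)) +
      cob (cj ρ h) (((h⁻¹ : GL κ Ω) : Matrix κ κ Ω).map D * (h : Matrix κ κ Ω)) := by
  funext i
  have h1 := coca_cj (φ := fun x => (x : Matrix κ κ Ω).map D * ((x⁻¹ : GL κ Ω) : Matrix κ κ Ω))
    (coca_der D) h
  simp only [inv_inv] at h1
  exact Prod.ext (h1 (ρ i).1) (h1 (ρ i).2)

theorem AllDer.cj {ρ : Fin g → GL κ Ω × GL κ Ω} (hρ : AllDer k ρ) (h : GL κ Ω) :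
    AllDer k (cj ρ h) := by
  intro c hc
  have e : ∀ Y : Matrix κ κ Ω, Ad h⁻¹ (Ad h Y) = Y := fun Y => by
    rw [← coca_Ad_mul, inv_mul_cancel, coca_Ad_one]
  have h1 := fox_cj ρ h (fun i => (Ad h (c i).1, Ad h (c i).2))
  simp only [e, Prod.mk.eta] at h1
  have h2 : fox ρ (fun i => (Ad h (c i).1, Ad h (c i).2)) = 0 := by
    have h3 := congrArg (Ad h) (h1.symm.trans hc)
    rwa [← coca_Ad_mul, mul_inv_cancel, coca_Ad_one, map_zero] at h3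
  obtain ⟨D, x, hx⟩ := hρ _ h2
  refine ⟨D, Ad h⁻¹ x - ((h⁻¹ : GL κ Ω) : Matrix κ κ Ω).map D * (h : Matrix κ κ Ω), ?_⟩
  rw [map_sub, dco_cj, cob_cj, add_add_sub_cancel]
  funext i
  have h4 := congrFun hx i
  have h5 := congrArg (fun p => Ad h⁻¹ p.1) h4
  have h6 := congrArg (fun p => Ad h⁻¹ p.2) h4
  simp only [e, Pi.add_apply, Prod.fst_add, Prod.snd_add, map_add] at h5 h6
  exact Prod.ext h5 h6

theorem coca_trace_Ad (a : GL κ Ω) (Y x : Matrix κ κ Ω) :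
    trace (Y * Ad a x) = trace (Ad a⁻¹ Y * x) := by
  rw [Ad_apply, Ad_apply, inv_inv, ← Matrix.mul_assoc, Matrix.trace_mul_comm]
  simp only [Matrix.mul_assoc]

/-- adjoint of `fox1` for the trace form -/
theorem trace_fox1 (a b : GL κ Ω) (Y x y : Matrix κ κ Ω) :
    trace (Y * fox1 a b (x, y)) = trace ((Y - Ad (a * b * a⁻¹)⁻¹ Y) * x) +
      trace ((Ad a⁻¹ Y - Ad (cm a b)⁻¹ Y) * y) := by
  simp only [coca_fox1_apply, Matrix.mul_add, Matrix.mul_sub, Matrix.sub_mul, trace_add, trace_sub,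
    coca_trace_Ad]

private theorem h3_Ad_mul (x y : GL κ Ω) (Z : Matrix κ κ Ω) : Ad (x * y) Z = Ad x (Ad y Z) := by
  simp only [Ad_apply, _root_.mul_inv_rev, Units.val_mul, Matrix.mul_assoc]

private theorem h3_Ad_one (Z : Matrix κ κ Ω) : Ad (1 : GL κ Ω) Z = Z := by
  simp [Ad_apply]

/-- the stabiliser of a matrix -/
private def h3_St (Z : Matrix κ κ Ω) : Subgroup (GL κ Ω) where
  carrier := {x | Ad x Z = Z}
  mul_mem' := fun {x y} hx hy => by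
    change Ad (x * y) Z = Z
    rw [h3_Ad_mul, hy, hx]
  one_mem' := h3_Ad_one Z
  inv_mem' := fun {x} hx => by
    change Ad x⁻¹ Z = Z
    conv_lhs => rw [← (hx : Ad x Z = Z), ← h3_Ad_mul, inv_mul_cancel, h3_Ad_one]

private theorem h3_comm {x : GL κ Ω} {Z : Matrix κ κ Ω} (h : Ad x Z = Z) :
    Z * (x : Matrix κ κ Ω) = x * Z := by
  conv_lhs => rw [← h, Ad_apply, Matrix.mul_assoc, Units.inv_mul, Matrix.mul_one]

private theorem h3_trace_Ad (x : GL κ Ω) (Y Z : Matrix κ κ Ω) :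
    trace (Y * Ad x Z) = trace (Ad x⁻¹ Y * Z) := by
  rw [Ad_apply, Ad_apply, inv_inv, ← Matrix.mul_assoc, trace_mul_comm]
  simp only [Matrix.mul_assoc]

private theorem h3_trace_zero {A : Matrix κ κ Ω} (h : ∀ x, trace (A * x) = 0) : A = 0 := by
  ext i j
  have := h (single j i 1)
  simpa [trace_mul_single] using this

private theorem h3_dual (ψ : Module.Dual Ω (Matrix κ κ Ω)) :
    ∃ Y : Matrix κ κ Ω, ∀ X, ψ X = trace (Y * X) := by
  refine ⟨Matrix.of fun j i => ψ (single i j 1), fun X => ?_⟩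
  conv_lhs => rw [matrix_eq_sum_single X]
  simp only [map_sum, trace, diag_apply, mul_apply, of_apply]
  rw [Finset.sum_comm]
  refine Finset.sum_congr rfl fun j _ => Finset.sum_congr rfl fun i _ => ?_
  rw [mul_comm, ← smul_eq_mul, ← map_smul, smul_single, smul_eq_mul, mul_one]

private theorem h3_fox_single (ρ : Fin g → GL κ Ω × GL κ Ω) (i : Fin g)
    (p : Matrix κ κ Ω × Matrix κ κ Ω) :
    fox ρ (Pi.single i p) = Ad (pre ρ i) (fox1 (ρ i).1 (ρ i).2 p) := by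
  rw [fox, LinearMap.sum_apply, Finset.sum_eq_single i]
  · simp
  · intro j _ hj
    simp [Pi.single_eq_of_ne hj]
  · simp

private theorem h3_pre_succ (ρ : Fin g → GL κ Ω × GL κ Ω) (i : Fin g) :
    pre ρ (i + 1) = pre ρ i * cm (ρ i).1 (ρ i).2 := by
  simp only [pre, List.map_take]
  rw [List.prod_take_succ _ _ (by simp)]
  simp

/-- Duality.  The functional `c ↦ tr (α c₀₁) + tr (β c₀₂)` on `{c | c 0 ∈ U}` vanishes on the
kernel of `fox`, so it is `c ↦ tr (Y * fox c)` for some `Y`.  Testing on cochains supported at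
`i ≠ 0`: `Y i = Ad (pre ρ i)⁻¹ Y` commutes with `a b a⁻¹` and `[a,b] a⁻¹`, hence with `a = (ρ i).1` and
`b = (ρ i).2`; so `Y 1 = Y 2 = ... = Ad (hprod ρ)⁻¹ Y = Y`. -/
theorem fox_dual (ρ : Fin (g + 1) → GL κ Ω × GL κ Ω) (ξ : Ω)
    (hρ : ((hprod ρ : GL κ Ω) : Matrix κ κ Ω) = ξ • (1 : Matrix κ κ Ω))
    (U : Submodule Ω (Matrix κ κ Ω × Matrix κ κ Ω)) (α β : Matrix κ κ Ω)
    (h : ∀ c, fox ρ c = 0 → c 0 ∈ U → trace (α * (c 0).1) + trace (β * (c 0).2) = 0) :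
    ∃ Y : Matrix κ κ Ω, (∀ x : Fin (g + 1) × Bool, x.1 ≠ 0 → Y * gens ρ x = gens ρ x * Y) ∧
      Ad (cm (ρ 0).1 (ρ 0).2) Y = Y ∧
      ∀ p ∈ U, trace ((α - (Y - Ad (ρ 0).2⁻¹ Y)) * p.1) +
        trace ((β - (Ad (ρ 0).1⁻¹ Y - Y)) * p.2) = 0 := by
  let W : Submodule Ω (Co Ω κ (g + 1)) := U.comap (LinearMap.proj 0)
  let φ₀ : Module.Dual Ω (Matrix κ κ Ω × Matrix κ κ Ω) :=
    traceLinearMap κ Ω Ω ∘ₗ LinearMap.mulLeft Ω α ∘ₗ LinearMap.fst Ω _ _ +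
      traceLinearMap κ Ω Ω ∘ₗ LinearMap.mulLeft Ω β ∘ₗ LinearMap.snd Ω _ _
  let φ : Module.Dual Ω W := φ₀ ∘ₗ LinearMap.proj 0 ∘ₗ W.subtype
  have hφ : φ ∈ (LinearMap.ker (fox ρ ∘ₗ W.subtype)).dualAnnihilator := by
    rw [Submodule.mem_dualAnnihilator]
    intro c hc
    exact h c hc c.2
  rw [← LinearMap.range_dualMap_eq_dualAnnihilator_ker] at hφ
  obtain ⟨ψ, hψ⟩ := hφ
  obtain ⟨Y, hY⟩ := h3_dual ψ
  have key : ∀ c : Co Ω κ (g + 1), c 0 ∈ U →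
      trace (Y * fox ρ c) = trace (α * (c 0).1) + trace (β * (c 0).2) := fun c hc => by
    rw [← hY]
    exact LinearMap.congr_fun hψ ⟨c, hc⟩
  have st : ∀ i : Fin (g + 1), i ≠ 0 → (ρ i).1 ∈ h3_St (Ad (pre ρ i)⁻¹ Y) ∧
      (ρ i).2 ∈ h3_St (Ad (pre ρ i)⁻¹ Y) := by
    intro i hi
    have h1 : ∀ x y, trace (Ad (pre ρ i)⁻¹ Y * fox1 (ρ i).1 (ρ i).2 (x, y)) = 0 := fun x y => by
      have := key (Pi.single i (x, y)) (by rw [Pi.single_eq_of_ne hi.symm]; exact U.zero_mem)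
      rw [h3_fox_single, h3_trace_Ad, Pi.single_eq_of_ne hi.symm] at this
      simpa using this
    generalize Ad (pre ρ i)⁻¹ Y = Z at h1 ⊢
    generalize (ρ i).1 = a at h1 ⊢
    generalize (ρ i).2 = b at h1 ⊢
    have h2 : Z - Ad (a * b * a⁻¹)⁻¹ Z = 0 := h3_trace_zero fun x => by
      have := h1 x 0
      rwa [trace_fox1, Matrix.mul_zero, trace_zero, add_zero] at this
    have h3 : Ad a⁻¹ Z - Ad (cm a b)⁻¹ Z = 0 := h3_trace_zero fun y => by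
      have := h1 0 y
      rwa [trace_fox1, Matrix.mul_zero, trace_zero, zero_add] at this
    have h4 : (a * b * a⁻¹)⁻¹ ∈ h3_St Z := (sub_eq_zero.1 h2).symm
    have h5 : cm a b * a⁻¹ ∈ h3_St Z := by
      change Ad _ Z = Z
      rw [h3_Ad_mul, sub_eq_zero.1 h3, ← h3_Ad_mul, mul_inv_cancel, h3_Ad_one]
    have h6 : a * b ∈ h3_St Z := by
      have := inv_mem (mul_mem h4 h5)
      convert this using 1
      unfold cm
      group
    have h7 : a ∈ h3_St Z := by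
      have := mul_mem h4 h6
      convert this using 1
      group
    refine ⟨h7, ?_⟩
    have := mul_mem (inv_mem h7) h6
    rwa [inv_mul_cancel_left] at this
  have ind : ∀ j, j ≤ g → Ad (pre ρ (j + 1))⁻¹ Y = Ad (pre ρ 1)⁻¹ Y := by
    intro j
    induction j with
    | zero => intro _; rfl
    | succ j ih =>
      intro hj
      obtain ⟨h1, h2⟩ := st ⟨j + 1, by omega⟩ (by simp [Fin.ext_iff])
      have h3 := h3_pre_succ ρ ⟨j + 1, by omega⟩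
      have h4 : (cm (ρ ⟨j + 1, by omega⟩).1 (ρ ⟨j + 1, by omega⟩).2)⁻¹ ∈
          h3_St (Ad (pre ρ (j + 1))⁻¹ Y) :=
        inv_mem (mul_mem (mul_mem (mul_mem h1 h2) (inv_mem h1)) (inv_mem h2))
      rw [← ih (by omega)]
      refine Eq.trans ?_ h4
      rw [← h3_Ad_mul, ← _root_.mul_inv_rev]
      exact congrArg (fun x : GL κ Ω => Ad x⁻¹ Y) h3
  have hall : pre ρ (g + 1) = hprod ρ := by
    unfold pre hprod
    rw [List.take_of_length_le (by simp)]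
  have hc : hprod ρ ∈ h3_St Y := by
    change Ad _ Y = Y
    rw [Ad_apply, hρ, smul_mul_assoc, Matrix.one_mul, ← Matrix.mul_one Y, ← mul_smul_comm, ← hρ,
      Matrix.mul_assoc, Units.mul_inv]
  have h1 : Ad (pre ρ 1)⁻¹ Y = Y := by
    rw [← ind g le_rfl, hall]
    exact inv_mem hc
  have h0 : pre ρ ((0 : Fin (g + 1)) : ℕ) = 1 := by simp [pre]
  have h2 : (cm (ρ 0).1 (ρ 0).2)⁻¹ ∈ h3_St Y := by
    have := h3_pre_succ ρ 0
    rw [h0, one_mul] at this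
    rw [← this]
    exact h1
  refine ⟨Y, fun x hx => ?_, inv_mem_iff.1 h2, fun p hp => ?_⟩
  · obtain ⟨i, b⟩ := x
    have h3 : Ad (pre ρ i)⁻¹ Y = Y := by
      obtain ⟨j, rfl⟩ := Fin.exists_succ_eq.2 hx
      exact (ind j (by omega)).trans h1
    have h4 := st i hx
    rw [h3] at h4
    cases b
    · exact h3_comm h4.2
    · exact h3_comm h4.1
  · have h3 := key (Pi.single 0 p) (by rwa [Pi.single_eq_same])
    have h4 : Ad ((ρ 0).1 * (ρ 0).2 * (ρ 0).1⁻¹)⁻¹ Y = Ad (ρ 0).2⁻¹ Y := by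
      conv_rhs => rw [← (h2 : Ad _ Y = Y), ← h3_Ad_mul]
      congr 2
      unfold cm
      group
    rw [h3_fox_single, h0, h3_Ad_one, Pi.single_eq_same, trace_fox1, h4, (h2 : Ad _ Y = Y)] at h3
    rw [Matrix.sub_mul α, Matrix.sub_mul β, trace_sub, trace_sub]
    linear_combination -h3

end Crest.Agent.R003
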