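import Crest.Agent.R003.T3

/-! Row 3: the lift of a form to a solution of the threefold subdivision. -/

set_option autoImplicit false
set_option linter.unusedSectionVars false

namespace Crest.Agent.R003

open Matrix

namespace Prob

variable {o : Type} [CommRing o] {ι : Type} [Fintype ι] [DecidableEq ι] {P : Prob o ι}
  {Ω : Type} [Field Ω] [Algebra o Ω]

namespace Cell

variable (C : P.Cell)

theorem h85_A_tau {s t : P.Site} (h : P.pc s = P.tau (P.pc t)) : C.A s ↔ C.A t := by
  unfold A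
  rw [h, C.act_tau]

/-- `l` on active rows, `1` on inactive rows -/
def h85_el (l : Matrix P.Site P.Site Ω) : Matrix P.Site P.Site Ω :=
  Matrix.of fun s t => if C.A s then l s t else if s = t then 1 else 0

/-- `M0` on active rows, `M` on inactive rows -/
def h85_M1 (M : Matrix P.Site P.Site Ω) : Matrix P.Site P.Site Ω :=
  Matrix.of fun s t => if C.A s then C.M0 Ω s t else M s t

theorem h85_el_blk {l : Matrix P.Site P.Site Ω} (hl : ∀ s t, ¬ Blk P.lev s t → l s t = 0)
    (s t : P.Site) (h : ¬ Blk P.lev s t) : C.h85_el l s t = 0 := by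
  simp only [h85_el, Matrix.of_apply]
  split_ifs with h1 h2
  · exact hl s t h
  · subst h2
    exact (h (blk_refl s)).elim
  · rfl

theorem h85_el_pc {l : Matrix P.Site P.Site Ω} (hl : ∀ s t, ¬ Blk P.lev s t → l s t = 0)
    (s t : P.Site) (h : P.pc s ≠ P.pc t) : C.h85_el l s t = 0 :=
  C.h85_el_blk hl s t fun h' => h (P.blk_pc s t h')

theorem h85_el_mul {l l' : Matrix P.Site P.Site Ω} (hl : ∀ s t, ¬ Blk P.lev s t → l s t = 0)
    (h : l * l' = 1) : C.h85_el l * C.h85_el l' = 1 := by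
  ext s t
  rw [Matrix.mul_apply]
  by_cases hs : C.A s
  · rw [← h, Matrix.mul_apply]
    refine Finset.sum_congr rfl fun r _ => ?_
    by_cases hr : Blk P.lev s r
    · simp only [h85_el, Matrix.of_apply, if_pos hs, if_pos ((C.A_blk hr).1 hs)]
    · simp only [h85_el, Matrix.of_apply, if_pos hs, hl s r hr, zero_mul]
  · rw [Finset.sum_eq_single s]
    · simp [h85_el, hs, Matrix.one_apply]
    · intro r _ hr
      simp [h85_el, hs, hr.symm]
    · simp

theorem h85_M1_supp {M : Matrix P.Site P.Site Ω}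
    (hM : ∀ s t, P.pc s ≠ P.tau (P.pc t) → M s t = 0) (s t : P.Site)
    (h : P.pc s ≠ P.tau (P.pc t)) : C.h85_M1 M s t = 0 := by
  simp only [h85_M1, Matrix.of_apply, M0]
  split_ifs with h1 h2
  · subst h2
    exact (h (by rw [C.ς_pc s h1, P.tau_tau])).elim
  · rfl
  · exact hM s t h

theorem h85_fact {l l' M : Matrix P.Site P.Site Ω} (hl : ∀ s t, ¬ Blk P.lev s t → l s t = 0)
    (hM : ∀ s t, P.pc s ≠ P.tau (P.pc t) → M s t = 0)
    (hf : ∀ s t, C.act (P.pc s) → M s t = (l * C.M0 Ω * l') s t) :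
    C.h85_el l * C.h85_M1 M * C.h85_el l' = M := by
  ext s t
  by_cases hs : C.A s
  · rw [hf s t hs]
    simp only [Matrix.mul_apply]
    refine Finset.sum_congr rfl fun q _ => ?_
    rw [Finset.sum_mul, Finset.sum_mul]
    refine Finset.sum_congr rfl fun r _ => ?_
    by_cases hr : Blk P.lev s r
    · have hr' := (C.A_blk hr).1 hs
      by_cases hq : q = C.ς r
      · have hq' : C.A q := by rw [hq]; exact (C.A_ς r).2 hr'
        simp only [h85_el, h85_M1, Matrix.of_apply, if_pos hs, if_pos hr', if_pos hq']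
      · simp only [h85_el, h85_M1, M0, Matrix.of_apply, if_pos hs, if_pos hr', if_neg hq,
          mul_zero, zero_mul]
    · simp only [h85_el, Matrix.of_apply, if_pos hs, hl s r hr, zero_mul]
  · have e1 : ∀ q, (C.h85_el l * C.h85_M1 M) s q = M s q := by
      intro q
      rw [Matrix.mul_apply, Finset.sum_eq_single s]
      · simp [h85_el, h85_M1, hs]
      · intro r _ hr
        simp [h85_el, hs, hr.symm]
      · simp
    rw [Matrix.mul_apply, Finset.sum_eq_single t]
    · rw [e1]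
      by_cases ht : P.pc s = P.tau (P.pc t)
      · have : ¬ C.A t := fun h => hs ((C.h85_A_tau ht).2 h)
        simp [h85_el, this]
      · rw [hM s t ht, zero_mul]
    · intro q _ hq
      rw [e1]
      by_cases ht : P.pc s = P.tau (P.pc q)
      · have : ¬ C.A q := fun h => hs ((C.h85_A_tau ht).2 h)
        simp [h85_el, this, hq]
      · rw [hM s q ht, zero_mul]
    · simp

/-- the blocks of the lifted letters -/
def h85_B (l l' M : Matrix P.Site P.Site Ω) : Fin 3 → Fin 3 → P.Site → P.Site → Ω :=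
  ![![fun s t => if C.A s then 0 else if s = t then 1 else 0, fun _ _ => 0,
      fun s t => if C.A s then l s (P.J.symm t) else 0],
    ![fun _ _ => 0,
      fun s t => if C.A s then (if s = t then algebraMap o Ω (C.ε s : o) else 0) else M s t,
      fun _ _ => 0],
    ![fun s t => if C.A (P.J.symm s) then l' (P.J.symm s) t else 0, fun _ _ => 0,
      fun s t => if C.A (P.J.symm s) then 0 else if s = t then 1 else 0]]

/-- the lifted letters -/
def h85_M (l l' M : Matrix P.Site P.Site Ω) :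
    Matrix ((P.I × Fin 3) × ι) ((P.I × Fin 3) × ι) Ω :=
  Matrix.of fun x y => C.h85_B l l' M x.1.2 y.1.2 (dn x) (dn y)

theorem h85_sum (f : (P.I × Fin 3) × ι → Ω) :
    ∑ x, f x = ∑ s : P.Site, f (up s 0) + ∑ s : P.Site, f (up s 1) + ∑ s : P.Site, f (up s 2) := by
  rw [← Finset.sum_add_distrib, ← Finset.sum_add_distrib]
  simp only [Fintype.sum_prod_type, Fin.sum_univ_three, Finset.sum_add_distrib]

theorem h85_up_eq {s t : P.Site} {k m : Fin 3} : (up s k = up t m) ↔ s = t ∧ k = m := by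
  constructor
  · intro h
    simp only [Prod.mk.injEq] at h
    exact ⟨Prod.ext h.1.1 h.2, h.1.2⟩
  · rintro ⟨rfl, rfl⟩
    rfl

theorem h85_M_up (l l' M : Matrix P.Site P.Site Ω) (s t : P.Site) (k m : Fin 3) :
    C.h85_M l l' M (up s k) (up t m) = C.h85_B l l' M k m s t := rfl

theorem h85_supp {l l' M : Matrix P.Site P.Site Ω} (hl : ∀ s t, ¬ Blk P.lev s t → l s t = 0)
    (hl' : ∀ s t, ¬ Blk P.lev s t → l' s t = 0)
    (hM : ∀ s t, P.pc s ≠ P.tau (P.pc t) → M s t = 0) (s t : P.Site) (k m : Fin 3)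
    (h : C.pc3 (up s k) ≠ tau3 (C.pc3 (up t m))) : C.h85_B l l' M k m s t = 0 := by
  by_contra hne
  apply h
  fin_cases k <;> fin_cases m <;> simp only [h85_B] at hne
  all_goals simp at hne
  · obtain ⟨h1, rfl⟩ := hne
    simp [pc3, h1, tau3]
  · obtain ⟨h1, h2⟩ := hne
    have hb : Blk P.lev s (P.J.symm t) := by
      by_contra hb
      exact h2 (hl _ _ hb)
    have h3 := (C.A_blk hb).1 h1
    simp [pc3, h1, h3, tau3, hb.1, hb.2]
  · by_cases h1 : C.A s
    · simp only [h1, if_true] at hne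
      have : s = t := by
        by_contra hst
        simp [hst] at hne
      subst this
      simp [pc3, h1, tau3]
    · simp only [h1, if_false] at hne
      have h2 : P.pc s = P.tau (P.pc t) := by
        by_contra hb
        exact hne (hM _ _ hb)
      have h3 : ¬ C.A t := fun h => h1 ((C.h85_A_tau h2).2 h)
      simp [pc3, h1, h3, tau3, h2]
  · obtain ⟨h1, h2⟩ := hne
    have hb : Blk P.lev (P.J.symm s) t := by
      by_contra hb
      exact h2 (hl' _ _ hb)
    have h3 := (C.A_blk hb).1 h1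
    simp [pc3, h1, h3, tau3, hb.1, hb.2]
  · obtain ⟨h1, rfl⟩ := hne
    simp [pc3, h1, tau3]

theorem h85_fix {l l' : Matrix P.Site P.Site Ω} {d : P.Data Ω} (hd : P.IsPre C.act d)
    (s : P.Site) (k : Fin 3) (h : tau3 (C.pc3 (up s k)) = C.pc3 (up s k)) (t : P.Site) (m : Fin 3) :
    C.h85_B l l' d.2.1 k m s t =
      if up s k = up t m then algebraMap o Ω (C.u3 (C.pc3 (up s k)) : o) else 0 := by
  simp only [h85_up_eq]
  fin_cases k
  · have h1 : ¬ C.A s := by
      intro h1
      simp [pc3, h1, tau3] at h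
    fin_cases m <;> simp [h85_B, pc3, h1, u3]
  · by_cases h1 : C.A s
    · have h2 := C.u3_new s
      fin_cases m
      · simp [h85_B]
      · simp only [h85_B, pc3, h1, if_true]
        simp [h1, h2]
      · simp [h85_B]
    · have h2 : P.tau (P.pc s) = P.pc s := by simpa [pc3, h1, tau3] using h
      have h3 := hd.fix s h1 h2 t
      fin_cases m
      · simp [h85_B]
      · simp [h85_B, pc3, h1, h3, u3]
      · simp [h85_B]
  · have h1 : ¬ C.A (P.J.symm s) := by
      intro h1
      simp [pc3, h1, tau3] at h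
    fin_cases m <;> simp [h85_B, pc3, h1, u3]

theorem h85_sq {l l' : Matrix P.Site P.Site Ω} {d : P.Data Ω} (hd : P.IsPre C.act d)
    (hl : ∀ s t, ¬ Blk P.lev s t → l s t = 0) (hl' : ∀ s t, ¬ Blk P.lev s t → l' s t = 0)
    (hll : l * l' = 1)
    (s : P.Site) (k : Fin 3) (h : tau3 (C.pc3 (up s k)) ≠ C.pc3 (up s k)) (t : P.Site) (m : Fin 3) :
    (C.h85_M l l' d.2.1 * C.h85_M l l' d.2.1) (up s k) (up t m) =
      if up s k = up t m then algebraMap o Ω (C.u3 (C.pc3 (up s k)) : o) else 0 := by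
  have hll' : l' * l = 1 := mul_eq_one_comm.1 hll
  rw [Matrix.mul_apply, h85_sum]
  simp only [h85_up_eq, h85_M_up]
  fin_cases k
  · have h1 : C.A s := by
      by_contra h1
      simp [pc3, h1, tau3] at h
    have key : ∀ (f : P.Site → Ω) (g : P.Site → Ω),
        ∑ r, l s (P.J.symm r) * (if C.A (P.J.symm r) then f (P.J.symm r) else g r) =
          ∑ r, l s r * f r := by
      intro f g
      rw [← Equiv.sum_comp P.J.symm (fun r => l s r * f r)]
      refine Finset.sum_congr rfl fun r _ => ?_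
      by_cases hb : Blk P.lev s (P.J.symm r)
      · rw [if_pos ((C.A_blk hb).1 h1)]
      · rw [hl _ _ hb, zero_mul, zero_mul]
    fin_cases m
    · have := key (fun r => l' r t) (fun _ => 0)
      have e := congrFun (congrFun hll s) t
      rw [Matrix.mul_apply, Matrix.one_apply] at e
      simp only [h85_B, pc3, h1, u3] at this ⊢
      simp only [Fin.zero_eta, Fin.isValue, Matrix.cons_val_zero, h1, if_true, zero_mul,
        Finset.sum_const_zero, Matrix.cons_val_one, zero_add, Matrix.cons_val, and_true]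
      rw [this, e]
      simp
    · simp [h85_B, h1]
    · have := key (fun _ => 0) (fun r => if r = t then 1 else 0)
      simp only [h85_B, pc3, h1, u3] at this ⊢
      simp only [Fin.zero_eta, Fin.isValue, Matrix.cons_val_zero, h1, if_true, zero_mul,
        Finset.sum_const_zero, Matrix.cons_val_one, zero_add, Matrix.cons_val, Fin.reduceFinMk]
      rw [this]
      simp
  · have h1 : ¬ C.A s := by
      intro h1
      simp [pc3, h1, tau3] at h
    have h2 : P.tau (P.pc s) ≠ P.pc s := by simpa [pc3, h1, tau3] using h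
    have h3 := hd.sq s h1 h2 t
    fin_cases m
    · simp [h85_B]
    · rw [Matrix.mul_apply] at h3
      have e : ∑ r, d.2.1 s r * (if C.A r then (if r = t then algebraMap o Ω (C.ε r : o) else 0)
          else d.2.1 r t) = ∑ r, d.2.1 s r * d.2.1 r t := by
        refine Finset.sum_congr rfl fun r _ => ?_
        by_cases hb : P.pc s = P.tau (P.pc r)
        · rw [if_neg fun h => h1 ((C.h85_A_tau hb).2 h)]
        · rw [hd.supp _ _ hb, zero_mul, zero_mul]
      simp only [h85_B, pc3]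
      simp only [Fin.mk_one, Fin.isValue, Matrix.cons_val_zero, h1, if_false, zero_mul,
        Finset.sum_const_zero, Matrix.cons_val_one, zero_add, Matrix.cons_val, and_true, add_zero]
      rw [e, h3]
      rfl
    · simp [h85_B]
  · have h1 : C.A (P.J.symm s) := by
      by_contra h1
      simp [pc3, h1, tau3] at h
    have key : ∀ (f : P.Site → Ω) (g : P.Site → Ω),
        ∑ r, l' (P.J.symm s) r * (if C.A r then f r else g r) =
          ∑ r, l' (P.J.symm s) r * f r := by
      intro f g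
      refine Finset.sum_congr rfl fun r _ => ?_
      by_cases hb : Blk P.lev (P.J.symm s) r
      · rw [if_pos ((C.A_blk hb).1 h1)]
      · rw [hl' _ _ hb, zero_mul, zero_mul]
    fin_cases m
    · have := key (fun _ => 0) (fun r => if r = t then 1 else 0)
      simp only [h85_B, pc3, h1, u3] at this ⊢
      simp only [Fin.zero_eta, Fin.isValue, Matrix.cons_val_zero, h1, if_true, zero_mul,
        Finset.sum_const_zero, Matrix.cons_val_one, zero_add, Matrix.cons_val, Fin.reduceFinMk]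
      rw [this]
      simp
    · simp [h85_B, h1]
    · have := key (fun r => l r (P.J.symm t)) (fun _ => 0)
      have e := congrFun (congrFun hll' (P.J.symm s)) (P.J.symm t)
      rw [Matrix.mul_apply, Matrix.one_apply] at e
      simp only [h85_B, pc3, h1, u3] at this ⊢
      simp only [Fin.zero_eta, Fin.isValue, Matrix.cons_val_zero, h1, if_true, zero_mul,
        Finset.sum_const_zero, Matrix.cons_val_one, zero_add, Matrix.cons_val, Fin.reduceFinMk,
        and_true, add_zero]
      rw [this, e]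
      simp

theorem h85_L0 {l l' M : Matrix P.Site P.Site Ω} (hl : ∀ s t, ¬ Blk P.lev s t → l s t = 0)
    (i : P.I) : C.t3.L (C.h85_M l l' M) (i, 0) = P.loc (C.h85_el l) i := by
  ext a b
  change C.h85_M l l' M (up (i, a) 0) (C.J3.symm (up (i, b) 1)) = C.h85_el l (i, a) (i, b)
  have e : C.J3.symm (up (i, b) 1) =
      if C.A (i, b) then up (P.J (i, b)) 2 else up (i, b) 0 := rfl
  rw [e]
  by_cases hb : C.A (i, b)
  · rw [if_pos hb, h85_M_up]
    by_cases ha : C.A (i, a)
    · simp [h85_B, h85_el, ha]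
    · have : a ≠ b := by
        rintro rfl
        exact ha hb
      simp [h85_B, h85_el, ha, this]
  · rw [if_neg hb, h85_M_up]
    by_cases ha : C.A (i, a)
    · have : l (i, a) (i, b) = 0 := hl _ _ fun h => hb ((C.A_blk h).1 ha)
      simp [h85_B, h85_el, ha, this]
    · simp [h85_B, h85_el, ha]

theorem h85_L1 {l l' M : Matrix P.Site P.Site Ω}
    (hM : ∀ s t, P.pc s ≠ P.tau (P.pc t) → M s t = 0)
    (i : P.I) : C.t3.L (C.h85_M l l' M) (i, 1) = P.L (C.h85_M1 M) i := by
  ext a b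
  change C.h85_M l l' M (up (i, a) 1) (up (C.ς (P.J.symm (P.nx i, b))) 1) =
    C.h85_M1 M (i, a) (P.J.symm (P.nx i, b))
  rw [h85_M_up]
  generalize P.J.symm (P.nx i, b) = r
  generalize (i, a) = s
  by_cases hs : C.A s
  · have : s = C.ς r ↔ r = C.ς s :=
      ⟨fun h => by rw [h, C.ς_ς], fun h => by rw [h, C.ς_ς]⟩
    simp [h85_B, h85_M1, M0, hs, this]
  · by_cases hr : C.A r
    · have e1 : M s r = 0 := hM _ _ fun h => hs ((C.h85_A_tau h).2 hr)
      have e2 : M s (C.ς r) = 0 := hM _ _ fun h => hs ((C.h85_A_tau h).2 ((C.A_ς r).2 hr))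
      simp [h85_B, h85_M1, hs, e1, e2]
    · simp [h85_B, h85_M1, hs, C.ς_of_not r hr]

theorem h85_L2 {l l' M : Matrix P.Site P.Site Ω} (hl' : ∀ s t, ¬ Blk P.lev s t → l' s t = 0)
    (i : P.I) : C.t3.L (C.h85_M l l' M) (i, 2) = P.loc (P.push (C.h85_el l')) i := by
  ext a b
  change C.h85_M l l' M (up (i, a) 2) (C.J3.symm (up (i, b) 0)) =
    C.h85_el l' (P.J.symm (i, a)) (P.J.symm (i, b))
  have e : C.J3.symm (up (i, b) 0) =
      if C.A (P.J.symm (i, b)) then up (P.J.symm (i, b)) 0 else up (i, b) 2 := rfl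
  rw [e]
  by_cases hb : C.A (P.J.symm (i, b))
  · rw [if_pos hb, h85_M_up]
    by_cases ha : C.A (P.J.symm (i, a))
    · simp [h85_B, h85_el, ha]
    · have : a ≠ b := by
        rintro rfl
        exact ha hb
      simp [h85_B, h85_el, ha, this]
  · rw [if_neg hb, h85_M_up]
    by_cases ha : C.A (P.J.symm (i, a))
    · have : l' (P.J.symm (i, a)) (P.J.symm (i, b)) = 0 :=
        hl' _ _ fun h => hb ((C.A_blk h).1 ha)
      simp [h85_B, h85_el, ha, this]
    · simp [h85_B, h85_el, ha]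

theorem h85_lift (d : P.Data Ω) (hd : C.IsForm d) :
    ∃ d' : C.t3.Data Ω, C.t3.IsSol d' ∧ (∀ i, d'.1 (i, 0) = d.1 i) ∧ (∀ i, d'.1 (i, 1) = 1) ∧
      (∀ i, d'.1 (i, 2) = 1) ∧ (∀ i, d'.2.2 (i, 0) = d.2.2 i) := by
  obtain ⟨hp, l, l', hll, hl, hf⟩ := hd
  have hll' : l' * l = 1 := mul_eq_one_comm.1 hll
  have hl' : ∀ s t, ¬ Blk P.lev s t → l' s t = 0 := fun s t h =>
    supp_inv (p := fun s : P.Site => (s.1, P.lev s)) (q := fun s : P.Site => (s.1, P.lev s))
      hll hll' (fun a b hab => hl a b fun h' => hab (Prod.ext h'.1 h'.2)) s t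
      fun h' => h (blk_symm ⟨(Prod.ext_iff.1 h').1, (Prod.ext_iff.1 h').2⟩)
  have e1 := C.h85_el_mul hl hll
  have e2 := C.h85_el_mul hl' hll'
  have s1 : ∀ s t : P.Site, s.1 ≠ t.1 → C.h85_el l s t = 0 := fun s t h =>
    C.h85_el_blk hl s t fun h' => h h'.1
  have s2 : ∀ s t : P.Site, s.1 ≠ t.1 → C.h85_el l' s t = 0 := fun s t h =>
    C.h85_el_blk hl' s t fun h' => h h'.1
  have a1 : ∀ i, P.loc (C.h85_el l) i * P.loc (C.h85_el l') i = 1 := fun i => by
    rw [← loc_mul s1, e1, loc_one]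
  have a2 : ∀ i, P.loc (C.h85_el l') i * P.loc (C.h85_el l) i = 1 := fun i => by
    rw [← loc_mul s2, e2, loc_one]
  have b1 : ∀ i, P.loc (P.push (C.h85_el l)) i * P.loc (P.push (C.h85_el l')) i = 1 := fun i => by
    rw [← loc_mul (push_slot (C.h85_el_pc hl)), ← push_mul, e1, push_one, loc_one]
  have b2 : ∀ i, P.loc (P.push (C.h85_el l')) i * P.loc (P.push (C.h85_el l)) i = 1 := fun i => by
    rw [← loc_mul (push_slot (C.h85_el_pc hl')), ← push_mul, e2, push_one, loc_one]
  have hL : ∀ i, P.L d.2.1 i = P.loc (C.h85_el l) i * P.L (C.h85_M1 d.2.1) i *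
      P.loc (P.push (C.h85_el l')) (P.nx i) := fun i => by
    rw [← L_mul (C.h85_M1_supp hp.supp) (C.h85_el_pc hl') (C.h85_el_pc hl), C.h85_fact hl hp.supp hf]
  refine ⟨(fun x => ![d.1 x.1, 1, 1] x.2, C.h85_M l l' d.2.1, fun x =>
    ![d.2.2 x.1, d.2.2 x.1 * uniGL (d.1 x.1) (hp.uni x.1) * ⟨_, _, a1 x.1, a2 x.1⟩,
      d.2.2 x.1 * ⟨_, _, b1 x.1, b2 x.1⟩] x.2), ⟨?_, ?_, ?_, ?_, ?_⟩,
    fun _ => rfl, fun _ => rfl, fun _ => rfl, fun _ => rfl⟩
  · rintro ⟨i, k⟩
    fin_cases k
    · refine Uni.mono (l := P.lv i) (fun a b hab => ?_) (hp.uni i)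
      exact Prod.Lex.toLex_lt_toLex.2 (Or.inl hab)
    · exact Uni.one
    · exact Uni.one
  · rintro ⟨⟨i, k⟩, a⟩ ⟨⟨j, m⟩, b⟩ h
    exact C.h85_supp hl hl' hp.supp (i, a) (j, b) k m h
  · rintro ⟨⟨i, k⟩, a⟩ - h ⟨⟨j, m⟩, b⟩
    exact C.h85_fix (l := l) (l' := l') hp (i, a) k h (j, b) m
  · rintro ⟨⟨i, k⟩, a⟩ - h ⟨⟨j, m⟩, b⟩
    exact C.h85_sq hp hl hl' hll (i, a) k h (j, b) m
  · rintro ⟨i, k⟩
    fin_cases k
    · change (d.2.2 i : Matrix ι ι Ω) * d.1 i * P.loc (C.h85_el l) i =
        (d.2.2 i : Matrix ι ι Ω) * d.1 i * C.t3.L (C.h85_M l l' d.2.1) (i, 0)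
      rw [C.h85_L0 hl]
    · change (d.2.2 (P.nx i) : Matrix ι ι Ω) * P.loc (P.push (C.h85_el l)) (P.nx i) =
        (d.2.2 i : Matrix ι ι Ω) * d.1 i * P.loc (C.h85_el l) i * 1 *
          C.t3.L (C.h85_M l l' d.2.1) (i, 1)
      rw [C.h85_L1 hp.supp, hp.fr, hL]
      simp only [Matrix.mul_assoc, b2, Matrix.mul_one]
    · change (d.2.2 i : Matrix ι ι Ω) =
        (d.2.2 i : Matrix ι ι Ω) * P.loc (P.push (C.h85_el l)) i * 1 *
          C.t3.L (C.h85_M l l' d.2.1) (i, 2)
      rw [C.h85_L2 hl']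
      simp only [Matrix.mul_assoc, b1, Matrix.mul_one]

end Cell

end Prob

end Crest.Agent.R003
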