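import Crest.Agent.R003.T3

/-! Row 3: the retraction of the threefold subdivision (auxiliary file). -/

set_option autoImplicit false
set_option linter.unusedSectionVars false

namespace Crest.Agent.R003

open Matrix

namespace Prob

variable {o : Type} [CommRing o] {ι : Type} [Fintype ι] [DecidableEq ι] {P : Prob o ι}
  {Ω : Type} [Field Ω] [Algebra o Ω]

/-- supported in the blocks -/
def BS (G : Matrix P.Site P.Site Ω) : Prop := ∀ s t, ¬ Blk P.lev s t → G s t = 0

theorem BS.mul {G G' : Matrix P.Site P.Site Ω} (h : BS G) (h' : BS G') : BS (G * G') := by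
  intro s t hst
  rw [Matrix.mul_apply]
  refine Finset.sum_eq_zero fun r _ => ?_
  by_cases h1 : Blk P.lev s r
  · rw [h' r t fun h2 => hst (blk_trans h1 h2), mul_zero]
  · rw [h s r h1, zero_mul]

theorem BS.inv {G G' : Matrix P.Site P.Site Ω} (h : BS G) (h1 : G * G' = 1) : BS G' := by
  intro s t hst
  refine supp_inv (p := fun s : P.Site => (s.1, P.lev s)) (q := fun s : P.Site => (s.1, P.lev s)) h1
    (mul_eq_one_comm.1 h1) (fun a b hab => h a b fun hb => hab (Prod.ext hb.1 hb.2)) s t fun e => hst ?_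
  exact ⟨(congrArg Prod.fst e).symm, (congrArg Prod.snd e).symm⟩

theorem BS.push {G : Matrix P.Site P.Site Ω} (h : BS G) : BS (P.push G) := fun s t hst =>
  h _ _ fun hb => hst (by simpa using (P.blk_J _ _).2 hb)

theorem BS.pc {G : Matrix P.Site P.Site Ω} (h : BS G) (s t : P.Site) (hst : P.pc s ≠ P.pc t) :
    G s t = 0 := h s t fun hb => hst (P.blk_pc s t hb)

theorem BS.slot {G : Matrix P.Site P.Site Ω} (h : BS G) (s t : P.Site) (hst : s.1 ≠ t.1) :
    G s t = 0 := h s t fun hb => hst hb.1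

theorem BS.par {G : Matrix P.Site P.Site Ω} (h : BS G) : Par P.lev G := fun s t hst =>
  h s t fun hb => hst.ne' hb.2

theorem BS.loc_bd {G : Matrix P.Site P.Site Ω} (h : BS G) (i : P.I) : BD (P.lv i) (P.loc G i) :=
  fun _ _ hab => h _ _ fun hb => hab hb.2

theorem BS.loc_inv {G G' : Matrix P.Site P.Site Ω} (h : BS G) (h1 : G * G' = 1) (i : P.I) :
    P.loc G i * P.loc G' i = 1 := by
  rw [← loc_mul h.slot, h1, loc_one]

theorem push_inv {G G' : Matrix P.Site P.Site Ω} (h1 : G * G' = 1) : P.push G * P.push G' = 1 := by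
  rw [← push_mul, h1, push_one]

theorem h22_pc_mul {G G' : Matrix P.Site P.Site Ω} {f g : P.Site → P.Pc}
    (h : ∀ s t, P.pc s ≠ f t → G s t = 0) (h' : ∀ s t, f s ≠ g t → G' s t = 0) (s t : P.Site)
    (hst : P.pc s ≠ g t) : (G * G') s t = 0 := by
  rw [Matrix.mul_apply]
  refine Finset.sum_eq_zero fun r _ => ?_
  by_cases h1 : P.pc s = f r
  · rw [h' r t (h1 ▸ hst), mul_zero]
  · rw [h s r h1, zero_mul]

theorem h22_par_of_lex {Λ Λ' : Type} [LinearOrder Λ] [LinearOrder Λ'] {l : ι → Λ} {l' : ι → Λ'}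
    {x : Matrix ι ι Ω} (h : Uni (fun a => toLex (l a, l' a)) x) : Par l x := fun a b hab =>
  h.par a b (Prod.Lex.toLex_lt_toLex.2 (Or.inl hab))

namespace Cell

variable (C : P.Cell)

/-- identity on the inactive rows -/
def IdI (G : Matrix P.Site P.Site Ω) : Prop := ∀ s, ¬ C.A s → ∀ t, G s t = if s = t then 1 else 0

variable {C} in
theorem IdI.mul_apply {G : Matrix P.Site P.Site Ω} (h : C.IdI G) (H : Matrix P.Site P.Site Ω)
    {s : P.Site} (hs : ¬ C.A s) (t : P.Site) : (G * H) s t = H s t := by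
  simp [Matrix.mul_apply, h s hs]

variable {C} in
theorem IdI.mul {G G' : Matrix P.Site P.Site Ω} (h : C.IdI G) (h' : C.IdI G') : C.IdI (G * G') :=
  fun s hs t => by rw [h.mul_apply _ hs, h' s hs]

/-- the refined level -/
abbrev lam (s : P.Site) : P.Λ ×ₗ P.Λ := toLex (P.lev s, P.lev (C.ς s))

variable {C} in
theorem uni_supp {G : Matrix P.Site P.Site Ω} (h : Uni C.lam G) (h' : BS G) {s t : P.Site}
    (hst : (G - 1) s t ≠ 0) : Blk P.lev s t ∧ P.lev (C.ς s) < P.lev (C.ς t) ∧ C.A s ∧ C.A t := by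
  have h1 := h.sub_one s t hst
  have h2 : Blk P.lev s t := by
    by_contra hb
    refine hst ?_
    rw [Matrix.sub_apply, h' s t hb, Matrix.one_apply_ne (fun e => hb (by rw [e]; exact blk_refl _)),
      sub_zero]
  have h3 : P.lev (C.ς s) < P.lev (C.ς t) := by
    rcases Prod.Lex.toLex_lt_toLex.1 h1 with h3 | h3
    · exact absurd h2.2 h3.ne
    · exact h3.2
  have h4 : C.A s := by
    by_contra hs
    rw [C.ς_of_not s hs, C.ς_of_not t fun ht => hs ((C.A_blk h2).2 ht)] at h3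
    exact h3.ne h2.2
  exact ⟨h2, h3, h4, (C.A_blk h2).1 h4⟩

variable {C} in
theorem uni_idI {G : Matrix P.Site P.Site Ω} (h : Uni C.lam G) (h' : BS G) : C.IdI G := by
  intro s hs t
  have : (G - 1) s t = 0 := by
    by_contra h0
    exact hs (uni_supp h h' h0).2.2.1
  rwa [Matrix.sub_apply, sub_eq_zero, Matrix.one_apply] at this

/-- what is read off from a solution of the subdivided problem -/
structure Hyp (X0 X1 X2 : P.I → Matrix ι ι Ω) (l l' M : Matrix P.Site P.Site Ω)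
    (g0 g2 : P.I → GL ι Ω) : Prop where
  u0 : ∀ i, Uni (P.lv i) (X0 i)
  u1 : ∀ i, Uni (fun a => toLex (P.lev (i, a), P.lev (C.ς (i, a)))) (X1 i)
  u2 : ∀ i, Uni (fun a => toLex (P.lev (i, a), P.lev (C.ς (P.J.symm (i, a))))) (X2 i)
  bl : BS l
  il : C.IdI l
  il' : C.IdI l'
  ll : l * l' = 1
  act : ∀ s, C.A s → ∀ t, M s t = C.M0 Ω s t
  supp : ∀ s t, P.pc s ≠ P.tau (P.pc t) → M s t = 0
  fix : ∀ s, ¬ C.A s → P.tau (P.pc s) = P.pc s → ∀ t, M s t = if s = t then P.uu Ω s else 0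
  sq : ∀ s, ¬ C.A s → P.tau (P.pc s) ≠ P.pc s → ∀ t, (M * M) s t = if s = t then P.uu Ω s else 0
  fr0 : ∀ i, (g0 i : Matrix ι ι Ω) = g2 i * X2 i * P.loc (P.push l') i
  fr : ∀ i, (g2 (P.nx i) : Matrix ι ι Ω) = g0 i * X0 i * P.loc l i * X1 i * P.L M i

variable (P) in
/-- the diagonal blocks of the slots -/
def nn (X : P.I → Matrix ι ι Ω) : Matrix P.Site P.Site Ω :=
  Matrix.of fun s t => if Blk P.lev s t then X s.1 s.2 t.2 else 0

variable (P) in
def nn' (X : P.I → Matrix ι ι Ω) : Matrix P.Site P.Site Ω := (nn P X).submatrix P.J P.J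

theorem push_nn' (X : P.I → Matrix ι ι Ω) : P.push (nn' P X) = nn P X := by
  ext s t; simp [push, nn']

theorem loc_nn (X : P.I → Matrix ι ι Ω) (i : P.I) : P.loc (nn P X) i = dpart (P.lv i) (X i) := by
  ext a b; simp [loc, nn, dpart, Blk]

theorem bs_nn (X : P.I → Matrix ι ι Ω) : BS (nn P X) := fun _ _ h => if_neg h

theorem bs_nn' (X : P.I → Matrix ι ι Ω) : BS (nn' P X) := fun s t h =>
  if_neg fun hb => h ((P.blk_J s t).1 hb)

theorem uni_nn {Λ' : Type} [LinearOrder Λ'] {f : P.Site → Λ'} {X : P.I → Matrix ι ι Ω}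
    (h : ∀ i, Uni (fun a => toLex (P.lev (i, a), f (i, a))) (X i)) (s t : P.Site)
    (hst : Blk P.lev s t → ¬ f s < f t) : nn P X s t = if s = t then 1 else 0 := by
  obtain ⟨i, a⟩ := s
  obtain ⟨j, b⟩ := t
  by_cases hb : Blk P.lev (i, a) (j, b)
  · obtain rfl : i = j := hb.1
    have := h i a b fun hl => by
      rcases Prod.Lex.toLex_lt_toLex.1 hl with h1 | h1
      · exact h1.ne hb.2
      · exact hst hb h1.2
    simp only [nn, Matrix.of_apply, if_pos hb, this, Prod.mk.injEq, true_and]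
  · rw [bs_nn X _ _ hb, if_neg fun e => hb (by rw [e]; exact blk_refl _)]

theorem nn_one : nn P (fun _ => (1 : Matrix ι ι Ω)) = 1 := by
  ext s t
  rw [uni_nn (f := P.lev) (fun _ => Uni.one) s t fun h => h.2.not_lt, Matrix.one_apply]

/-- the correction -/
def KK (E : Matrix P.Site P.Site Ω) : Matrix P.Site P.Site Ω :=
  Matrix.of fun s t => algebraMap o Ω (C.ε s : o) * E (C.ς s) (C.ς t) *
    algebraMap o Ω (((C.ε t)⁻¹ : oˣ) : o)

section
variable (X0 X1 X2 : P.I → Matrix ι ι Ω) (l l' M : Matrix P.Site P.Site Ω)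

def VV : Matrix P.Site P.Site Ω :=
  l * nn P X1 * (1 + C.KK (nn' P X2 * nn P X1 - 1)) * ((nn P X1).adjugate * l')

variable (P) in
def MM : Matrix P.Site P.Site Ω := l * nn P X1 * M * ((nn P X1).adjugate * l')

def XX (i : P.I) : Matrix ι ι Ω :=
  P.loc (P.push l) i * (P.loc (P.push (nn' P X2).adjugate) i * X2 i) * P.loc (P.push l') i * X0 i *
    (P.loc l i * (X1 i * P.loc (nn P X1).adjugate i) * P.loc l' i) * P.loc (C.VV X1 X2 l l') i
end

namespace Hyp

variable {C} {X0 X1 X2 : P.I → Matrix ι ι Ω} {l l' M : Matrix P.Site P.Site Ω}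
  {g0 g2 : P.I → GL ι Ω} (h : C.Hyp X0 X1 X2 l l' M g0 g2)
include h

theorem un : Uni C.lam (nn P X1) := fun s t hst =>
  uni_nn (f := fun s => P.lev (C.ς s)) h.u1 s t fun hb hl =>
    hst (Prod.Lex.toLex_lt_toLex.2 (Or.inr ⟨hb.2, hl⟩))

theorem un' : Uni C.lam (nn' P X2) := fun s t hst => by
  have := uni_nn (f := fun s => P.lev (C.ς (P.J.symm s))) h.u2 (P.J s) (P.J t) fun hb hl =>
    hst (Prod.Lex.toLex_lt_toLex.2 (Or.inr ⟨((P.blk_J s t).1 hb).2, by simpa using hl⟩))
  simpa [nn'] using this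

theorem bl' : BS l' := h.bl.inv h.ll
theorem bna : BS (nn P X1).adjugate := (bs_nn X1).inv h.un.mul_adjugate
theorem bna' : BS (nn' P X2).adjugate := (bs_nn' X2).inv h.un'.mul_adjugate
theorem bL : BS (l * nn P X1) := h.bl.mul (bs_nn X1)
theorem bL' : BS ((nn P X1).adjugate * l') := h.bna.mul h.bl'
theorem iL : C.IdI (l * nn P X1) := h.il.mul (uni_idI h.un (bs_nn X1))
theorem iL' : C.IdI ((nn P X1).adjugate * l') := (uni_idI h.un.adjugate h.bna).mul h.il'
theorem LL : l * nn P X1 * ((nn P X1).adjugate * l') = 1 := by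
  rw [Matrix.mul_assoc, ← Matrix.mul_assoc (nn P X1), h.un.mul_adjugate, Matrix.one_mul, h.ll]

theorem E_supp {s t : P.Site} (hst : (nn' P X2 * nn P X1 - 1) s t ≠ 0) :
    Blk P.lev s t ∧ P.lev (C.ς s) < P.lev (C.ς t) ∧ C.A s ∧ C.A t :=
  uni_supp (h.un'.mul h.un) ((bs_nn' X2).mul (bs_nn X1)) hst

theorem K_supp {s t : P.Site} (hst : C.KK (nn' P X2 * nn P X1 - 1) s t ≠ 0) :
    P.pc s = P.pc t ∧ P.lev s < P.lev t ∧ C.A t := by
  obtain ⟨h1, h2, h3, h4⟩ := h.E_supp (right_ne_zero_of_mul (left_ne_zero_of_mul hst))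
  rw [C.A_ς] at h3 h4
  rw [C.ς_ς, C.ς_ς] at h2
  have h5 := P.blk_pc _ _ h1
  rw [C.ς_pc s h3, C.ς_pc t h4] at h5
  have h6 := congrArg P.tau h5
  rw [P.tau_tau, P.tau_tau] at h6
  exact ⟨h6, h2, h4⟩

theorem M_inact {s r : P.Site} (hs : ¬ C.A s) (hr : C.A r) : M s r = 0 :=
  h.supp s r fun e => hs (by
    change C.act (P.pc s)
    rw [e, C.act_tau]
    exact hr)

theorem KM : C.KK (nn' P X2 * nn P X1 - 1) * M = M * (nn' P X2 * nn P X1 - 1) := by
  set E := nn' P X2 * nn P X1 - 1 with hE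
  ext s t
  have e1 : (C.KK E * M) s t = algebraMap o Ω (C.ε s : o) * E (C.ς s) t := by
    have : (C.KK E * M) s t = (C.KK E * C.M0 Ω) s t := by
      rw [Matrix.mul_apply, Matrix.mul_apply]
      refine Finset.sum_congr rfl fun r _ => ?_
      by_cases h0 : C.KK E s r = 0
      · rw [h0, zero_mul, zero_mul]
      · rw [h.act r (h.K_supp h0).2.2]
    rw [this, Matrix.mul_apply, Finset.sum_eq_single (C.ς t)]
    · simp only [KK, M0, Matrix.of_apply, C.ς_ς, if_true]
      rw [mul_assoc, ← map_mul, Units.inv_mul, map_one, mul_one]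
    · intro r _ hr
      simp only [M0, Matrix.of_apply]
      rw [if_neg fun e => hr (by rw [e, C.ς_ς]), mul_zero]
    · simp
  rw [e1, Matrix.mul_apply]
  by_cases hs : C.A s
  · simp [h.act s hs, M0]
  · have e2 : E (C.ς s) t = 0 := by
      by_contra h0
      exact hs ((C.A_ς s).1 (h.E_supp h0).2.2.1)
    rw [e2, mul_zero]
    refine (Finset.sum_eq_zero fun r _ => ?_).symm
    by_cases h0 : E r t = 0
    · rw [h0, mul_zero]
    · rw [h.M_inact hs (h.E_supp h0).2.2.1, zero_mul]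

theorem VM : C.VV X1 X2 l l' * MM P X1 l l' M = l * nn P X1 * M * (nn' P X2 * l') := by
  have e1 := mul_eq_one_comm.1 h.LL
  have e2 : (1 + C.KK (nn' P X2 * nn P X1 - 1)) * M = M * (nn' P X2 * nn P X1) := by
    rw [Matrix.add_mul, h.KM, Matrix.one_mul, Matrix.mul_sub, Matrix.mul_one, add_sub_cancel]
  calc C.VV X1 X2 l l' * MM P X1 l l' M = l * nn P X1 * ((1 + C.KK (nn' P X2 * nn P X1 - 1)) *
        (((nn P X1).adjugate * l' * (l * nn P X1)) * M)) * ((nn P X1).adjugate * l') := by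
        simp only [VV, MM, Matrix.mul_assoc]
    _ = l * nn P X1 * M * (nn' P X2 * ((nn P X1 * (nn P X1).adjugate) * l')) := by
        rw [e1, Matrix.one_mul, e2]; simp only [Matrix.mul_assoc]
    _ = _ := by rw [h.un.mul_adjugate, Matrix.one_mul]

theorem V_uni : Uni P.lev (C.VV X1 X2 l l') := by
  have h1 : Uni P.lev (1 + C.KK (nn' P X2 * nn P X1 - 1)) :=
    uni_one_add fun _ _ h0 => (h.K_supp h0).2.1
  have h2 := h1.conj h.bL.par h.LL
  unfold VV
  exact h2

theorem V_supp (s t : P.Site) (hst : P.pc s ≠ P.pc t) : C.VV X1 X2 l l' s t = 0 := by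
  refine h22_pc_mul (h22_pc_mul h.bL.pc fun s t hst => ?_) h.bL'.pc s t hst
  have : C.KK (nn' P X2 * nn P X1 - 1) s t = 0 := by
    by_contra h0
    exact hst (h.K_supp h0).1
  rw [Matrix.add_apply, this, add_zero, Matrix.one_apply_ne fun e => hst (by rw [e])]

theorem M_supp (s t : P.Site) (hst : P.pc s ≠ P.tau (P.pc t)) : MM P X1 l l' M s t = 0 :=
  h22_pc_mul (f := fun t => P.tau (P.pc t)) (g := fun t => P.tau (P.pc t))
    (h22_pc_mul h.bL.pc h.supp) (fun s t hst => h.bL'.pc s t fun e => hst (by rw [e])) s t hst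

theorem X_uni (i : P.I) : Uni (P.lv i) (C.XX X0 X1 X2 l l' i) := by
  have p1 := h22_par_of_lex (h.u1 i)
  have p2 := h22_par_of_lex (h.u2 i)
  have v1 : Uni (P.lv i) (X1 i * P.loc (nn P X1).adjugate i) := by
    have b := h.bna.loc_bd i
    refine uni_iff.2 ⟨p1.mul b.par, ?_⟩
    rw [p1.dpart_mul b.par, b.dpart_eq, ← loc_nn, (bs_nn X1).loc_inv h.un.mul_adjugate]
  have v2 : Uni (P.lv i) (P.loc (P.push (nn' P X2).adjugate) i * X2 i) := by
    have b := h.bna'.push.loc_bd i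
    refine uni_iff.2 ⟨b.par.mul p2, ?_⟩
    rw [b.par.dpart_mul p2, b.dpart_eq, ← loc_nn, ← push_nn',
      h.bna'.push.loc_inv (push_inv h.un'.adjugate_mul)]
  have v3 : Uni (P.lv i) (P.loc (C.VV X1 X2 l l') i) := fun a b hab => by
    have := h.V_uni (i, a) (i, b) hab
    simpa [loc] using this
  exact (((v2.conj (h.bl.push.loc_bd i).par (h.bl.push.loc_inv (push_inv h.ll) i)).mul (h.u0 i)).mul
    (v1.conj (h.bl.loc_bd i).par (h.bl.loc_inv h.ll i))).mul v3

theorem G_inv : nn' P X2 * l' * (l * (nn' P X2).adjugate) = 1 := by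
  rw [Matrix.mul_assoc, ← Matrix.mul_assoc l', mul_eq_one_comm.1 h.ll, Matrix.one_mul,
    h.un'.mul_adjugate]

theorem G_inv' (i : P.I) :
    P.loc (P.push (nn' P X2 * l')) i * P.loc (P.push (l * (nn' P X2).adjugate)) i = 1 :=
  ((bs_nn' X2).mul h.bl').push.loc_inv (push_inv h.G_inv) i

/-- the new frames -/
def GG (i : P.I) : GL ι Ω :=
  g2 i * ⟨P.loc (P.push (nn' P X2 * l')) i, P.loc (P.push (l * (nn' P X2).adjugate)) i,
    h.G_inv' i, mul_eq_one_comm.1 (h.G_inv' i)⟩

theorem GG_val (i : P.I) : (h.GG i : Matrix ι ι Ω) =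
    g2 i * (P.loc (P.push (nn' P X2)) i * P.loc (P.push l') i) := by
  rw [← loc_mul (bs_nn' X2).push.slot, ← push_mul]; rfl

theorem isForm : C.IsForm (C.XX X0 X1 X2 l l', MM P X1 l l' M, h.GG) := by
  refine ⟨⟨h.X_uni, h.M_supp, fun s hs hτ t => ?_, fun s hs hτ t => ?_, fun i => ?_⟩,
    l * nn P X1, (nn P X1).adjugate * l', h.LL, h.bL, fun s t hs => ?_⟩
  · change MM P X1 l l' M s t = _
    rw [MM, Matrix.mul_assoc, h.iL.mul_apply _ hs, Matrix.mul_apply]
    simp only [h.fix s hs hτ, ite_mul, zero_mul, Finset.sum_ite_eq, Finset.mem_univ, if_true,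
      h.iL' s hs, mul_ite, mul_one, mul_zero]
  · change (MM P X1 l l' M * MM P X1 l l' M) s t = _
    have e : MM P X1 l l' M * MM P X1 l l' M = l * nn P X1 * (M * M * ((nn P X1).adjugate * l')) := by
      calc _ = l * nn P X1 * (M * ((nn P X1).adjugate * l' * (l * nn P X1)) * M *
            ((nn P X1).adjugate * l')) := by simp only [MM, Matrix.mul_assoc]
        _ = _ := by rw [mul_eq_one_comm.1 h.LL, Matrix.mul_one]
    rw [e, h.iL.mul_apply _ hs, Matrix.mul_apply]
    simp only [h.sq s hs hτ, ite_mul, zero_mul, Finset.sum_ite_eq, Finset.mem_univ, if_true,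
      h.iL' s hs, mul_ite, mul_one, mul_zero]
  · change (h.GG (P.nx i) : Matrix ι ι Ω) =
      (h.GG i : Matrix ι ι Ω) * C.XX X0 X1 X2 l l' i * P.L (MM P X1 l l' M) i
    have e1 : P.loc (C.VV X1 X2 l l') i * P.L (MM P X1 l l' M) i =
        P.loc l i * P.loc (nn P X1) i * P.L M i *
          (P.loc (P.push (nn' P X2)) (P.nx i) * P.loc (P.push l') (P.nx i)) := by
      have a1 := L_mul (G := 1) h.M_supp
        (fun s t hst => Matrix.one_apply_ne fun e => hst (by rw [e])) h.V_supp i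
      rw [push_one, loc_one, Matrix.mul_one, Matrix.mul_one, h.VM,
        L_mul h.supp ((bs_nn' X2).mul h.bl').pc h.bL.pc, loc_mul h.bl.slot, push_mul,
        loc_mul (bs_nn' X2).push.slot] at a1
      exact a1.symm
    have c1 : ∀ Y : Matrix ι ι Ω, P.loc (P.push l') i * (P.loc (P.push l) i * Y) = Y := fun Y => by
      rw [← Matrix.mul_assoc, h.bl'.push.loc_inv (push_inv (mul_eq_one_comm.1 h.ll)), Matrix.one_mul]
    have c2 : ∀ Y : Matrix ι ι Ω, P.loc (P.push (nn' P X2)) i *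
        (P.loc (P.push (nn' P X2).adjugate) i * Y) = Y := fun Y => by
      rw [← Matrix.mul_assoc, (bs_nn' X2).push.loc_inv (push_inv h.un'.mul_adjugate), Matrix.one_mul]
    have c3 : ∀ Y : Matrix ι ι Ω, P.loc l' i * (P.loc l i * Y) = Y := fun Y => by
      rw [← Matrix.mul_assoc, h.bl'.loc_inv (mul_eq_one_comm.1 h.ll), Matrix.one_mul]
    have c4 : ∀ Y : Matrix ι ι Ω, P.loc (nn P X1).adjugate i * (P.loc (nn P X1) i * Y) = Y :=
      fun Y => by rw [← Matrix.mul_assoc, h.bna.loc_inv h.un.adjugate_mul, Matrix.one_mul]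
    rw [h.GG_val, h.GG_val, h.fr, h.fr0, XX]
    simp only [Matrix.mul_assoc] at e1 ⊢
    rw [e1, c1, c2, c3, c4]
  · change MM P X1 l l' M s t = _
    have e : ∀ r, (l * nn P X1 * M) s r = (l * nn P X1 * C.M0 Ω) s r := fun r => by
      rw [Matrix.mul_apply, Matrix.mul_apply (M := l * nn P X1)]
      refine Finset.sum_congr rfl fun q _ => ?_
      by_cases hb : Blk P.lev s q
      · rw [h.act q ((C.A_blk hb).1 hs)]
      · rw [h.bL s q hb, zero_mul, zero_mul]
    rw [MM, Matrix.mul_apply, Matrix.mul_apply (M := l * nn P X1 * C.M0 Ω)]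
    simp only [e]

theorem triv (h1 : ∀ i, X1 i = 1) (h2 : ∀ i, X2 i = 1) (i : P.I) :
    C.XX X0 X1 X2 l l' i = X0 i ∧ h.GG i = g0 i := by
  obtain rfl : X1 = fun _ => 1 := funext h1
  obtain rfl : X2 = fun _ => 1 := funext h2
  have e1 : nn' P (fun _ => (1 : Matrix ι ι Ω)) = 1 := by
    rw [nn', nn_one, Matrix.submatrix_one_equiv]
  have e2 : C.KK (0 : Matrix P.Site P.Site Ω) = 0 := by
    ext s t; simp [KK]
  constructor
  · simp only [XX, VV, e1, nn_one, Matrix.adjugate_one, push_one, loc_one, Matrix.mul_one,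
      Matrix.one_mul, sub_self, e2, add_zero, h.ll, h.bl.loc_inv h.ll,
      h.bl.push.loc_inv (push_inv h.ll)]
  · refine Units.ext ?_
    rw [h.GG_val, h.fr0, e1, push_one, loc_one, Matrix.one_mul, Matrix.mul_one]

end Hyp

theorem pc3_0 (s : P.Site) : C.pc3 (up s 0) =
    if C.A s then .inl ((s.1, P.lev s), true) else .inr (.inl ((s.1, P.lev s), true)) := rfl
theorem pc3_1 (s : P.Site) : C.pc3 (up s 1) =
    if C.A s then .inr (.inr (.inl (s.1, P.lev s, P.lev (C.ς s)))) else .inr (.inr (.inr (P.pc s))) := rfl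
theorem pc3_2 (s : P.Site) : C.pc3 (up s 2) =
    if C.A (P.J.symm s) then .inl (((P.J.symm s).1, P.lev (P.J.symm s)), false)
      else .inr (.inl ((s.1, P.lev s), false)) := rfl
theorem J3s_0 (s : P.Site) : C.J3.symm (up s 0) =
    if C.A (P.J.symm s) then up (P.J.symm s) 0 else up s 2 := rfl
theorem J3s_1 (s : P.Site) : C.J3.symm (up s 1) = if C.A s then up (P.J s) 2 else up s 0 := rfl
theorem J3s_2 (s : P.Site) : C.J3.symm (up s 2) = up (C.ς (P.J.symm s)) 1 := rfl

omit [Fintype ι] [DecidableEq ι] in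
theorem up_inj {I : Type} {s t : I × ι} {k : Fin 3} : up s k = up t k ↔ s = t := by
  simp [Prod.ext_iff]

theorem sum_up (f : (P.I × Fin 3) × ι → Ω) (k : Fin 3) (e : P.Site ≃ P.Site)
    (hf : ∀ s k', k' ≠ k → f (up s k') = 0) : ∑ x, f x = ∑ r, f (up (e r) k) := by
  refine (Fintype.sum_of_injective (fun r => up (e r) k) (fun a b hab => e.injective (up_inj.1 hab))
    _ _ (fun x hx => ?_) fun _ => rfl).symm
  obtain ⟨⟨i, k'⟩, a⟩ := x
  refine hf (i, a) k' fun hk => hx ⟨e.symm (i, a), ?_⟩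
  simp [hk]

section
variable (M' : Matrix ((P.I × Fin 3) × ι) ((P.I × Fin 3) × ι) Ω)

def rl : Matrix P.Site P.Site Ω := Matrix.of fun s t => M' (up s 0) (C.J3.symm (up t 1))
def rl' : Matrix P.Site P.Site Ω :=
  Matrix.of fun s t => M' (up (P.J s) 2) (C.J3.symm (up (P.J t) 0))
def rM : Matrix P.Site P.Site Ω := Matrix.of fun s t => M' (up s 1) (up (C.ς t) 1)
end

theorem hyp_of_raw {X' : P.I × Fin 3 → Matrix ι ι Ω}
    {M' : Matrix ((P.I × Fin 3) × ι) ((P.I × Fin 3) × ι) Ω} {g' : P.I × Fin 3 → GL ι Ω}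
    (uni : ∀ x, Uni (fun a => C.lev3 (x, a)) (X' x))
    (supp : ∀ x y, C.pc3 x ≠ tau3 (C.pc3 y) → M' x y = 0)
    (fix : ∀ x, tau3 (C.pc3 x) = C.pc3 x → ∀ y,
      M' x y = if x = y then algebraMap o Ω (C.u3 (C.pc3 x) : o) else 0)
    (sq : ∀ x, tau3 (C.pc3 x) ≠ C.pc3 x → ∀ y,
      (M' * M') x y = if x = y then algebraMap o Ω (C.u3 (C.pc3 x) : o) else 0)
    (fr : ∀ x, (g' (P.nx3 x) : Matrix ι ι Ω) = g' x * X' x *
      Matrix.of fun a b => M' (x, a) (C.J3.symm (P.nx3 x, b))) :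
    C.Hyp (fun i => X' (i, 0)) (fun i => X' (i, 1)) (fun i => X' (i, 2)) (C.rl M') (C.rl' M')
      (C.rM M') (fun i => g' (i, 0)) (fun i => g' (i, 2)) := by
  have bl : BS (C.rl M') := by
    intro s t hst
    refine supp _ _ fun e => hst ?_
    rw [J3s_1, pc3_0] at e
    by_cases hs : C.A s <;> by_cases ht : C.A t <;>
      simp [hs, ht, pc3_0, pc3_2, tau3] at e <;> exact e
  have bl' : BS (C.rl' M') := by
    intro s t hst
    refine supp _ _ fun e => hst ?_
    rw [J3s_0, pc3_2] at e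
    by_cases hs : C.A s <;> by_cases ht : C.A t <;>
      simp [hs, ht, pc3_0, pc3_2, tau3] at e
    · exact e
    · exact (P.blk_J s t).1 e
  have il : C.IdI (C.rl M') := by
    intro s hs t
    by_cases ht : C.A t
    · rw [bl s t fun hb => hs ((C.A_blk hb).2 ht), if_neg fun e => hs (by rw [e]; exact ht)]
    · have := fix (up s 0) (by simp [pc3_0, hs, tau3]) (up t 0)
      simp only [up_inj] at this
      simpa [rl, J3s_1, ht, pc3_0, hs, u3] using this
  have il' : C.IdI (C.rl' M') := by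
    intro s hs t
    by_cases ht : C.A t
    · rw [bl' s t fun hb => hs ((C.A_blk hb).2 ht), if_neg fun e => hs (by rw [e]; exact ht)]
    · have := fix (up (P.J s) 2) (by simp [pc3_2, hs, tau3]) (up (P.J t) 2)
      simp only [up_inj] at this
      simpa [rl', J3s_0, ht, pc3_2, hs, u3] using this
  have hin : ∀ s r, ¬ C.A s → C.A r → M' (up s 1) (up r 1) = 0 := fun s r hs hr =>
    supp _ _ (by simp [pc3_1, hs, hr, tau3])
  refine ⟨fun i a b hab => uni (i, 0) a b fun hl => hab ?_, fun i => uni (i, 1), fun i => uni (i, 2),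
    bl, il, il', ?_, fun s hs t => ?_, fun s t hst => ?_, fun s hs hτ t => ?_, fun s hs hτ t => ?_,
    fun i => ?_, fun i => ?_⟩
  · rcases Prod.Lex.toLex_lt_toLex.1 hl with h | h
    · exact h
    · exact h.2
  · ext s t
    by_cases hs : C.A s
    · by_cases ht : C.A t
      · have h1 := sq (up s 0) (by simp [pc3_0, hs, tau3]) (up t 0)
        rw [Matrix.mul_apply, sum_up _ 2 P.J (fun r k hk => by
          rw [supp (up s 0) (up r k), zero_mul]
          fin_cases k
          · by_cases hr : C.A r <;> simp [pc3_0, hs, hr, tau3]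
          · by_cases hr : C.A r <;> simp [pc3_0, pc3_1, hs, hr, tau3]
          · exact (hk rfl).elim)] at h1
        simp only [pc3_0, if_pos hs, u3, up_inj, Units.val_one, map_one] at h1
        rw [Matrix.mul_apply, Matrix.one_apply, ← h1]
        refine Finset.sum_congr rfl fun r _ => ?_
        by_cases hr : C.A r
        · simp [rl, rl', J3s_0, J3s_1, hr, ht]
        · rw [bl s r fun hb => hr ((C.A_blk hb).1 hs), supp (up s 0) (up (P.J r) 2)
            (by simp [pc3_0, pc3_2, hs, hr, tau3]), zero_mul, zero_mul]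
      · rw [bl.mul bl' s t fun hb => ht ((C.A_blk hb).1 hs),
          Matrix.one_apply_ne fun e => ht (by rw [← e]; exact hs)]
    · rw [il.mul_apply _ hs, il' s hs, Matrix.one_apply]
  · have := fix (up s 1) (by simp [pc3_1, hs, tau3]) (up (C.ς t) 1)
    rw [pc3_1, if_pos hs, u3_new] at this
    have e : up s 1 = up (C.ς t) 1 ↔ t = C.ς s := by
      rw [up_inj]
      exact ⟨fun h => by rw [h, C.ς_ς], fun h => by rw [h, C.ς_ς]⟩
    simpa only [rM, M0, Matrix.of_apply, e] using this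
  · by_cases hs : C.A s
    · have := fix (up s 1) (by simp [pc3_1, hs, tau3]) (up (C.ς t) 1)
      refine this.trans (if_neg fun e => hst ?_)
      have e1 : s = C.ς t := up_inj.1 e
      rw [e1] at hs ⊢
      exact C.ς_pc t ((C.A_ς t).1 hs)
    · by_cases ht : C.A t
      · exact hin s _ hs ((C.A_ς t).2 ht)
      · refine supp _ _ ?_
        rw [C.ς_of_not t ht]
        simpa [pc3_1, hs, ht, tau3] using hst
  · by_cases ht : C.A t
    · rw [if_neg fun e => hs (by rw [e]; exact ht)]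
      exact hin s _ hs ((C.A_ς t).2 ht)
    · have := fix (up s 1) (by simpa [pc3_1, hs, tau3] using hτ) (up t 1)
      simp only [up_inj] at this
      simpa [rM, C.ς_of_not t ht, pc3_1, hs, u3] using this
  · have h1 := sq (up s 1) (by simpa [pc3_1, hs, tau3] using hτ) (up (C.ς t) 1)
    rw [Matrix.mul_apply, sum_up _ 1 (Equiv.refl _) (fun r k hk => by
      rw [supp (up s 1) (up r k), zero_mul]
      fin_cases k
      · by_cases hr : C.A r <;> simp [pc3_0, pc3_1, hs, hr, tau3]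
      · exact (hk rfl).elim
      · by_cases hr : C.A (P.J.symm r) <;> simp [pc3_2, pc3_1, hs, hr, tau3])] at h1
    have e : up s 1 = up (C.ς t) 1 ↔ s = t := by
      rw [up_inj]
      constructor
      · intro h
        rw [h, C.A_ς] at hs
        rw [h, C.ς_of_not t hs]
      · intro h
        rw [← h, C.ς_of_not s hs]
    simp only [pc3_1, if_neg hs, u3, e] at h1
    rw [Matrix.mul_apply, ← h1]
    refine Finset.sum_congr rfl fun r _ => ?_
    by_cases hr : C.A r
    · simp only [rM, Matrix.of_apply, Equiv.refl_apply]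
      rw [hin s r hs hr, hin s _ hs ((C.A_ς r).2 hr), zero_mul]
    · simp only [rM, Matrix.of_apply, Equiv.refl_apply, C.ς_of_not r hr]
  · have e : P.loc (P.push (C.rl' M')) i =
        Matrix.of fun a b => M' ((i, 2), a) (C.J3.symm ((i, 0), b)) := by
      ext a b; simp [loc, push, rl']
    rw [e]
    exact fr (i, 2)
  · have h0 : (g' (i, 1) : Matrix ι ι Ω) = g' (i, 0) * X' (i, 0) * P.loc (C.rl M') i := fr (i, 0)
    have h1 : (g' (P.nx i, 2) : Matrix ι ι Ω) = g' (i, 1) * X' (i, 1) * P.L (C.rM M') i := fr (i, 1)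
    rw [h1, h0]

theorem hyp_of_sol (d : C.t3.Sol Ω) :
    C.Hyp (fun i => d.1.1 (i, 0)) (fun i => d.1.1 (i, 1)) (fun i => d.1.1 (i, 2)) (C.rl d.1.2.1)
      (C.rl' d.1.2.1) (C.rM d.1.2.1) (fun i => d.1.2.2 (i, 0)) (fun i => d.1.2.2 (i, 2)) :=
  C.hyp_of_raw (X' := d.1.1) (M' := d.1.2.1) (g' := d.1.2.2) d.2.uni d.2.supp
    (fun x => d.2.fix x id) (fun x => d.2.sq x id) d.2.fr

section good
variable {Y : Type} [Coord Ω Y]

theorem good_nn {X : Y → P.I → Matrix ι ι Ω} (hX : ∀ i, Good o Ω fun y => X y i) :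
    Good o Ω fun y => nn P (X y) :=
  good_matrix fun s t => Good.ite ((hX s.1).entry s.2 t.2) Good.zero

theorem good_nn' {X : Y → P.I → Matrix ι ι Ω} (hX : ∀ i, Good o Ω fun y => X y i) :
    Good o Ω fun y => nn' P (X y) := (good_nn hX).submatrix _ _

theorem good_KK {E : Y → Matrix P.Site P.Site Ω} (hE : Good o Ω E) : Good o Ω fun y => C.KK (E y) :=
  good_matrix fun _ _ => ((Good.algMap _).mul (hE.entry _ _)).mul (Good.algMap _)

theorem good_data {X0 X1 X2 : Y → P.I → Matrix ι ι Ω} {l l' M : Y → Matrix P.Site P.Site Ω}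
    {g0 g2 : Y → P.I → GL ι Ω} (h0 : ∀ i, Good o Ω fun y => X0 y i)
    (h1 : ∀ i, Good o Ω fun y => X1 y i) (h2 : ∀ i, Good o Ω fun y => X2 y i) (hl : Good o Ω l)
    (hl' : Good o Ω l') (hM : Good o Ω M) (hg : ∀ i, Good o Ω fun y => g2 y i)
    (h : ∀ y, C.Hyp (X0 y) (X1 y) (X2 y) (l y) (l' y) (M y) (g0 y) (g2 y)) :
    Good o Ω fun y => ((C.XX (X0 y) (X1 y) (X2 y) (l y) (l' y), MM P (X1 y) (l y) (l' y) (M y),
      (h y).GG) : P.Data Ω) := by
  have n1 := good_nn h1
  have n2 := good_nn' h2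
  have hV : Good o Ω fun y => C.VV (X1 y) (X2 y) (l y) (l' y) :=
    ((hl.mmul n1).mmul (Good.mone.madd (C.good_KK ((n2.mmul n1).msub Good.mone)))).mmul
      (n1.adjugate.mmul hl')
  refine Good.prodMk (Good.pi fun i => ?_) (Good.prodMk ?_ (Good.pi fun i => ?_))
  · exact (((((good_loc (good_push hl) i).mmul ((good_loc (good_push n2.adjugate) i).mmul (h2 i))).mmul
      (good_loc (good_push hl') i)).mmul (h0 i)).mmul (((good_loc hl i).mmul
        ((h1 i).mmul (good_loc n1.adjugate i))).mmul (good_loc hl' i))).mmul (good_loc hV i)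
  · exact ((hl.mmul n1).mmul hM).mmul (n1.adjugate.mmul hl')
  · exact (hg i).glmul (Good.unitsMk (good_loc (good_push (n2.mmul hl')) i)
      (good_loc (good_push (hl.mmul n2.adjugate)) i) _ _)

end good

end Cell

end Prob

end Crest.Agent.R003
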