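import Crest.Agent.R003.T3
import Crest.Agent.R003.T3bAux22
import Crest.Agent.R003.T3Lift

/-! Row 3: the cell step. -/

set_option autoImplicit false
set_option linter.unusedSectionVars false

namespace Crest.Agent.R003

open Matrix

namespace Prob

variable {o : Type} [CommRing o] {ι : Type} [Fintype ι] [DecidableEq ι] {P : Prob o ι}
  {Ω : Type} [Field Ω] [Algebra o Ω]

namespace Cell

variable (C : P.Cell)

theorem h64_bsz (s : P.Site) (k : Fin 3) (f : P.Site → P.Λ)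
    (hf : ∀ t, C.lev3 (up t k) = toLex (P.lev t, f t)) :
    C.t3.bsz (up s k) = (Finset.univ.filter fun t => Blk P.lev s t ∧ f s = f t).card := by
  have hm : ∀ (x y : C.t3.Site), y ∈ (Finset.univ.filter fun t : C.t3.Site => Blk C.t3.lev x t) ↔
      Blk C.t3.lev x y := fun x y => by simp only [Finset.mem_filter, Finset.mem_univ, true_and]
  symm
  refine Finset.card_bij (fun t _ => up t k) ?_ ?_ ?_
  · intro t ht
    obtain ⟨⟨h1, h2⟩, h3⟩ := (Finset.mem_filter.1 ht).2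
    refine (hm _ _).2 ⟨Prod.ext h1 rfl, ?_⟩
    change C.lev3 (up s k) = C.lev3 (up t k)
    rw [hf, hf, h2, h3]
  · intro t _ t' _ h
    exact congrArg dn h
  · rintro ⟨⟨i, k'⟩, a⟩ hx
    obtain ⟨h1, h2⟩ := (hm _ _).1 hx
    obtain ⟨rfl, rfl⟩ := Prod.mk.inj h1
    have h3 : toLex (P.lev s, f s) = toLex (P.lev (s.1, a), f (s.1, a)) :=
      (hf s).symm.trans (h2.trans (hf (s.1, a)))
    obtain ⟨h4, h5⟩ := Prod.mk.inj (toLex.injective h3)
    exact ⟨(s.1, a), Finset.mem_filter.2 ⟨Finset.mem_univ _, ⟨rfl, h4⟩, h5⟩, rfl⟩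

theorem t3_bsz0 (s : P.Site) : C.t3.bsz (up s 0) = P.bsz s := by
  refine (C.h64_bsz s 0 (fun t => P.lev t) fun _ => rfl).trans (congrArg Finset.card ?_)
  exact Finset.filter_congr fun t _ => ⟨fun h => h.1, fun h => ⟨h, h.2⟩⟩
/-- every block is an old block with an old label, or a new block with a new label -/
theorem t3_bsz (x : C.t3.Site) :
    (∃ s : P.Site, C.t3.z x = .inl (P.z s) ∧ C.t3.bsz x = P.bsz s) ∨
    (∃ s : P.Site, C.A s ∧ C.t3.z x = .inr s(s, C.ς s) ∧ C.t3.bsz x = C.nsz s) := by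
  have h1 : ∀ s : P.Site,
      (∃ r : P.Site, C.t3.z (up s 1) = .inl (P.z r) ∧ C.t3.bsz (up s 1) = P.bsz r) ∨
      (∃ r : P.Site, C.A r ∧ C.t3.z (up s 1) = .inr s(r, C.ς r) ∧ C.t3.bsz (up s 1) = C.nsz r) := by
    intro s
    have hb : C.t3.bsz (up s 1) = C.nsz s := C.h64_bsz s 1 (fun t => P.lev (C.ς t)) fun _ => rfl
    by_cases hs : C.A s
    · exact Or.inr ⟨s, hs, if_pos hs, hb⟩
    · refine Or.inl ⟨s, if_neg hs, hb.trans (congrArg Finset.card ?_)⟩
      refine Finset.filter_congr fun t _ => ⟨fun h => h.1, fun h => ⟨h, ?_⟩⟩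
      rw [C.ς_of_not s hs, C.ς_of_not t fun ht => hs ((C.A_blk h).2 ht)]
      exact h.2
  obtain ⟨⟨i, k⟩, a⟩ := x
  fin_cases k
  · exact Or.inl ⟨(i, a), rfl, C.t3_bsz0 (i, a)⟩
  · exact h1 (i, a)
  · have e : C.t3.J (up (C.ς (P.J.symm (i, a))) 1) = ((i, 2), a) := by
      change up (P.J (C.ς (C.ς (P.J.symm (i, a))))) 2 = _
      rw [C.ς_ς, Equiv.apply_symm_apply]
    have e1 : C.t3.bsz ((i, 2), a) = C.t3.bsz (up (C.ς (P.J.symm (i, a))) 1) :=
      (congrArg C.t3.bsz e).symm.trans (bsz_J (P := C.t3) _)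
    have e2 : C.t3.z ((i, 2), a) = C.t3.z (up (C.ς (P.J.symm (i, a))) 1) :=
      (congrArg C.t3.z e).symm.trans (C.t3.z_J _)
    rcases h1 (C.ς (P.J.symm (i, a))) with ⟨r, a1, a2⟩ | ⟨r, a0, a1, a2⟩
    · exact Or.inl ⟨r, e2.trans a1, e1.trans a2⟩
    · exact Or.inr ⟨r, a0, e2.trans a1, e1.trans a2⟩
theorem nsz_le (s : P.Site) : C.nsz s ≤ P.bsz s := by
  exact Finset.card_le_card fun t ht =>
    Finset.mem_filter.2 ⟨Finset.mem_univ _, (Finset.mem_filter.1 ht).2.1⟩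
/-- `phi_le_of` with `f = Sum.inl` and `E` the image of the active sites -/
theorem t3_phi (m : ℕ) (h : ∀ s, C.A s → C.nsz s ≤ m) :
    C.t3.Phi ≤ P.Phi + 2 * Fintype.card ι * (2 * Fintype.card ι + 2) ^ m := by
  classical
  refine (phi_le_of (P := P) (P' := C.t3) Sum.inl
    ((Finset.univ.filter fun s => C.act (P.pc s)).image fun s => .inr s(s, C.ς s)) m
    fun x => ?_).trans ?_
  · rcases C.t3_bsz x with ⟨s, h1, h2⟩ | ⟨s, hs, h1, h2⟩
    · exact Or.inl ⟨s, h1, h2.le⟩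
    · exact Or.inr ⟨Finset.mem_image.2 ⟨s, Finset.mem_filter.2 ⟨Finset.mem_univ _, hs⟩, h1.symm⟩,
        h2.trans_le (h s hs)⟩
  · exact Nat.add_le_add_left (Nat.mul_le_mul_right _ (Finset.card_image_le.trans C.card_le)) _
theorem t3_splittable {s : P.Site} (hs : C.A s) (h : C.nsz s < P.bsz s) :
    C.t3.Splittable (up s 0) := by
  have e0 : C.pc3 (up s 0) = .inl ((s.1, P.lev s), true) := if_pos hs
  have e2 : ∀ t, Blk P.lev s t → C.pc3 (up (P.J t) 2) = tau3 (C.pc3 (up s 0)) := by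
    intro t ht
    have h1 : C.pc3 (up (P.J t) 2) =
        .inl (((P.J.symm (P.J t)).1, P.lev (P.J.symm (P.J t))), false) :=
      if_pos (show C.A (P.J.symm (P.J t)) by rw [Equiv.symm_apply_apply]; exact (C.A_blk ht).1 hs)
    rw [h1, e0, Equiv.symm_apply_apply, ← ht.1, ← ht.2]
    rfl
  refine ⟨?_, ?_, ?_⟩
  · change tau3 (C.pc3 (up s 0)) ≠ C.pc3 (up s 0)
    rw [e0]
    simp [tau3]
  · intro x hx
    have h1 : x.1 = (s.1, 0) := C.t3.pc_slot _ _ hx
    obtain ⟨⟨i, k⟩, a⟩ := x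
    obtain ⟨rfl, rfl⟩ := Prod.mk.inj h1
    have h2 : C.pc3 (up (s.1, a) 0) = .inl ((s.1, P.lev s), true) := hx.trans e0
    have h3 : P.lev (s.1, a) = P.lev s := by
      by_cases ha : C.A (s.1, a)
      · have h4 : C.pc3 (up (s.1, a) 0) = .inl ((s.1, P.lev (s.1, a)), true) := if_pos ha
        simpa using h4.symm.trans h2
      · have h4 : C.pc3 (up (s.1, a) 0) = .inr (.inl ((s.1, P.lev (s.1, a)), true)) := if_neg ha
        simpa using h4.symm.trans h2
    refine ⟨rfl, ?_⟩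
    change toLex (P.lev s, P.lev s) = toLex (P.lev (s.1, a), P.lev (s.1, a))
    rw [h3]
  · obtain ⟨t, ht, ht'⟩ := Finset.exists_mem_notMem_of_card_lt_card h
    have hb : Blk P.lev s t := (Finset.mem_filter.1 ht).2
    refine ⟨up (P.J s) 2, up (P.J t) 2, e2 s (blk_refl s), e2 t hb, fun hh => ht' ?_⟩
    refine Finset.mem_filter.2 ⟨Finset.mem_univ _, hb, ?_⟩
    have h1 : P.lev (C.ς (P.J.symm (P.J s))) = P.lev (C.ς (P.J.symm (P.J t))) :=
      congrArg (fun y => (ofLex y).2) hh.2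
    rwa [Equiv.symm_apply_apply, Equiv.symm_apply_apply] at h1

/-- Lift.  Given `l`, `l'` from `IsForm`, put `X' (i,0) = X i`, `X' (i,1) = X' (i,2) = 1`;
`M' (up s 0) (up (J t) 2) = l s t`, `M' (up (J s) 2) (up t 0) = l' s t` for active `s`, `t` (same block),
`M' (up s 1) (up t 1) = M s t` for inactive `s`, and the prescribed scalars on the fixed pieces.
With `ℓ = l` on active sites, `1` on inactive sites, and `M₁ = M0` on active rows, `M` on inactive
rows, the three letters are `L' (i,0) = loc ℓ i`, `L' (i,1) = L M₁ i`, `L' (i,2) = loc (push ℓ⁻¹) i`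
and `L M i = loc ℓ i * L M₁ i * loc (push ℓ⁻¹) (nx i)` (`L_mul`).  Frames: `g' (i,0) = g i`,
`g' (i,1) = g i * X i * loc ℓ i`, `g' (i,2) = g i * loc (push ℓ) i`.
The statement records what the retraction needs. -/
theorem t3_lift (d : P.Data Ω) (hd : C.IsForm d) :
    ∃ d' : C.t3.Data Ω, C.t3.IsSol d' ∧ (∀ i, d'.1 (i, 0) = d.1 i) ∧ (∀ i, d'.1 (i, 1) = 1) ∧
      (∀ i, d'.1 (i, 2) = 1) ∧ (∀ i, d'.2.2 (i, 0) = d.2.2 i) :=
  C.h85_lift d hd

/-- Retraction.  From a solution `(X', M', g')` of `t3` read off `ℓ`, `ℓ⁻¹`, `M₁` as in `t3_lift`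
(global matrices on `P.Site`; `ℓ`, `ℓ⁻¹` are block diagonal and `1` on inactive sites).  Let `n`, `n'`
be the global block diagonal matrices with `loc n i = dpart (P.lv i) (X' (i,1))`,
`loc (push n') i = dpart (P.lv i) (X' (i,2))`; they are `Uni` for the level
`s ↦ toLex (lev s, lev (ς s))`, supported in the blocks and trivial on inactive sites (inverse =
adjugate); write `X' (i,1) = v₁ i * loc n i`, `X' (i,2) = loc (push n') i * v₂ i` with `v₁`, `v₂`
unipotent for `P.lv i`.  Put `l = ℓ n`, `M = l M₁ l⁻¹`, `V = l (1 + M0 (n' n - 1) M0⁻¹) l⁻¹`, so that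
`ℓ n M₁ n' ℓ⁻¹ = V * M`; `V` is supported in the pieces and unipotent for `lev` (the entries of
`M0 (n' n - 1) M0⁻¹` sit at `(ς s, ς t)` with `Blk s t`, `lev (ς s) < lev (ς t)`).
New data: `M`, `g i = g' (i,2) * loc (push n') i * loc (push ℓ⁻¹) i` and
`X i = (loc (push ℓ) i * v₂ i * loc (push ℓ⁻¹) i) * X' (i,0) * (loc ℓ i * v₁ i * loc ℓ⁻¹ i) * loc V i`
(use `L_mul`).  If `X' (i,1) = X' (i,2) = 1` then `X i = X' (i,0)` and `g i = g' (i,0)`. -/
theorem t3_retract : ∃ R : C.t3.Sol Ω → {d : P.Data Ω // C.IsForm d}, Good o Ω R ∧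
    ∀ d' : C.t3.Sol Ω, (∀ i, d'.1.1 (i, 1) = 1) → (∀ i, d'.1.1 (i, 2) = 1) →
      (∀ i, (R d').1.1 i = d'.1.1 (i, 0)) ∧ ∀ i, (R d').1.2.2 i = d'.1.2.2 (i, 0) := by
  refine ⟨fun d => ⟨_, (C.hyp_of_sol d).isForm⟩, good_subtype_iff.2 ?_, fun d h1 h2 =>
    ⟨fun i => ((C.hyp_of_sol d).triv h1 h2 i).1, fun i => ((C.hyp_of_sol d).triv h1 h2 i).2⟩⟩
  have hX : ∀ x : C.t3.I, Good o Ω fun d : C.t3.Sol Ω => d.1.1 x := fun x =>
    (Good.apply x).comp Good.id.val.fst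
  have hM : Good o Ω fun d : C.t3.Sol Ω => d.1.2.1 := Good.id.val.snd.fst
  have hg : ∀ x : C.t3.I, Good o Ω fun d : C.t3.Sol Ω => d.1.2.2 x := fun x =>
    (Good.apply x).comp Good.id.val.snd.snd
  exact C.good_data (fun i => hX (i, 0)) (fun i => hX (i, 1)) (fun i => hX (i, 2))
    (good_matrix fun _ _ => hM.entry _ _) (good_matrix fun _ _ => hM.entry _ _)
    (good_matrix fun _ _ => hM.entry _ _) (fun i => hg (i, 2)) C.hyp_of_sol

end Cell

/-- the letters are determined by the slots and the frames -/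
theorem IsPre.ext {act act' : P.Pc → Prop} {d d' : P.Data Ω} (h : P.IsPre act d)
    (h' : P.IsPre act' d') (h1 : d.1 = d'.1) (h2 : d.2.2 = d'.2.2) : d = d' := by
  have hL : ∀ i, P.L d.2.1 i = P.L d'.2.1 i := by
    intro i
    have e := h'.fr i
    rw [← h1, ← h2, h.fr i, Matrix.mul_assoc, Matrix.mul_assoc] at e
    have e' := congrArg (fun y => (d.1 i).adjugate * y) ((Units.mul_right_inj _).1 e)
    simpa only [← Matrix.mul_assoc, (h.uni i).adjugate_mul, Matrix.one_mul] using e'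
  refine Prod.ext h1 (Prod.ext ?_ h2)
  ext s t
  by_cases hst : P.pc s = P.tau (P.pc t)
  · have e := congrFun (congrFun (hL s.1) s.2) (P.J t).2
    simp only [L, Matrix.of_apply, ← P.pc_exit s t hst, Prod.mk.eta, Equiv.symm_apply_apply] at e
    exact e
  · rw [h.supp s t hst, h'.supp s t hst]

/-- The cell step: subdivide and split. -/
theorem cell_step (hB : Big o Ω) (C : P.Cell) {s : P.Site} (hs : C.A s)
    (h : ∀ t, C.A t → C.nsz t < P.bsz s) (d : {d : P.Data Ω // C.IsForm d}) :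
    ∃ P' : Prob o ι, P'.Phi < P.Phi ∧ (∀ n, P.Le n → P'.Le n) ∧ (P'.Dense Ω → InZ o Ω d) := by
  obtain ⟨d', hd', h0, h1, h2, h3⟩ := C.t3_lift d.1 d.2
  obtain ⟨P', hP, hLe, hD⟩ := split_step hB (C.t3_splittable hs (h s hs)) ⟨d', hd'⟩
  rw [C.t3_bsz0] at hP hLe
  have hphi := C.t3_phi (P.bsz s - 1) fun t ht => by have := h t ht; omega
  refine ⟨P', ?_, fun n hn => hLe n (by have := hn s; omega) fun t _ => ?_, fun hd => ?_⟩
  · have : 0 < (2 * Fintype.card ι + 2) ^ (P.bsz s - 1) := by positivity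
    nlinarith
  · rcases C.t3_bsz t with ⟨r, -, hr⟩ | ⟨r, -, -, hr⟩
    · rw [hr]; exact hn r
    · rw [hr]; exact (C.nsz_le r).trans (hn r)
  · obtain ⟨R, hR, hR'⟩ := C.t3_retract (Ω := Ω)
    obtain ⟨e1, e2⟩ := hR' ⟨d', hd'⟩ h1 h2
    have : R ⟨d', hd'⟩ = d := Subtype.ext ((R _).2.pre.ext d.2.pre
      (funext fun i => (e1 i).trans (h0 i)) (funext fun i => (e2 i).trans (h3 i)))
    rw [← this]
    exact hR.inZ (hD hd)

end Prob

end Crest.Agent.R003
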