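import Crest.Agent.R003.Swap
import Crest.Agent.R003.T3b

/-! Row 3: doubling the slots; the Deodhar step. -/

set_option autoImplicit false
set_option linter.unusedSectionVars false

namespace Crest.Agent.R003

open Matrix

namespace Prob

variable {o : Type} [CommRing o] {ι : Type} [Fintype ι] [DecidableEq ι] {P : Prob o ι}
  {Ω : Type} [Field Ω] [Algebra o Ω]

/-- the copy `e` of a site -/
abbrev up2 {I : Type} (s : I × ι) (e : Bool) : (I × Bool) × ι := ((s.1, e), s.2)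
/-- the underlying site -/
abbrev dn2 {I : Type} (x : (I × Bool) × ι) : I × ι := (x.1.1, x.2)

variable (P) in
def nx2 : Equiv.Perm (P.I × Bool) where
  toFun x := if x.2 then (P.nx x.1, false) else (x.1, true)
  invFun x := if x.2 then (x.1, false) else (P.nx.symm x.1, true)
  left_inv := by rintro ⟨i, _ | _⟩ <;> simp
  right_inv := by rintro ⟨i, _ | _⟩ <;> simp

variable (P) in
def J2 : Equiv.Perm ((P.I × Bool) × ι) where
  toFun x := if x.1.2 then up2 (P.J (dn2 x)) false else up2 (dn2 x) true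
  invFun x := if x.1.2 then up2 (dn2 x) false else up2 (P.J.symm (dn2 x)) true
  left_inv := by rintro ⟨⟨i, _ | _⟩, a⟩ <;> simp
  right_inv := by rintro ⟨⟨i, _ | _⟩, a⟩ <;> simp

variable (P) in
/-- piece structure of the inserted letters -/
structure Mid where
  pc : P.Site → P.I × P.Λ
  tau : P.I × P.Λ → P.I × P.Λ
  u : P.I × P.Λ → oˣ
  tau_tau : ∀ p, tau (tau p) = p
  u_tau : ∀ p, u (tau p) = u p
  pc_fst : ∀ s, (pc s).1 = s.1
  tau_fst : ∀ p, (tau p).1 = p.1
  blk : ∀ s t, Blk P.lev s t → pc s = pc t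

theorem dbl_blk_J (s t : (P.I × Bool) × ι) :
    Blk (fun x => P.lev (dn2 x)) (P.J2 s) (P.J2 t) ↔ Blk (fun x => P.lev (dn2 x)) s t := by
  obtain ⟨⟨i, _ | _⟩, a⟩ := s <;> obtain ⟨⟨j, _ | _⟩, b⟩ := t
  · simp [Blk, J2]
  · simp [Blk, J2]
  · simp [Blk, J2]
  · simpa [Blk, J2] using P.blk_J (i, a) (j, b)
theorem dbl_z_cyc (s t : (P.I × Bool) × ι) (h : P.z (dn2 s) = P.z (dn2 t)) :
    P.J2.SameCycle s t := by
  have h1 : ∀ x : P.Site, P.J2.SameCycle (up2 x false) (up2 x true) := fun x =>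
    ⟨1, by simp [J2]⟩
  have h2 : ∀ x : P.Site, P.J2.SameCycle (up2 x true) (up2 (P.J x) false) := fun x =>
    ⟨1, by simp [J2]⟩
  have h3 : ∀ x : (P.I × Bool) × ι, P.J2.SameCycle (up2 (dn2 x) false) x := by
    rintro ⟨⟨i, _ | _⟩, a⟩
    · exact Equiv.Perm.SameCycle.refl _ _
    · exact h1 (i, a)
  have h4 : ∀ (k : ℕ) (x : P.Site), P.J2.SameCycle (up2 x false) (up2 ((P.J ^ k) x) false) := by
    intro k x
    induction k with
    | zero => exact Equiv.Perm.SameCycle.refl _ _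
    | succ k ih =>
      rw [pow_succ', Equiv.Perm.mul_apply]
      exact ih.trans ((h1 _).trans (h2 _))
  obtain ⟨k, -, hk⟩ := (P.z_cyc _ _ h).exists_pow_eq'
  have h5 := h4 k (dn2 s)
  rw [hk] at h5
  exact (h3 s).symm.trans (h5.trans (h3 t))

/-- the doubled problem: slots `(i,false), (i,true), (nx i,false), ...`; the letter `(i,true)` is the
old letter `i`, the letter `(i,false)` is new. -/
def Mid.dbl (m : P.Mid) : Prob o ι where
  I := P.I × Bool
  nx := P.nx2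
  Λ := P.Λ
  lev x := P.lev (dn2 x)
  J := P.J2
  Pc := (P.I × P.Λ) ⊕ P.Pc
  pc x := if x.1.2 then .inr (P.pc (dn2 x)) else .inl (m.pc (dn2 x))
  tau := Sum.map m.tau P.tau
  u := Sum.elim m.u P.u
  Z := P.Z
  z x := P.z (dn2 x)
  tau_tau := by rintro (p | p) <;> simp [m.tau_tau, P.tau_tau]
  u_tau := by rintro (p | p) <;> simp [m.u_tau, P.u_tau]
  pc_slot := by
    rintro ⟨⟨i, _ | _⟩, a⟩ ⟨⟨j, _ | _⟩, b⟩ h <;> simp at h
    · simpa [m.pc_fst] using congrArg Prod.fst h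
    · simpa using P.pc_slot _ _ h
  pc_exit := by
    rintro ⟨⟨i, _ | _⟩, a⟩ ⟨⟨j, _ | _⟩, b⟩ h <;> simp at h
    · have := congrArg Prod.fst h
      simp only [m.pc_fst, m.tau_fst] at this
      simp [J2, nx2, this]
    · simpa [J2, nx2] using P.pc_exit _ _ h
  pc_exit' := by
    rintro ⟨⟨i, _ | _⟩, a⟩ ⟨⟨j, _ | _⟩, b⟩ h <;> simp at h
    · simpa [J2, m.pc_fst] using congrArg Prod.fst h
    · simpa [J2] using P.pc_exit' _ _ h
  blk_pc := by
    rintro ⟨⟨i, e⟩, a⟩ ⟨⟨j, e'⟩, b⟩ ⟨h1, h2⟩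
    obtain ⟨rfl, rfl⟩ := Prod.mk.inj h1
    have h : Blk P.lev (i, a) (i, b) := ⟨rfl, h2⟩
    simp [m.blk _ _ h, P.blk_pc _ _ h]
  blk_J := dbl_blk_J
  lt_J := by
    rintro ⟨⟨i, _ | _⟩, a⟩ ⟨⟨j, _ | _⟩, b⟩ h h' <;> simp at h
    · simpa [J2] using h'
    · simpa [J2] using P.lt_J _ _ h h'
  z_J := by rintro ⟨⟨i, _ | _⟩, a⟩ <;> simp [J2, P.z_J]
  z_cyc := dbl_z_cyc
  z_inj := by
    rintro ⟨⟨i, e⟩, a⟩ ⟨⟨j, e'⟩, b⟩ ⟨h1, h2⟩ h3
    obtain ⟨rfl, rfl⟩ := Prod.mk.inj h1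
    have := P.z_inj (i, a) (i, b) ⟨rfl, h2⟩ h3
    simpa using this

theorem Mid.dbl_bsz (m : P.Mid) (x : m.dbl.Site) : m.dbl.bsz x = P.bsz (dn2 x) := by
  obtain ⟨⟨i, e⟩, a⟩ := x
  refine Finset.card_nbij' (fun t => dn2 t) (fun t => up2 t e) ?_ ?_ ?_ ?_
  · rintro ⟨⟨k, e'⟩, c⟩ ht
    have ht' := (Finset.mem_filter.1 ht).2
    exact Finset.mem_filter.2 ⟨Finset.mem_univ _, (Prod.mk.inj ht'.1).1, ht'.2⟩
  · rintro ⟨k, c⟩ ht
    have ht' := (Finset.mem_filter.1 ht).2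
    exact Finset.mem_filter.2 ⟨Finset.mem_univ _, Prod.ext ht'.1 rfl, ht'.2⟩
  · rintro ⟨⟨k, e'⟩, c⟩ ht
    have ht' := (Finset.mem_filter.1 ht).2
    obtain rfl : e = e' := congrArg Prod.snd ht'.1
    rfl
  · rintro ⟨k, c⟩ _
    rfl
theorem Mid.dbl_phi (m : P.Mid) : m.dbl.Phi = P.Phi := by
  refine Finset.sum_congr ?_ fun ζ hζ => ?_
  · ext ζ
    constructor
    · intro h
      obtain ⟨x, -, rfl⟩ := Finset.mem_image.1 h
      exact Finset.mem_image.2 ⟨dn2 x, Finset.mem_univ _, rfl⟩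
    · intro h
      obtain ⟨x, -, rfl⟩ := Finset.mem_image.1 h
      exact Finset.mem_image.2 ⟨up2 x false, Finset.mem_univ _, rfl⟩
  · obtain ⟨x, -, rfl⟩ := Finset.mem_image.1 hζ
    have h1 : m.dbl.zsz (P.z x) = P.bsz x :=
      (zsz_z (P := m.dbl) (up2 x false)).trans (m.dbl_bsz (up2 x false))
    rw [h1, zsz_z]

/-- the inserted letter, for a generalised inverse `y'` of `y` -/
def Gm (y y' : Matrix ι ι Ω) : Matrix ι ι Ω := 1 - y * y' - y' * y + y - y'

variable (P Ω) in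
/-- two slots for each `i`, the letters, the frames at the first copies, and `(y, y')` -/
abbrev DData : Type := ((P.I → Matrix ι ι Ω) × (P.I → Matrix ι ι Ω)) ×
  (Matrix P.Site P.Site Ω × (P.I → GL ι Ω)) × (Matrix ι ι Ω × Matrix ι ι Ω)

variable (P) in
/-- doubled solutions: the slots are unipotent for the swapped levels, `Gm y y'` is inserted at `j` -/
structure IsDD (j : P.I) (a b : ι) (d : P.DData Ω) : Prop where
  uni0 : ∀ k, Uni (fun c => P.slev j a b (k, c)) (d.1.1 k)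
  uni1 : ∀ k, Uni (fun c => P.slev j a b (k, c)) (d.1.2 k)
  supp : ∀ s t, P.pc s ≠ P.tau (P.pc t) → d.2.1.1 s t = 0
  fix : ∀ s, P.tau (P.pc s) = P.pc s → ∀ t, d.2.1.1 s t = if s = t then P.uu Ω s else 0
  sq : ∀ s, P.tau (P.pc s) ≠ P.pc s → ∀ t,
    (d.2.1.1 * d.2.1.1) s t = if s = t then P.uu Ω s else 0
  cy : P.cor j a b d.2.2.1 = d.2.2.1
  cy' : P.cor j b a d.2.2.2 = d.2.2.2
  ginv : d.2.2.2 * d.2.2.1 * d.2.2.2 = d.2.2.2
  fr : ∀ k, (d.2.1.2 (P.nx k) : Matrix ι ι Ω) = (d.2.1.2 k : Matrix ι ι Ω) * d.1.1 k *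
    (if k = j then Gm d.2.2.1 d.2.2.2 else 1) * d.1.2 k * P.L d.2.1.1 k

theorem Gm_eq {y y' : Matrix ι ι Ω} (h1 : y' * y' = 0) (h2 : y * y = 0) (h : y' * y * y' = y') :
    (1 + y') * Gm y y' * (1 + y') = 1 + y := by
  have e1 : Gm y y' = (1 - y') * (1 + y) * (1 - y') := by
    have : (1 - y') * (1 + y) * (1 - y') =
        1 - y * y' - y' * y + y - y' - y' + y' * y' + y' * y * y' := by noncomm_ring
    rw [this, h1, h, Gm]
    abel
  have e2 : (1 + y') * (1 - y') = 1 := by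
    have : (1 + y') * (1 - y') = 1 - y' * y' := by noncomm_ring
    rw [this, h1, sub_zero]
  have e3 : (1 - y') * (1 + y') = 1 := mul_eq_one_comm.1 e2
  rw [e1, ← mul_assoc, ← mul_assoc, e2, one_mul, mul_assoc, e3, mul_one]

section ddr
variable {j : P.I} {a b : ι}

theorem ddr_cor_sub (j : P.I) (a b : ι) (x y : Matrix ι ι Ω) :
    P.cor j a b (x - y) = P.cor j a b x - P.cor j a b y := by
  ext c c'
  simp only [cor, mask, Matrix.of_apply, Matrix.sub_apply]
  split_ifs <;> simp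
theorem ddr_cor_neg (j : P.I) (a b : ι) (x : Matrix ι ι Ω) :
    P.cor j a b (-x) = - P.cor j a b x := by
  ext c c'
  simp only [cor, mask, Matrix.of_apply, Matrix.neg_apply]
  split_ifs <;> simp
theorem ddr_cor_cor (j : P.I) (a b : ι) (x : Matrix ι ι Ω) :
    P.cor j a b (P.cor j a b x) = P.cor j a b x := by
  ext c c'
  simp only [cor, mask, Matrix.of_apply]
  split_ifs <;> rfl
theorem ddr_bd (x : Matrix ι ι Ω) : BD (mlev j a b) (1 - P.cor j a b x) := by
  rw [sub_eq_add_neg, ← ddr_cor_neg]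
  exact bd_mlev_cor _
theorem ddr_bd' (x : Matrix ι ι Ω) : BD (mlev j a b) (1 - P.cor j b a x) := by
  rw [sub_eq_add_neg, ← ddr_cor_neg]
  exact bd_mlev_cor' _
theorem ddr_sq {N : Matrix ι ι Ω} (h : N * N = 0) : (1 + N) * (1 - N) = 1 := by
  rw [add_mul, mul_sub, mul_sub, h]
  simp
theorem ddr_sq' {N : Matrix ι ι Ω} (h : N * N = 0) : (1 - N) * (1 + N) = 1 :=
  mul_eq_one_comm.1 (ddr_sq h)

/-- removing the upper corner -/
theorem ddr_uni_mlev (h : P.Adj j a b) {x y : Matrix ι ι Ω} (hx : Par (mlev j a b) x)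
    (hd : dpart (mlev j a b) x = 1 + P.cor j a b y) :
    Uni (mlev j a b) (x * (1 - P.cor j a b y)) :=
  uni_iff.2 ⟨hx.mul (ddr_bd y).par, by
    rw [hx.dpart_mul (ddr_bd y).par, hd, (ddr_bd y).dpart_eq, ddr_sq (cor_mul_cor h y y)]⟩

theorem ddr_mid (h : P.Adj j a b) {x₀ x₁ y y' : Matrix ι ι Ω}
    (h0 : Uni (fun c => P.slev j a b (j, c)) x₀) (h1 : Uni (fun c => P.slev j a b (j, c)) x₁)
    (hy : P.cor j a b y = y) (hy' : P.cor j b a y' = y') (hg : y' * y * y' = y') :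
    Uni (P.lv j) ((1 - P.cor j b a (x₀ - y')) * (x₀ * Gm y y' * x₁) *
      (1 - P.cor j b a (x₁ - y'))) := by
  have e1 : y' * y' = 0 := by rw [← hy']; exact cor_mul_cor' h _ _
  have e2 : y * y = 0 := by rw [← hy]; exact cor_mul_cor h _ _
  have hG : Gm y y' = (1 - y') * (1 + y) * (1 - y') := by
    rw [← Gm_eq e1 e2 hg]
    simp only [← Matrix.mul_assoc]
    rw [ddr_sq' e1, one_mul, Matrix.mul_assoc, ddr_sq e1, mul_one]
  have b1 : BD (mlev j a b) (1 - y') := by rw [← hy']; exact ddr_bd' _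
  have b2 : BD (mlev j a b) (1 + y) := by rw [← hy]; exact bd_mlev_cor _
  have bG : BD (mlev j a b) (Gm y y') := by rw [hG]; exact (b1.mul b2).mul b1
  obtain ⟨p0, d0⟩ := Prob.Uni.dpart_mlev' h h0
  obtain ⟨p1, d1⟩ := Prob.Uni.dpart_mlev' h h1
  have c0 := ddr_bd' (P := P) (j := j) (a := a) (b := b) (x₀ - y')
  have c1 := ddr_bd' (P := P) (j := j) (a := a) (b := b) (x₁ - y')
  have hp := (c0.par.mul ((p0.mul bG.par).mul p1)).mul c1.par
  have m0 : ∀ u v : Matrix ι ι Ω, P.cor j b a u * P.cor j b a v = 0 := cor_mul_cor' h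
  have m1 : ∀ u, P.cor j b a u * y' = 0 := fun u => by rw [← hy']; exact m0 _ _
  have m2 : ∀ u, y' * P.cor j b a u = 0 := fun u => by rw [← hy']; exact m0 _ _
  have f0 : (1 - P.cor j b a (x₀ - y')) * (1 + P.cor j b a x₀) * (1 - y') = 1 := by
    rw [ddr_cor_sub, hy']
    simp [mul_add, add_mul, mul_sub, sub_mul, m0, m1, m2, e1]
    abel
  have f1 : (1 - y') * (1 + P.cor j b a x₁) * (1 - P.cor j b a (x₁ - y')) = 1 := by
    rw [ddr_cor_sub, hy']
    simp [mul_add, add_mul, mul_sub, sub_mul, m0, m1, m2, e1]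
    abel
  have hd : dpart (mlev j a b) ((1 - P.cor j b a (x₀ - y')) * (x₀ * Gm y y' * x₁) *
      (1 - P.cor j b a (x₁ - y'))) = 1 + P.cor j a b y := by
    rw [(c0.par.mul ((p0.mul bG.par).mul p1)).dpart_mul c1.par,
      c0.par.dpart_mul ((p0.mul bG.par).mul p1), (p0.mul bG.par).dpart_mul p1,
      p0.dpart_mul bG.par, c0.dpart_eq, c1.dpart_eq, bG.dpart_eq, d0, d1, hG, hy]
    calc _ = ((1 - P.cor j b a (x₀ - y')) * (1 + P.cor j b a x₀) * (1 - y')) * (1 + y) *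
          ((1 - y') * (1 + P.cor j b a x₁) * (1 - P.cor j b a (x₁ - y'))) := by
          simp only [Matrix.mul_assoc]
      _ = _ := by rw [f0, f1, one_mul, mul_one]
  have hu := ((uni_mlev_iff h).1 (ddr_uni_mlev h hp hd)).1.mul (uni_cor h y)
  rwa [Matrix.mul_assoc _ (1 - P.cor j a b y), ddr_sq' (cor_mul_cor h y y), mul_one] at hu

variable (j) in
/-- the data with the slots multiplied -/
def ddrD (d : P.DData Ω) : P.Data Ω :=
  (fun k => d.1.1 k * (if k = j then Gm d.2.2.1 d.2.2.2 else 1) * d.1.2 k, d.2.1.1, d.2.1.2)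

variable (j a b) in
/-- the change of frames (`e = 1`) and its inverse (`e = -1`) -/
def ddrW (e : Ω) (d : P.DData Ω) (k : P.I) : Matrix ι ι Ω :=
  if k = j then 1 + e • P.cor j b a (d.1.1 j - d.2.2.2)
  else if k = P.nx j then
    P.Linv (ddrD j d) j * (1 + (-e) • P.cor j b a (d.1.2 j - d.2.2.2)) * P.L d.2.1.1 j
  else 1

variable {d : P.DData Ω}

theorem IsDD.ddr_fr (hd : P.IsDD j a b d) (k : P.I) :
    (d.2.1.2 (P.nx k) : Matrix ι ι Ω) =
      (d.2.1.2 k : Matrix ι ι Ω) * (ddrD j d).1 k * P.L d.2.1.1 k := by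
  rw [hd.fr k]
  simp only [ddrD, Matrix.mul_assoc]

theorem IsDD.ddr_Linv_L (hd : P.IsDD j a b d) (k : P.I) :
    P.Linv (ddrD j d) k * P.L d.2.1.1 k = 1 := by
  unfold Linv
  rw [Matrix.mul_assoc, Matrix.mul_assoc, ← Matrix.mul_assoc ((ddrD j d).2.2 k : Matrix ι ι Ω)]
  change ((d.2.1.2 (P.nx k))⁻¹ : GL ι Ω) * ((d.2.1.2 k : Matrix ι ι Ω) * _ * _) = _
  rw [← hd.ddr_fr k]
  exact (d.2.1.2 (P.nx k)).inv_mul

theorem IsDD.ddr_L_Linv (hd : P.IsDD j a b d) (k : P.I) :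
    P.L d.2.1.1 k * P.Linv (ddrD j d) k = 1 := mul_eq_one_comm.1 (hd.ddr_Linv_L k)

theorem IsDD.ddr_L_supp (hd : P.IsDD j a b d) (k : P.I) (c c' : ι)
    (hc : P.L d.2.1.1 k c c' ≠ 0) : P.Ex (k, c) (P.nx k, c') := by
  by_contra hne
  exact hc (hd.supp _ _ hne)

theorem IsDD.ddr_Linv_supp (hd : P.IsDD j a b d) (k : P.I) (c' c : ι)
    (hc : P.Linv (ddrD j d) k c' c ≠ 0) : P.Ex (k, c) (P.nx k, c') := by
  by_contra hne
  exact hc (supp_inv (p := fun a => P.pc (k, a))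
    (q := fun b => P.tau (P.pc (P.J.symm (P.nx k, b)))) (hd.ddr_L_Linv k) (hd.ddr_Linv_L k)
    (fun _ _ h' => hd.supp _ _ h') c' c hne)

theorem IsDD.ddrW_mul (h : P.Adj j a b) (hd : P.IsDD j a b d) (k : P.I) :
    ddrW j a b 1 d k * ddrW j a b (-1) d k = 1 := by
  unfold ddrW
  simp only [neg_neg, one_smul, neg_smul, ← sub_eq_add_neg]
  split_ifs
  · exact ddr_sq (cor_mul_cor' h _ _)
  · simp only [Matrix.mul_assoc]
    rw [← Matrix.mul_assoc (P.L d.2.1.1 j), hd.ddr_L_Linv, one_mul,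
      ← Matrix.mul_assoc (1 - _), ddr_sq' (cor_mul_cor' h _ _), one_mul, hd.ddr_Linv_L]
  · exact one_mul _

/-- the change of frames -/
def IsDD.ddrw (h : P.Adj j a b) (hd : P.IsDD j a b d) (k : P.I) : GL ι Ω :=
  ⟨ddrW j a b 1 d k, ddrW j a b (-1) d k, hd.ddrW_mul h k, mul_eq_one_comm.1 (hd.ddrW_mul h k)⟩

theorem ddr_slev_ne {k : P.I} (hk : k ≠ j) : (fun c => P.slev j a b (k, c)) = P.lv k :=
  funext fun _ => if_neg hk

theorem IsDD.ddr_isSol {i : P.I} (h : P.Adj (P.nx i) a b) (hB : P.Bwd (P.nx i) a b)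
    (hi : P.nx i ≠ i) (hF : P.Fwd (P.nx i) a b) (hd : P.IsDD (P.nx i) a b d) :
    P.IsSol (P.slide (ddrD (P.nx i) d) (hd.ddrw h)) := by
  have hj : P.nx (P.nx i) ≠ P.nx i := fun e => hi (P.nx.injective e)
  refine ⟨fun k => ?_, hd.supp, fun s _ => hd.fix s, fun s _ => hd.sq s, fun k => ?_⟩
  · change Uni (P.lv k) (ddrW (P.nx i) a b (-1) d k * (ddrD (P.nx i) d).1 k *
      (P.L d.2.1.1 k * ddrW (P.nx i) a b 1 d (P.nx k) * P.Linv (ddrD (P.nx i) d) k))
    by_cases hk : k = P.nx i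
    · subst hk
      have := ddr_mid h (hd.uni0 _) (hd.uni1 _) hd.cy hd.cy' hd.ginv
      simp only [ddrW, ddrD, if_true, if_neg hj, neg_neg, one_smul, neg_smul, ← sub_eq_add_neg]
      convert this using 2
      change P.L d.2.1.1 _ * (P.Linv (ddrD (P.nx i) d) _ * _ * _) * P.Linv (ddrD (P.nx i) d) _ = _
      simp only [Matrix.mul_assoc]
      rw [hd.ddr_L_Linv, mul_one, ← Matrix.mul_assoc, hd.ddr_L_Linv, one_mul]
    · refine Uni.mul (Uni.mul ?_ ?_) ?_
      · simp only [ddrW, if_neg hk, neg_neg, one_smul]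
        split_ifs with hk'
        · subst hk'
          exact hF.uni (hd.ddr_L_Linv _) (hd.ddr_L_supp _) (hd.ddr_Linv_supp _) _
        · exact Uni.one
      · simp only [ddrD, if_neg hk, mul_one]
        exact (ddr_slev_ne hk ▸ hd.uni0 k).mul (ddr_slev_ne hk ▸ hd.uni1 k)
      · simp only [ddrW, one_smul]
        split_ifs with h1 h2
        · obtain rfl := P.nx.injective h1
          exact hB.uni (hd.ddr_L_Linv _) (hd.ddr_L_supp _) (hd.ddr_Linv_supp _) _
        · exact absurd (P.nx.injective h2) hk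
        · rw [mul_one, hd.ddr_L_Linv]
          exact Uni.one
  · change ((d.2.1.2 (P.nx k) * hd.ddrw h (P.nx k) : GL ι Ω) : Matrix ι ι Ω) =
      ((d.2.1.2 k * hd.ddrw h k : GL ι Ω) : Matrix ι ι Ω) *
        (((hd.ddrw h k)⁻¹ : GL ι Ω) * (ddrD (P.nx i) d).1 k * (P.L d.2.1.1 k *
          (hd.ddrw h (P.nx k) : Matrix ι ι Ω) * P.Linv (ddrD (P.nx i) d) k)) * P.L d.2.1.1 k
    simp only [Units.val_mul, Matrix.mul_assoc]
    rw [hd.ddr_Linv_L k, Matrix.mul_one, ← Matrix.mul_assoc (hd.ddrw h k : Matrix ι ι Ω),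
      (hd.ddrw h k).mul_inv, Matrix.one_mul, hd.ddr_fr k]
    simp only [Matrix.mul_assoc]

theorem good_ddrD {X : Type} [Coord Ω X] {f : X → P.DData Ω} (hf : Good o Ω f) :
    Good o Ω (fun x => ddrD j (f x)) := by
  unfold ddrD Gm
  fun_prop

theorem good_ddrW {X : Type} [Coord Ω X] {f : X → P.DData Ω} (hf : Good o Ω f) {e : Ω}
    (he : Good o Ω (fun _ : X => e)) (k : P.I) : Good o Ω (fun x => ddrW j a b e (f x) k) := by
  have := good_ddrD (j := j) hf
  unfold ddrW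
  fun_prop
end ddr

/-- Retraction, `j = nx i`.  `Gm y y' = (1 - y') (1 + y) (1 - y')` by `Gm_eq`.  Put
`c₁ = cor j b a (X₀ j) - y'`, `c₂ = cor j b a (X₁ j) - y'`; then
`X₀ j * Gm * X₁ j = (1 + c₁) * X * (1 + c₂)` with `X` unipotent for `P.lv j` (a product
`U° (1 + y) U°`; use `mlev`, `Uni.dpart_mlev'`, `Par.dpart_mul`, `uni_iff`).  For `k ≠ j` put
`X k = X₀ k * X₁ k`.  Move `1 + c₁` backwards through the letter `i` (`Bwd.uni`; the frame at `j` is
multiplied by `1 + c₁`) and `1 + c₂` forwards through the letter `j` (`Fwd.uni`; the frame at `nx j` is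
multiplied by the inverse of `L⁻¹ (1 + c₂) L`).  The inverse of `L k` is a good function of the data
by the frame equation (`(g (nx k))⁻¹ * g k * X₀ k * H k * X₁ k`).  Note `i ≠ j`, `nx j ≠ j`, but
`nx j = i` is possible.
Lift: `X₀ j = X j * (1 - y) * (1 + y')`, `X₁ j = 1 + y'`, `X₀ k = X k`, `X₁ k = 1`; then `c₁ = c₂ = 0`. -/
theorem dd_retract {i : P.I} {a b : ι} (h : P.Adj (P.nx i) a b) (hB : P.Bwd (P.nx i) a b)
    (hi : P.nx i ≠ i) (hF : P.Fwd (P.nx i) a b) :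
    ∃ R : {d : P.DData Ω // P.IsDD (P.nx i) a b d} → P.Sol Ω, Good o Ω R ∧
      ∀ (s : P.Sol Ω) (y' : Matrix ι ι Ω), P.cor (P.nx i) b a y' = y' →
        y' * P.cor (P.nx i) a b (s.1.1 (P.nx i)) * y' = y' →
        ∃ d, R d = s ∧ d.1.2.2 = (P.cor (P.nx i) a b (s.1.1 (P.nx i)), y') := by
  refine ⟨fun d => ⟨_, d.2.ddr_isSol h hB hi hF⟩, ?_, fun s y' hy' hg => ?_⟩
  · exact good_subtype_iff.2 (good_slide (good_ddrD Good.id.val) (Good.pi fun k =>
      Good.unitsMk (good_ddrW Good.id.val Good.one k) (good_ddrW Good.id.val Good.one.neg k) _ _))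
  obtain ⟨⟨X, M, g⟩, hs⟩ := s
  simp only at hg ⊢
  set j := P.nx i with hj
  set y := P.cor j a b (X j) with hy
  have e1 : y' * y' = 0 := by rw [← hy']; exact cor_mul_cor' h _ _
  have e2 : y * y = 0 := cor_mul_cor h _ _
  have hU : Uni (mlev j a b) (X j * (1 - y)) :=
    ddr_uni_mlev h (Prob.Uni.dpart_mlev h (hs.uni j)).1 (Prob.Uni.dpart_mlev h (hs.uni j)).2
  have hU1 : Uni (fun c => P.slev j a b (j, c)) (1 + y') := by
    rw [← hy']; exact uni_cor' h _
  have hU0 := ((uni_mlev_iff' h).1 hU).1.mul hU1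
  have b1 : BD (mlev j a b) (1 + y') := by rw [← hy']; exact bd_mlev_cor' _
  have c0 : P.cor j b a (X j * (1 - y) * (1 + y') - y') = 0 := by
    have := (Prob.Uni.dpart_mlev' h hU0).2
    rw [hU.par.dpart_mul b1.par, (uni_iff.1 hU).2, one_mul, b1.dpart_eq, add_right_inj] at this
    rw [ddr_cor_sub, ← this, hy', sub_self]
  have c1 : P.cor j b a (1 + y' - y') = 0 := by
    have := (Prob.Uni.dpart_mlev' h hU1).2
    rw [b1.dpart_eq, add_right_inj] at this
    rw [ddr_cor_sub, ← this, hy', sub_self]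
  let d : P.DData Ω := ((fun k => if k = j then X j * (1 - y) * (1 + y') else X k,
    fun k => if k = j then 1 + y' else 1), (M, g), (y, y'))
  have hD : ddrD j d = (X, M, g) := by
    refine Prod.ext (funext fun k => ?_) rfl
    simp only [ddrD, d]
    split_ifs with hk
    · subst hk
      rw [Matrix.mul_assoc (X j * (1 - y)), Matrix.mul_assoc (X j * (1 - y)), Gm_eq e1 e2 hg,
        Matrix.mul_assoc, ddr_sq' e2, mul_one]
    · rw [mul_one, mul_one]
  have hd : P.IsDD j a b d := by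
    refine ⟨fun k => ?_, fun k => ?_, hs.supp, fun s => hs.fix s not_false,
      fun s => hs.sq s not_false, ddr_cor_cor _ _ _ _, hy', hg, fun k => ?_⟩
    · simp only [d]
      split_ifs with hk
      · subst hk
        exact hU0
      · rw [ddr_slev_ne hk]
        exact hs.uni k
    · simp only [d]
      split_ifs with hk
      · subst hk
        exact hU1
      · exact Uni.one
    · have h1 := hs.fr k
      have h2 : d.1.1 k * (if k = j then Gm d.2.2.1 d.2.2.2 else 1) * d.1.2 k = X k :=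
        congrFun (congrArg Prod.fst hD) k
      rw [Matrix.mul_assoc _ (d.1.1 k), Matrix.mul_assoc _ (d.1.1 k * _), h2]
      exact h1
  refine ⟨⟨d, hd⟩, Subtype.ext ?_, rfl⟩
  have hw : hd.ddrw h = fun _ => 1 := by
    funext k
    refine Units.ext ?_
    change ddrW j a b 1 d k = 1
    have h1 := hd.ddr_Linv_L j
    unfold ddrW
    split_ifs
    · simp only [d, if_true, c0, smul_zero, add_zero]
    · simp only [d, if_true, c1, smul_zero, add_zero, mul_one] at h1 ⊢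
      exact h1
    · rfl
  change P.slide (ddrD j d) (hd.ddrw h) = (X, M, g)
  rw [hw, hD]
  refine Prod.ext (funext fun k => ?_) (Prod.ext rfl (funext fun k => mul_one _))
  have h1 := hs.L_mul_Linv k
  simp only [slide, inv_one, Units.val_one, one_mul, mul_one] at h1 ⊢
  rw [h1, mul_one]

theorem dbl_cor_cor (j : P.I) (a b : ι) (x : Matrix ι ι Ω) :
    P.cor j a b (P.cor j a b x) = P.cor j a b x := by
  ext c c'
  simp only [cor, mask, Matrix.of_apply]
  split_ifs <;> rfl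

theorem dbl_cor_neg (j : P.I) (a b : ι) (x : Matrix ι ι Ω) :
    P.cor j a b (-x) = - P.cor j a b x := by
  ext c c'
  simp only [cor, mask, Matrix.of_apply, Matrix.neg_apply]
  split_ifs <;> simp

theorem dbl_cor_Gm {j : P.I} {a b : ι} (hab : P.Adj j a b) {y y' : Matrix ι ι Ω}
    (hy : P.cor j a b y = y) (hy' : P.cor j b a y' = y') :
    P.cor j a b (Gm y y') = y ∧ - P.cor j b a (Gm y y') = y' := by
  have hne := hab.lt.ne
  have z1 : ∀ c c', ¬ (P.lev (j, c) = P.lev (j, a) ∧ P.lev (j, c') = P.lev (j, b)) →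
      y c c' = 0 := fun c c' h => by
    rw [← hy]; exact if_neg h
  have z2 : ∀ c c', ¬ (P.lev (j, c) = P.lev (j, b) ∧ P.lev (j, c') = P.lev (j, a)) →
      y' c c' = 0 := fun c c' h => by
    rw [← hy']; exact if_neg h
  constructor
  · ext c c'
    simp only [cor, mask, Matrix.of_apply]
    split_ifs with h
    · have h1 : c ≠ c' := fun e => hne (h.1.symm.trans (e ▸ h.2))
      have h2 : ∀ r, y' r c' = 0 := fun r => z2 _ _ fun h' => hne (h'.2.symm.trans h.2)
      have h3 : ∀ r, y' c r = 0 := fun r => z2 _ _ fun h' => hne (h.1.symm.trans h'.1)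
      simp [Gm, Matrix.mul_apply, h2, h3, Matrix.one_apply_ne h1]
    · exact (z1 c c' h).symm
  · ext c c'
    simp only [cor, mask, Matrix.of_apply, Matrix.neg_apply]
    split_ifs with h
    · have h1 : c ≠ c' := fun e => hne (h.2.symm.trans (e ▸ h.1))
      have h2 : ∀ r, y r c' = 0 := fun r => z1 _ _ fun h' => hne (h.2.symm.trans h'.2)
      have h3 : ∀ r, y c r = 0 := fun r => z1 _ _ fun h' => hne (h'.1.symm.trans h.1)
      simp [Gm, Matrix.mul_apply, h2, h3, Matrix.one_apply_ne h1]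
    · rw [neg_zero]
      exact (z2 c c' h).symm

theorem dbl_sum {I : Type} [Fintype I] (f : (I × Bool) × ι → Ω) :
    ∑ x, f x = ∑ s : I × ι, f (up2 s true) + ∑ s : I × ι, f (up2 s false) := by
  simp only [Fintype.sum_prod_type, Fintype.sum_bool, Finset.sum_add_distrib]

/-- the global matrix of the doubled problem -/
def dblM {I : Type} [DecidableEq I] (M : Matrix (I × ι) (I × ι) Ω) (H : I → Matrix ι ι Ω) :
    Matrix ((I × Bool) × ι) ((I × Bool) × ι) Ω :=
  Matrix.of fun x y =>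
    if x.1.2 then (if y.1.2 then M (dn2 x) (dn2 y) else 0)
    else (if y.1.2 then 0 else if x.1.1 = y.1.1 then H x.1.1 x.2 y.2 else 0)

theorem dblM_mul {I : Type} [Fintype I] [DecidableEq I] (M M' : Matrix (I × ι) (I × ι) Ω)
    (H H' : I → Matrix ι ι Ω) :
    dblM M H * dblM M' H' = dblM (M * M') (fun k => H k * H' k) := by
  ext ⟨⟨i, _ | _⟩, c⟩ ⟨⟨k, _ | _⟩, c'⟩ <;> rw [Matrix.mul_apply, dbl_sum] <;>
    simp [dblM, Matrix.mul_apply, Fintype.sum_prod_type]
  by_cases hik : i = k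
  · subst hik
    simp
  · simp [hik]

theorem dbl_ite {p q : Prop} {_ : Decidable p} {_ : Decidable q} (h : p ↔ q) (x y : Ω) :
    ite p x y = ite q x y := if_congr h rfl rfl

theorem dbl_up_iff {I : Type} (s t : I × ι) (e : Bool) : up2 s e = up2 t e ↔ s = t := by
  obtain ⟨i, c⟩ := s
  obtain ⟨k, c'⟩ := t
  simp

theorem dblM_fix {I : Type} [DecidableEq I] {M : Matrix (I × ι) (I × ι) Ω} {H : I → Matrix ι ι Ω}
    {u : Ω} {x : (I × Bool) × ι} (h0 : x.1.2 = false → ∀ c', H x.1.1 x.2 c' = if x.2 = c' then u else 0)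
    (h1 : x.1.2 = true → ∀ t, M (dn2 x) t = if dn2 x = t then u else 0) (y : (I × Bool) × ι) :
    dblM M H x y = if x = y then u else 0 := by
  obtain ⟨⟨i, _ | _⟩, c⟩ := x <;> obtain ⟨⟨k, _ | _⟩, c'⟩ := y
  · by_cases hik : i = k
    · subst hik
      simpa [dblM] using h0 rfl c'
    · simp [dblM, hik]
  · simp [dblM]
  · simp [dblM]
  · simpa [dblM] using h1 rfl (k, c')

section
variable (hT : P.Thin) (j : P.I) (a b : ι) (m : (swap hT j a b).Mid)

/-- forget the doubling -/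
def Mid.down (d : m.dbl.Data Ω) : P.DData Ω :=
  ((fun k => d.1 (k, false), fun k => d.1 (k, true)),
    (Matrix.of fun s t => d.2.1 (up2 s true) (up2 t true), fun k => d.2.2 (k, false)),
    (P.cor j a b (m.dbl.L d.2.1 (j, false)), - P.cor j b a (m.dbl.L d.2.1 (j, false))))

theorem Mid.good_down : Good o Ω (Mid.down (Ω := Ω) hT j a b m) := by
  have h1 : Good o Ω fun d : m.dbl.Data Ω => d.1 := Good.id.fst
  have h2 : Good o Ω fun d : m.dbl.Data Ω => d.2.1 := Good.id.snd.fst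
  have h3 : Good o Ω fun d : m.dbl.Data Ω => d.2.2 := Good.id.snd.snd
  have h4 : Good o Ω fun d : m.dbl.Data Ω => m.dbl.L d.2.1 (j, false) := good_L h2 _
  exact ((Good.pi fun k => (Good.apply _).comp h1).prodMk
      (Good.pi fun k => (Good.apply _).comp h1)).prodMk
    (((Good.of fun s t => h2.entry _ _).prodMk (Good.pi fun k => (Good.apply _).comp h3)).prodMk
      ((good_cor j a b h4).prodMk (good_cor j b a h4).mneg))

theorem Mid.L_false (M : Matrix m.dbl.Site m.dbl.Site Ω) (k : P.I) (c c' : ι) :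
    m.dbl.L M (k, false) c c' = M ((k, false), c) ((k, false), c') := rfl

theorem Mid.down_isDD {act : m.dbl.Pc → Prop} (hact : ∀ p, ¬ act (.inr p)) {d : m.dbl.Data Ω}
    (hd : m.dbl.IsPre act d) (h1 : ∀ k, k ≠ j → m.dbl.L d.2.1 (k, false) = 1)
    {y y' : Matrix ι ι Ω} (hy : P.cor j a b y = y) (hy' : P.cor j b a y' = y')
    (hab : P.Adj j a b) (hg : y' * y * y' = y') (h2 : m.dbl.L d.2.1 (j, false) = Gm y y') :
    P.IsDD j a b (Mid.down hT j a b m d) := by
  obtain ⟨c1, c2⟩ := dbl_cor_Gm hab hy hy'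
  have e1 : (Mid.down hT j a b m d).2.2.1 = y := by
    change P.cor j a b (m.dbl.L d.2.1 (j, false)) = y
    rw [h2, c1]
  have e2 : (Mid.down hT j a b m d).2.2.2 = y' := by
    change - P.cor j b a (m.dbl.L d.2.1 (j, false)) = y'
    rw [h2, c2]
  refine ⟨fun k => hd.uni (k, false), fun k => hd.uni (k, true), fun s t h => ?_,
    fun s h t => ?_, fun s h t => ?_, by rw [e1, hy], by rw [e2, hy'], by rw [e1, e2, hg],
    fun k => ?_⟩
  · exact hd.supp (up2 s true) (up2 t true) fun h' => h (Sum.inr.inj h')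
  · have := hd.fix (up2 s true) (hact _) (congrArg Sum.inr h) (up2 t true)
    exact this.trans (dbl_ite (dbl_up_iff s t true) _ _)
  · have := hd.sq (up2 s true) (hact _) (fun h' => h (Sum.inr.inj h')) (up2 t true)
    refine Eq.trans ?_ (this.trans (dbl_ite (dbl_up_iff s t true) _ _))
    have h0 : ∑ r : P.I × ι, d.2.1 (up2 s true) (up2 r false) * d.2.1 (up2 r false) (up2 t true)
        = 0 := Finset.sum_eq_zero fun r _ =>
      mul_eq_zero_of_left (hd.supp (up2 s true) (up2 r false) Sum.inr_ne_inl) _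
    have h3 := dbl_sum (I := P.I) fun x => d.2.1 (up2 s true) x * d.2.1 x (up2 t true)
    exact (h3.trans ((congrArg _ h0).trans (add_zero _))).symm
  · have f0 := hd.fr (k, false)
    have f1 := hd.fr (k, true)
    have e3 : (if k = j then Gm (Mid.down hT j a b m d).2.2.1 (Mid.down hT j a b m d).2.2.2 else 1)
        = m.dbl.L d.2.1 (k, false) := by
      split_ifs with hk
      · rw [e1, e2, hk, h2]
      · exact (h1 k hk).symm
    rw [e3]
    refine f1.trans ?_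
    change (d.2.2 (m.dbl.nx (k, false)) : Matrix ι ι Ω) * _ * _ = _
    rw [f0]
    rfl

/-- Build the doubled data: `M` on the `true` copies, the matrices `H k = if k = j then Gm else 1` on
the `false` copies, frames `g k` and `g k * X₀ k * H k` (invertible by the frame equation). -/
theorem Mid.exists_up {act : m.dbl.Pc → Prop} (hab : P.Adj j a b) {d : P.DData Ω}
    (hd : P.IsDD j a b d) (H : P.I → Matrix ι ι Ω)
    (hH : ∀ k, H k = if k = j then Gm d.2.2.1 d.2.2.2 else 1)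
    (hs : ∀ k c c', m.pc (k, c) ≠ m.tau (m.pc (k, c')) → H k c c' = 0)
    (hf : ∀ k c, ¬ act (.inl (m.pc (k, c))) → m.tau (m.pc (k, c)) = m.pc (k, c) → ∀ c',
      H k c c' = if c = c' then algebraMap o Ω (m.u (m.pc (k, c)) : o) else 0)
    (hq : ∀ k c, ¬ act (.inl (m.pc (k, c))) → m.tau (m.pc (k, c)) ≠ m.pc (k, c) → ∀ c',
      (H k * H k) c c' = if c = c' then algebraMap o Ω (m.u (m.pc (k, c)) : o) else 0) :
    ∃ d' : m.dbl.Data Ω, m.dbl.IsPre act d' ∧ Mid.down hT j a b m d' = d ∧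
      ∀ k, m.dbl.L d'.2.1 (k, false) = H k := by
  obtain ⟨c1, c2⟩ := dbl_cor_Gm hab hd.cy hd.cy'
  have hinv : ∀ k, (d.2.1.2 k : Matrix ι ι Ω) * d.1.1 k * H k *
      (d.1.2 k * P.L d.2.1.1 k * ((d.2.1.2 (P.nx k))⁻¹ : GL ι Ω)) = 1 := fun k => by
    rw [← Matrix.mul_assoc, ← Matrix.mul_assoc, hH k, ← hd.fr k]
    exact (d.2.1.2 (P.nx k)).mul_inv
  let g : P.I × Bool → GL ι Ω := fun x =>
    if x.2 then ⟨_, _, hinv x.1, mul_eq_one_comm.1 (hinv x.1)⟩ else d.2.1.2 x.1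
  let X : P.I × Bool → Matrix ι ι Ω := fun x => if x.2 then d.1.2 x.1 else d.1.1 x.1
  have hL : ∀ k : P.I, m.dbl.L (dblM (I := P.I) d.2.1.1 H) (k, false) = H k := fun k => by
    ext c c'
    exact if_pos rfl
  refine ⟨(X, dblM (I := P.I) d.2.1.1 H, g), ⟨?_, ?_, ?_, ?_, ?_⟩, ?_, hL⟩
  · rintro ⟨k, _ | _⟩
    · exact hd.uni0 k
    · exact hd.uni1 k
  · rintro ⟨⟨i, _ | _⟩, c⟩ ⟨⟨k, _ | _⟩, c'⟩ h
    · change (if i = k then H i c c' else 0) = 0
      split_ifs with hik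
      · subst hik
        exact hs i c c' fun h' => h (congrArg Sum.inl h')
      · rfl
    · rfl
    · rfl
    · exact hd.supp (i, c) (k, c') fun h' => h (congrArg Sum.inr h')
  · rintro ⟨⟨i, e⟩, c⟩ ha h y
    refine dblM_fix (I := P.I) ?_ ?_ y
    · rintro rfl
      exact hf i c ha (Sum.inl.inj h)
    · rintro rfl
      exact hd.fix (i, c) (Sum.inr.inj h)
  · rintro ⟨⟨i, e⟩, c⟩ ha h y
    refine (congrFun (congrFun (dblM_mul (I := P.I) d.2.1.1 d.2.1.1 H H) _) _).trans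
      (dblM_fix (I := P.I) ?_ ?_ y)
    · rintro rfl
      exact hq i c ha fun h' => h (congrArg Sum.inl h')
    · rintro rfl
      exact hd.sq (i, c) fun h' => h (congrArg Sum.inr h')
  · rintro ⟨k, _ | _⟩
    · rw [hL k]
      rfl
    · refine (hd.fr k).trans ?_
      rw [← hH k]
      rfl
  · refine Prod.ext rfl (Prod.ext rfl (Prod.ext ?_ ?_))
    · exact (congrArg (P.cor j a b) ((hL j).trans ((hH j).trans (if_pos rfl)))).trans c1
    · exact (congrArg (fun x => - P.cor j b a x)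
        ((hL j).trans ((hH j).trans (if_pos rfl)))).trans c2
end

end Prob

end Crest.Agent.R003
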