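import Mathlib

/-! Row 3: block triangular matrices with respect to a level function. -/

set_option autoImplicit false
set_option linter.unusedSectionVars false

namespace Crest.Agent.R003

open Matrix

section defs
variable {R : Type} [CommRing R] {ι Λ : Type} [LinearOrder Λ] [DecidableEq ι]

/-- unipotent radical: identity plus entries `(a,b)` with `l a < l b` -/
def Uni (l : ι → Λ) (x : Matrix ι ι R) : Prop :=
  ∀ a b, ¬ l a < l b → x a b = if a = b then 1 else 0

/-- parabolic: block upper triangular -/
def Par (l : ι → Λ) (x : Matrix ι ι R) : Prop := ∀ a b, l b < l a → x a b = 0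

/-- Levi: block diagonal -/
def BD (l : ι → Λ) (x : Matrix ι ι R) : Prop := ∀ a b, l a ≠ l b → x a b = 0

/-- block diagonal part -/
def dpart (l : ι → Λ) (x : Matrix ι ι R) : Matrix ι ι R :=
  Matrix.of fun a b => if l a = l b then x a b else 0

/-- the part of `x` in rows with `p` and columns with `q` -/
def mask {α β : Type} (p : α → Prop) (q : β → Prop) [DecidablePred p] [DecidablePred q]
    (x : Matrix α β R) : Matrix α β R := Matrix.of fun a b => if p a ∧ q b then x a b else 0
end defs

variable {R : Type} [CommRing R] {ι Λ : Type} [LinearOrder Λ] [DecidableEq ι] [Fintype ι]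
  {l : ι → Λ}

theorem Uni.one : Uni l (1 : Matrix ι ι R) := fun a b _ => Matrix.one_apply
theorem Uni.par {x : Matrix ι ι R} (h : Uni l x) : Par l x := fun a b hab => by
  rw [h a b (not_lt_of_gt hab), if_neg]
  rintro rfl
  exact lt_irrefl _ hab
theorem BD.par {x : Matrix ι ι R} (h : BD l x) : Par l x := fun a b hab => h a b hab.ne'
theorem Par.mul {x y : Matrix ι ι R} (hx : Par l x) (hy : Par l y) : Par l (x * y) := fun a b hab => by
  rw [Matrix.mul_apply]
  refine Finset.sum_eq_zero fun c _ => ?_
  rcases lt_or_ge (l c) (l a) with h | h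
  · rw [hx a c h, zero_mul]
  · rw [hy c b (hab.trans_le h), mul_zero]
theorem BD.mul {x y : Matrix ι ι R} (hx : BD l x) (hy : BD l y) : BD l (x * y) := fun a b hab => by
  rw [Matrix.mul_apply]
  refine Finset.sum_eq_zero fun c _ => ?_
  by_cases h : l a = l c
  · rw [hy c b (h ▸ hab), mul_zero]
  · rw [hx a c h, zero_mul]
theorem dpart_bd (x : Matrix ι ι R) : BD l (dpart l x) := fun a b hab => if_neg hab
theorem BD.dpart_eq {x : Matrix ι ι R} (h : BD l x) : dpart l x = x := by
  ext a b
  simp only [dpart, Matrix.of_apply]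
  split_ifs with hab
  · rfl
  · exact (h a b hab).symm
theorem Par.dpart_mul {x y : Matrix ι ι R} (hx : Par l x) (hy : Par l y) :
    dpart l (x * y) = dpart l x * dpart l y := by
  ext a b
  simp only [dpart, Matrix.of_apply, Matrix.mul_apply]
  split_ifs with hab
  · refine Finset.sum_congr rfl fun c _ => ?_
    rcases lt_trichotomy (l c) (l a) with h | h | h
    · rw [hx a c h]; simp
    · rw [if_pos h.symm, if_pos (h.trans hab)]
    · rw [hy c b (hab ▸ h)]; simp
  · refine (Finset.sum_eq_zero fun c _ => ?_).symm
    by_cases h : l a = l c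
    · rw [if_neg (show ¬ l c = l b from fun h' => hab (h.trans h')), mul_zero]
    · rw [if_neg h, zero_mul]
theorem uni_iff {x : Matrix ι ι R} : Uni l x ↔ Par l x ∧ dpart l x = 1 := by
  constructor
  · intro h
    refine ⟨h.par, ?_⟩
    ext a b
    simp only [dpart, Matrix.of_apply, Matrix.one_apply]
    by_cases hab : l a = l b
    · rw [if_pos hab, h a b (not_lt_of_ge hab.ge)]
    · rw [if_neg hab, if_neg]
      rintro rfl
      exact hab rfl
  · rintro ⟨h1, h2⟩ a b hab
    rcases (not_lt.mp hab).eq_or_lt with h | h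
    · have := congrFun (congrFun h2 a) b
      simp only [dpart, Matrix.of_apply, Matrix.one_apply] at this
      rwa [if_pos h.symm] at this
    · rw [h1 a b h, if_neg]
      rintro rfl
      exact lt_irrefl _ h
theorem Uni.mul {x y : Matrix ι ι R} (hx : Uni l x) (hy : Uni l y) : Uni l (x * y) :=
  uni_iff.mpr ⟨hx.par.mul hy.par, by
    rw [hx.par.dpart_mul hy.par, (uni_iff.mp hx).2, (uni_iff.mp hy).2, mul_one]⟩
/-- `1 + N` with `N` supported on increasing pairs -/
theorem uni_one_add {N : Matrix ι ι R} (h : ∀ a b, N a b ≠ 0 → l a < l b) : Uni l (1 + N) := fun a b hab => by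
  have : N a b = 0 := by
    by_contra h0
    exact hab (h a b h0)
  rw [Matrix.add_apply, this, add_zero, Matrix.one_apply]
theorem Uni.sub_one {x : Matrix ι ι R} (h : Uni l x) (a b : ι) (hab : (x - 1) a b ≠ 0) :
    l a < l b := by
  by_contra h0
  apply hab
  rw [Matrix.sub_apply, h a b h0, Matrix.one_apply, sub_self]
/-- (`Matrix.BlockTriangular.det`, or: `x - 1` is nilpotent; or expand the determinant) -/
theorem Uni.det {x : Matrix ι ι R} (h : Uni l x) : x.det = 1 := by
  have hb : x.BlockTriangular l := fun a b hab => h.par a b hab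
  rw [hb.det]
  refine Finset.prod_eq_one fun c _ => ?_
  have : x.toSquareBlock l c = 1 := by
    ext a b
    rw [Matrix.toSquareBlock_def, Matrix.of_apply, h a b (by rw [a.2, b.2]; exact lt_irrefl _),
      Matrix.one_apply]
    simp only [Subtype.ext_iff]
  rw [this, Matrix.det_one]
theorem Uni.mul_adjugate {x : Matrix ι ι R} (h : Uni l x) : x * x.adjugate = 1 := by
  rw [Matrix.mul_adjugate, h.det, one_smul]
theorem Uni.adjugate_mul {x : Matrix ι ι R} (h : Uni l x) : x.adjugate * x = 1 := by
  rw [Matrix.adjugate_mul, h.det, one_smul]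
/-- the inverse of a block triangular matrix is block triangular
(`Matrix.blockTriangular_inv_of_blockTriangular`) -/
theorem Par.inv {x y : Matrix ι ι R} (hx : Par l x) (h : x * y = 1) : Par l y := by
  have hb : x.BlockTriangular l := fun a b hab => hx a b hab
  letI : Invertible x := invertibleOfRightInverse x y h
  have := Matrix.blockTriangular_inv_of_blockTriangular hb
  rw [Matrix.inv_eq_right_inv h] at this
  exact fun a b hab => this hab
theorem Uni.inv {x y : Matrix ι ι R} (hx : Uni l x) (h : x * y = 1) : Uni l y := by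
  have hy := hx.par.inv h
  refine uni_iff.mpr ⟨hy, ?_⟩
  have := hx.par.dpart_mul hy
  rw [h, (uni_iff.mp hx).2, one_mul, (uni_iff.mp (Uni.one (l := l) (R := R))).2] at this
  exact this.symm
theorem Uni.adjugate {x : Matrix ι ι R} (h : Uni l x) : Uni l x.adjugate :=
  h.inv h.mul_adjugate
theorem Par.dpart_inv {x y : Matrix ι ι R} (hx : Par l x) (h : x * y = 1) :
    dpart l x * dpart l y = 1 := by
  rw [← hx.dpart_mul (hx.inv h), h, (uni_iff.mp (Uni.one (l := l) (R := R))).2]
/-- conjugating the unipotent radical by the parabolic -/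
theorem Uni.conj {x p q : Matrix ι ι R} (hx : Uni l x) (hp : Par l p) (h : p * q = 1) :
    Uni l (p * x * q) := by
  have hq := hp.inv h
  refine uni_iff.mpr ⟨(hp.mul hx.par).mul hq, ?_⟩
  rw [(hp.mul hx.par).dpart_mul hq, hp.dpart_mul hx.par, (uni_iff.mp hx).2, mul_one,
    hp.dpart_inv h]
/-- a refinement of the levels enlarges `Uni` -/
theorem Uni.mono {Λ' : Type} [LinearOrder Λ'] {l' : ι → Λ'} (h : ∀ a b, l a < l b → l' a < l' b)
    {x : Matrix ι ι R} (hx : Uni l x) : Uni l' x := fun a b hab =>
  hx a b fun h' => hab (h a b h')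
/-- the support of the inverse of a matrix supported on matching labels
(mask `B`; the masked matrix is again an inverse). -/
theorem supp_inv {α β Q : Type} [Fintype α] [Fintype β] [DecidableEq α] [DecidableEq β]
    {p : α → Q} {q : β → Q} {A : Matrix α β R} {B : Matrix β α R} (hAB : A * B = 1)
    (hBA : B * A = 1) (hA : ∀ a b, p a ≠ q b → A a b = 0) : ∀ b a, p a ≠ q b → B b a = 0 := by
  classical
  let B' : Matrix β α R := Matrix.of fun b a => if p a = q b then B b a else 0
  have h1 : A * B' = 1 := by
    ext a a'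
    by_cases h : p a = p a'
    · rw [← hAB, Matrix.mul_apply, Matrix.mul_apply]
      refine Finset.sum_congr rfl fun b _ => ?_
      by_cases hb : p a' = q b
      · simp only [B', Matrix.of_apply, if_pos hb]
      · rw [hA a b (h ▸ hb), zero_mul, zero_mul]
    · rw [Matrix.one_apply_ne (fun h' => h (by rw [h'])), Matrix.mul_apply]
      refine Finset.sum_eq_zero fun b _ => ?_
      by_cases hb : p a' = q b
      · rw [hA a b (hb ▸ h), zero_mul]
      · simp only [B', Matrix.of_apply, if_neg hb, mul_zero]
  have h2 : B = B' := by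
    rw [← Matrix.mul_one B, ← h1, ← Matrix.mul_assoc, hBA, Matrix.one_mul]
  intro b a hab
  rw [h2]
  exact if_neg hab
/-- transport of a unipotent element through a matrix supported on a relation `r` -/
theorem uni_conj_rel {α : Type} [Fintype α] [DecidableEq α] {L : Matrix ι α R} {L' : Matrix α ι R}
    (hL : L * L' = 1) {r : ι → α → Prop} (h1 : ∀ a b, L a b ≠ 0 → r a b)
    (h2 : ∀ b a, L' b a ≠ 0 → r a b) {N : Matrix α α R}
    (hN : ∀ a a' b b', N b b' ≠ 0 → r a b → r a' b' → l a < l a') : Uni l (L * (1 + N) * L') := by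
  rw [Matrix.mul_add, Matrix.mul_one, Matrix.add_mul, hL]
  refine uni_one_add fun a a' h => ?_
  rw [Matrix.mul_apply] at h
  obtain ⟨b', -, hb'⟩ := Finset.exists_ne_zero_of_sum_ne_zero h
  have h3 := left_ne_zero_of_mul hb'
  rw [Matrix.mul_apply] at h3
  obtain ⟨b, -, hb⟩ := Finset.exists_ne_zero_of_sum_ne_zero h3
  exact hN a a' b b' (right_ne_zero_of_mul hb) (h1 a b (left_ne_zero_of_mul hb))
    (h2 b' a' (right_ne_zero_of_mul hb'))

/-- adjoining the pair `(a, b)` to a partial bijection -/
private def bruhat_ins {α β : Type} [DecidableEq α] [DecidableEq β] (e : α ≃. β) (a : α) (b : β)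
    (ha : ∀ j, e a ≠ some j) (hb : ∀ i, e i ≠ some b) : α ≃. β where
  toFun i := if i = a then some b else e i
  invFun j := if j = b then some a else e.symm j
  inv i j := by
    by_cases h1 : i = a <;> by_cases h2 : j = b
    · simp [h1, h2]
    · subst h1
      simp only [h2, if_false, if_true, Option.some.injEq]
      exact ⟨fun h => (ha j (e.eq_some_iff.1 h)).elim, fun h => (h2 h.symm).elim⟩
    · subst h2
      simp only [h1, if_false, if_true, Option.some.injEq]
      exact ⟨fun h => (h1 h.symm).elim, fun h => (hb i h).elim⟩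
    · simp only [h1, h2, if_false]
      exact e.eq_some_iff

private theorem bruhat_aux {K : Type} [Field K] {α β Λ' : Type} [Fintype α] [Fintype β]
    [DecidableEq α] [DecidableEq β] [LinearOrder Λ'] (l : α → Λ) (l' : β → Λ') (n : ℕ) :
    ∀ (S : Finset α) (T : Finset β), T.card = n → ∀ A : Matrix α β K,
      (∀ i j, A i j ≠ 0 → i ∈ S ∧ j ∈ T) →
      ∃ (P : Matrix α α K) (Q : Matrix β β K) (e : α ≃. β), P.det ≠ 0 ∧ Q.det ≠ 0 ∧ Par l P ∧
        Par l' Q ∧ (∀ a ∉ S, ∀ i, P i a = if i = a then 1 else 0) ∧
        (∀ b ∉ T, ∀ j, Q b j = if b = j then 1 else 0) ∧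
        (∀ i j, e i = some j → i ∈ S ∧ j ∈ T) ∧ A = P * (e.toMatrix : Matrix α β K) * Q := by
  classical
  induction n using Nat.strong_induction_on with
  | _ n ih =>
  intro S T hT A hA
  by_cases h0 : ∀ i j, A i j = 0
  · refine ⟨1, 1, ⊥, by simp, by simp, fun a b h => one_apply_ne fun e => (e ▸ h).false,
      fun a b h => one_apply_ne fun e => (e ▸ h).false, fun a _ i => one_apply,
      fun b _ j => one_apply, fun i j h => by simp at h, ?_⟩
    ext i j
    simp [h0]
  obtain ⟨b, hb, hbmin⟩ := Finset.exists_min_image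
    (Finset.univ.filter fun j => ∃ i, A i j ≠ 0) l' (by
      push Not at h0
      obtain ⟨i, j, h⟩ := h0
      exact ⟨j, by simpa using ⟨i, h⟩⟩)
  obtain ⟨a, ha, hamax⟩ := Finset.exists_max_image
    (Finset.univ.filter fun i => A i b ≠ 0) l (by
      obtain ⟨i, h⟩ := (Finset.mem_filter.1 hb).2
      exact ⟨i, by simpa using h⟩)
  have hc : A a b ≠ 0 := (Finset.mem_filter.1 ha).2
  have haS := (hA a b hc).1
  have hbT := (hA a b hc).2
  set A' : Matrix α β K := Matrix.of fun i j => A i j - A i b * (A a j / A a b) with hA'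
  have hrow : ∀ j, A' a j = 0 := fun j => by
    simp only [hA', of_apply]
    field_simp
    ring
  have hcol : ∀ i, A' i b = 0 := fun i => by
    simp only [hA', of_apply, div_self hc, mul_one, sub_self]
  obtain ⟨P, Q, e, h1, h2, h3, h4, h5, h6, h7, h8⟩ := ih (T.erase b).card
    (by rw [← hT]; exact Finset.card_erase_lt_of_mem hbT) (S.erase a) (T.erase b) rfl A' (by
      intro i j hij
      have hi : i ≠ a := fun e => hij (e ▸ hrow j)
      have hj : j ≠ b := fun e => hij (e ▸ hcol i)
      by_cases h : A i j = 0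
      · simp only [hA', of_apply, h, zero_sub, neg_ne_zero, mul_ne_zero_iff, div_ne_zero_iff] at hij
        exact ⟨Finset.mem_erase.2 ⟨hi, (hA _ _ hij.1).1⟩,
          Finset.mem_erase.2 ⟨hj, (hA _ _ hij.2.1).2⟩⟩
      · exact ⟨Finset.mem_erase.2 ⟨hi, (hA _ _ h).1⟩, Finset.mem_erase.2 ⟨hj, (hA _ _ h).2⟩⟩)
  have hea : ∀ j, e a ≠ some j := fun j h => by simpa using (h7 a j h).1
  have heb : ∀ i, e i ≠ some b := fun i h => by simpa using (h7 i b h).2
  set R : Matrix α α K := (1 : Matrix α α K).updateCol a fun i => A i b with hR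
  set C : Matrix β β K := (1 : Matrix β β K).updateRow b fun j => A a j / A a b with hC
  have hRd : R.det = A a b := by rw [hR, ← cramer_apply, cramer_one]; rfl
  have hCd : C.det = 1 := by
    rw [hC, ← cramer_transpose_apply, transpose_one, cramer_one]
    exact div_self hc
  have hRp : Par l R := fun i k h => by
    rw [hR, updateCol_apply]
    split_ifs with hk
    · subst hk
      by_contra hne
      exact (hamax i (by simpa using hne)).not_gt h
    · exact one_apply_ne fun e => (e ▸ h).false
  have hCp : Par l' C := fun k j h => by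
    rw [hC, updateRow_apply]
    split_ifs with hk
    · subst hk
      by_contra hne
      exact (hbmin j (by simpa using ⟨a, (div_ne_zero_iff.1 hne).1⟩)).not_gt h
    · exact one_apply_ne fun e => (e ▸ h).false
  have he : ((bruhat_ins e a b hea heb).toMatrix : Matrix α β K) = e.toMatrix + single a b 1 := by
    ext i j
    rw [Matrix.add_apply, PEquiv.toMatrix_apply, PEquiv.toMatrix_apply, single_apply]
    change (if j ∈ (if i = a then some b else e i) then (1 : K) else 0) = _
    by_cases hi : i = a
    · subst hi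
      simp [hea j]
    · simp [hi, Ne.symm hi]
  have hPE : P * single a b (1 : K) * Q = single a b 1 := by
    ext i j
    simp only [mul_apply, single_apply, h5 a (by simp), mul_ite, mul_one, mul_zero, ite_and,
      Finset.sum_ite_eq, Finset.mem_univ, if_true, ite_mul, zero_mul, one_mul, h6 b (by simp)]
    by_cases hi : i = a
    · simp [hi]
    · simp [hi, Ne.symm hi]
  have hRA : R * A' = A' := by
    refine Eq.trans ?_ (Matrix.one_mul A')
    ext i j
    rw [mul_apply, mul_apply]
    refine Finset.sum_congr rfl fun k _ => ?_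
    by_cases hk : k = a
    · rw [hk, hrow, mul_zero, mul_zero]
    · rw [hR, updateCol_ne hk]
  have hAC : A' * C = A' := by
    refine Eq.trans ?_ (Matrix.mul_one A')
    ext i j
    rw [mul_apply, mul_apply]
    refine Finset.sum_congr rfl fun k _ => ?_
    by_cases hk : k = b
    · rw [hk, hcol, zero_mul, zero_mul]
    · rw [hC, updateRow_ne hk]
  have hRC : R * single a b (1 : K) * C = Matrix.of fun i j => A i b * (A a j / A a b) := by
    ext i j
    simp only [mul_apply, single_apply, mul_ite, mul_one, mul_zero, ite_and,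
      Finset.sum_ite_eq, Finset.mem_univ, if_true, ite_mul, zero_mul, of_apply]
    rw [hR, hC, updateCol_self, updateRow_self]
  refine ⟨R * P, Q * C, bruhat_ins e a b hea heb, ?_, ?_, hRp.mul h3, h4.mul hCp, ?_, ?_, ?_, ?_⟩
  · rw [det_mul, hRd]; exact mul_ne_zero hc h1
  · rw [det_mul, hCd, mul_one]; exact h2
  · intro a' ha' i
    have hne : a' ≠ a := fun e => ha' (e ▸ haS)
    simp only [mul_apply, h5 a' (fun h => ha' (Finset.mem_of_mem_erase h)), mul_ite, mul_one,
      mul_zero, Finset.sum_ite_eq', Finset.mem_univ, if_true]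
    rw [hR, updateCol_ne hne, one_apply]
  · intro b' hb' j
    have hne : b' ≠ b := fun e => hb' (e ▸ hbT)
    simp only [mul_apply, h6 b' (fun h => hb' (Finset.mem_of_mem_erase h)), ite_mul, one_mul,
      zero_mul, Finset.sum_ite_eq, Finset.mem_univ, if_true]
    rw [hC, updateRow_ne hne, one_apply]
  · intro i j h
    change (if i = a then some b else e i) = some j at h
    split_ifs at h with hi
    · obtain rfl := Option.some.inj h
      exact ⟨hi ▸ haS, hbT⟩
    · exact ⟨Finset.mem_of_mem_erase (h7 i j h).1, Finset.mem_of_mem_erase (h7 i j h).2⟩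
  · have e1 : R * P * (e.toMatrix + single a b (1 : K)) * (Q * C) =
        R * (P * (e.toMatrix : Matrix α β K) * Q) * C + R * (P * single a b (1 : K) * Q) * C := by
      simp only [Matrix.mul_add, Matrix.add_mul, Matrix.mul_assoc]
    rw [he, e1, ← h8, hPE, hRA, hAC, hRC]
    ext i j
    simp [hA']

/-- Rectangular parabolic Bruhat decomposition.  Induction on the number of nonzero columns (or
on `card α`): take a nonzero column `b` of least level `l'`, in it a nonzero entry `(a,b)` of
greatest level `l`; clear the column by row operations (adding multiples of row `a` to rows of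
level `≤ l a`) and the row by column operations (adding multiples of column `b` to columns of
level `≥ l' b`; nonzero columns have such level). -/
theorem bruhat {K : Type} [Field K] {α β Λ' : Type} [Fintype α] [Fintype β] [DecidableEq α]
    [DecidableEq β] [LinearOrder Λ'] (l : α → Λ) (l' : β → Λ') (A : Matrix α β K) :
    ∃ (P : GL α K) (Q : GL β K) (e : α ≃. β), Par l (P : Matrix α α K) ∧
      Par l' (Q : Matrix β β K) ∧ A = (P : Matrix α α K) * (e.toMatrix : Matrix α β K) * (Q : Matrix β β K) := by
  obtain ⟨P, Q, e, h1, h2, h3, h4, -, -, -, h5⟩ :=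
    bruhat_aux l l' _ Finset.univ Finset.univ rfl A fun _ _ _ => ⟨Finset.mem_univ _, Finset.mem_univ _⟩
  exact ⟨GeneralLinearGroup.mkOfDetNeZero P h1, GeneralLinearGroup.mkOfDetNeZero Q h2, e, h3, h4, h5⟩

end Crest.Agent.R003
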