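import Crest.Agent.R003.Z2
import Crest.Agent.R003.LA

/-! Row 3: closed twisted surface varieties, word problems, hypotheses on the ring. -/

set_option autoImplicit false
set_option linter.unusedSectionVars false

namespace Crest.Agent.R003

open Matrix

/-- commutator -/
abbrev cm {G : Type} [Group G] (a b : G) : G := a * b * a⁻¹ * b⁻¹

/-- product of the commutators of the handles -/
def hprod {G : Type} [Group G] {g : ℕ} (ab : Fin g → G × G) : G :=
  ((List.finRange g).map fun i => cm (ab i).1 (ab i).2).prod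

section
variable (Ω : Type) [Field Ω] (κ : Type) [Fintype κ] [DecidableEq κ]

/-- the closed twisted surface variety `∏ [a i, b i] = ξ` in `GL κ` -/
abbrev CSV (g : ℕ) (ξ : Ω) : Type :=
  {ab : Fin g → GL κ Ω × GL κ Ω // ((hprod ab : GL κ Ω) : Matrix κ κ Ω) = ξ • (1 : Matrix κ κ Ω)}

variable (o : Type) [CommRing o] [Algebra o Ω]

/-- integral points are dense in all closed twisted surface varieties of `GL κ` -/
def CS : Prop := ∀ (g : ℕ) (ξ : oˣ) (x : CSV Ω κ g (algebraMap o Ω (ξ : o))), InZ o Ω x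

/-- solutions of a word problem: half edges `H`, an involution `τ` (a fixed half edge is a scalar,
two swapped half edges are inverse up to a scalar), faces = cycles of `π`. -/
structure IsWord {H : Type} (τ : H → H) (u : H → oˣ) (π : Equiv.Perm H) (A : H → GL κ Ω) : Prop where
  fix : ∀ p, τ p = p → (A p : Matrix κ κ Ω) = algebraMap o Ω (u p : o) • (1 : Matrix κ κ Ω)
  sq : ∀ p, τ p ≠ p →
    (A p : Matrix κ κ Ω) * (A (τ p) : Matrix κ κ Ω) = algebraMap o Ω (u p : o) • (1 : Matrix κ κ Ω)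
  face : ∀ p, ((List.range (Function.minimalPeriod π p)).map fun j => A ((π ^ j) p)).prod = 1

/-- integral points are dense in all word problems of `GL κ` -/
def QP : Prop := ∀ (H : Type) [Fintype H] [DecidableEq H] (τ : H → H) (u : H → oˣ)
  (π : Equiv.Perm H), (∀ p, τ (τ p) = p) → (∀ p, u (τ p) = u p) →
  ∀ A : {A : H → GL κ Ω // IsWord Ω κ o τ u π A}, InZ o Ω A

/-- the units of `o[b]` are dense in the units of `Ω[b]` -/
def Tw : Prop := ∀ (b : Matrix κ κ Ω), IsInt o Ω b → b.charpoly.Separable →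
  ∀ v : GL κ Ω, (v : Matrix κ κ Ω) * b = b * (v : Matrix κ κ Ω) →
    v ∈ Cl Ω {w : GL κ Ω | IsInt o Ω w ∧ (w : Matrix κ κ Ω) * b = b * (w : Matrix κ κ Ω)}
end

/-- the arithmetic hypotheses on the ring `o` (for matrices of size at most `r`) -/
structure Nice (o : Type) [CommRing o] (r : ℕ) : Prop where
  big : ∃ u : oˣ, ∀ n : ℕ, 0 < n → u ^ n ≠ 1
  zeta : ∃ t : ℕ → oˣ, ∀ i j, i < r → j < r → i ≠ j → IsUnit ((t i : o) - (t j : o))
  tw : ∀ (Ω : Type) [Field Ω] [IsAlgClosed Ω] [Algebra o Ω], Function.Injective (algebraMap o Ω) →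
    ∀ (κ : Type) [Fintype κ] [DecidableEq κ], Tw Ω κ o

theorem Nice.bigΩ {o : Type} [CommRing o] {r : ℕ} (h : Nice o r) {Ω : Type} [Field Ω] [Algebra o Ω]
    (hi : Function.Injective (algebraMap o Ω)) : Big o Ω := by
  obtain ⟨u, hu⟩ := h.big
  refine ⟨u, fun n hn h1 => hu n hn ?_⟩
  rw [← map_one (algebraMap o Ω)] at h1
  exact Units.ext (hi h1)

/-- the punctured surface variety with flags:
`∏ [a i, b i] * ∏ h j * (diag (z j) * x j) * (h j)⁻¹ = 1`, where `x j` is unipotent for the level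
function `l j` and the unit `z j` only depends on the level. -/
structure IsFl {o Ω κ : Type} [CommRing o] [Field Ω] [Algebra o Ω] [Fintype κ] [DecidableEq κ]
    {g s : ℕ} (l : Fin s → κ → ℕ) (z : Fin s → ℕ → oˣ)
    (d : (Fin g → GL κ Ω × GL κ Ω) × (Fin s → GL κ Ω) × (Fin s → Matrix κ κ Ω)) : Prop where
  uni : ∀ j, Uni (l j) (d.2.2 j)
  rel : ((hprod d.1 : GL κ Ω) : Matrix κ κ Ω) *
    ((List.finRange s).map fun j => (d.2.1 j : Matrix κ κ Ω) *
      ((Matrix.diagonal fun a => algebraMap o Ω (z j (l j a) : o)) * d.2.2 j) *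
      (((d.2.1 j)⁻¹ : GL κ Ω) : Matrix κ κ Ω)).prod = 1

/-- the points of the punctured surface variety with flags -/
abbrev FlV {o : Type} [CommRing o] (Ω : Type) [Field Ω] [Algebra o Ω] {κ : Type} [Fintype κ]
    [DecidableEq κ] (g : ℕ) {s : ℕ} (l : Fin s → κ → ℕ) (z : Fin s → ℕ → oˣ) : Type :=
  {d : (Fin g → GL κ Ω × GL κ Ω) × (Fin s → GL κ Ω) × (Fin s → Matrix κ κ Ω) // IsFl l z d}

section good
variable {o Ω X κ : Type} [CommRing o] [Field Ω] [Algebra o Ω] [Coord Ω X] [Fintype κ]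
  [DecidableEq κ]
theorem good_hprod {g : ℕ} {f : X → Fin g → GL κ Ω × GL κ Ω} (hf : Good o Ω f) :
    Good o Ω (fun x => hprod (f x)) :=
  Good.listProd (f := fun x i => cm (f x i).1 (f x i).2) _ fun i _ => by fun_prop
end good

end Crest.Agent.R003
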