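import Crest.Agent.R003.Dbl

/-! Row 3: matrix lemmas for the Deodhar step with an invertible corner. -/

set_option autoImplicit false
set_option linter.unusedSectionVars false

namespace Crest.Agent.R003

open Matrix

namespace Prob

variable {o : Type} [CommRing o] {ι : Type} [Fintype ι] [DecidableEq ι] {P : Prob o ι}
  {Ω : Type} [Field Ω] [Algebra o Ω]

theorem h85_swap_pair {α β : Type} [DecidableEq α] [DecidableEq β] (j k : α) (x y w : β) :
    Equiv.swap (j, x) (j, y) (k, w) = (k, if k = j then Equiv.swap x y w else w) := by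
  by_cases hk : k = j
  · subst hk
    rw [if_pos rfl]
    by_cases h1 : w = x
    · subst h1; simp
    by_cases h2 : w = y
    · subst h2; simp
    · rw [Equiv.swap_apply_of_ne_of_ne h1 h2, Equiv.swap_apply_of_ne_of_ne]
      · simpa using h1
      · simpa using h2
  · rw [if_neg hk, Equiv.swap_apply_of_ne_of_ne]
    · simp [hk]
    · simp [hk]

theorem h85_cor_cor (j : P.I) (a b : ι) (x : Matrix ι ι Ω) :
    P.cor j a b (P.cor j a b x) = P.cor j a b x := by
  ext c c'
  simp only [cor, mask, Matrix.of_apply]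
  split_ifs <;> rfl

theorem h85_cor_neg (j : P.I) (a b : ι) (x : Matrix ι ι Ω) :
    P.cor j a b (-x) = -P.cor j a b x := by
  ext c c'
  simp only [cor, mask, Matrix.of_apply, Matrix.neg_apply]
  split_ifs <;> simp

theorem h85_cor_ne {j : P.I} {a b : ι} {y : Matrix ι ι Ω} (hy : P.cor j a b y = y) {c c' : ι}
    (h : y c c' ≠ 0) : P.lev (j, c) = P.lev (j, a) ∧ P.lev (j, c') = P.lev (j, b) := by
  by_contra hh
  apply h
  rw [← hy]
  simp only [cor, mask, Matrix.of_apply, if_neg hh]

theorem h85_ind_mul {j : P.I} {a b : ι} {y : Matrix ι ι Ω} (hy : P.cor j a b y = y) :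
    P.ind Ω j a * y = y := by
  ext c c'
  rw [ind, Matrix.diagonal_mul]
  by_cases h : y c c' = 0
  · rw [h, mul_zero]
  · rw [if_pos (h85_cor_ne hy h).1, one_mul]

theorem h85_mul_ind {j : P.I} {a b : ι} {y : Matrix ι ι Ω} (hy : P.cor j a b y = y) :
    y * P.ind Ω j b = y := by
  ext c c'
  rw [ind, Matrix.mul_diagonal]
  by_cases h : y c c' = 0
  · rw [h, zero_mul]
  · rw [if_pos (h85_cor_ne hy h).2, mul_one]

theorem h85_ind_mul' {j : P.I} {a b e : ι} {y : Matrix ι ι Ω} (hy : P.cor j a b y = y)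
    (he : P.lev (j, a) ≠ P.lev (j, e)) : P.ind Ω j e * y = 0 := by
  ext c c'
  rw [ind, Matrix.diagonal_mul, Matrix.zero_apply]
  by_cases h : y c c' = 0
  · rw [h, mul_zero]
  · rw [if_neg (by rw [(h85_cor_ne hy h).1]; exact he), zero_mul]

theorem h85_mul_ind' {j : P.I} {a b e : ι} {y : Matrix ι ι Ω} (hy : P.cor j a b y = y)
    (he : P.lev (j, b) ≠ P.lev (j, e)) : y * P.ind Ω j e = 0 := by
  ext c c'
  rw [ind, Matrix.mul_diagonal, Matrix.zero_apply]
  by_cases h : y c c' = 0
  · rw [h, zero_mul]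
  · rw [if_neg (by rw [(h85_cor_ne hy h).2]; exact he), mul_zero]

theorem h85_ind_ind (j : P.I) (a : ι) : P.ind Ω j a * P.ind Ω j a = P.ind Ω j a := by
  simp only [ind, Matrix.diagonal_mul_diagonal]
  congr 1
  funext c
  split_ifs <;> simp

theorem h85_ind_ind' {j : P.I} {a b : ι} (h : P.lev (j, a) ≠ P.lev (j, b)) :
    P.ind Ω j a * P.ind Ω j b = 0 := by
  simp only [ind, Matrix.diagonal_mul_diagonal]
  rw [← Matrix.diagonal_zero]
  congr 1
  funext c
  split_ifs with h1 h2
  · exact (h (h1.symm.trans h2)).elim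
  all_goals simp

/-- the square of the inserted letter for mutually inverse corners -/
theorem h85_Gm_sq {j : P.I} {a b : ι} (hab : P.lev (j, a) ≠ P.lev (j, b)) {y y' : Matrix ι ι Ω}
    (hy : P.cor j a b y = y) (hy' : P.cor j b a y' = y') (h1 : y * y' = P.ind Ω j a)
    (h2 : y' * y = P.ind Ω j b) :
    Gm y y' * Gm y y' = 1 - P.ind Ω j a - P.ind Ω j a - P.ind Ω j b - P.ind Ω j b := by
  have e1 := h85_ind_mul hy
  have e2 := h85_mul_ind hy
  have e3 := h85_ind_mul' hy hab
  have e4 := h85_mul_ind' hy hab.symm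
  have f1 := h85_ind_mul hy'
  have f2 := h85_mul_ind hy'
  have f3 := h85_ind_mul' hy' hab.symm
  have f4 := h85_mul_ind' hy' hab
  have g1 : y * y = 0 := by rw [← e2, Matrix.mul_assoc, e2, e3, Matrix.mul_zero]
  have g2 : y' * y' = 0 := by rw [← f2, Matrix.mul_assoc, f2, f3, Matrix.mul_zero]
  have i1 := h85_ind_ind (Ω := Ω) j a
  have i2 := h85_ind_ind (Ω := Ω) j b
  have i3 := h85_ind_ind' (Ω := Ω) hab
  have i4 := h85_ind_ind' (Ω := Ω) hab.symm
  rw [Gm, h1, h2]
  simp only [mul_sub, sub_mul, mul_add, add_mul, mul_one, one_mul, e1, e2, e3, e4, f1, f2, f3, f4,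
    g1, g2, i1, i2, i3, i4, h1, h2]
  abel

theorem h85_Gm_apply {j : P.I} {a b : ι} {y y' : Matrix ι ι Ω} (h1 : y * y' = P.ind Ω j a)
    (h2 : y' * y = P.ind Ω j b) (c c' : ι) :
    Gm y y' c c' = (if c = c' then (1 - (if P.lev (j, c) = P.lev (j, a) then 1 else 0) -
      (if P.lev (j, c) = P.lev (j, b) then 1 else 0)) else 0) + y c c' - y' c c' := by
  rw [Gm, h1, h2]
  simp only [ind, Matrix.sub_apply, Matrix.add_apply, Matrix.one_apply, Matrix.diagonal_apply]
  by_cases h : c = c' <;> simp [h]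

/-- a letter exchanging the two blocks, of square `-1` on them, is of the form `Gm y y'` -/
theorem h85_Gm_of {j : P.I} {a b : ι} (hab : P.lev (j, a) ≠ P.lev (j, b)) {L : Matrix ι ι Ω}
    (hS : ∀ c c', L c c' ≠ 0 → Equiv.swap (P.lev (j, a)) (P.lev (j, b)) (P.lev (j, c)) = P.lev (j, c'))
    (hF : ∀ c, P.lev (j, c) ≠ P.lev (j, a) → P.lev (j, c) ≠ P.lev (j, b) → ∀ c',
      L c c' = if c = c' then 1 else 0)
    (hQ : ∀ c, P.lev (j, c) = P.lev (j, a) ∨ P.lev (j, c) = P.lev (j, b) → ∀ c',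
      (L * L) c c' = if c = c' then -1 else 0) :
    P.cor j a b L * -P.cor j b a L = P.ind Ω j a ∧ -P.cor j b a L * P.cor j a b L = P.ind Ω j b ∧
      L = Gm (P.cor j a b L) (-P.cor j b a L) := by
  have key : ∀ a b : ι, P.lev (j, a) ≠ P.lev (j, b) →
      (∀ c c', L c c' ≠ 0 → P.lev (j, c) = P.lev (j, a) → P.lev (j, c') = P.lev (j, b)) →
      (∀ c c', L c c' ≠ 0 → P.lev (j, c) = P.lev (j, b) → P.lev (j, c') = P.lev (j, a)) →
      (∀ c, P.lev (j, c) = P.lev (j, a) → ∀ c', (L * L) c c' = if c = c' then -1 else 0) →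
      -(P.cor j a b L * P.cor j b a L) = P.ind Ω j a := by
    intro a b _ s1 s2 hq
    ext c c'
    rw [Matrix.neg_apply, Matrix.mul_apply, ind, Matrix.diagonal_apply]
    by_cases hc : P.lev (j, c) = P.lev (j, a)
    · have e : ∑ r, P.cor j a b L c r * P.cor j b a L r c' = (L * L) c c' := by
        rw [Matrix.mul_apply]
        refine Finset.sum_congr rfl fun r _ => ?_
        simp only [cor, mask, Matrix.of_apply]
        by_cases h1 : L c r = 0
        · simp [h1]
        by_cases h2 : L r c' = 0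
        · simp [h2]
        have k1 := s1 c r h1 hc
        have k2 := s2 r c' h2 k1
        rw [if_pos ⟨hc, k1⟩, if_pos ⟨k1, k2⟩]
      rw [e, hq c hc, if_pos hc]
      split_ifs <;> simp
    · have e : ∑ r, P.cor j a b L c r * P.cor j b a L r c' = 0 := by
        refine Finset.sum_eq_zero fun r _ => ?_
        simp [cor, mask, hc]
      rw [e, if_neg hc]
      simp
  have s1 : ∀ c c', L c c' ≠ 0 → P.lev (j, c) = P.lev (j, a) → P.lev (j, c') = P.lev (j, b) := by
    intro c c' h hc
    rw [← hS c c' h, hc, Equiv.swap_apply_left]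
  have s2 : ∀ c c', L c c' ≠ 0 → P.lev (j, c) = P.lev (j, b) → P.lev (j, c') = P.lev (j, a) := by
    intro c c' h hc
    rw [← hS c c' h, hc, Equiv.swap_apply_right]
  have k1 := key a b hab s1 s2 fun c hc => hQ c (Or.inl hc)
  have k2 := key b a hab.symm s2 s1 fun c hc => hQ c (Or.inr hc)
  have k1' : P.cor j a b L * -P.cor j b a L = P.ind Ω j a := by rw [Matrix.mul_neg, k1]
  have k2' : -P.cor j b a L * P.cor j a b L = P.ind Ω j b := by rw [Matrix.neg_mul, k2]
  refine ⟨k1', k2', ?_⟩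
  ext c c'
  rw [h85_Gm_apply k1' k2']
  simp only [cor, mask, Matrix.of_apply, Matrix.neg_apply]
  by_cases ha : P.lev (j, c) = P.lev (j, a)
  · have hb : ¬ P.lev (j, c) = P.lev (j, b) := fun h => hab (ha.symm.trans h)
    by_cases h0 : L c c' = 0
    · simp [ha, hab, h0]
    · simp [ha, hab, s1 c c' h0 ha]
  by_cases hb : P.lev (j, c) = P.lev (j, b)
  · by_cases h0 : L c c' = 0
    · simp [hb, hab.symm, h0]
    · simp [hb, hab.symm, s2 c c' h0 hb]
  · simp [ha, hb, hF c ha hb c']

theorem h85_inv_aux {j : P.I} {a b : ι} (h : P.Adj j a b) {k : P.I} {c c' : ι}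
    (hlt : P.slev j a b (k, c) < P.slev j a b (k, c')) (hgt : P.lev (k, c') < P.lev (k, c)) :
    k = j ∧ P.slev j a b (k, c) = P.lev (j, a) ∧ P.slev j a b (k, c') = P.lev (j, b) := by
  by_cases hk : k = j
  · subst hk
    rcases (slev_lt_iff h c c').1 hlt with h3 | h3
    · exact absurd h3.1 (not_lt_of_gt hgt)
    · simp [slev, h3.1, h3.2]
  · simp only [slev, hk, if_false] at hlt
    exact absurd hlt (not_lt_of_gt hgt)

theorem h85_slev_fix {j : P.I} {a b : ι} (hab : P.lev (j, a) ≠ P.lev (j, b)) {k : P.I} {c : ι}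
    (hc : P.lev (k, c) = P.slev j a b (k, c)) (hk : k = j) :
    P.lev (k, c) ≠ P.lev (j, a) ∧ P.lev (k, c) ≠ P.lev (j, b) := by
  subst hk
  simp only [slev, if_true] at hc
  constructor
  · intro e
    rw [e, Equiv.swap_apply_left] at hc
    exact hab hc
  · intro e
    rw [e, Equiv.swap_apply_right] at hc
    exact hab hc.symm

theorem h85_slev_not {j : P.I} {a b : ι} {k : P.I} {c : ι}
    (hc : P.lev (k, c) ≠ P.slev j a b (k, c)) :
    k = j ∧ (P.lev (k, c) = P.lev (j, a) ∨ P.lev (k, c) = P.lev (j, b)) := by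
  have hk : k = j := by
    by_contra hk
    exact hc (by simp [slev, hk])
  subst hk
  refine ⟨rfl, ?_⟩
  by_contra hh
  push Not at hh
  exact hc (by simp only [slev, if_true]; rw [Equiv.swap_apply_of_ne_of_ne hh.1 hh.2])

section
variable {j : P.I} {a b : ι} (hab : P.lev (j, a) ≠ P.lev (j, b)) {y y' : Matrix ι ι Ω}
  (hy : P.cor j a b y = y) (hy' : P.cor j b a y' = y') (h1 : y * y' = P.ind Ω j a)
  (h2 : y' * y = P.ind Ω j b)
include hab hy hy' h1 h2

theorem h85_H_supp (k : P.I) (c c' : ι) (hne : P.slev j a b (k, c) ≠ P.lev (k, c')) :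
    (if k = j then Gm y y' else 1) c c' = 0 := by
  by_cases hk : k = j
  · subst hk
    simp only [slev, if_true] at hne ⊢
    have z1 : y c c' = 0 := by
      by_contra z
      obtain ⟨z1, z2⟩ := h85_cor_ne hy z
      exact hne (by rw [z1, z2, Equiv.swap_apply_left])
    have z2 : y' c c' = 0 := by
      by_contra z
      obtain ⟨z1, z2⟩ := h85_cor_ne hy' z
      exact hne (by rw [z1, z2, Equiv.swap_apply_right])
    rw [h85_Gm_apply h1 h2, z1, z2]
    by_cases hc : c = c'
    · subst hc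
      by_cases ha : P.lev (k, c) = P.lev (k, a)
      · simp [ha, hab]
      by_cases hb : P.lev (k, c) = P.lev (k, b)
      · simp [hb, hab.symm]
      · exact (hne (Equiv.swap_apply_of_ne_of_ne ha hb)).elim
    · simp [hc]
  · simp only [slev, hk, if_false] at hne ⊢
    rw [Matrix.one_apply_ne]
    rintro rfl
    exact hne rfl

theorem h85_H_fix (k : P.I) (c : ι) (hc : P.lev (k, c) = P.slev j a b (k, c)) (c' : ι) :
    (if k = j then Gm y y' else 1) c c' = if c = c' then 1 else 0 := by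
  by_cases hk : k = j
  · obtain ⟨ha, hb⟩ := h85_slev_fix hab hc hk
    subst hk
    have z1 : y c c' = 0 := by
      by_contra z
      exact ha (h85_cor_ne hy z).1
    have z2 : y' c c' = 0 := by
      by_contra z
      exact hb (h85_cor_ne hy' z).1
    simp only [if_true]
    rw [h85_Gm_apply h1 h2, z1, z2]
    simp [ha, hb]
  · simp [hk, Matrix.one_apply]

theorem h85_H_sq (k : P.I) (c : ι) (hc : P.lev (k, c) ≠ P.slev j a b (k, c)) (c' : ι) :
    ((if k = j then Gm y y' else 1) * (if k = j then Gm y y' else 1)) c c' =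
      if c = c' then -1 else 0 := by
  obtain ⟨rfl, u2⟩ := h85_slev_not hc
  simp only [if_true]
  rw [h85_Gm_sq hab hy hy' h1 h2]
  simp only [ind, Matrix.sub_apply, Matrix.one_apply, Matrix.diagonal_apply]
  by_cases hc : c = c'
  · subst hc
    rcases u2 with u2 | u2
    · simp [u2, hab]
    · simp [u2, hab.symm]
  · simp [hc]

end

theorem h85_mul_slot {I : Type} [Fintype I] [DecidableEq I] (M : Matrix (I × ι) (I × ι) Ω) (x : I)
    (c c' : ι) (h : ∀ w r, w ≠ x → M (x, c) (w, r) = 0) :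
    (M * M) (x, c) (x, c') = ∑ r, M (x, c) (x, r) * M (x, r) (x, c') := by
  rw [Matrix.mul_apply, Fintype.sum_prod_type, Finset.sum_eq_single x]
  · intro w _ hw
    exact Finset.sum_eq_zero fun r _ => by rw [h w r hw, zero_mul]
  · simp

end Prob

end Crest.Agent.R003
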