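import Crest.Agent.R003.Dbl

/-! Row 3: auxiliary facts for the Deodhar step (rank normal form, the involution of a partial
bijection). -/

set_option autoImplicit false
set_option linter.unusedSectionVars false

namespace Crest.Agent.R003

open Matrix

theorem deoB_ring {R : Type} [Ring R] {A B p p' q q' e y : R} (hA : A * A = A) (hB : B * B = B)
    (hAB : A * B = 0) (hBA : B * A = 0) (hp : p * p' = 1) (hp' : p' * p = 1) (hq : q * q' = 1)
    (hq' : q' * q = 1) (h1 : A * (p * A) = p * A) (h2 : A * (p' * A) = p' * A)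
    (h3 : B * q * B = B * q) (h4 : B * q' * B = B * q') (hy : A * y * B = y)
    (he : y = p * e * q) :
    e = A * e * B ∧ (p * A + B * q' + (1 - A - B)) * (p' * A + B * q + (1 - A - B)) = 1 ∧
      y = (p * A + B * q' + (1 - A - B)) * e * (p' * A + B * q + (1 - A - B)) := by
  have e1 : e = p' * y * q' := by
    rw [he, ← mul_assoc, ← mul_assoc, hp', one_mul, mul_assoc, hq, mul_one]
  have e2 : e = (p' * A) * y * (B * q') := by
    rw [e1, ← hy]
    simp only [mul_assoc]
    rw [← mul_assoc A A, hA, ← mul_assoc B B, hB]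
  have e3 : e = A * e * B := by
    have : A * ((p' * A) * y * (B * q')) * B = (A * (p' * A)) * y * (B * q' * B) := by
      simp only [mul_assoc]
    conv_rhs => rw [e2, this, h2, h4]
    exact e2
  have l1 : (p * A + B * q' + (1 - A - B)) * A = p * A := by
    rw [add_mul, add_mul, mul_assoc p, hA, ← h4, mul_assoc (B * q'), hBA, sub_mul, sub_mul, hA,
      hBA]
    simp
  have l2 : (p * A + B * q' + (1 - A - B)) * B = B * q' := by
    rw [add_mul, add_mul, mul_assoc p, hAB, h4, sub_mul, sub_mul, hAB, hB]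
    simp
  have l3 : (p * A + B * q' + (1 - A - B)) * (1 - A - B) = 1 - A - B := by
    rw [mul_sub, mul_sub, l1, l2]
    noncomm_ring
  have l4 : B * (p' * A + B * q + (1 - A - B)) = B * q := by
    rw [mul_add, mul_add, ← h2, ← mul_assoc B A, hBA, ← mul_assoc B B, hB, mul_sub, mul_sub, hBA,
      hB]
    simp
  refine ⟨e3, ?_, ?_⟩
  · rw [mul_add, mul_add, l3, ← h2, ← mul_assoc _ A, l1, ← mul_assoc _ B q, l2, mul_assoc p, h2,
      ← mul_assoc p, hp, mul_assoc B, hq']
    simp
  · conv_rhs => rw [e3, ← mul_assoc, ← mul_assoc, l1, mul_assoc _ B, l4]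
    rw [mul_assoc p, ← mul_assoc _ B, mul_assoc p _ B, ← e3, he]

/-- the involution attached to a partial bijection with disjoint domain and range -/
def deoBg {ι : Type} (e : ι ≃. ι) (c : ι) : ι := (e c).getD ((e.symm c).getD c)

theorem deoBg_cases {ι Λ : Type} {l : ι → Λ} {A B : Λ} (hAB : A ≠ B) {e : ι ≃. ι}
    (he : ∀ c c', e c = some c' → l c = A ∧ l c' = B) (c : ι) :
    (e c = some (deoBg e c) ∧ e.symm c = none ∧ l c = A ∧ l (deoBg e c) = B) ∨
    (e (deoBg e c) = some c ∧ e.symm c = some (deoBg e c) ∧ e c = none ∧ l c = B ∧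
      l (deoBg e c) = A) ∨
    (e c = none ∧ e.symm c = none ∧ deoBg e c = c) := by
  rcases h1 : e c with _ | c'
  · rcases h2 : e.symm c with _ | c''
    · exact Or.inr (Or.inr ⟨rfl, rfl, by simp [deoBg, h1, h2]⟩)
    · have h3 : e c'' = some c := e.eq_some_iff.1 h2
      have h4 : deoBg e c = c'' := by simp [deoBg, h1, h2]
      rw [h4]
      exact Or.inr (Or.inl ⟨h3, rfl, rfl, (he _ _ h3).2, (he _ _ h3).1⟩)
  · have h4 : deoBg e c = c' := by simp [deoBg, h1]
    rw [h4]
    refine Or.inl ⟨rfl, ?_, he _ _ h1⟩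
    rcases h2 : e.symm c with _ | c''
    · rfl
    · exact absurd ((he _ _ h1).1.symm.trans (he _ _ (e.eq_some_iff.1 h2)).2) hAB

theorem deoBg_invol {ι Λ : Type} {l : ι → Λ} {A B : Λ} (hAB : A ≠ B) {e : ι ≃. ι}
    (he : ∀ c c', e c = some c' → l c = A ∧ l c' = B) (c : ι) : deoBg e (deoBg e c) = c := by
  rcases deoBg_cases hAB he c with h | h | h
  · rcases deoBg_cases hAB he (deoBg e c) with h' | h' | h'
    · exact absurd (h'.2.2.1.symm.trans h.2.2.2) hAB
    · have := e.eq_some_iff.2 h.1
      rw [h'.2.1] at this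
      exact Option.some.inj this
    · have := e.eq_some_iff.2 h.1
      rw [h'.2.1] at this
      exact absurd this (by simp)
  · conv_lhs => rw [deoBg, h.1]
    rfl
  · rw [h.2.2, h.2.2]

end Crest.Agent.R003
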