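import Crest.Agent.R003.Dbl

/-! Row 3: the rank cells of the Deodhar step (auxiliary lemmas). -/

set_option autoImplicit false
set_option linter.unusedSectionVars false

namespace Crest.Agent.R003

open Matrix

namespace Prob

variable {o : Type} [CommRing o] {ι : Type} [Fintype ι] [DecidableEq ι] {P : Prob o ι}
  {Ω : Type} [Field Ω] [Algebra o Ω]

theorem deoC_EEE (e : ι ≃. ι) :
    (e.symm.toMatrix : Matrix ι ι Ω) * e.toMatrix * e.symm.toMatrix = e.symm.toMatrix := by
  ext c c'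
  rw [Matrix.mul_assoc, PEquiv.toMatrix_mul_apply]
  cases h : e.symm c with
  | none => simp [PEquiv.toMatrix_apply, h]
  | some x =>
    have hx : e x = some c := e.eq_some_iff.1 h
    simp only [PEquiv.toMatrix_mul_apply, hx]

theorem deoC_Gm_conj {l l' : Matrix ι ι Ω} (h1 : l * l' = 1) (y y' : Matrix ι ι Ω) :
    Gm (l * y * l') (l * y' * l') = l * Gm y y' * l' := by
  have h2 : l' * l = 1 := mul_eq_one_comm.1 h1
  have h3 : ∀ x x' : Matrix ι ι Ω, l * x * l' * (l * x' * l') = l * (x * x') * l' := fun x x' => by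
    calc _ = l * x * (l' * l) * x' * l' := by simp only [Matrix.mul_assoc]
      _ = _ := by rw [h2]; simp only [Matrix.mul_assoc, Matrix.one_mul]
  simp only [Gm, h3, Matrix.mul_sub, Matrix.sub_mul, Matrix.mul_add, Matrix.add_mul,
    Matrix.mul_one, h1]

theorem deoC_cor_iff {j : P.I} {a b : ι} {y : Matrix ι ι Ω} : P.cor j a b y = y ↔
    ∀ c c', y c c' ≠ 0 → P.lev (j, c) = P.lev (j, a) ∧ P.lev (j, c') = P.lev (j, b) := by
  constructor
  · intro h c c' hc
    by_contra hn
    rw [← h] at hc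
    exact hc (if_neg hn)
  · intro h
    ext c c'
    simp only [cor, mask, Matrix.of_apply]
    split_ifs with hc
    · rfl
    · exact (by_contra fun h0 => hc (h c c' h0) : y c c' = 0).symm

theorem deoC_ne {x y : Matrix ι ι Ω} {c c' : ι} (h : (x * y) c c' ≠ 0) :
    ∃ t, x c t ≠ 0 ∧ y t c' ≠ 0 := by
  obtain ⟨t, -, ht⟩ := Finset.exists_ne_zero_of_sum_ne_zero h
  exact ⟨t, mul_ne_zero_iff.1 ht⟩

theorem deoC_cor_conj {j : P.I} {a b : ι} {l l' y : Matrix ι ι Ω} (hl : BD (P.lv j) l)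
    (h1 : l * l' = 1) (hy : P.cor j a b y = y) : P.cor j a b (l * y * l') = l * y * l' := by
  have hl' := supp_inv (p := P.lv j) (q := P.lv j) h1 (mul_eq_one_comm.1 h1) hl
  refine deoC_cor_iff.2 fun c c' h => ?_
  obtain ⟨t', h2, h3⟩ := deoC_ne h
  obtain ⟨t, h4, h5⟩ := deoC_ne h2
  obtain ⟨h6, h7⟩ := deoC_cor_iff.1 hy t t' h5
  exact ⟨(by_contra fun hn => h4 (hl c t hn) : P.lv j c = P.lv j t).trans h6,
    (by_contra fun hn => h3 (hl' t' c' hn) : P.lv j c' = P.lv j t').trans h7⟩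

theorem deoC_Gm_row {j : P.I} {a b : ι} {y y' : Matrix ι ι Ω} (hy : P.cor j a b y = y)
    (hy' : P.cor j b a y' = y') {c : ι} (hc : mlev j a b c ≠ P.lev (j, a)) (c' : ι) :
    Gm y y' c c' = if c = c' then 1 else 0 := by
  have hb : P.lev (j, c) ≠ P.lev (j, b) := fun e => hc (if_pos e)
  have ha : P.lev (j, c) ≠ P.lev (j, a) := fun e => hc ((if_neg hb).trans e)
  have h1 : ∀ t, y c t = 0 := fun t => by_contra fun h => ha (deoC_cor_iff.1 hy c t h).1
  have h2 : ∀ t, y' c t = 0 := fun t => by_contra fun h => hb (deoC_cor_iff.1 hy' c t h).1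
  simp [Gm, Matrix.mul_apply, h1, h2, Matrix.one_apply]

theorem deoC_Gm_bd {j : P.I} {a b : ι} {y y' : Matrix ι ι Ω} (hy : P.cor j a b y = y)
    (hy' : P.cor j b a y' = y') : BD (mlev (P := P) j a b) (Gm y y') := by
  have ha : ∀ c, P.lev (j, c) = P.lev (j, a) → mlev j a b c = P.lev (j, a) := fun c h => by
    unfold mlev
    split_ifs
    · rfl
    · exact h
  have hb : ∀ c, P.lev (j, c) = P.lev (j, b) → mlev j a b c = P.lev (j, a) := fun c h => if_pos h
  have h1 : BD (mlev (P := P) j a b) y := fun c c' hn => by_contra fun h =>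
    hn ((ha c (deoC_cor_iff.1 hy c c' h).1).trans (hb c' (deoC_cor_iff.1 hy c c' h).2).symm)
  have h2 : BD (mlev (P := P) j a b) y' := fun c c' hn => by_contra fun h =>
    hn ((hb c (deoC_cor_iff.1 hy' c c' h).1).trans (ha c' (deoC_cor_iff.1 hy' c c' h).2).symm)
  intro c c' hn
  have hne : c ≠ c' := fun e => hn (e ▸ rfl)
  simp [Gm, h1.mul h2 c c' hn, h2.mul h1 c c' hn, h1 c c' hn, h2 c c' hn, hne]

theorem deoC_Gm_E (e : ι ≃. ι) (hd : ∀ c c', e c = some c' → e c' = none) {α : Type}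
    [DecidableEq α] {f : ι → α} (hf : Function.Injective f) {ς : α → α} (h0 : ∀ s, ς (ς s) = s)
    (h1 : ∀ c c', e c = some c' → ς (f c) = f c')
    (h2 : ∀ c, e c = none → e.symm c = none → ς (f c) = f c) (c c' : ι) :
    Gm (e.toMatrix : Matrix ι ι Ω) e.symm.toMatrix c c' =
      if f c' = ς (f c) then (if (e.symm c).isSome then -1 else 1) else 0 := by
  simp only [Gm, Matrix.sub_apply, Matrix.add_apply, PEquiv.toMatrix_mul_apply, Matrix.one_apply]
  cases hc : e c with
  | some x =>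
    have h3 : e.symm c = none := by
      cases h : e.symm c with
      | none => rfl
      | some t => exact absurd (hd t c (e.eq_some_iff.1 h)) (by simp [hc])
    have h4 : e.symm x = some c := e.eq_some_iff.2 hc
    simp [PEquiv.toMatrix_apply, hc, h3, h4, h1 c x hc, hf.eq_iff, eq_comm]
  | none =>
    cases h : e.symm c with
    | none => simp [PEquiv.toMatrix_apply, hc, h, h2 c hc h, hf.eq_iff, eq_comm]
    | some t =>
      have h4 : e t = some c := e.eq_some_iff.1 h
      have h5 : ς (f c) = f t := by rw [← h1 t c h4, h0]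
      simp only [PEquiv.toMatrix_apply, hc, h, h4, h5, hf.eq_iff, Option.mem_def, Option.some.injEq,
        reduceCtorEq, if_false, Option.isSome_some, if_true, eq_comm (a := c') (b := t)]
      split_ifs <;> simp

theorem deoC_M0_slot (C : P.Cell) (h : ∀ p, C.act p → P.tau p = p) (s t : P.Site)
    (hst : s.1 ≠ t.1) : C.M0 Ω s t = 0 := by
  refine if_neg fun e => hst ?_
  rw [e]
  by_cases ha : C.act (P.pc s)
  · exact (P.pc_slot _ _ ((C.ς_pc s ha).trans (h _ ha))).symm
  · rw [C.ς_of_not s ha]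

/-- the global matrix with prescribed slots -/
def deoCglob (f : P.I → Matrix ι ι Ω) : Matrix P.Site P.Site Ω :=
  Matrix.of fun s t => if s.1 = t.1 then f s.1 s.2 t.2 else 0

theorem deoC_slot_mul {G G' : Matrix P.Site P.Site Ω} (hG : ∀ s t : P.Site, s.1 ≠ t.1 → G s t = 0)
    (hG' : ∀ s t : P.Site, s.1 ≠ t.1 → G' s t = 0) (s t : P.Site) (h : s.1 ≠ t.1) :
    (G * G') s t = 0 := by
  refine Finset.sum_eq_zero fun r _ => ?_
  by_cases hr : s.1 = r.1
  · exact mul_eq_zero_of_right _ (hG' r t (hr ▸ h))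
  · exact mul_eq_zero_of_left (hG s r hr) _

theorem deoC_loc_inv {G G' : Matrix P.Site P.Site Ω} (h1 : G * G' = 1)
    (hG : ∀ s t : P.Site, s.1 ≠ t.1 → G s t = 0) (i : P.I) : P.loc G i * P.loc G' i = 1 := by
  rw [← loc_mul hG, h1, loc_one]

theorem deoC_loc3 {G M : Matrix P.Site P.Site Ω} (G' : Matrix P.Site P.Site Ω)
    (hG : ∀ s t : P.Site, s.1 ≠ t.1 → G s t = 0) (hM : ∀ s t : P.Site, s.1 ≠ t.1 → M s t = 0)
    (i : P.I) (c c' : ι) :
    (G * M * G') (i, c) (i, c') = (P.loc G i * P.loc M i * P.loc G' i) c c' := by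
  rw [← loc_mul hG, ← loc_mul (deoC_slot_mul hG hM)]
  rfl

theorem deoC_glob_slot (f : P.I → Matrix ι ι Ω) (s t : P.Site) (h : s.1 ≠ t.1) :
    deoCglob f s t = 0 := if_neg h

theorem deoC_loc_glob (f : P.I → Matrix ι ι Ω) (i : P.I) : P.loc (deoCglob f) i = f i := by
  ext c c'
  exact if_pos rfl

theorem deoC_glob_inv {f g : P.I → Matrix ι ι Ω} (h : ∀ i, f i * g i = 1) :
    deoCglob f * deoCglob g = 1 := by
  ext ⟨i, c⟩ ⟨k, c'⟩
  by_cases hi : i = k
  · subst hi
    have := congrFun (congrFun (loc_mul (G' := deoCglob g) (deoC_glob_slot f) i) c) c'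
    rw [deoC_loc_glob, deoC_loc_glob, h i] at this
    simpa [Matrix.one_apply, loc] using this
  · rw [deoC_slot_mul (deoC_glob_slot f) (deoC_glob_slot g) _ _ hi, Matrix.one_apply_ne]
    exact fun e => hi (congrArg Prod.fst e)

/-- the merged piece structure with the cell of a partial bijection -/
structure DeoC (hT : P.Thin) (j : P.I) (a b : ι) (m : (swap hT j a b).Mid) (e : ι ≃. ι)
    (C : m.dbl.Cell) : Prop where
  adj : P.Adj j a b
  he : ∀ c c', e c = some c' → P.lev (j, c) = P.lev (j, a) ∧ P.lev (j, c') = P.lev (j, b)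
  pc : ∀ s : P.Site, m.pc s = (s.1, if s.1 = j then mlev (P := P) j a b s.2 else P.lev s)
  tau : ∀ p, m.tau p = p
  u : ∀ p, m.u p = 1
  act : ∀ p, C.act p ↔ p = .inl (j, P.lev (j, a))
  ς₁ : ∀ c c', e c = some c' → C.ς ((j, false), c) = ((j, false), c')
  ς₂ : ∀ c, e c = none → e.symm c = none → C.ς ((j, false), c) = ((j, false), c)
  ε : ∀ c, C.ε ((j, false), c) = if (e.symm c).isSome then -1 else 1

section
variable {hT : P.Thin} {j : P.I} {a b : ι} {m : (swap hT j a b).Mid} {e : ι ≃. ι} {C : m.dbl.Cell}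
  (h : DeoC hT j a b m e C)
include h

theorem DeoC.act_iff (k : P.I) (c : ι) :
    C.act (.inl (m.pc (k, c))) ↔ k = j ∧ mlev j a b c = P.lev (j, a) := by
  refine (h.act _).trans ⟨fun h1 => ?_, ?_⟩
  · obtain ⟨rfl, h2⟩ := Prod.mk.inj ((h.pc (k, c)).symm.trans (Sum.inl.inj h1))
    exact ⟨rfl, (if_pos rfl).symm.trans h2⟩
  · rintro ⟨rfl, h2⟩
    exact congrArg Sum.inl ((h.pc (k, c)).trans (Prod.ext rfl ((if_pos rfl).trans h2)))

theorem DeoC.slot (s t : m.dbl.Site) (hst : s.1 ≠ t.1) : C.M0 Ω s t = 0 := by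
  refine deoC_M0_slot C (fun p hp => ?_) s t hst
  rw [(h.act p).1 hp]
  exact congrArg Sum.inl (h.tau _)

theorem DeoC.loc : m.dbl.loc (C.M0 Ω) (j, false) = Gm e.toMatrix e.symm.toMatrix := by
  ext c c'
  rw [deoC_Gm_E e (fun c c' hc => ?_) (f := fun c => (((j, false), c) : m.dbl.Site))
    (fun c c' hc => (Prod.mk.inj hc).2) C.ς_ς h.ς₁ h.ς₂]
  · simp only [Prob.loc, Cell.M0, Matrix.of_apply, h.ε]
    split_ifs <;> simp
  · cases h1 : e c' with
    | none => rfl
    | some t => exact absurd ((h.he c' t h1).1.symm.trans (h.he c c' hc).2) h.adj.lt.ne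

theorem DeoC.corE : P.cor j a b (e.toMatrix : Matrix ι ι Ω) = e.toMatrix :=
  deoC_cor_iff.2 fun c c' hc => h.he c c' (by_contra fun hn => hc (if_neg hn))

theorem DeoC.corE' : P.cor j b a (e.symm.toMatrix : Matrix ι ι Ω) = e.symm.toMatrix :=
  deoC_cor_iff.2 fun c c' hc =>
    (h.he c' c (e.eq_some_iff.1 (by_contra fun hn => hc (if_neg hn)))).symm

theorem DeoC.conj {G G' : Matrix m.dbl.Site m.dbl.Site Ω} (h1 : G * G' = 1)
    (hG : ∀ s t : m.dbl.Site, s.1 ≠ t.1 → G s t = 0) (c c' : ι) :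
    (G * C.M0 Ω * G') ((j, false), c) ((j, false), c') =
      Gm (m.dbl.loc G (j, false) * e.toMatrix * m.dbl.loc G' (j, false))
        (m.dbl.loc G (j, false) * e.symm.toMatrix * m.dbl.loc G' (j, false)) c c' := by
  rw [deoC_Gm_conj (deoC_loc_inv h1 hG (j, false)), ← h.loc]
  exact deoC_loc3 G' hG h.slot _ c c'

theorem DeoC.isDD {d : m.dbl.Data Ω} (hd : C.IsForm d) : P.IsDD j a b (Mid.down hT j a b m d) := by
  obtain ⟨G, G', h1, hG, hf⟩ := hd.form
  have hG0 : ∀ s t : m.dbl.Site, s.1 ≠ t.1 → G s t = 0 := fun s t hst => hG s t fun hb => hst hb.1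
  have h2 : m.dbl.loc G (j, false) * m.dbl.loc G' (j, false) = 1 := deoC_loc_inv h1 hG0 _
  have hl : BD (P.lv j) (m.dbl.loc G (j, false)) := fun c c' hn =>
    hG _ _ fun hb => hn ((blk_slev j a b (j, c) (j, c')).1 ⟨rfl, hb.2⟩).2
  have hfix : ∀ k c c', ¬ (k = j ∧ mlev j a b c = P.lev (j, a)) →
      d.2.1 ((k, false), c) ((k, false), c') = if c = c' then 1 else 0 := by
    intro k c c' hn
    rw [hd.pre.fix ((k, false), c) (fun ha => hn ((h.act_iff k c).1 ha))
      (congrArg Sum.inl (h.tau _))]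
    have hu : m.dbl.uu Ω ((k, false), c) = 1 := by
      change algebraMap o Ω (m.u (m.pc (k, c)) : o) = 1
      rw [h.u, Units.val_one, map_one]
    rw [hu]
    exact if_congr ⟨fun e' => (Prod.mk.inj e').2, fun e' => congrArg (Prod.mk _) e'⟩ rfl rfl
  have hy := deoC_cor_conj hl h2 h.corE
  have hy' := deoC_cor_conj hl h2 h.corE'
  refine Mid.down_isDD hT j a b m (fun p hp => by simpa using (h.act _).1 hp) hd.pre
    (fun k hk => ?_) hy hy' h.adj ?_ ?_
  · ext c c'
    rw [Mid.L_false, hfix k c c' fun hn => hk hn.1, Matrix.one_apply]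
  · have h3 := mul_eq_one_comm.1 h2
    generalize m.dbl.loc G (j, false) = l at *
    generalize m.dbl.loc G' (j, false) = l' at *
    calc _ = l * (e.symm.toMatrix * (l' * l) * e.toMatrix * (l' * l) * e.symm.toMatrix) * l' := by
          simp only [Matrix.mul_assoc]
      _ = _ := by rw [h3, Matrix.mul_one, Matrix.mul_one, deoC_EEE]
  · ext c c'
    rw [Mid.L_false]
    by_cases hc : mlev j a b c = P.lev (j, a)
    · exact (hf ((j, false), c) _ ((h.act_iff j c).2 ⟨rfl, hc⟩)).trans (h.conj h1 hG0 c c')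
    · rw [hfix j c c' fun hn => hc hn.2, deoC_Gm_row hy hy' hc]

theorem DeoC.exists_form {l l' : Matrix ι ι Ω} (hl : BD (P.lv j) l) (h1 : l * l' = 1)
    {d : P.DData Ω} (hd : P.IsDD j a b d)
    (hy : d.2.2 = (l * e.toMatrix * l', l * e.symm.toMatrix * l')) :
    ∃ d' : m.dbl.Data Ω, C.IsForm d' ∧ Mid.down hT j a b m d' = d := by
  classical
  have hs : ∀ (k : P.I) c c', m.pc (k, c) ≠ m.tau (m.pc (k, c')) →
      (if k = j then Gm d.2.2.1 d.2.2.2 else 1) c c' = 0 := by
    intro k c c' hn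
    by_cases hk : k = j
    · subst hk
      rw [if_pos rfl]
      refine deoC_Gm_bd hd.cy hd.cy' c c' fun e' => hn ?_
      refine (h.pc (k, c)).trans (Eq.trans ?_ ((h.tau _).trans (h.pc (k, c'))).symm)
      exact congrArg (Prod.mk k) ((if_pos rfl).trans (e'.trans (if_pos rfl).symm))
    · rw [if_neg hk]
      exact Matrix.one_apply_ne fun e' => hn (by subst e'; exact (h.tau _).symm)
  have hf : ∀ (k : P.I) c, ¬ C.act (.inl (m.pc (k, c))) → ∀ c',
      (if k = j then Gm d.2.2.1 d.2.2.2 else 1) c c' =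
        if c = c' then algebraMap o Ω (m.u (m.pc (k, c)) : o) else 0 := by
    intro k c hn c'
    rw [h.u, Units.val_one, map_one]
    by_cases hk : k = j
    · subst hk
      rw [if_pos rfl]
      exact deoC_Gm_row hd.cy hd.cy' (fun hc => hn ((h.act_iff k c).2 ⟨rfl, hc⟩)) c'
    · rw [if_neg hk, Matrix.one_apply]
  obtain ⟨d', h2, h3, h4⟩ := Mid.exists_up hT j a b m (act := C.act) h.adj hd
    (fun k => if k = j then Gm d.2.2.1 d.2.2.2 else 1) (fun _ => rfl) hs
    (fun k c hn _ => hf k c hn) fun k c _ hn => absurd (h.tau _) hn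
  have hinv : ∀ i : m.dbl.I, (if i = (j, false) then l else 1) *
      (if i = (j, false) then l' else 1) = 1 := fun i => by
    split_ifs
    · exact h1
    · exact Matrix.one_mul _
  have hG := deoC_glob_inv (P := m.dbl) hinv
  refine ⟨d', ⟨h2, _, _, hG, ?_, ?_⟩, h3⟩
  · rintro ⟨i, c⟩ ⟨k, c'⟩ hn
    by_cases hi : i = k
    · subst hi
      refine (if_pos rfl).trans ?_
      by_cases hj : i = (j, false)
      · subst hj
        rw [if_pos rfl]
        exact hl c c' fun e' => hn ⟨rfl, ((blk_slev j a b (j, c) (j, c')).2 ⟨rfl, e'⟩).2⟩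
      · rw [if_neg hj]
        exact Matrix.one_apply_ne fun e' => hn ⟨rfl, congrArg (fun x => m.dbl.lev (i, x)) e'⟩
    · exact if_neg hi
  · rintro ⟨⟨k, x⟩, c⟩ ⟨i, c'⟩ ha
    have hx : x = false := by
      cases x
      · rfl
      · exact absurd ((h.act _).1 ha) Sum.inr_ne_inl
    subst hx
    have hk : j = k := ((h.act_iff k c).1 ha).1.symm
    subst hk
    by_cases hi : (j, false) = i
    · subst hi
      refine Eq.trans ?_ (h.conj hG (deoC_glob_slot _) c c').symm
      have e1 := (deoC_loc_glob (P := m.dbl) (fun i => if i = (j, false) then l else 1)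
        (j, false)).trans (if_pos rfl)
      have e2 := (deoC_loc_glob (P := m.dbl) (fun i => if i = (j, false) then l' else 1)
        (j, false)).trans (if_pos rfl)
      have e3 := (h4 j).trans (if_pos rfl)
      rw [hy] at e3
      rw [e1, e2, ← e3]
      exact (Mid.L_false hT j a b m _ j c c').symm
    · refine Eq.trans ?_ (deoC_slot_mul (deoC_slot_mul (deoC_glob_slot _) h.slot)
        (deoC_glob_slot _) _ _ hi).symm
      refine h2.supp _ _ fun e' => hi ?_
      obtain ⟨i, y⟩ := i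
      cases y
      · have := (m.pc_fst _).symm.trans ((congrArg Prod.fst (Sum.inl.inj e')).trans
          ((m.tau_fst _).trans (m.pc_fst _)))
        exact Prod.ext this rfl
      · exact absurd e' Sum.inl_ne_inr

end

theorem DeoC.dense {hT : P.Thin} {i : P.I} {a b : ι} {m : (swap hT (P.nx i) a b).Mid} {e : ι ≃. ι}
    {C : m.dbl.Cell} (h : DeoC hT (P.nx i) a b m e C) (hB : P.Bwd (P.nx i) a b) (hi : P.nx i ≠ i)
    (hF : P.Fwd (P.nx i) a b) (s : P.Sol Ω) {l l' : Matrix ι ι Ω} (hl : BD (P.lv (P.nx i)) l)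
    (h1 : l * l' = 1) (hy : P.cor (P.nx i) a b (s.1.1 (P.nx i)) = l * e.toMatrix * l') :
    ∃ d : {d // C.IsForm (Ω := Ω) d}, (InZ o Ω d → InZ o Ω s) := by
  obtain ⟨R, hR, hR'⟩ := dd_retract (Ω := Ω) h.adj hB hi hF
  obtain ⟨d, h2, h3⟩ := hR' s (l * e.symm.toMatrix * l') (deoC_cor_conj hl h1 h.corE') (by
    rw [hy]
    calc _ = l * (e.symm.toMatrix * (l' * l) * e.toMatrix * (l' * l) * e.symm.toMatrix) * l' := by
          simp only [Matrix.mul_assoc]
      _ = _ := by rw [mul_eq_one_comm.1 h1, Matrix.mul_one, Matrix.mul_one, deoC_EEE])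
  obtain ⟨d', h4, h5⟩ := h.exists_form hl h1 d.2 (by rw [h3, hy])
  refine ⟨⟨d', h4⟩, fun hz => ?_⟩
  have hg : Good o Ω fun x : {d // C.IsForm (Ω := Ω) d} =>
      R ⟨Mid.down hT (P.nx i) a b m x.1, h.isDD x.2⟩ :=
    hR.comp (Good.subtypeMk ((Mid.good_down hT (P.nx i) a b m).comp (Good.val Good.id)) _)
  have := hg.inZ hz
  rwa [show (⟨Mid.down hT (P.nx i) a b m d', h.isDD h4⟩ : {d // P.IsDD (P.nx i) a b d}) = d from
    Subtype.ext h5, h2] at this

end Prob

end Crest.Agent.R003
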