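import Crest.Agent.R003.Dbl
import Crest.Agent.R003.DeoAuxC
import Crest.Agent.R003.DeoAuxB
import Crest.Agent.R003.DeoAux85

/-! Row 3: the Deodhar step for a nonzero corner. -/

set_option autoImplicit false
set_option linter.unusedSectionVars false

namespace Crest.Agent.R003

open Matrix

namespace Prob

variable {o : Type} [CommRing o] {ι : Type} [Fintype ι] [DecidableEq ι] {P : Prob o ι}
  {Ω : Type} [Field Ω] [Algebra o Ω]

theorem isoMid_u_tau {α : Type} [DecidableEq α] (x y p : α) :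
    (if Equiv.swap x y p = x ∨ Equiv.swap x y p = y then -1 else 1 : oˣ) =
      if p = x ∨ p = y then -1 else 1 := by
  by_cases h1 : p = x
  · simp [h1]
  by_cases h2 : p = y
  · simp [h2]
  · rw [Equiv.swap_apply_of_ne_of_ne h1 h2]

theorem isoMid_tau_fst {α β : Type} [DecidableEq α] [DecidableEq β] (j : α) (x y : β) (p : α × β) :
    (Equiv.swap (j, x) (j, y) p).1 = p.1 := by
  by_cases h1 : p = (j, x)
  · simp [h1]
  by_cases h2 : p = (j, y)
  · simp [h2]
  · rw [Equiv.swap_apply_of_ne_of_ne h1 h2]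

/-- the two blocks become a pair of pieces with scalar `-1` -/
def isoMid (hT : P.Thin) (j : P.I) (a b : ι) : (swap hT j a b).Mid where
  pc s := (s.1, P.slev j a b s)
  tau (p : P.I × P.Λ) := Equiv.swap (j, P.lev (j, a)) (j, P.lev (j, b)) p
  u (p : P.I × P.Λ) := if p = (j, P.lev (j, a)) ∨ p = (j, P.lev (j, b)) then -1 else 1
  tau_tau _ := Equiv.swap_apply_self _ _ _
  u_tau p := isoMid_u_tau _ _ p
  pc_fst _ := rfl
  tau_fst p := isoMid_tau_fst j _ _ p
  blk _ _ h := Prod.ext h.1 h.2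

theorem mrgMid_blk (j : P.I) (a b : ι) (s t : P.Site) (h : Blk P.lev s t) :
    (s.1, if s.1 = j then mlev j a b s.2 else P.lev s) =
      (t.1, if t.1 = j then mlev j a b t.2 else P.lev t) := by
  obtain ⟨k, c⟩ := s
  obtain ⟨k', c'⟩ := t
  obtain ⟨h1, h2⟩ := h
  obtain rfl : k = k' := h1
  by_cases hk : k = j
  · subst hk; simp only [mlev, if_true]; rw [h2]
  · simp [hk, h2]

/-- the two blocks are merged into one fixed piece -/
def mrgMid (hT : P.Thin) (j : P.I) (a b : ι) : (swap hT j a b).Mid where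
  pc (s : P.Site) := (s.1, if s.1 = j then mlev (P := P) j a b s.2 else P.lev s)
  tau := id
  u _ := 1
  tau_tau _ := rfl
  u_tau _ := rfl
  pc_fst _ := rfl
  tau_fst _ := rfl
  blk s t h := mrgMid_blk j a b s t ((blk_slev j a b _ _).1 h)

theorem isoMid_thin (hT : P.Thin) (j : P.I) (a b : ι) : (isoMid hT j a b).dbl.Thin := by
  rintro ⟨⟨i, _ | _⟩, c⟩ ⟨⟨k, _ | _⟩, c'⟩ h
  · have h' : (i, P.slev j a b (i, c)) = (k, P.slev j a b (k, c')) := Sum.inl.inj h
    obtain ⟨rfl, h2⟩ := Prod.mk.inj h'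
    exact ⟨rfl, h2⟩
  · exact absurd h Sum.inl_ne_inr
  · exact absurd h Sum.inr_ne_inl
  · have h' : P.pc (i, c) = P.pc (k, c') := Sum.inr.inj h
    have h2 := (blk_slev j a b _ _).2 (hT _ _ h')
    obtain rfl : i = k := h2.1
    exact ⟨rfl, h2.2⟩

theorem h85_iso_pc (hT : P.Thin) (j : P.I) (a b : ι) (k : P.I) (c : ι) :
    (isoMid hT j a b).tau ((isoMid hT j a b).pc (k, c)) = (k, P.lev (k, c)) := by
  change Equiv.swap (j, P.lev (j, a)) (j, P.lev (j, b)) (k, P.slev j a b (k, c)) = _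
  rw [h85_swap_pair]
  by_cases hk : k = j <;> simp [slev, hk]

theorem h85_iso_ex_false (hT : P.Thin) (j : P.I) (a b : ι) {k : P.I} {c : ι}
    {t : (isoMid hT j a b).dbl.Site} (h : (isoMid hT j a b).dbl.Ex ((k, false), c) t) :
    (isoMid hT j a b).dbl.lev t = P.lev (k, c) := by
  obtain ⟨⟨k', _ | _⟩, c'⟩ := t
  · exact absurd h Sum.inl_ne_inr
  · have h' : (isoMid hT j a b).pc (k, c) =
        (isoMid hT j a b).tau ((isoMid hT j a b).pc (k', c')) := Sum.inl.inj h
    have h2 := congrArg (isoMid hT j a b).tau h'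
    rw [(isoMid hT j a b).tau_tau, h85_iso_pc] at h2
    exact (congrArg Prod.snd h2).symm

theorem h85_iso_ex_true (hT : P.Thin) (j : P.I) (a b : ι) {k : P.I} {c : ι}
    {t : (isoMid hT j a b).dbl.Site} (h : (isoMid hT j a b).dbl.Ex ((k, true), c) t) :
    (swap hT j a b).Ex (k, c) (dn2 t) := by
  obtain ⟨⟨k', _ | _⟩, c'⟩ := t
  · exact Sum.inr.inj h
  · exact absurd h Sum.inr_ne_inl

/-- the letters `(k, true)` have the inversions of the swapped problem, the letters `(k, false)` are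
identities except for the exchange of the adjacent blocks `a`, `b` at `k = j` -/
theorem isoMid_inv (hT : P.Thin) {j : P.I} {a b : ι} (h : P.Adj j a b) :
    (isoMid hT j a b).dbl.inv ≤ (swap hT j a b).inv + 1 := by
  classical
  have hsub : (isoMid hT j a b).dbl.InvSet ⊆
      insert ((j, false), P.lev (j, a), P.lev (j, b))
        ((fun x : P.I × P.Λ × P.Λ => ((x.1, true), x.2)) '' (swap hT j a b).InvSet) := by
    rintro ⟨⟨k, _ | _⟩, l1, l2⟩ ⟨c, c', t, t', e1, e2, hlt, x1, x2, hgt⟩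
    · left
      have y1 := h85_iso_ex_false hT j a b x1
      have y2 := h85_iso_ex_false hT j a b x2
      change P.slev j a b (k, c) = l1 at e1
      change P.slev j a b (k, c') = l2 at e2
      change l1 < l2 at hlt
      rw [y1, y2] at hgt
      rw [← e1, ← e2] at hlt
      obtain ⟨k1, k2, k3⟩ := h85_inv_aux h hlt hgt
      rw [← e1, ← e2, k2, k3]
      exact Prod.ext (Prod.ext k1 rfl) rfl
    · right
      exact ⟨(k, l1, l2), ⟨c, c', dn2 t, dn2 t', e1, e2, hlt, h85_iso_ex_true hT j a b x1,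
        h85_iso_ex_true hT j a b x2, hgt⟩, rfl⟩
  have hfin : (swap hT j a b).InvSet.Finite := invSet_finite
  refine (Set.ncard_le_ncard hsub ((hfin.image _).insert _)).trans ?_
  refine (Set.ncard_insert_le _ _).trans (Nat.add_le_add_right ?_ 1)
  exact Set.ncard_image_le hfin

theorem h85_iso_u_fix (hT : P.Thin) {j : P.I} {a b : ι} (h : P.Adj j a b) {k : P.I} {c : ι}
    (hc : P.lev (k, c) = P.slev j a b (k, c)) :
    (isoMid hT j a b).u ((isoMid hT j a b).pc (k, c)) = 1 := by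
  have key := h85_slev_fix h.lt.ne hc
  change (if (k, P.slev j a b (k, c)) = (j, P.lev (j, a)) ∨
    (k, P.slev j a b (k, c)) = (j, P.lev (j, b)) then -1 else 1 : oˣ) = 1
  rw [← hc, if_neg]
  rintro (e | e)
  · exact (key (congrArg Prod.fst e)).1 (congrArg Prod.snd e)
  · exact (key (congrArg Prod.fst e)).2 (congrArg Prod.snd e)

theorem h85_iso_u_not (hT : P.Thin) {j : P.I} {a b : ι} {k : P.I} {c : ι}
    (hc : P.lev (k, c) ≠ P.slev j a b (k, c)) :
    (isoMid hT j a b).u ((isoMid hT j a b).pc (k, c)) = -1 := by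
  obtain ⟨rfl, h2⟩ := h85_slev_not hc
  change (if (k, P.slev k a b (k, c)) = (k, P.lev (k, a)) ∨
    (k, P.slev k a b (k, c)) = (k, P.lev (k, b)) then -1 else 1 : oˣ) = -1
  rw [if_pos]
  rcases h2 with e | e
  · right
    simp [slev, e]
  · left
    simp [slev, e]

theorem h85_iso_isDD (hT : P.Thin) {j : P.I} {a b : ι} (h : P.Adj j a b)
    {d : (isoMid hT j a b).dbl.Data Ω} (hd : (isoMid hT j a b).dbl.IsSol d) :
    P.IsDD j a b (Mid.down hT j a b _ d) := by
  have hab : P.lev (j, a) ≠ P.lev (j, b) := h.lt.ne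
  have fx : ∀ k c, P.lev (k, c) = P.slev j a b (k, c) → ∀ c',
      (isoMid hT j a b).dbl.L d.2.1 (k, false) c c' = if c = c' then 1 else 0 := by
    intro k c hc c'
    rw [Mid.L_false]
    have e : (isoMid hT j a b).tau ((isoMid hT j a b).pc (k, c)) = (isoMid hT j a b).pc (k, c) := by
      rw [h85_iso_pc]
      exact Prod.ext rfl hc
    have := hd.fix ((k, false), c) not_false (congrArg Sum.inl e) ((k, false), c')
    rw [this]
    have u1 : (isoMid hT j a b).dbl.uu Ω ((k, false), c) = 1 := by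
      change algebraMap o Ω (((isoMid hT j a b).u ((isoMid hT j a b).pc (k, c)) : oˣ) : o) = 1
      rw [h85_iso_u_fix hT h hc]
      simp
    rw [u1]
    by_cases hcc : c = c'
    · subst hcc
      rw [if_pos rfl, if_pos rfl]
    · rw [if_neg hcc, if_neg fun e => hcc (congrArg Prod.snd e)]
  obtain ⟨g1, g2, g3⟩ := h85_Gm_of (L := (isoMid hT j a b).dbl.L d.2.1 (j, false)) hab
    (fun c c' hne => by
      rw [Mid.L_false] at hne
      have e : (isoMid hT j a b).dbl.pc ((j, false), c) =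
          (isoMid hT j a b).dbl.tau ((isoMid hT j a b).dbl.pc ((j, false), c')) := by
        by_contra e
        exact hne (hd.supp _ _ e)
      have e' : (isoMid hT j a b).pc (j, c) =
          (isoMid hT j a b).tau ((isoMid hT j a b).pc (j, c')) := Sum.inl.inj e
      rw [h85_iso_pc] at e'
      have e'' : P.slev j a b (j, c) = P.lev (j, c') := congrArg Prod.snd e'
      simpa [slev] using e'')
    (fun c ha hb => fx j c (by
      simp only [slev, if_true]; rw [Equiv.swap_apply_of_ne_of_ne ha hb]))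
    (fun c hc c' => by
      have hc' : P.lev (j, c) ≠ P.slev j a b (j, c) := by
        simp only [slev, if_true]
        rcases hc with e | e
        · rw [e, Equiv.swap_apply_left]; exact hab
        · rw [e, Equiv.swap_apply_right]; exact hab.symm
      have e : (isoMid hT j a b).tau ((isoMid hT j a b).pc (j, c)) ≠
          (isoMid hT j a b).pc (j, c) := by
        rw [h85_iso_pc]
        exact fun e => hc' (congrArg Prod.snd e)
      have := hd.sq ((j, false), c) not_false (fun e' => e (Sum.inl.inj e')) ((j, false), c')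
      have u1 : (isoMid hT j a b).dbl.uu Ω ((j, false), c) = -1 := by
        change algebraMap o Ω (((isoMid hT j a b).u ((isoMid hT j a b).pc (j, c)) : oˣ) : o) = -1
        rw [h85_iso_u_not hT hc']
        simp
      rw [u1] at this
      have e2 : (d.2.1 * d.2.1) ((j, false), c) ((j, false), c') =
          ((isoMid hT j a b).dbl.L d.2.1 (j, false) * (isoMid hT j a b).dbl.L d.2.1 (j, false))
            c c' := by
        rw [Matrix.mul_apply (M := (isoMid hT j a b).dbl.L d.2.1 (j, false))]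
        simp only [Mid.L_false]
        refine h85_mul_slot (I := P.I × Bool) d.2.1 (j, false) c c' fun x r hx => hd.supp _ _ ?_
        intro e3
        obtain ⟨k, _ | _⟩ := x
        · have e4 : (isoMid hT j a b).pc (j, c) =
            (isoMid hT j a b).tau ((isoMid hT j a b).pc (k, r)) := Sum.inl.inj e3
          rw [h85_iso_pc] at e4
          have e5 : j = k := congrArg Prod.fst e4
          exact hx (by rw [e5])
        · exact Sum.inl_ne_inr e3
      rw [← e2, this]
      by_cases hcc : c = c'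
      · subst hcc
        rw [if_pos rfl, if_pos rfl]
      · rw [if_neg hcc, if_neg fun e => hcc (congrArg Prod.snd e)])
  have hy' : P.cor j b a (-P.cor j b a ((isoMid hT j a b).dbl.L d.2.1 (j, false))) =
      -P.cor j b a ((isoMid hT j a b).dbl.L d.2.1 (j, false)) := by
    rw [h85_cor_neg, h85_cor_cor]
  refine Mid.down_isDD hT j a b _ (fun _ => not_false) hd (fun k hk => ?_) (h85_cor_cor _ _ _ _)
    hy' h (by rw [g2, h85_ind_mul hy']) g3
  ext c c'
  rw [fx k c (by simp [slev, hk]), Matrix.one_apply]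

/-- `y` is invertible.  Every solution of `(isoMid ..).dbl` satisfies the hypotheses of
`Mid.down_isDD` (with `y = cor j a b L`, `y' = - cor j b a L`, `y y' = ind a`, `y' y = ind b`), so
`R ∘ down` is a good map to `P.Sol`; it hits `s` by `dd_retract` and `Mid.exists_up`. -/
theorem iso_dense (hT : P.Thin) {i : P.I} {a b : ι} (h : P.Adj (P.nx i) a b)
    (hB : P.Bwd (P.nx i) a b) (hi : P.nx i ≠ i) (hF : P.Fwd (P.nx i) a b) (s : P.Sol Ω)
    {y' : Matrix ι ι Ω} (hy' : P.cor (P.nx i) b a y' = y')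
    (h1 : P.cor (P.nx i) a b (s.1.1 (P.nx i)) * y' = P.ind Ω (P.nx i) a)
    (h2 : y' * P.cor (P.nx i) a b (s.1.1 (P.nx i)) = P.ind Ω (P.nx i) b)
    (hd : (isoMid hT (P.nx i) a b).dbl.Dense Ω) : InZ o Ω s := by
  have hab : P.lev (P.nx i, a) ≠ P.lev (P.nx i, b) := h.lt.ne
  obtain ⟨R, hR, hR'⟩ := dd_retract (Ω := Ω) h hB hi hF
  obtain ⟨d, hd1, hd2⟩ := hR' s y' hy' (by rw [h2, h85_ind_mul hy'])
  have hy := h85_cor_cor (P := P) (P.nx i) a b (s.1.1 (P.nx i))
  have e1 : d.1.2.2.1 = P.cor (P.nx i) a b (s.1.1 (P.nx i)) := congrArg Prod.fst hd2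
  have e2 : d.1.2.2.2 = y' := congrArg Prod.snd hd2
  generalize P.cor (P.nx i) a b (s.1.1 (P.nx i)) = y at h1 h2 hy e1
  generalize P.nx i = j at *
  obtain ⟨d', k1, k2, -⟩ := Mid.exists_up hT j a b (isoMid hT j a b) (act := fun _ => False) h d.2
    (fun k => if k = j then Gm y y' else 1) (fun k => by rw [e1, e2])
    (fun k c c' hne => by
      rw [h85_iso_pc] at hne
      exact h85_H_supp hab hy hy' h1 h2 k c c' fun e => hne (Prod.ext rfl e))
    (fun k c _ hfix c' => by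
      rw [h85_iso_pc] at hfix
      have hfix' : P.lev (k, c) = P.slev j a b (k, c) := congrArg Prod.snd hfix
      rw [h85_iso_u_fix hT h hfix', Units.val_one, map_one]
      exact h85_H_fix hab hy hy' h1 h2 k c hfix' c')
    (fun k c _ hfix c' => by
      rw [h85_iso_pc] at hfix
      have hfix' : P.lev (k, c) ≠ P.slev j a b (k, c) := fun e => hfix (Prod.ext rfl e)
      rw [h85_iso_u_not hT hfix', Units.val_neg, Units.val_one, map_neg, map_one]
      exact h85_H_sq hab hy hy' h1 h2 k c hfix' c')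
  have hF' : Good o Ω fun x : (isoMid hT j a b).dbl.Sol Ω =>
      R ⟨Mid.down hT j a b _ x.1, h85_iso_isDD hT h x.2⟩ :=
    hR.comp (Good.subtypeMk ((Mid.good_down hT j a b _).comp (Good.val Good.id)) _)
  have := hF'.inZ (hd ⟨d', k1⟩)
  rwa [show (⟨Mid.down hT j a b _ d', h85_iso_isDD hT h k1⟩ : {d : P.DData Ω // P.IsDD j a b d}) = d
    from Subtype.ext k2, hd1] at this

/-- the cell attached to a partial bijection `e` from the block `a` to the block `b` -/
structure RankCell (hT : P.Thin) (j : P.I) (a b : ι) (e : ι ≃. ι)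
    (C : (mrgMid hT j a b).dbl.Cell) : Prop where
  act : ∀ p, C.act p ↔ p = .inl (j, P.lev (j, a))
  ς₁ : ∀ c c', e c = some c' → C.ς ((j, false), c) = ((j, false), c')
  ς₂ : ∀ c, e c = none → e.symm c = none → C.ς ((j, false), c) = ((j, false), c)
  ε : ∀ c, C.ε ((j, false), c) = if (e.symm c).isSome then -1 else 1

theorem deoB_pc {hT : P.Thin} {j : P.I} {a b : ι} (c : ι) :
    (mrgMid hT j a b).dbl.pc ((j, false), c) = .inl (j, mlev (P := P) j a b c) := by
  have : (if j = j then mlev (P := P) j a b c else P.lev (j, c)) = mlev (P := P) j a b c :=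
    if_pos rfl
  exact congrArg (fun x => Sum.inl (j, x)) this

theorem deoB_mlev {j : P.I} {a b c : ι}
    (h : P.lev (j, c) = P.lev (j, a) ∨ P.lev (j, c) = P.lev (j, b)) :
    mlev (P := P) j a b c = P.lev (j, a) := by
  unfold mlev
  split_ifs with h1
  · rfl
  · exact h.resolve_right h1

theorem deoB_act {hT : P.Thin} {j : P.I} {a b : ι} {s : (mrgMid hT j a b).dbl.Site} :
    (mrgMid hT j a b).dbl.pc s = .inl (j, P.lev (j, a)) ↔
      s.1 = (j, false) ∧ (P.lev (j, s.2) = P.lev (j, a) ∨ P.lev (j, s.2) = P.lev (j, b)) := by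
  have key : ∀ c, (mrgMid hT j a b).dbl.pc ((j, false), c) = .inl (j, P.lev (j, a)) ↔
      (P.lev (j, c) = P.lev (j, a) ∨ P.lev (j, c) = P.lev (j, b)) := by
    intro c
    constructor
    · intro h
      have h2 : mlev (P := P) j a b c = P.lev (j, a) :=
        congrArg Prod.snd (Sum.inl.inj ((deoB_pc c).symm.trans h))
      unfold mlev at h2
      split_ifs at h2 with h3
      · exact Or.inr h3
      · exact Or.inl h2
    · intro h2
      exact (deoB_pc c).trans (congrArg (fun x => Sum.inl (j, x)) (deoB_mlev h2))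
  have key2 : (mrgMid hT j a b).dbl.pc s = .inl (j, P.lev (j, a)) → s.1 = (j, false) := by
    obtain ⟨⟨k, _ | _⟩, c⟩ := s
    · intro h
      have h1 : k = j := congrArg Prod.fst (Sum.inl.inj h)
      exact Prod.ext h1 rfl
    · intro h
      cases h
  have key3 : s.1 = (j, false) → s = ((j, false), s.2) := fun h => Prod.ext h rfl
  constructor
  · intro h
    refine ⟨key2 h, (key _).1 ?_⟩
    exact key3 (key2 h) ▸ h
  · rintro ⟨h1, h2⟩
    exact (key3 h1).symm ▸ (key _).2 h2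

theorem deoB_lev {hT : P.Thin} {j : P.I} {a b : ι} {m : (swap hT j a b).Mid} {ε : Bool} {c c' : ι} :
    m.dbl.lev ((j, ε), c) = m.dbl.lev ((j, ε), c') ↔ P.lev (j, c) = P.lev (j, c') :=
  ⟨fun h => ((blk_slev j a b (j, c) (j, c')).1 ⟨rfl, h⟩).2,
    fun h => ((blk_slev j a b (j, c) (j, c')).2 ⟨rfl, h⟩).2⟩

theorem exists_rankCell (hT : P.Thin) {j : P.I} {a b : ι} (h : P.Adj j a b) (e : ι ≃. ι)
    (he : ∀ c c', e c = some c' → P.lev (j, c) = P.lev (j, a) ∧ P.lev (j, c') = P.lev (j, b)) :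
    ∃ C, RankCell hT j a b e C := by
  classical
  have hAB := h.lt.ne
  have hc := deoBg_cases (l := P.lv j) hAB he
  have hi := deoBg_invol (l := P.lv j) hAB he
  let σ : (P.I × Bool) × ι → (P.I × Bool) × ι :=
    fun x => if x.1 = (j, false) then (x.1, deoBg e x.2) else x
  have hσ1 : ∀ c, σ ((j, false), c) = ((j, false), deoBg e c) := fun c => if_pos rfl
  have hσ2 : ∀ x, x.1 ≠ (j, false) → σ x = x := fun x hx => if_neg hx
  have hσ : Function.Involutive σ := by
    rintro ⟨k, c⟩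
    by_cases hk : k = (j, false)
    · subst hk
      rw [hσ1, hσ1, hi]
    · rw [hσ2 (k, c) hk, hσ2 (k, c) hk]
  have hsome : ∀ c, (e.symm c).isSome ↔
      P.lev (j, c) = P.lev (j, b) ∧ P.lev (j, deoBg e c) = P.lev (j, a) := by
    intro c
    rcases hc c with h1 | h1 | h1
    · rw [h1.2.1]
      exact ⟨fun h2 => absurd h2 (by simp), fun h2 => absurd (h1.2.2.1.symm.trans h2.1) hAB⟩
    · rw [h1.2.1]
      exact ⟨fun _ => h1.2.2.2, fun _ => rfl⟩
    · rw [h1.2.1, h1.2.2]
      exact ⟨fun h2 => absurd h2 (by simp), fun h2 => absurd (h2.2.symm.trans h2.1) hAB⟩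
  refine ⟨{ act := fun p => p = .inl (j, P.lev (j, a))
            ς := hσ.toPerm σ
            ε := fun x => if x.1 = (j, false) ∧ (e.symm x.2).isSome then -1 else 1
            act_tau := ?_
            ς_ς := hσ
            ς_of_not := ?_
            ς_pc := ?_
            ς_blk := ?_
            ε_blk := ?_
            card_le := ?_ }, fun _ => Iff.rfl, fun c c' h1 => ?_, fun c h1 h2 => ?_, fun c => ?_⟩
  · rintro (p | p)
    · exact Iff.rfl
    · exact ⟨fun h1 => (by cases h1), fun h1 => (by cases h1)⟩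
  · rintro ⟨k, c⟩ hn
    change σ (k, c) = (k, c)
    by_cases hk : k = (j, false)
    · subst hk
      rcases hc c with h1 | h1 | h1
      · exact absurd (deoB_act.2 ⟨rfl, Or.inl h1.2.2.1⟩) hn
      · exact absurd (deoB_act.2 ⟨rfl, Or.inr h1.2.2.2.1⟩) hn
      · exact (hσ1 c).trans (congrArg (fun x => ((j, false), x)) h1.2.2)
    · exact hσ2 _ hk
  · rintro ⟨k, c⟩ hn
    obtain ⟨hk, hk'⟩ := deoB_act.1 hn
    obtain rfl : k = (j, false) := hk
    refine Eq.trans ?_ (congrArg (mrgMid hT j a b).dbl.tau hn).symm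
    change (mrgMid hT j a b).dbl.pc (σ ((j, false), c)) = .inl (j, P.lev (j, a))
    rw [hσ1]
    refine deoB_act.2 ⟨rfl, ?_⟩
    rcases hc c with h1 | h1 | h1
    · exact Or.inr h1.2.2.2
    · exact Or.inl h1.2.2.2.2
    · rw [h1.2.2]
      exact hk'
  · rintro ⟨k, c⟩ hn
    change σ (k, c) = (k, c)
    by_cases hk : k = (j, false)
    · subst hk
      have h2 : (mrgMid hT j a b).dbl.lev ((j, false), c) =
          (mrgMid hT j a b).dbl.lev (σ ((j, false), c)) := hn.2
      rw [hσ1] at h2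
      replace h2 := deoB_lev.1 h2
      rcases hc c with h1 | h1 | h1
      · exact absurd (h1.2.2.1.symm.trans (h2.trans h1.2.2.2)) hAB
      · exact absurd (h1.2.2.2.2.symm.trans (h2.symm.trans h1.2.2.2.1)) hAB
      · exact (hσ1 c).trans (congrArg (fun x => ((j, false), x)) h1.2.2)
    · exact hσ2 _ hk
  · rintro ⟨k, c⟩ ⟨k', c'⟩ ⟨h1, h2⟩ h3
    obtain rfl : k = k' := h1
    by_cases hk : k = (j, false)
    · subst hk
      change (mrgMid hT j a b).dbl.lev (σ ((j, false), c)) =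
          (mrgMid hT j a b).dbl.lev (σ ((j, false), c')) at h3
      rw [hσ1, hσ1] at h3
      replace h3 := deoB_lev.1 h3
      replace h2 := deoB_lev.1 h2
      simp only [true_and, hsome, h2, h3]
    · simp only [hk, false_and, if_false]
  · refine le_trans (Finset.card_le_card_of_injOn (t := Finset.univ) Prod.snd
      (fun _ _ => Finset.mem_univ _) fun s hs t ht hst => ?_) (by rw [Finset.card_univ]; omega)
    exact Prod.ext ((deoB_act.1 (Finset.mem_filter.1 hs).2).1.trans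
      (deoB_act.1 (Finset.mem_filter.1 ht).2).1.symm) hst
  · change σ ((j, false), c) = _
    rw [hσ1, deoBg, h1]
    rfl
  · change σ ((j, false), c) = _
    rw [hσ1, deoBg, h1, h2]
    rfl
  · exact if_congr ⟨fun h1 => h1.2, fun h1 => ⟨rfl, h1⟩⟩ rfl rfl

/-- the new blocks are `dom e`, `a \ dom e`, `ran e`, `b \ ran e`; take `s` in the bigger block -/
theorem RankCell.exists_max {hT : P.Thin} {j : P.I} {a b : ι} (h : P.Adj j a b) {e : ι ≃. ι}
    (he : ∀ c c', e c = some c' → P.lev (j, c) = P.lev (j, a) ∧ P.lev (j, c') = P.lev (j, b))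
    {C : (mrgMid hT j a b).dbl.Cell} (hC : RankCell hT j a b e C) (h0 : ∃ c c', e c = some c')
    (h1 : (∃ c, P.lev (j, c) = P.lev (j, a) ∧ e c = none) ∨
      ∃ c, P.lev (j, c) = P.lev (j, b) ∧ e.symm c = none) :
    ∃ s, C.A s ∧ ∀ t, C.A t → C.nsz t < (mrgMid hT j a b).dbl.bsz s := by
  have hAB := h.lt.ne
  have hc := deoBg_cases (l := P.lv j) hAB he
  have hσ : ∀ c, C.ς ((j, false), c) = ((j, false), deoBg e c) := by
    intro c
    rcases hc c with h2 | h2 | h2
    · exact hC.ς₁ _ _ h2.1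
    · exact (congrArg C.ς (hC.ς₁ _ _ h2.1)).symm.trans (C.ς_ς _)
    · rw [h2.2.2]
      exact hC.ς₂ _ h2.1 h2.2.1
  have hA : ∀ s, C.A s ↔ s.1 = (j, false) ∧
      (P.lev (j, s.2) = P.lev (j, a) ∨ P.lev (j, s.2) = P.lev (j, b)) :=
    fun s => (hC.act _).trans deoB_act
  -- strict inequality from a witness
  have hlt : ∀ c c' c₀, P.lev (j, c) = P.lev (j, c') → P.lev (j, c) = P.lev (j, c₀) →
      P.lev (j, deoBg e c) ≠ P.lev (j, deoBg e c') →
      C.nsz ((j, false), c) < (mrgMid hT j a b).dbl.bsz ((j, false), c₀) := by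
    intro c c' c₀ h2 h3 h4
    refine Finset.card_lt_card ⟨fun y hy => ?_, fun hs => h4 ?_⟩
    · rw [Finset.mem_filter] at hy ⊢
      exact ⟨hy.1, hy.2.1.1, (deoB_lev.2 h3).symm.trans hy.2.1.2⟩
    · have := (Finset.mem_filter.1 (hs (Finset.mem_filter.2 ⟨Finset.mem_univ ((j, false), c'),
        rfl, deoB_lev.2 (h3.symm.trans h2)⟩))).2.2
      exact deoB_lev.1 ((congrArg (mrgMid hT j a b).dbl.lev (hσ c)).symm.trans
        (this.trans (congrArg (mrgMid hT j a b).dbl.lev (hσ c'))))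
  have hle : ∀ c, C.nsz ((j, false), c) ≤ C.nsz ((j, false), deoBg e c) := by
    intro c
    refine Finset.card_le_card_of_injOn C.ς (fun y hy => ?_) C.ς.injective.injOn
    obtain ⟨k, c'⟩ := y
    obtain ⟨⟨h2, h3⟩, h4⟩ := (Finset.mem_filter.1 hy).2
    obtain rfl : (j, false) = k := h2
    refine Finset.mem_filter.2 ⟨Finset.mem_univ _, ⟨?_, ?_⟩, ?_⟩
    · exact (congrArg Prod.fst (hσ c')).symm
    · exact (congrArg (mrgMid hT j a b).dbl.lev (hσ c)).symm.trans h4
    · refine Eq.trans ?_ (h3.trans (congrArg (mrgMid hT j a b).dbl.lev (C.ς_ς _)).symm)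
      exact congrArg (mrgMid hT j a b).dbl.lev ((congrArg C.ς (hσ c)).symm.trans (C.ς_ς _))
  obtain ⟨c₀, c₀', h0⟩ := h0
  have e0 : deoBg e c₀ = c₀' := by rw [deoBg, h0]; rfl
  have e0' : deoBg e c₀' = c₀ := by rw [← e0, deoBg_invol (l := P.lv j) hAB he]
  obtain ⟨l0, l0'⟩ := he _ _ h0
  have key : ∀ c, P.lev (j, c) = P.lev (j, a) ∨ P.lev (j, c) = P.lev (j, b) →
      C.nsz ((j, false), c) < max ((mrgMid hT j a b).dbl.bsz ((j, false), a))
        ((mrgMid hT j a b).dbl.bsz ((j, false), b)) := by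
    have k1 : ∀ c, P.lev (j, c) = P.lev (j, a) → P.lev (j, deoBg e c) = P.lev (j, b) →
        ∀ c₁, P.lev (j, c₁) = P.lev (j, a) → e c₁ = none →
        C.nsz ((j, false), c) < (mrgMid hT j a b).dbl.bsz ((j, false), a) := by
      intro c h2 h3 c₁ h4 h5
      refine hlt c c₁ a (h2.trans h4.symm) h2 ?_
      rcases hc c₁ with h6 | h6 | h6
      · rw [h5] at h6
        exact absurd h6.1 (by simp)
      · exact absurd (h4.symm.trans h6.2.2.2.1) hAB
      · rw [h6.2.2, h3, h4]
        exact hAB.symm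
    have k2 : ∀ c, P.lev (j, c) = P.lev (j, b) → P.lev (j, deoBg e c) = P.lev (j, a) →
        ∀ c₁, P.lev (j, c₁) = P.lev (j, b) → e.symm c₁ = none →
        C.nsz ((j, false), c) < (mrgMid hT j a b).dbl.bsz ((j, false), b) := by
      intro c h2 h3 c₁ h4 h5
      refine hlt c c₁ b (h2.trans h4.symm) h2 ?_
      rcases hc c₁ with h6 | h6 | h6
      · exact absurd (h6.2.2.1.symm.trans h4) hAB
      · rw [h5] at h6
        exact absurd h6.2.1 (by simp)
      · rw [h6.2.2, h3, h4]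
        exact hAB
    intro c hab
    have hi := deoBg_invol (l := P.lv j) hAB he c
    rcases hc c with h2 | h2 | h2
    · rcases h1 with ⟨c₁, h3, h4⟩ | ⟨c₁, h3, h4⟩
      · exact lt_max_of_lt_left (k1 c h2.2.2.1 h2.2.2.2 c₁ h3 h4)
      · exact lt_max_of_lt_right ((hle c).trans_lt
          (k2 _ h2.2.2.2 (by rw [hi]; exact h2.2.2.1) c₁ h3 h4))
    · rcases h1 with ⟨c₁, h3, h4⟩ | ⟨c₁, h3, h4⟩
      · exact lt_max_of_lt_left ((hle c).trans_lt
          (k1 _ h2.2.2.2.2 (by rw [hi]; exact h2.2.2.2.1) c₁ h3 h4))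
      · exact lt_max_of_lt_right (k2 c h2.2.2.2.1 h2.2.2.2.2 c₁ h3 h4)
    · rcases hab with h3 | h3
      · refine lt_max_of_lt_left (hlt c c₀ a (h3.trans l0.symm) h3 ?_)
        rw [h2.2.2, e0, h3, l0']
        exact hAB
      · refine lt_max_of_lt_right (hlt c c₀' b (h3.trans l0'.symm) h3 ?_)
        rw [h2.2.2, e0', h3, l0]
        exact hAB.symm
  rcases max_choice ((mrgMid hT j a b).dbl.bsz ((j, false), a))
    ((mrgMid hT j a b).dbl.bsz ((j, false), b)) with hm | hm
  · refine ⟨((j, false), a), (hA _).2 ⟨rfl, Or.inl rfl⟩, ?_⟩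
    rintro ⟨k, c⟩ ht
    obtain ⟨h2, h3⟩ := (hA _).1 ht
    obtain rfl : k = (j, false) := h2
    exact hm ▸ key c h3
  · refine ⟨((j, false), b), (hA _).2 ⟨rfl, Or.inr rfl⟩, ?_⟩
    rintro ⟨k, c⟩ ht
    obtain ⟨h2, h3⟩ := (hA _).1 ht
    obtain rfl : k = (j, false) := h2
    exact hm ▸ key c h3

/-- On the active piece `M0` is `Gm e eᵀ`, so for block diagonal `l` the letter `(j, false)` is
`Gm (l e l⁻¹) (l eᵀ l⁻¹)`. -/
theorem RankCell.isDD {hT : P.Thin} {j : P.I} {a b : ι} (h : P.Adj j a b) {e : ι ≃. ι}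
    (he : ∀ c c', e c = some c' → P.lev (j, c) = P.lev (j, a) ∧ P.lev (j, c') = P.lev (j, b))
    {C : (mrgMid hT j a b).dbl.Cell} (hC : RankCell hT j a b e C)
    {d : (mrgMid hT j a b).dbl.Data Ω} (hd : C.IsForm d) :
    P.IsDD j a b (Mid.down hT j a b _ d) := by
  exact DeoC.isDD ⟨h, he, fun _ => rfl, fun _ => rfl, fun _ => rfl, hC.act, hC.ς₁, hC.ς₂, hC.ε⟩ hd

/-- rank normal form of the corner (`bruhat` with constant levels for the matrix restricted to
block `a` × block `b`), with `l = P₁` on `a`, `Q₁⁻¹` on `b`, `1` elsewhere -/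
theorem cor_rank {j : P.I} {a b : ι} (h : P.Adj j a b) (x : Matrix ι ι Ω) :
    ∃ (e : ι ≃. ι) (l : GL ι Ω), BD (P.lv j) (l : Matrix ι ι Ω) ∧
      (∀ c c', e c = some c' → P.lev (j, c) = P.lev (j, a) ∧ P.lev (j, c') = P.lev (j, b)) ∧
      P.cor j a b x = (l : Matrix ι ι Ω) * (e.toMatrix : Matrix ι ι Ω) *
        ((l⁻¹ : GL ι Ω) : Matrix ι ι Ω) := by
  have hAB := h.lt.ne
  obtain ⟨p, q, e, hp, hq, he⟩ := bruhat (Λ := ℕ) (Λ' := ℕ)
    (fun c => if P.lev (j, c) = P.lev (j, a) then 0 else 1)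
    (fun c => if P.lev (j, c) = P.lev (j, b) then 1 else 0) (P.cor j a b x)
  have hp' := hp.inv p.mul_inv
  have hq' := hq.inv q.mul_inv
  have k1 : ∀ m : Matrix ι ι Ω, Par (fun c => if P.lev (j, c) = P.lev (j, a) then 0 else 1) m →
      P.ind Ω j a * (m * P.ind Ω j a) = m * P.ind Ω j a := by
    intro m hm
    ext c c'
    simp only [ind, Matrix.diagonal_mul, Matrix.mul_diagonal]
    split_ifs with h1 h2 h2
    · simp
    · simp
    · rw [hm c c' (by simp [h1, h2])]; simp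
    · simp
  have k2 : ∀ m : Matrix ι ι Ω, Par (fun c => if P.lev (j, c) = P.lev (j, b) then 1 else 0) m →
      P.ind Ω j b * m * P.ind Ω j b = P.ind Ω j b * m := by
    intro m hm
    ext c c'
    simp only [ind, Matrix.diagonal_mul, Matrix.mul_diagonal]
    split_ifs with h1 h2 h2
    · simp
    · rw [hm c c' (by simp [h1, h2])]; simp
    · simp
    · simp
  have k3 : ∀ c d : ι, P.ind Ω j c * P.ind Ω j d =
      if P.lev (j, c) = P.lev (j, d) then P.ind Ω j c else 0 := by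
    intro c d
    simp only [ind, Matrix.diagonal_mul_diagonal]
    split_ifs with h1
    · congr 1
      funext y
      rw [← h1]
      split_ifs <;> simp
    · rw [← Matrix.diagonal_zero]
      congr 1
      funext y
      split_ifs with h2 h3
      · exact absurd (h2.symm.trans h3) h1
      all_goals simp
  obtain ⟨r1, r2, r3⟩ := deoB_ring (A := P.ind Ω j a) (B := P.ind Ω j b)
    (by rw [k3, if_pos rfl]) (by rw [k3, if_pos rfl]) (by rw [k3, if_neg hAB])
    (by rw [k3, if_neg hAB.symm]) p.mul_inv p.inv_mul q.mul_inv q.inv_mul (k1 _ hp) (k1 _ hp')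
    (k2 _ hq) (k2 _ hq') (y := P.cor j a b x) (by
      ext c c'
      simp only [ind, cor, mask, Matrix.diagonal_mul, Matrix.mul_diagonal, Matrix.of_apply]
      by_cases h1 : P.lev (j, c) = P.lev (j, a) <;> by_cases h2 : P.lev (j, c') = P.lev (j, b) <;>
        simp [h1, h2]) he
  refine ⟨e, ⟨_, _, r2, mul_eq_one_comm.1 r2⟩, fun c c' hcc => ?_, fun c c' hcc => ?_, r3⟩
  · have hne : c ≠ c' := fun h1 => hcc (by rw [h1])
    change ((p : Matrix ι ι Ω) * P.ind Ω j a + P.ind Ω j b * ((q⁻¹ : GL ι Ω) : Matrix ι ι Ω) +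
      (1 - P.ind Ω j a - P.ind Ω j b)) c c' = 0
    rw [← k1 _ hp, ← k2 _ hq']
    simp only [ind, Matrix.add_apply, Matrix.sub_apply, Matrix.diagonal_mul, Matrix.mul_diagonal,
      Matrix.one_apply_ne hne, Matrix.diagonal_apply_ne _ hne]
    have hcc' : P.lev (j, c) ≠ P.lev (j, c') := hcc
    by_cases h1 : P.lev (j, c) = P.lev (j, a)
    · simp [h1, hAB, show ¬ P.lev (j, c') = P.lev (j, a) from fun h2 => hcc' (h1.trans h2.symm)]
    · by_cases h2 : P.lev (j, c) = P.lev (j, b)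
      · simp [h1, show ¬ P.lev (j, c') = P.lev (j, b) from fun h3 => hcc' (h2.trans h3.symm)]
      · simp [h1, h2]
  · have h1 := congrFun (congrFun r1 c) c'
    simp only [ind, Matrix.diagonal_mul, Matrix.mul_diagonal, PEquiv.toMatrix_apply, hcc,
      Option.mem_def, if_true] at h1
    by_contra hn
    rcases not_and_or.1 hn with h2 | h2 <;> simp [h2] at h1

/-- lift the point to the cell: `dd_retract` with `y' = l eᵀ l⁻¹`, `Mid.exists_up` with the active
piece, and `IsForm` with the global matrix which is `l` at the slot `(j, false)` and `1` elsewhere -/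
theorem rank_dense (hT : P.Thin) {i : P.I} {a b : ι} (h : P.Adj (P.nx i) a b)
    (hB : P.Bwd (P.nx i) a b) (hi : P.nx i ≠ i) (hF : P.Fwd (P.nx i) a b) (s : P.Sol Ω)
    {e : ι ≃. ι} {l : GL ι Ω} (hl : BD (P.lv (P.nx i)) (l : Matrix ι ι Ω))
    (he : ∀ c c', e c = some c' →
      P.lev (P.nx i, c) = P.lev (P.nx i, a) ∧ P.lev (P.nx i, c') = P.lev (P.nx i, b))
    (hy : P.cor (P.nx i) a b (s.1.1 (P.nx i)) = (l : Matrix ι ι Ω) * (e.toMatrix : Matrix ι ι Ω) *
        ((l⁻¹ : GL ι Ω) : Matrix ι ι Ω))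
    {C : (mrgMid hT (P.nx i) a b).dbl.Cell} (hC : RankCell hT (P.nx i) a b e C) :
    ∃ d : {d // C.IsForm (Ω := Ω) d}, (InZ o Ω d → InZ o Ω s) := by
  exact DeoC.dense ⟨h, he, fun _ => rfl, fun _ => rfl, fun _ => rfl, hC.act, hC.ς₁, hC.ς₂, hC.ε⟩
    hB hi hF s hl l.mul_inv hy

theorem deoD_cor_eq (j : P.I) (a b : ι) (x : Matrix ι ι Ω) :
    P.cor j a b x = P.ind Ω j a * x * P.ind Ω j b := by
  ext c c'
  simp only [cor, mask, ind, Matrix.of_apply, Matrix.mul_diagonal, Matrix.diagonal_mul]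
  by_cases h1 : P.lev (j, c) = P.lev (j, a) <;> by_cases h2 : P.lev (j, c') = P.lev (j, b) <;>
    simp [h1, h2]

theorem deoD_comm {j : P.I} {x : Matrix ι ι Ω} (hx : BD (P.lv j) x) (a : ι) :
    Commute x (P.ind Ω j a) := by
  refine Matrix.ext fun c c' => ?_
  simp only [ind, Matrix.mul_diagonal, Matrix.diagonal_mul]
  by_cases h : P.lev (j, c) = P.lev (j, c')
  · rw [h, mul_comm]
  · rw [hx c c' h, zero_mul, mul_zero]

theorem deoD_mul {j : P.I} {a : ι} {e : ι ≃. ι}
    (h : ∀ c, P.lev (j, c) = P.lev (j, a) ↔ e c ≠ none) :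
    (e.toMatrix : Matrix ι ι Ω) * e.symm.toMatrix = P.ind Ω j a := by
  rw [← PEquiv.toMatrix_trans]
  ext c c'
  rw [PEquiv.toMatrix_apply, ind, Matrix.diagonal_apply]
  rcases hc : e c with _ | d
  · have h1 : ¬ P.lev (j, c) = P.lev (j, a) := fun h' => (h c).1 h' hc
    simp [PEquiv.trans, hc, h1]
  · have h1 : P.lev (j, c) = P.lev (j, a) := (h c).2 (by simp [hc])
    have h2 : e.symm d = some c := (e.eq_some_iff).2 hc
    have h3 : (e.trans e.symm) c = some c := by
      rw [PEquiv.trans_eq_some]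
      exact ⟨d, hc, h2⟩
    simp [h3, h1]

theorem deoD_conj {j : P.I} {l : GL ι Ω} (hl : BD (P.lv j) (l : Matrix ι ι Ω)) {x y : Matrix ι ι Ω}
    {a : ι} (h : x * y = P.ind Ω j a) :
    (l : Matrix ι ι Ω) * x * ((l⁻¹ : GL ι Ω) : Matrix ι ι Ω) *
      ((l : Matrix ι ι Ω) * y * ((l⁻¹ : GL ι Ω) : Matrix ι ι Ω)) = P.ind Ω j a := by
  calc _ = (l : Matrix ι ι Ω) * (x * (((l⁻¹ : GL ι Ω) : Matrix ι ι Ω) * (l : Matrix ι ι Ω)) * y) *
      ((l⁻¹ : GL ι Ω) : Matrix ι ι Ω) := by simp only [Matrix.mul_assoc]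
    _ = _ := by
      rw [l.inv_mul, Matrix.mul_one, h, (deoD_comm hl a).eq, Matrix.mul_assoc, l.mul_inv,
        Matrix.mul_one]

theorem deoD_cor_conj {j : P.I} {l : GL ι Ω} (hl : BD (P.lv j) (l : Matrix ι ι Ω)) {x : Matrix ι ι Ω}
    {a b : ι} (h : P.cor j a b x = x) :
    P.cor j a b ((l : Matrix ι ι Ω) * x * ((l⁻¹ : GL ι Ω) : Matrix ι ι Ω)) =
      (l : Matrix ι ι Ω) * x * ((l⁻¹ : GL ι Ω) : Matrix ι ι Ω) := by
  rw [deoD_cor_eq] at h ⊢
  have h1 := (deoD_comm hl a).eq
  have h2 := (deoD_comm hl b).units_inv_left.eq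
  calc _ = (P.ind Ω j a * (l : Matrix ι ι Ω)) * x * (((l⁻¹ : GL ι Ω) : Matrix ι ι Ω) * P.ind Ω j b) := by
        simp only [Matrix.mul_assoc]
    _ = (l : Matrix ι ι Ω) * (P.ind Ω j a * x * P.ind Ω j b) * ((l⁻¹ : GL ι Ω) : Matrix ι ι Ω) := by
        rw [← h1, h2]; simp only [Matrix.mul_assoc]
    _ = _ := by rw [h]

/-- One step for a thin problem with an inversion at a letter which is not the last of its cycle.
`exists_adj`, `fwd_or_nfwd`.  `NFwd`: `slide_step`, `swap_step`, `swap_inv_nfwd`.  `Fwd`: `cor_rank`;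
if `e` is empty the corner vanishes (`swap_step`, `swap_inv_fwd`); if `e` is a bijection between the
blocks use `iso_dense` with `y' = l eᵀ l⁻¹`; otherwise `rank_dense` and `cell_step`
(`Mid.dbl_phi`, `swap_phi`, `Mid.dbl_bsz`, `swap_bsz`). -/
theorem thin_step (hB : Big o Ω) (hT : P.Thin) {x : P.I × P.Λ × P.Λ} (hx : x ∈ P.InvSet)
    (hl : ¬ P.Last x.1) (s : P.Sol Ω) :
    ∃ P' : Prob o ι, (P'.Phi < P.Phi ∨ (P'.Phi = P.Phi ∧ P'.Thin ∧
        (P'.inv < P.inv ∨ (P'.inv = P.inv ∧ P'.wt < P.wt)))) ∧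
      (∀ n, P.Le n → P'.Le n) ∧ (P'.Dense Ω → InZ o Ω s) := by
  obtain ⟨a, b, h, hBw⟩ := exists_adj hT s hx
  have hi := nx_ne_of_not_last hl
  have hle : ∀ n, P.Le n → (swap hT (P.nx x.1) a b).Le n := fun n hn t =>
    (swap_bsz hT _ a b t).le.trans (hn t)
  have hle2 : ∀ m : (swap hT (P.nx x.1) a b).Mid, ∀ n, P.Le n → m.dbl.Le n := fun m n hn t =>
    (m.dbl_bsz t).le.trans (hle n hn _)
  rcases fwd_or_nfwd hT s h with hF | hN
  swap
  · obtain ⟨s', h1, h2⟩ := slide_step hB h hN (fun e => hi (P.nx.injective e)) s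
    exact ⟨swap hT _ a b, Or.inr ⟨swap_phi hT _ a b, swap_thin hT _ a b,
      Or.inr (swap_inv_nfwd hT s h hBw hl hN)⟩, hle, fun hd => h2 (swap_step hT h hBw hi s' h1 hd)⟩
  have hinv := swap_inv_fwd hT s h hBw hi hF
  obtain ⟨e, l, hlB, he, hy⟩ := cor_rank h (s.1.1 (P.nx x.1))
  by_cases h0 : ∃ c c', e c = some c'
  swap
  · have he0 : (e.toMatrix : Matrix ι ι Ω) = 0 := by
      ext c c'
      rw [PEquiv.toMatrix_apply]
      exact if_neg fun h' => h0 ⟨c, c', h'⟩
    rw [he0, Matrix.mul_zero, Matrix.zero_mul] at hy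
    exact ⟨swap hT _ a b, Or.inr ⟨swap_phi hT _ a b, swap_thin hT _ a b, Or.inl (by omega)⟩, hle,
      swap_step hT h hBw hi s hy⟩
  by_cases h1 : (∃ c, P.lev (P.nx x.1, c) = P.lev (P.nx x.1, a) ∧ e c = none) ∨
      ∃ c, P.lev (P.nx x.1, c) = P.lev (P.nx x.1, b) ∧ e.symm c = none
  · obtain ⟨C, hC⟩ := exists_rankCell hT h e he
    obtain ⟨s₀, hs₀, hs₀'⟩ := hC.exists_max h he h0 h1
    obtain ⟨d, hd⟩ := rank_dense hT h hBw hi hF s hlB he hy hC
    obtain ⟨P', a1, a2, a3⟩ := cell_step hB C hs₀ hs₀' d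
    rw [Mid.dbl_phi, swap_phi] at a1
    exact ⟨P', Or.inl a1, fun n hn => a2 n (hle2 _ n hn), fun hd' => hd (a3 hd')⟩
  have ha : ∀ c, P.lev (P.nx x.1, c) = P.lev (P.nx x.1, a) ↔ e c ≠ none := fun c =>
    ⟨fun h' h'' => h1 (Or.inl ⟨c, h', h''⟩), fun h' => by
      obtain ⟨c', hc'⟩ := Option.ne_none_iff_exists'.1 h'
      exact (he c c' hc').1⟩
  have hb : ∀ c, P.lev (P.nx x.1, c) = P.lev (P.nx x.1, b) ↔ e.symm c ≠ none := fun c =>
    ⟨fun h' h'' => h1 (Or.inr ⟨c, h', h''⟩), fun h' => by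
      obtain ⟨c', hc'⟩ := Option.ne_none_iff_exists'.1 h'
      exact (he c' c (e.eq_some_iff.1 hc')).2⟩
  have hc : P.cor (P.nx x.1) b a (e.symm.toMatrix : Matrix ι ι Ω) = e.symm.toMatrix := by
    ext c c'
    simp only [cor, mask, Matrix.of_apply]
    split_ifs with h'
    · rfl
    · rw [PEquiv.toMatrix_apply]
      exact (if_neg fun h'' => h' (he c' c (e.eq_some_iff.1 h'')).symm).symm
  refine ⟨(isoMid hT _ a b).dbl, Or.inr ⟨by rw [Mid.dbl_phi, swap_phi], isoMid_thin hT _ a b,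
    Or.inl (by have := isoMid_inv hT h; omega)⟩, hle2 _,
    iso_dense hT h hBw hi hF s (deoD_cor_conj hlB hc) ?_ ?_⟩
  · rw [hy]
    exact deoD_conj hlB (deoD_mul ha)
  · rw [hy]
    exact deoD_conj hlB (deoD_mul (e := e.symm) hb)

end Prob

end Crest.Agent.R003
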