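import Crest.Agent.R003.T3b

/-! Row 3: Bruhat normal form of a pair of pieces (auxiliary file for `Fat`). -/

set_option autoImplicit false
set_option linter.unusedSectionVars false

namespace Crest.Agent.R003

open Matrix

section ext
variable {K S : Type} [Field K] [Fintype S] [DecidableEq S]

theorem fatb_sub_mul {A B T U : Type} (c : S → Prop) [DecidablePred c] (X : Matrix T S K)
    (Y : Matrix S U K) (f : A → T) (g : B → U)
    (h : ∀ i r j, ¬ c r → X (f i) r * Y r (g j) = 0) :
    (X * Y).submatrix f g = X.submatrix f (Subtype.val : {s // c s} → S) *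
      Y.submatrix (Subtype.val : {s // c s} → S) g := by
  ext i j
  simp only [Matrix.submatrix_apply, Matrix.mul_apply]
  rw [← Finset.sum_subtype (Finset.univ.filter c) (by simp) (fun r => X (f i) r * Y r (g j)),
    Finset.sum_filter_of_ne]
  intro r _ hr
  by_contra hc
  exact hr (h i r j hc)

/-- extension by the identity -/
def fatbExt (c : S → Prop) [DecidablePred c] (x : Matrix {s // c s} {s // c s} K) : Matrix S S K :=
  (fromBlocks x 0 0 (1 : Matrix {s // ¬ c s} {s // ¬ c s} K)).submatrix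
    (Equiv.sumCompl c).symm (Equiv.sumCompl c).symm

variable (c : S → Prop) [DecidablePred c]

theorem fatbExt_mul (x y : Matrix {s // c s} {s // c s} K) (h : x * y = 1) :
    fatbExt c x * fatbExt c y = 1 := by
  unfold fatbExt
  rw [Matrix.submatrix_mul_equiv, fromBlocks_multiply]
  simp [h, fromBlocks_one]

theorem fatbExt_on (x : Matrix {s // c s} {s // c s} K) {s t : S} (hs : c s) (ht : c t) :
    fatbExt c x s t = x ⟨s, hs⟩ ⟨t, ht⟩ := by
  simp [fatbExt, Equiv.sumCompl_symm_apply_of_pos hs, Equiv.sumCompl_symm_apply_of_pos ht]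

theorem fatbExt_off (x : Matrix {s // c s} {s // c s} K) {s t : S} (h : ¬ (c s ∧ c t)) :
    fatbExt c x s t = (1 : Matrix S S K) s t := by
  by_cases hs : c s <;> by_cases ht : c t
  · exact absurd ⟨hs, ht⟩ h
  · have : s ≠ t := fun e => ht (e ▸ hs)
    simp [fatbExt, Equiv.sumCompl_symm_apply_of_pos hs, Equiv.sumCompl_symm_apply_of_neg ht,
      this]
  · have : s ≠ t := fun e => hs (e ▸ ht)
    simp [fatbExt, Equiv.sumCompl_symm_apply_of_neg hs, Equiv.sumCompl_symm_apply_of_pos ht,
      this]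
  · simp [fatbExt, Equiv.sumCompl_symm_apply_of_neg hs, Equiv.sumCompl_symm_apply_of_neg ht,
      Matrix.one_apply]

theorem fatbExt_par {Λ : Type} [LinearOrder Λ] (l : S → Λ) {x : Matrix {s // c s} {s // c s} K}
    (hx : Par (fun s : {s // c s} => l s.1) x) : Par l (fatbExt c x) := by
  intro s t hst
  by_cases h : c s ∧ c t
  · rw [fatbExt_on c x h.1 h.2]
    exact hx _ _ hst
  · rw [fatbExt_off c x h, Matrix.one_apply_ne]
    rintro rfl
    exact lt_irrefl _ hst

theorem fatbExt_sub (x : Matrix {s // c s} {s // c s} K) :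
    (fatbExt c x).submatrix (Subtype.val : {s // c s} → S) (Subtype.val : {s // c s} → S) = x := by
  ext a b
  exact fatbExt_on c x a.2 b.2

theorem fatbExt_sub' (c' : S → Prop) (h : ∀ s, c' s → ¬ c s)
    (x : Matrix {s // c s} {s // c s} K) :
    (fatbExt c x).submatrix (Subtype.val : {s // c' s} → S) (Subtype.val : {s // c' s} → S)
      = 1 := by
  ext a b
  rw [Matrix.submatrix_apply, fatbExt_off c x fun h' => h _ a.2 h'.1]
  simp [Matrix.one_apply, Subtype.ext_iff]

theorem fatb_supp_mul {Q : Type} {f g k : S → Q} {X Y : Matrix S S K}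
    (hX : ∀ s t, f s ≠ g t → X s t = 0) (hY : ∀ s t, g s ≠ k t → Y s t = 0) :
    ∀ s t, f s ≠ k t → (X * Y) s t = 0 := by
  intro s t h
  rw [Matrix.mul_apply]
  refine Finset.sum_eq_zero fun r _ => ?_
  by_cases h1 : f s = g r
  · rw [hY r t (h1 ▸ h), mul_zero]
  · rw [hX s r h1, zero_mul]

theorem fatbExt_supp {Q : Type} [DecidableEq Q] (pc : S → Q) (p : Q)
    (x : Matrix {s // pc s = p} {s // pc s = p} K) :
    ∀ s t, pc s ≠ pc t → fatbExt (fun s => pc s = p) x s t = 0 := by
  intro s t h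
  rw [fatbExt_off _ x fun h' => h (h'.1.trans h'.2.symm), Matrix.one_apply_ne]
  rintro rfl
  exact h rfl

theorem fatb_pequiv {α β : Type} [Fintype α] [Fintype β] [DecidableEq α] [DecidableEq β]
    (e : α ≃. β) (F : Matrix β α K) {u : K} (hu : u ≠ 0)
    (h1 : (e.toMatrix : Matrix α β K) * F = u • (1 : Matrix α α K))
    (h2 : F * (e.toMatrix : Matrix α β K) = u • (1 : Matrix β β K)) :
    ∃ σ : α ≃ β, (∀ a b, (e.toMatrix : Matrix α β K) a b = if b = σ a then 1 else 0) ∧
      ∀ b a, F b a = if a = σ.symm b then u else 0 := by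
  have ha : ∀ a, ∃ b, e a = some b := fun a => by
    have := congrFun (congrFun h1 a) a
    rw [Matrix.mul_apply, Matrix.smul_apply, Matrix.one_apply_eq, smul_eq_mul, mul_one] at this
    obtain ⟨b, -, hb⟩ := Finset.exists_ne_zero_of_sum_ne_zero (this ▸ hu)
    refine ⟨b, ?_⟩
    by_contra hne
    exact left_ne_zero_of_mul hb (by simp [PEquiv.toMatrix_apply, hne])
  have hb : ∀ b, ∃ a, e a = some b := fun b => by
    have := congrFun (congrFun h2 b) b
    rw [Matrix.mul_apply, Matrix.smul_apply, Matrix.one_apply_eq, smul_eq_mul, mul_one] at this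
    obtain ⟨a, -, ha⟩ := Finset.exists_ne_zero_of_sum_ne_zero (this ▸ hu)
    refine ⟨a, ?_⟩
    by_contra hne
    exact right_ne_zero_of_mul ha (by simp [PEquiv.toMatrix_apply, hne])
  choose f hf using ha
  choose g hg using hb
  let σ : α ≃ β := ⟨f, g, fun a => e.inj (Option.mem_def.2 (hg _)) (Option.mem_def.2 (hf a)),
    fun b => Option.some_injective _ ((hf _).symm.trans (hg b))⟩
  have hE : ∀ a b, (e.toMatrix : Matrix α β K) a b = if b = σ a then 1 else 0 := fun a b => by
    simp [PEquiv.toMatrix_apply, hf a, σ, eq_comm]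
  refine ⟨σ, hE, fun b a => ?_⟩
  have := congrFun (congrFun h1 (σ.symm b)) a
  rw [Matrix.mul_apply, Matrix.smul_apply, Matrix.one_apply] at this
  simp only [hE, Equiv.apply_symm_apply, ite_mul, one_mul, zero_mul, Finset.sum_ite_eq',
    Finset.mem_univ, if_true, smul_eq_mul, mul_ite, mul_one, mul_zero] at this
  rw [this]
  simp only [eq_comm]

/-- the linear algebra core -/
theorem fatb_core {Q Λ : Type} [DecidableEq Q] [LinearOrder Λ] (pc : S → Q) (l : S → Λ)
    {p q : Q} (hpq : q ≠ p) (M : Matrix S S K) {u : K} (hu : u ≠ 0)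
    (hp : ∀ s t, pc s = p → pc t ≠ q → M s t = 0) (hq : ∀ s t, pc s = q → pc t ≠ p → M s t = 0)
    (hsq : ∀ s t, pc s = p ∨ pc s = q → (M * M) s t = if s = t then u else 0) :
    ∃ (W W' : Matrix S S K) (σ : {s // pc s = p} ≃ {s // pc s = q}), W * W' = 1 ∧ Par l W ∧
      (∀ s t, pc s ≠ pc t → W s t = 0) ∧ (∀ s t, pc s ≠ pc t → W' s t = 0) ∧
      (∀ (a : {s // pc s = p}) t, (W' * M * W) a t = if t = σ a then 1 else 0) ∧
      (∀ (b : {s // pc s = q}) t, (W' * M * W) b t = if t = σ.symm b then u else 0) := by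
  set A := M.submatrix (Subtype.val : {s // pc s = p} → S) (Subtype.val : {s // pc s = q} → S)
    with hA
  set B := M.submatrix (Subtype.val : {s // pc s = q} → S) (Subtype.val : {s // pc s = p} → S)
    with hB
  have hAB : A * B = u • (1 : Matrix _ _ K) := by
    rw [hA, hB, ← fatb_sub_mul (fun s => pc s = q) M M _ _
      fun i r j hr => by rw [hp _ _ i.2 hr, zero_mul]]
    ext a a'
    rw [Matrix.submatrix_apply, hsq _ _ (Or.inl a.2)]
    simp [Matrix.one_apply, Subtype.ext_iff]
  have hBA : B * A = u • (1 : Matrix _ _ K) := by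
    rw [hA, hB, ← fatb_sub_mul (fun s => pc s = p) M M _ _
      fun i r j hr => by rw [hq _ _ i.2 hr, zero_mul]]
    ext a a'
    rw [Matrix.submatrix_apply, hsq _ _ (Or.inr a.2)]
    simp [Matrix.one_apply, Subtype.ext_iff]
  obtain ⟨P₁, Q₁, e, hP, hQ, he⟩ := bruhat (fun s : {s // pc s = p} => l s.1)
    (fun s : {s // pc s = q} => l s.1) A
  have hE : (e.toMatrix : Matrix _ _ K) = (P₁⁻¹ : GL _ K).val * A * (Q₁⁻¹ : GL _ K).val := by
    rw [he, ← Matrix.mul_assoc, ← Matrix.mul_assoc, Units.inv_mul, Matrix.one_mul,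
      Matrix.mul_assoc, Units.mul_inv, Matrix.mul_one]
  obtain ⟨σ, hσ1, hσ2⟩ := fatb_pequiv e (Q₁.val * B * P₁.val) hu
    (by
      rw [hE]
      calc _ = (P₁⁻¹ : GL _ K).val * (A * ((Q₁⁻¹ : GL _ K).val * Q₁.val) * B) * P₁.val := by
            simp only [Matrix.mul_assoc]
        _ = _ := by
            rw [Units.inv_mul, Matrix.mul_one, hAB, Matrix.mul_smul, Matrix.mul_one,
              Matrix.smul_mul, Units.inv_mul])
    (by
      rw [hE]
      calc _ = Q₁.val * (B * (P₁.val * (P₁⁻¹ : GL _ K).val) * A) * (Q₁⁻¹ : GL _ K).val := by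
            simp only [Matrix.mul_assoc]
        _ = _ := by
            rw [Units.mul_inv, Matrix.mul_one, hBA, Matrix.mul_smul, Matrix.mul_one,
              Matrix.smul_mul, Units.mul_inv])
  have hsub : ∀ (r : Q) {X Y : Matrix S S K}, (∀ s t, pc s ≠ pc t → X s t = 0) →
      ∀ {T : Type} (g : T → S), (X * Y).submatrix (Subtype.val : {s // pc s = r} → S) g =
        X.submatrix (Subtype.val : {s // pc s = r} → S) (Subtype.val : {s // pc s = r} → S) *
          Y.submatrix (Subtype.val : {s // pc s = r} → S) g := by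
    intro r X Y hX T g
    exact fatb_sub_mul (fun s => pc s = r) X Y _ _ fun i c j hc => by
      rw [hX _ _ (fun h => hc (h.symm.trans i.2)), zero_mul]
  have hsub' : ∀ (r : Q) {X Y : Matrix S S K}, (∀ s t, pc s ≠ pc t → Y s t = 0) →
      ∀ {T : Type} (g : T → S), (X * Y).submatrix g (Subtype.val : {s // pc s = r} → S) =
        X.submatrix g (Subtype.val : {s // pc s = r} → S) *
          Y.submatrix (Subtype.val : {s // pc s = r} → S) (Subtype.val : {s // pc s = r} → S) := by
    intro r X Y hY T g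
    exact fatb_sub_mul (fun s => pc s = r) X Y _ _ fun i c j hc => by
      rw [hY _ _ (fun h => hc (h.trans j.2)), mul_zero]
  have d1 : ∀ s, pc s = p → ¬ pc s = q := fun s h h' => hpq (h'.symm.trans h)
  have d2 : ∀ s, pc s = q → ¬ pc s = p := fun s h h' => hpq (h.symm.trans h')
  set W := fatbExt (fun s => pc s = p) P₁.val * fatbExt (fun s => pc s = q) (Q₁⁻¹ : GL _ K).val
    with hW
  set W' := fatbExt (fun s => pc s = q) Q₁.val * fatbExt (fun s => pc s = p) (P₁⁻¹ : GL _ K).val
    with hW'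
  have sW : ∀ s t, pc s ≠ pc t → W s t = 0 :=
    fatb_supp_mul (fatbExt_supp pc p _) (fatbExt_supp pc q _)
  have sW' : ∀ s t, pc s ≠ pc t → W' s t = 0 :=
    fatb_supp_mul (fatbExt_supp pc q _) (fatbExt_supp pc p _)
  have hrow : ∀ (r r' : Q), (∀ s t, pc s = r → pc t ≠ r' → M s t = 0) → ∀ s t, pc s = r →
      pc t ≠ r' → (W' * M * W) s t = 0 := by
    intro r r' h s t hs ht
    rw [Matrix.mul_apply]
    refine Finset.sum_eq_zero fun c _ => ?_
    by_cases hc : pc c = pc t
    · rw [Matrix.mul_apply, Finset.sum_eq_zero, zero_mul]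
      intro b _
      by_cases hb : pc s = pc b
      · rw [h b c (hb ▸ hs) (hc ▸ ht), mul_zero]
      · rw [sW' _ _ hb, zero_mul]
    · rw [sW _ _ hc, mul_zero]
  refine ⟨W, W', σ, ?_, ?_, sW, sW', fun a t => ?_, fun b t => ?_⟩
  · rw [hW, hW', Matrix.mul_assoc, ← Matrix.mul_assoc (fatbExt _ (Q₁⁻¹ : GL _ K).val),
      fatbExt_mul _ _ _ Q₁.inv_mul, Matrix.one_mul, fatbExt_mul _ _ _ P₁.mul_inv]
  · exact (fatbExt_par _ l hP).mul (fatbExt_par _ l (hQ.inv Q₁.mul_inv))
  · by_cases ht : pc t = q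
    · have : (W' * M * W).submatrix (Subtype.val : {s // pc s = p} → S)
          (Subtype.val : {s // pc s = q} → S) = e.toMatrix := by
        rw [hsub' q sW, hsub p sW', hW, hW', hsub p (fatbExt_supp pc q _),
          hsub q (fatbExt_supp pc p _), fatbExt_sub, fatbExt_sub, fatbExt_sub' _ _ d1,
          fatbExt_sub' _ _ d2, Matrix.one_mul, Matrix.one_mul, hE]
      have h1 := congrFun (congrFun this a) ⟨t, ht⟩
      rw [Matrix.submatrix_apply, hσ1] at h1
      rw [h1]
      simp only [Subtype.ext_iff]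
    · rw [hrow p q hp _ _ a.2 ht, if_neg]
      rintro rfl
      exact ht (σ a).2
  · by_cases ht : pc t = p
    · have : (W' * M * W).submatrix (Subtype.val : {s // pc s = q} → S)
          (Subtype.val : {s // pc s = p} → S) = Q₁.val * B * P₁.val := by
        rw [hsub' p sW, hsub q sW', hW, hW', hsub p (fatbExt_supp pc p _),
          hsub q (fatbExt_supp pc q _), fatbExt_sub, fatbExt_sub, fatbExt_sub' _ _ d1,
          fatbExt_sub' _ _ d2, Matrix.mul_one, Matrix.mul_one]
      have h1 := congrFun (congrFun this b) ⟨t, ht⟩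
      rw [Matrix.submatrix_apply, hσ2] at h1
      rw [h1]
      simp only [Subtype.ext_iff]
    · rw [hrow q p hq _ _ b.2 ht, if_neg]
      rintro rfl
      exact ht (σ.symm b).2

end ext

namespace Prob

variable {o : Type} [CommRing o] {ι : Type} [Fintype ι] [DecidableEq ι] {P : Prob o ι}
  {Ω : Type} [Field Ω] [Algebra o Ω]

theorem fatb_card (p : P.Pc) :
    (Finset.univ.filter fun s : P.Site => P.pc s = p).card ≤ Fintype.card ι := by
  rw [← Finset.card_univ]
  refine Finset.card_le_card_of_injOn Prod.snd (fun _ _ => Finset.mem_univ _) ?_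
  intro s hs t ht hst
  have hs' : P.pc s = p := (Finset.mem_filter.1 hs).2
  have ht' : P.pc t = p := (Finset.mem_filter.1 ht).2
  exact Prod.ext (P.pc_slot _ _ (hs'.trans ht'.symm)) hst

theorem fatb_norm (hB : Big o Ω) {p : P.Pc} (hp : P.tau p ≠ p) (s : P.Sol Ω) :
    ∃ (C : P.Cell) (s' : P.Sol Ω), (∀ c, C.act c ↔ c = p ∨ c = P.tau p) ∧
      (∀ t, C.A t → C.ε t * C.ε (C.ς t) = P.u (P.pc t)) ∧ C.IsForm s'.1 ∧
      (InZ o Ω s' → InZ o Ω s) := by
  have hu : algebraMap o Ω (P.u p : o) ≠ 0 := ((P.u p).isUnit.map (algebraMap o Ω)).ne_zero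
  obtain ⟨W, W', σ, hWW, hpar, sW, sW', r1, r2⟩ := fatb_core P.pc P.lev hp s.1.2.1 hu
    (fun a b ha hb => s.2.supp a b fun h => hb (by rw [← ha, h, P.tau_tau]))
    (fun a b ha hb => s.2.supp a b fun h => hb (by
      have := congrArg P.tau (ha.symm.trans h)
      rw [P.tau_tau, P.tau_tau] at this
      exact this.symm))
    (by
      rintro a b (ha | ha)
      · rw [s.2.sq a not_false (by rw [ha]; exact hp) b, uu, ha]
      · rw [s.2.sq a not_false (by rw [ha, P.tau_tau]; exact hp.symm) b, uu, ha, P.u_tau])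
  let f : P.Site → P.Site := fun t => if h : P.pc t = p then (σ ⟨t, h⟩).1
    else if h : P.pc t = P.tau p then (σ.symm ⟨t, h⟩).1 else t
  have f1 : ∀ t (h : P.pc t = p), f t = (σ ⟨t, h⟩).1 := fun t h => dif_pos h
  have f2 : ∀ t (h : P.pc t = P.tau p), f t = (σ.symm ⟨t, h⟩).1 := fun t h => by
    simp only [f]
    rw [dif_neg (fun h' => hp (h.symm.trans h')), dif_pos h]
  have f3 : ∀ t, ¬ (P.pc t = p ∨ P.pc t = P.tau p) → f t = t := fun t h => by
    simp only [f]
    rw [dif_neg (fun h' => h (Or.inl h')), dif_neg (fun h' => h (Or.inr h'))]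
  have finv : Function.Involutive f := fun t => by
    by_cases h : P.pc t = p ∨ P.pc t = P.tau p
    · rcases h with h | h
      · rw [f1 t h, f2 _ (σ ⟨t, h⟩).2]; simp
      · rw [f2 t h, f1 _ (σ.symm ⟨t, h⟩).2]; simp
    · rw [f3 t h, f3 t h]
  have fpc : ∀ t, (P.pc t = p ∨ P.pc t = P.tau p) → P.pc (f t) = P.tau (P.pc t) := by
    rintro t (h | h)
    · rw [f1 t h, h]; exact (σ ⟨t, h⟩).2
    · rw [f2 t h, h, P.tau_tau]; exact (σ.symm ⟨t, h⟩).2
  let C : P.Cell :=
    { act := fun c => c = p ∨ c = P.tau p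
      ς := finv.toPerm
      ε := fun t => if P.pc t = p then 1 else P.u p
      act_tau := fun c => by
        constructor
        · rintro (h | h)
          · exact Or.inr (by rw [← h, P.tau_tau])
          · exact Or.inl (by rw [← P.tau_tau c, h, P.tau_tau])
        · rintro (h | h)
          · exact Or.inr (by rw [h])
          · exact Or.inl (by rw [h, P.tau_tau])
      ς_ς := finv
      ς_of_not := f3
      ς_pc := fpc
      ς_blk := fun t ht => by
        by_cases h : P.pc t = p ∨ P.pc t = P.tau p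
        · have h1 := (P.blk_pc _ _ ht).trans (fpc t h)
          rcases h with h | h
          · rw [h] at h1; exact absurd h1.symm hp
          · rw [h, P.tau_tau] at h1; exact absurd h1 hp
        · exact f3 t h
      ε_blk := fun a b hab _ => by simp only [P.blk_pc _ _ hab]
      card_le := by
        rw [Finset.filter_or, two_mul]
        exact (Finset.card_union_le _ _).trans (add_le_add (fatb_card _) (fatb_card _)) }
  have hll : dpart P.lev W * dpart P.lev W' = 1 := hpar.dpart_inv hWW
  have hll' : dpart P.lev W' * dpart P.lev W = 1 := mul_eq_one_comm.1 hll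
  have sl : ∀ {X : Matrix P.Site P.Site Ω}, (∀ s t, P.pc s ≠ P.pc t → X s t = 0) →
      ∀ s t, P.pc s ≠ P.pc t → dpart P.lev X s t = 0 := by
    intro X hX a b hab
    simp [dpart, hX a b hab]
  have huni : Uni P.lev (W * dpart P.lev W') := uni_iff.2
    ⟨hpar.mul (dpart_bd _).par, by rw [hpar.dpart_mul (dpart_bd _).par, (dpart_bd _).dpart_eq, hll]⟩
  obtain ⟨s', hs', hz⟩ := gauge_unip hB (G := W * dpart P.lev W') (G' := dpart P.lev W * W')
    (by rw [Matrix.mul_assoc, ← Matrix.mul_assoc (dpart _ W'), hll', Matrix.one_mul, hWW])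
    (fun a b hab => ⟨by
      by_contra hne
      apply hab
      rw [Matrix.sub_apply, fatb_supp_mul sW (sl sW') a b hne, Matrix.one_apply_ne, sub_zero]
      rintro rfl
      exact hne rfl, huni.sub_one a b hab⟩) s
  refine ⟨C, s', fun c => Iff.rfl, ?_, ⟨s'.2.mono fun _ h => h.elim, dpart P.lev W,
    dpart P.lev W', hll, fun a b hab => ?_, fun a b ha => ?_⟩, hz⟩
  · rintro t (h | h)
    · have h1 : P.pc (f t) ≠ p := by rw [fpc t (Or.inl h), h]; exact hp
      change (if P.pc t = p then 1 else P.u p) * (if P.pc (f t) = p then 1 else P.u p) = _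
      rw [if_pos h, if_neg h1, one_mul, h]
    · have h1 : P.pc (f t) = p := by rw [fpc t (Or.inr h), h, P.tau_tau]
      change (if P.pc t = p then 1 else P.u p) * (if P.pc (f t) = p then 1 else P.u p) = _
      rw [if_neg (fun h' => hp (h.symm.trans h')), if_pos h1, mul_one, h, P.u_tau]
  · by_cases h1 : P.pc a = P.pc b
    · exact dpart_bd W a b fun h2 => hab ⟨P.pc_slot _ _ h1, h2⟩
    · exact sl sW a b h1
  · have e1 : dpart P.lev W * W' * s.1.2.1 * (W * dpart P.lev W')
        = dpart P.lev W * ((W' * s.1.2.1 * W) * dpart P.lev W') := by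
      simp only [Matrix.mul_assoc]
    rw [hs', e1, Matrix.mul_assoc _ (C.M0 Ω), Matrix.mul_apply, Matrix.mul_apply]
    refine Finset.sum_congr rfl fun r _ => ?_
    by_cases h1 : P.pc a = P.pc r
    · congr 1
      rw [Matrix.mul_apply, Matrix.mul_apply]
      refine Finset.sum_congr rfl fun c _ => ?_
      congr 1
      have hr : P.pc r = p ∨ P.pc r = P.tau p := h1 ▸ ha
      change _ = if c = f r then algebraMap o Ω
        ((if P.pc r = p then 1 else P.u p : oˣ) : o) else 0
      rcases hr with h | h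
      · rw [r1 ⟨r, h⟩ c, f1 r h, if_pos h]; simp
      · rw [r2 ⟨r, h⟩ c, f2 r h, if_neg (fun h' => hp (h.symm.trans h'))]
    · rw [sl sW a r h1, zero_mul, zero_mul]

end Prob

end Crest.Agent.R003
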