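import Crest.Agent.R003.T3b
import Crest.Agent.R003.FatAuxB

/-! Row 3: reduction to thin problems. -/

set_option autoImplicit false
set_option linter.unusedSectionVars false

namespace Crest.Agent.R003

open Matrix

namespace Prob

variable {o : Type} [CommRing o] {ι : Type} [Fintype ι] [DecidableEq ι] {P : Prob o ι}
  {Ω : Type} [Field Ω] [Algebra o Ω]

/-- common part of `fat_fixed` and `fat_peel` -/
private theorem fat_repiece (Pc : Type) [DecidableEq Pc] (pc : P.Site → Pc) (tau : Pc → Pc)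
    (u : Pc → oˣ) (tau_tau : ∀ p, tau (tau p) = p) (u_tau : ∀ p, u (tau p) = u p)
    (h1 : ∀ s t, pc s = pc t → P.pc s = P.pc t)
    (h2 : ∀ s t, pc s = tau (pc t) → P.pc s = P.tau (P.pc t))
    (h3 : ∀ s t, Blk P.lev s t → pc s = pc t) (hu : ∀ s, u (pc s) = P.u (P.pc s))
    (hf : ∀ s, tau (pc s) = pc s ↔ P.tau (P.pc s) = P.pc s) {s₁ s₂ : P.Site}
    (h : P.pc s₁ = P.pc s₂) (h' : ¬ Blk P.lev s₁ s₂) (hne : pc s₁ ≠ pc s₂) (s : P.Sol Ω)
    (hs : ∀ a b, pc a ≠ tau (pc b) → s.1.2.1 a b = 0) :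
    ∃ P' : Prob o ι, P'.Phi = P.Phi ∧ P'.fat < P.fat ∧ (∀ n, P.Le n → P'.Le n) ∧
      (P'.Dense Ω → InZ o Ω s) := by
  refine ⟨P.repiece Pc pc tau u tau_tau u_tau h1 h2 h3, rfl, ?_, fun n hn => hn, fun hd => ?_⟩
  · change (Finset.univ.filter fun q : P.Site × P.Site =>
        pc q.1 = pc q.2 ∧ ¬ Blk P.lev q.1 q.2).card < (Finset.univ.filter
        fun q : P.Site × P.Site => P.pc q.1 = P.pc q.2 ∧ ¬ Blk P.lev q.1 q.2).card
    refine Finset.card_lt_card ((Finset.ssubset_iff_of_subset fun q hq => ?_).2 ⟨(s₁, s₂), ?_, ?_⟩)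
    · have hq' := (Finset.mem_filter.1 hq).2
      exact Finset.mem_filter.2 ⟨Finset.mem_univ _, h1 _ _ hq'.1, hq'.2⟩
    · exact Finset.mem_filter.2 ⟨Finset.mem_univ _, h, h'⟩
    · exact fun hq => hne (Finset.mem_filter.1 hq).2.1
  · have huu : ∀ a, (P.repiece Pc pc tau u tau_tau u_tau h1 h2 h3).uu Ω a = P.uu Ω a :=
      fun a => congrArg (fun x : oˣ => algebraMap o Ω (x : o)) (hu a)
    have hto : (P.repiece Pc pc tau u tau_tau u_tau h1 h2 h3).IsSol s.1 :=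
      ⟨s.2.uni, hs, fun a _ ha t => by rw [huu]; exact s.2.fix a id ((hf a).1 ha) t,
        fun a _ ha t => by rw [huu]; exact s.2.sq a id (fun e => ha ((hf a).2 e)) t, s.2.fr⟩
    have hfrom : ∀ d : P.Data Ω, (P.repiece Pc pc tau u tau_tau u_tau h1 h2 h3).IsSol d →
        P.IsSol d := fun d hd =>
      ⟨hd.uni, fun a b hab => hd.supp a b fun e => hab (h2 a b e),
        fun a _ ha t => (hd.fix a id ((hf a).2 ha) t).trans
          (congrArg (fun x : Ω => if a = t then x else 0) (huu a)),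
        fun a _ ha t => (hd.sq a id (fun e => ha ((hf a).1 e)) t).trans
          (congrArg (fun x : Ω => if a = t then x else 0) (huu a)), hd.fr⟩
    exact Good.inZ (f := fun x : (P.repiece Pc pc tau u tau_tau u_tau h1 h2 h3).Sol Ω =>
      (⟨x.1, hfrom x.1 x.2⟩ : P.Sol Ω)) (Good.subtypeMk (Good.val Good.id) _) (hd ⟨s.1, hto⟩)

/-- A fixed piece which is not a block is cut into its blocks (`repiece` with `Pc ⊕ Λ`, the scalar
`u p` on the new fixed pieces); the solutions do not change. -/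
theorem fat_fixed {s₁ s₂ : P.Site} (h : P.pc s₁ = P.pc s₂) (h' : ¬ Blk P.lev s₁ s₂)
    (hf : P.tau (P.pc s₁) = P.pc s₁) (s : P.Sol Ω) :
    ∃ P' : Prob o ι, P'.Phi = P.Phi ∧ P'.fat < P.fat ∧ (∀ n, P.Le n → P'.Le n) ∧
      (P'.Dense Ω → InZ o Ω s) := by
  refine fat_repiece (P.Pc ⊕ P.Λ)
    (fun r => if P.pc r = P.pc s₁ then Sum.inr (P.lev r) else Sum.inl (P.pc r))
    (Sum.map P.tau id) (Sum.elim P.u fun _ => P.u (P.pc s₁)) ?_ ?_ ?_ ?_ ?_ ?_ ?_ h h' ?_ s ?_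
  · rintro (q | q) <;> simp [P.tau_tau]
  · rintro (q | q) <;> simp [P.u_tau]
  · intro a b hab
    by_cases ha : P.pc a = P.pc s₁ <;> by_cases hb : P.pc b = P.pc s₁
    · rw [ha, hb]
    · simp [ha, hb] at hab
    · simp [ha, hb] at hab
    · simpa [ha, hb] using hab
  · intro a b hab
    by_cases ha : P.pc a = P.pc s₁ <;> by_cases hb : P.pc b = P.pc s₁
    · rw [ha, hb, hf]
    · simp [ha, hb] at hab
    · simp [ha, hb] at hab
    · simpa [ha, hb] using hab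
  · intro a b hab
    simp only [P.blk_pc a b hab, hab.2]
  · intro a
    by_cases ha : P.pc a = P.pc s₁ <;> simp [ha]
  · intro a
    by_cases ha : P.pc a = P.pc s₁ <;> simp [ha, hf]
  · intro e
    simp only [← h, if_true, Sum.inr.injEq] at e
    exact h' ⟨P.pc_slot _ _ h, e⟩
  · intro a b hab
    by_cases he : P.pc a = P.tau (P.pc b)
    · by_cases hb : P.pc b = P.pc s₁
      · have ha : P.pc a = P.pc s₁ := by rw [he, hb, hf]
        rw [s.2.fix a id (by rw [ha, hf]) b, if_neg]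
        rintro rfl
        exact hab (by simp [ha])
      · have ha : P.pc a ≠ P.pc s₁ := fun e => hb (by rw [← P.tau_tau (P.pc b), ← he, e, hf])
        exact absurd (by rw [if_neg ha, if_neg hb, Sum.map_inl, he]) hab
    · exact s.2.supp a b he

/-- the cell of a pair of pieces -/
structure PairCell (C : P.Cell) (p : P.Pc) : Prop where
  ne : P.tau p ≠ p
  act : ∀ c, C.act c ↔ c = p ∨ c = P.tau p
  eps : ∀ t, C.A t → C.ε t * C.ε (C.ς t) = P.u (P.pc t)

/-- `(l M0 l⁻¹)² = l M0² l⁻¹` on the active rows -/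
theorem PairCell.isSol {C : P.Cell} {p : P.Pc} (h : PairCell C p) {d : P.Data Ω}
    (hd : C.IsForm d) : P.IsSol d := by
  obtain ⟨l, l', hl, hlb, hform⟩ := hd.form
  refine ⟨hd.pre.uni, hd.pre.supp, fun s _ hs => hd.pre.fix s (fun ha => ?_) hs,
    fun s _ hs t => ?_, hd.pre.fr⟩
  · rcases (h.act _).1 ha with e | e
    · rw [e] at hs
      exact h.ne hs
    · rw [e, P.tau_tau] at hs
      exact h.ne hs.symm
  by_cases ha : C.act (P.pc s)
  swap
  · exact hd.pre.sq s ha hs t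
  have e1 : (d.2.1 * d.2.1) s t = ((l * C.M0 Ω * l') * (l * C.M0 Ω * l')) s t := by
    rw [Matrix.mul_apply, Matrix.mul_apply]
    refine Finset.sum_congr rfl fun r _ => ?_
    rw [← hform s r ha]
    by_cases h0 : d.2.1 s r = 0
    · rw [h0, zero_mul, zero_mul]
    · have e : P.pc s = P.tau (P.pc r) := by_contra fun hne => h0 (hd.pre.supp s r hne)
      rw [hform r t ((C.act_tau _).1 (e ▸ ha))]
  have e2 : C.M0 Ω * C.M0 Ω =
      Matrix.diagonal fun c => algebraMap o Ω ((C.ε c * C.ε (C.ς c) : oˣ) : o) := by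
    ext c f
    rw [Matrix.mul_apply, Finset.sum_eq_single (C.ς c)]
    · simp only [Cell.M0, Matrix.of_apply, if_true, C.ς_ς, Matrix.diagonal_apply, Units.val_mul,
        map_mul]
      by_cases hcf : c = f
      · simp [hcf]
      · simp [hcf, Ne.symm hcf]
    · intro x _ hx
      simp [Cell.M0, hx]
    · simp
  have e3 : (l * C.M0 Ω * l') * (l * C.M0 Ω * l') = l * (C.M0 Ω * C.M0 Ω) * l' := by
    calc (l * C.M0 Ω * l') * (l * C.M0 Ω * l') = l * C.M0 Ω * (l' * l) * C.M0 Ω * l' := by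
          simp only [Matrix.mul_assoc]
      _ = _ := by rw [mul_eq_one_comm.1 hl]; simp only [Matrix.mul_assoc, Matrix.one_mul]
  rw [e1, e3, e2, Matrix.mul_apply]
  have e4 : ∀ c, (l * Matrix.diagonal fun c => algebraMap o Ω ((C.ε c * C.ε (C.ς c) : oˣ) : o))
      s c * l' c t = P.uu Ω s * (l s c * l' c t) := by
    intro c
    rw [Matrix.mul_diagonal]
    by_cases hb : Blk P.lev s c
    · have e := P.blk_pc s c hb
      rw [h.eps c (show C.act (P.pc c) from e ▸ ha), ← e]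
      ring
    · rw [hlb s c hb]
      ring
  simp only [e4]
  rw [← Finset.mul_sum, ← Matrix.mul_apply, hl, Matrix.one_apply]
  split_ifs <;> simp

/-- Bruhat decomposition `A = P₁ σ Q₁` (`bruhat`) of the invertible matrix `A = M` on `p × tau p`
(so the partial bijection `σ` is a bijection).  Write `P₁ = v₁ ℓ₁`, `Q₁ = ℓ₂ v₂` (`dpart`), apply
`gauge_unip` with `G = v₁` on `p`, `v₂⁻¹` on `tau p`, `1` elsewhere.  Then `ς = σ` on `p`, `σ⁻¹` on
`tau p`, `ε = 1` on `p`, `u p` on `tau p`, `l = ℓ₁` on `p`, `ℓ₂⁻¹` on `tau p`, `1` elsewhere. -/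
theorem fat_norm (hB : Big o Ω) {p : P.Pc} (hp : P.tau p ≠ p) (s : P.Sol Ω) :
    ∃ (C : P.Cell) (s' : P.Sol Ω), PairCell C p ∧ C.IsForm s'.1 ∧ (InZ o Ω s' → InZ o Ω s) := by
  obtain ⟨C, s', h1, h2, h3, h4⟩ := fatb_norm hB hp s
  exact ⟨C, s', ⟨hp, h1, h2⟩, h3, h4⟩

/-- If `ς` maps the block of `t` onto the block of `ς t`, these two blocks become a new pair of
pieces (`repiece` with `Pc × Bool`); solutions of the new problem are solutions of `P`. -/
theorem fat_peel {C : P.Cell} {p : P.Pc} (h : PairCell C p) {s₁ s₂ : P.Site} (h1 : P.pc s₁ = p)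
    (h2 : P.pc s₂ = p) (h' : ¬ Blk P.lev s₁ s₂) {t : P.Site} (ht : C.A t)
    (hm : ∀ t', Blk P.lev t t' ↔ Blk P.lev (C.ς t) (C.ς t')) (s : P.Sol Ω) (hs : C.IsForm s.1) :
    ∃ P' : Prob o ι, P'.Phi = P.Phi ∧ P'.fat < P.fat ∧ (∀ n, P.Le n → P'.Le n) ∧
      (P'.Dense Ω → InZ o Ω s) := by
  obtain ⟨B, hB⟩ : ∃ B : P.Site → Bool,
      ∀ r, B r = true ↔ Blk P.lev t r ∨ Blk P.lev (C.ς t) r :=
    ⟨fun r => decide (Blk P.lev t r ∨ Blk P.lev (C.ς t) r), fun r => decide_eq_true_iff⟩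
  have hBb : ∀ a b, Blk P.lev a b → B a = B b := fun a b hab => by
    rw [Bool.eq_iff_iff, hB, hB]
    exact or_congr ⟨fun e => blk_trans e hab, fun e => blk_trans e (blk_symm hab)⟩
      ⟨fun e => blk_trans e hab, fun e => blk_trans e (blk_symm hab)⟩
  have hBς : ∀ c, B (C.ς c) = B c := fun c => by
    rw [Bool.eq_iff_iff, hB, hB, hm (C.ς c), C.ς_ς, ← hm c, or_comm]
  have hςt : P.pc (C.ς t) = P.tau (P.pc t) := C.ς_pc t ht
  have hBa : ∀ r, B r = true → C.act (P.pc r) := fun r hr => by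
    rcases (hB r).1 hr with e | e
    · exact P.blk_pc _ _ e ▸ ht
    · rw [← P.blk_pc _ _ e, hςt]
      exact (C.act_tau _).2 ht
  -- a pair of sites which is separated
  obtain ⟨a₀, b₀, e1, e2, e3⟩ : ∃ a b : P.Site, P.pc a = P.pc b ∧ ¬ Blk P.lev a b ∧ B a ≠ B b := by
    have key : ∀ t₀ t₁ : P.Site, P.pc t₀ = p → P.pc t₁ = P.tau p →
        (∀ r, B r = true ↔ Blk P.lev t₀ r ∨ Blk P.lev t₁ r) →
        ∃ a b : P.Site, P.pc a = P.pc b ∧ ¬ Blk P.lev a b ∧ B a ≠ B b := by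
      intro t₀ t₁ k0 k1 hB'
      obtain ⟨s₃, k3, k4⟩ : ∃ s₃, P.pc s₃ = p ∧ ¬ Blk P.lev t₀ s₃ := by
        by_cases k : Blk P.lev t₀ s₁
        · exact ⟨s₂, h2, fun k' => h' (blk_trans (blk_symm k) k')⟩
        · exact ⟨s₁, h1, k⟩
      refine ⟨t₀, s₃, k0.trans k3.symm, k4, fun e => ?_⟩
      rcases (hB' s₃).1 (e ▸ (hB' t₀).2 (Or.inl (blk_refl _))) with k | k
      · exact k4 k
      · exact h.ne (k1.symm.trans ((P.blk_pc _ _ k).trans k3))
    rcases (h.act _).1 ht with e | e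
    · exact key t (C.ς t) e (by rw [hςt, e]) hB
    · exact key (C.ς t) t (by rw [hςt, e, P.tau_tau]) e fun r => (hB r).trans or_comm
  refine fat_repiece (P.Pc × Bool) (fun r => (P.pc r, B r)) (fun q => (P.tau q.1, q.2))
    (fun q => P.u q.1) (fun q => by simp [P.tau_tau]) (fun q => P.u_tau _)
    (fun a b hab => congrArg Prod.fst hab) (fun a b hab => congrArg Prod.fst hab)
    (fun a b hab => Prod.ext (P.blk_pc a b hab) (hBb a b hab)) (fun _ => rfl)
    (fun a => by simp) e1 e2 (fun e => e3 (congrArg Prod.snd e)) s fun a b hab => ?_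
  by_cases he : P.pc a = P.tau (P.pc b)
  swap
  · exact s.2.supp a b he
  have hne : B a ≠ B b := fun e => hab (Prod.ext he e)
  have ha : C.act (P.pc a) := by
    cases hb : B b
    · exact hBa a (by rw [hb] at hne; simpa using hne)
    · rw [he]
      exact (C.act_tau _).2 (hBa b hb)
  obtain ⟨l, l', hl, hlb, hform⟩ := hs.form
  have hlb' : ∀ c e, ¬ Blk P.lev c e → l' c e = 0 := fun c e hce =>
    supp_inv (p := fun r : P.Site => (r.1, P.lev r)) (q := fun r : P.Site => (r.1, P.lev r)) hl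
      (mul_eq_one_comm.1 hl) (fun x y hxy => hlb x y fun k => hxy (Prod.ext k.1 k.2)) c e
      fun k => hce ⟨(congrArg Prod.fst k).symm, (congrArg Prod.snd k).symm⟩
  rw [hform a b ha, Matrix.mul_apply]
  refine Finset.sum_eq_zero fun e _ => ?_
  by_cases k2 : Blk P.lev e b
  swap
  · rw [hlb' e b k2, mul_zero]
  rw [Matrix.mul_apply, Finset.sum_eq_zero, zero_mul]
  intro c _
  by_cases k1 : Blk P.lev a c
  swap
  · rw [hlb a c k1, zero_mul]
  simp only [Cell.M0, Matrix.of_apply]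
  rw [if_neg, mul_zero]
  rintro rfl
  exact hne ((hBb a c k1).trans ((hBς c).symm.trans (hBb _ b k2)))

/-- take an active site with the biggest block; `ς` maps the new block of `t` injectively into the
block of `ς t` -/
theorem Cell.exists_max (C : P.Cell) {s₁ : P.Site} (h1 : C.A s₁)
    (hm : ∀ t, C.A t → ¬ ∀ t', Blk P.lev t t' ↔ Blk P.lev (C.ς t) (C.ς t')) :
    ∃ s, C.A s ∧ ∀ t, C.A t → C.nsz t < P.bsz s := by
  obtain ⟨s, hs, hmax⟩ := Finset.exists_max_image (Finset.univ.filter fun s => C.A s) P.bsz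
    ⟨s₁, Finset.mem_filter.2 ⟨Finset.mem_univ _, h1⟩⟩
  refine ⟨s, (Finset.mem_filter.1 hs).2, fun t ht => ?_⟩
  have hςt : C.A (C.ς t) := by
    change C.act (P.pc (C.ς t))
    rw [C.ς_pc t ht]
    exact (C.act_tau _).2 ht
  have hsl : ∀ t', Blk P.lev t t' → (C.ς t).1 = (C.ς t').1 := fun t' k => by
    have e := P.blk_pc _ _ k
    refine P.pc_slot _ _ ?_
    rw [C.ς_pc t ht, C.ς_pc t' (e ▸ ht), e]
  obtain ⟨t', ht'⟩ := not_forall.1 (hm t ht)
  by_cases k : Blk P.lev t t'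
  · refine lt_of_lt_of_le ?_ (hmax t (Finset.mem_filter.2 ⟨Finset.mem_univ _, ht⟩))
    refine Finset.card_lt_card ((Finset.ssubset_iff_of_subset fun r hr => ?_).2 ⟨t', ?_, ?_⟩)
    · exact Finset.mem_filter.2 ⟨Finset.mem_univ _, (Finset.mem_filter.1 hr).2.1⟩
    · exact Finset.mem_filter.2 ⟨Finset.mem_univ _, k⟩
    · exact fun hr => ht' (iff_of_true k ⟨hsl t' k, (Finset.mem_filter.1 hr).2.2⟩)
  · have k' : Blk P.lev (C.ς t) (C.ς t') := by_contra fun k' => ht' (iff_of_false k k')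
    refine lt_of_lt_of_le ?_ (hmax (C.ς t) (Finset.mem_filter.2 ⟨Finset.mem_univ _, hςt⟩))
    unfold Cell.nsz
    rw [← Finset.card_map C.ς.toEmbedding]
    refine Finset.card_lt_card ((Finset.ssubset_iff_of_subset fun r hr => ?_).2 ⟨C.ς t', ?_, ?_⟩)
    · obtain ⟨r', hr', rfl⟩ := Finset.mem_map.1 hr
      have hr'' := (Finset.mem_filter.1 hr').2
      exact Finset.mem_filter.2 ⟨Finset.mem_univ _, hsl r' hr''.1, hr''.2⟩
    · exact Finset.mem_filter.2 ⟨Finset.mem_univ _, k'⟩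
    · intro hr
      obtain ⟨r', hr', e⟩ := Finset.mem_map.1 hr
      obtain rfl : r' = t' := C.ς.injective e
      exact k (Finset.mem_filter.1 hr').2.1

theorem fat_step (hB : Big o Ω) (h : ¬ P.Thin) (s : P.Sol Ω) :
    ∃ P' : Prob o ι, (P'.Phi < P.Phi ∨ (P'.Phi = P.Phi ∧ P'.fat < P.fat)) ∧
      (∀ n, P.Le n → P'.Le n) ∧ (P'.Dense Ω → InZ o Ω s) := by
  obtain ⟨s₁, s₂, h1, h2⟩ : ∃ s₁ s₂, P.pc s₁ = P.pc s₂ ∧ ¬ Blk P.lev s₁ s₂ := by
    by_contra hc
    exact h fun s t hst => by_contra fun h' => hc ⟨s, t, hst, h'⟩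
  by_cases hf : P.tau (P.pc s₁) = P.pc s₁
  · obtain ⟨P', a, b, c, d⟩ := fat_fixed h1 h2 hf s
    exact ⟨P', Or.inr ⟨a, b⟩, c, d⟩
  obtain ⟨C, s', hC, hF, hs⟩ := fat_norm hB hf s
  by_cases hm : ∃ t, C.A t ∧ ∀ t', Blk P.lev t t' ↔ Blk P.lev (C.ς t) (C.ς t')
  · obtain ⟨t, ht, hm⟩ := hm
    obtain ⟨P', a, b, c, d⟩ := fat_peel hC rfl h1.symm h2 ht hm s' hF
    exact ⟨P', Or.inr ⟨a, b⟩, c, fun hd => hs (d hd)⟩
  · obtain ⟨s₀, h0, h0'⟩ := C.exists_max (s₁ := s₁) ((hC.act _).2 (Or.inl rfl))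
      fun t ht h' => hm ⟨t, ht, h'⟩
    obtain ⟨P', a, c, d⟩ := cell_step hB C h0 h0' ⟨s'.1, hF⟩
    refine ⟨P', Or.inl a, c, fun hd => hs ?_⟩
    exact Good.inZ (f := fun x : {d : P.Data Ω // C.IsForm d} => (⟨x.1, hC.isSol x.2⟩ : P.Sol Ω))
      (Good.subtypeMk (Good.val Good.id) _) (d hd)

end Prob

end Crest.Agent.R003
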