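import Crest.Agent.R003.Cls

/-! Row 3: reduction of semisimple representations to flag varieties. -/

set_option autoImplicit false
set_option linter.unusedSectionVars false

namespace Crest.Agent.R003

open Matrix

variable {o : Type} [CommRing o] {Ω : Type} [Field Ω] [Algebra o Ω] {κ : Type} [Fintype κ]
  [DecidableEq κ] {g s : ℕ}

variable (o Ω κ) in
/-- integral points are dense in all punctured surface varieties with flags -/
def FlDense : Prop := ∀ (g s : ℕ) (l : Fin s → κ → ℕ) (z : Fin s → ℕ → oˣ) (d : FlV Ω g l z),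
  InZ o Ω d

/-- the surface relation -/
def IsRel (T : (Fin g × Bool) ⊕ Fin s → GL κ Ω) : Prop :=
  hprod (fun i => (T (Sum.inl (i, false)), T (Sum.inl (i, true)))) *
    ((List.finRange s).map fun j => T (Sum.inr j)).prod = 1

variable (o) in
/-- the eigenvalues of the boundary matrices are units of `o` -/
def Eig (T : (Fin g × Bool) ⊕ Fin s → GL κ Ω) : Prop :=
  ∀ j (μ : Ω), (T (Sum.inr j) : Matrix κ κ Ω).charpoly.IsRoot μ → ∃ u : oˣ, algebraMap o Ω u = μ

variable (o) in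
/-- integral semisimple representations with the boundary classes of `T` -/
def Tgt (T : (Fin g × Bool) ⊕ Fin s → GL κ Ω) : Set ((Fin g × Bool) ⊕ Fin s → GL κ Ω) :=
  {T' | IsRel T' ∧ SS (fun v => (T' v : Matrix κ κ Ω)) ∧
    (∀ j, IsConj (T' (Sum.inr j)) (T (Sum.inr j))) ∧ IsInt o Ω T'}

/-- listing the roots of a monic polynomial -/
private theorem red_roots [IsAlgClosed Ω] (n : ℕ) : ∀ p : Polynomial Ω, p.Monic → p.natDegree = n →
    (∀ μ, p.IsRoot μ → ∃ u : oˣ, algebraMap o Ω u = μ) →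
    ∃ z : ℕ → oˣ, p = ∏ l ∈ Finset.range n, (Polynomial.X - Polynomial.C (algebraMap o Ω (z l))) := by
  induction n with
  | zero =>
    intro p hp hd _
    exact ⟨fun _ => 1, by simpa using hp.natDegree_eq_zero.1 hd⟩
  | succ n ih =>
    intro p hp hd hr
    have hdeg : p.degree ≠ 0 := by
      rw [Polynomial.degree_eq_natDegree hp.ne_zero, hd]
      exact_mod_cast Nat.succ_ne_zero n
    obtain ⟨a, ha⟩ := IsAlgClosed.exists_root p hdeg
    obtain ⟨u, hu⟩ := hr a ha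
    have hpq : (Polynomial.X - Polynomial.C a) * (p /ₘ (Polynomial.X - Polynomial.C a)) = p :=
      Polynomial.mul_divByMonic_eq_iff_isRoot.2 ha
    have hq : (p /ₘ (Polynomial.X - Polynomial.C a)).Monic :=
      (Polynomial.monic_X_sub_C a).of_mul_monic_left (by rw [hpq]; exact hp)
    have hqd : (p /ₘ (Polynomial.X - Polynomial.C a)).natDegree = n := by
      have := (Polynomial.monic_X_sub_C a).natDegree_mul hq
      rw [hpq, hd, Polynomial.natDegree_X_sub_C] at this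
      omega
    obtain ⟨z, hz⟩ := ih _ hq hqd fun μ hμ => hr μ (by
      rw [← hpq]; exact Polynomial.root_mul.2 (Or.inr hμ))
    refine ⟨fun l => Nat.casesOn l u z, ?_⟩
    rw [Finset.prod_range_succ', ← hpq, mul_comm]
    congr 1
    simp [hu]

/-- the surface word in a group -/
private def redW {G : Type} [Group G] (T : (Fin g × Bool) ⊕ Fin s → G) : G :=
  hprod (fun i => (T (Sum.inl (i, false)), T (Sum.inl (i, true)))) *
    ((List.finRange s).map fun j => T (Sum.inr j)).prod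

private theorem redW_map {G G' : Type} [Group G] [Group G'] (f : G →* G')
    (T : (Fin g × Bool) ⊕ Fin s → G) : f (redW T) = redW fun v => f (T v) := by
  simp only [redW, hprod, map_mul, map_list_prod, List.map_map, Function.comp_def, cm, map_inv]

private theorem redW_prod {G G' : Type} [Group G] [Group G'] (T : (Fin g × Bool) ⊕ Fin s → G)
    (T' : (Fin g × Bool) ⊕ Fin s → G') : redW (fun v => (T v, T' v)) = (redW T, redW T') :=
  Prod.ext (redW_map (MonoidHom.fst G G') fun v => (T v, T' v))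
    (redW_map (MonoidHom.snd G G') fun v => (T v, T' v))

/-- a diagonal matrix of units -/
private def redD (z : κ → oˣ) : GL κ Ω :=
  ⟨diagonal fun a => algebraMap o Ω (z a), diagonal fun a => algebraMap o Ω ((z a)⁻¹ : oˣ), by
    rw [diagonal_mul_diagonal, ← diagonal_one]
    congr 1; funext a; rw [← map_mul]; simp, by
    rw [diagonal_mul_diagonal, ← diagonal_one]
    congr 1; funext a; rw [← map_mul]; simp⟩

private theorem redD_good {X : Type} [Coord Ω X] (z : κ → oˣ) :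
    Good o Ω (fun _ : X => (redD z : GL κ Ω)) :=
  good_units (Good.diagonal fun _ => Good.algMap _) (Good.diagonal fun _ => Good.algMap _)

/-- the representation of a point of the flag variety -/
private noncomputable def redPhi {l : Fin s → κ → ℕ} {z : Fin s → ℕ → oˣ} (d : FlV Ω g l z) :
    (Fin g × Bool) ⊕ Fin s → GL κ Ω :=
  Sum.elim (fun p => if p.2 then (d.1.1 p.1).2 else (d.1.1 p.1).1) fun j =>
    d.1.2.1 j * (redD (fun a => z j (l j a)) * ⟨d.1.2.2 j, (d.1.2.2 j).adjugate,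
      (d.2.uni j).mul_adjugate, (d.2.uni j).adjugate_mul⟩) * (d.1.2.1 j)⁻¹

private theorem redPhi_inr {l : Fin s → κ → ℕ} {z : Fin s → ℕ → oˣ} (d : FlV Ω g l z) (j : Fin s) :
    (redPhi d (Sum.inr j) : Matrix κ κ Ω) = (d.1.2.1 j : Matrix κ κ Ω) *
      ((Matrix.diagonal fun a => algebraMap o Ω (z j (l j a) : o)) * d.1.2.2 j) *
      (((d.1.2.1 j)⁻¹ : GL κ Ω) : Matrix κ κ Ω) := rfl

private theorem redPhi_good {l : Fin s → κ → ℕ} {z : Fin s → ℕ → oˣ} :
    Good o Ω (fun d : FlV Ω g l z => redPhi d) := by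
  refine Good.pi fun v => ?_
  rcases v with ⟨i, b⟩ | j
  · cases b
    · change Good o Ω (fun d : FlV Ω g l z => (d.1.1 i).1)
      fun_prop
    · change Good o Ω (fun d : FlV Ω g l z => (d.1.1 i).2)
      fun_prop
  · have h1 : Good o Ω (fun d : FlV Ω g l z => d.1.2.1 j) := by fun_prop
    have h2 : Good o Ω (fun d : FlV Ω g l z => d.1.2.2 j) := by fun_prop
    exact (h1.glmul ((redD_good _).glmul (Good.unitsMk h2 h2.adjugate _ _))).glmul h1.uinv

private theorem redPhi_rel {l : Fin s → κ → ℕ} {z : Fin s → ℕ → oˣ} (d : FlV Ω g l z) :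
    IsRel (redPhi d) := by
  apply Units.ext
  have h := d.2.rel
  rw [Units.val_mul, Units.val_one, ← h]
  congr 1
  rw [← Units.coeHom_apply, map_list_prod, List.map_map]
  rfl

/-- List the roots of the characteristic polynomial of `T (inr j)` with multiplicity as
`algebraMap (z j l)`, `l < card κ` (Cayley-Hamilton gives `pp = 0`), use `exists_flag_form` to lift `T`
to a point of `FlV`.  The map `FlV → (gens → GL)` is good.  Remove (`Cl_inter_ne`) the zero set of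
the product of the functions of `irr_open` and `rank_open`; the remaining integral points map into
`Tgt` by `rank_pp_le`, `conj_of_rank`, `Irr.ss`. -/
theorem irr_case [IsAlgClosed Ω] (hF : FlDense o Ω κ) (T : (Fin g × Bool) ⊕ Fin s → GL κ Ω)
    (hT : IsRel T) (hE : Eig o T) (hI : Irr fun v => (T v : Matrix κ κ Ω)) :
    T ∈ Cl Ω (Tgt o T) := by
  classical
  have hz : ∀ j, ∃ z : ℕ → oˣ, (T (Sum.inr j) : Matrix κ κ Ω).charpoly =
      ∏ l ∈ Finset.range (Fintype.card κ),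
        (Polynomial.X - Polynomial.C (algebraMap o Ω (z l))) := fun j =>
    red_roots _ _ (Matrix.charpoly_monic _) (Matrix.charpoly_natDegree_eq_dim _) (hE j)
  choose z hz using hz
  set ξ : Fin s → ℕ → Ω := fun j k => algebraMap o Ω (z j k) with hξ
  have hξ0 : ∀ j k, ξ j k ≠ 0 := fun j k => ((z j k).isUnit.map (algebraMap o Ω)).ne_zero
  have hpp : ∀ j, pp (ξ j) (T (Sum.inr j) : Matrix κ κ Ω) (Fintype.card κ) = 0 := fun j => by
    unfold pp
    rw [← hz j]
    exact Matrix.aeval_self_charpoly _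
  choose h l x hx hc hr using fun j => exists_flag_form (ξ j) (hξ0 j) _ _ (hpp j)
  let d₀ : FlV Ω g l z := ⟨(fun i => (T (Sum.inl (i, false)), T (Sum.inl (i, true))), h, x), hx, by
    have h1 := congrArg Units.val hT
    rw [Units.val_mul, Units.val_one] at h1
    rw [← h1]
    congr 1
    rw [← Units.coeHom_apply, map_list_prod, List.map_map]
    congr 1
    refine List.map_congr_left fun j _ => ?_
    exact (hc j).symm⟩
  have hd₀ : redPhi d₀ = T := by
    funext v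
    rcases v with ⟨i, b⟩ | j
    · cases b <;> rfl
    · exact Units.ext (hc j).symm
  obtain ⟨φ, hφ, hφ0, hφI⟩ := irr_open hI
  choose ψ hψ hψ0 hψr using fun (j : Fin s) (k : ℕ) =>
    rank_open (pp (ξ j) (T (Sum.inr j) : Matrix κ κ Ω) k)
  have hP : Good Ω Ω (fun d : FlV Ω g l z => redPhi d) := redPhi_good.reg
  have hPv : ∀ v, Good Ω Ω (fun d : FlV Ω g l z => (redPhi d v : Matrix κ κ Ω)) := fun v =>
    ((Good.apply v).comp hP).uval
  let F : FlV Ω g l z → Ω := fun d => φ (fun v => (redPhi d v : Matrix κ κ Ω)) *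
    ∏ j, ∏ k ∈ Finset.range (Fintype.card κ + 1),
      ψ j k (pp (ξ j) (redPhi d (Sum.inr j) : Matrix κ κ Ω) k)
  have hF' : Good Ω Ω F := by
    refine (hφ.comp (Good.pi hPv)).mul (Good.prod fun j => Good.prod fun k => ?_)
    refine (hψ j k).comp ?_
    have := Good.polyAeval (o := Ω) (Ω := Ω)
      (∏ l ∈ Finset.range k, (Polynomial.X - Polynomial.C (ξ j l))) (hPv (Sum.inr j))
    simpa [pp] using this
  have hF0 : F d₀ ≠ 0 := by
    simp only [F, hd₀]
    exact mul_ne_zero hφ0 (Finset.prod_ne_zero_iff.2 fun j _ =>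
      Finset.prod_ne_zero_iff.2 fun k _ => hψ0 j k)
  have hcl := Cl_inter_ne (hF g s l z d₀) hF' hF0
  rw [← hd₀]
  refine hP.map_Cl (fun d hd => subset_Cl _ ?_) hcl
  obtain ⟨hdi, hdF⟩ := hd
  rw [hd₀]
  refine ⟨redPhi_rel d, (hφI _ (left_ne_zero_of_mul hdF)).ss, fun j => ?_, redPhi_good.isInt hdi⟩
  have hj := Finset.prod_ne_zero_iff.1 (Finset.prod_ne_zero_iff.1 (right_ne_zero_of_mul hdF) j
    (Finset.mem_univ _))
  obtain ⟨c, hc'⟩ := conj_of_rank (ξ j) (Fintype.card κ) (T (Sum.inr j) : Matrix κ κ Ω)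
    (redPhi d (Sum.inr j) : Matrix κ κ Ω) (hpp j) fun k hk => by
      have h1 := hψr j k _ (hj k (Finset.mem_range.2 (Nat.lt_succ_of_le hk)))
      have h2 := rank_pp_le (ξ j) (d.1.2.1 j) (l j) (d.1.2.2 j) (d.2.uni j) k
      have h3 := hr j k
      change (pp (ξ j) (redPhi d (Sum.inr j) : Matrix κ κ Ω) k).rank + _ ≤ _ at h2
      omega
  refine IsConj.symm (isConj_iff.2 ⟨c, Units.ext ?_⟩)
  rw [hc']
  rfl

/-- block sum of invertible matrices -/
private def redB {κ₁ κ₂ : Type} [Fintype κ₁] [DecidableEq κ₁] [Fintype κ₂] [DecidableEq κ₂]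
    (e : κ₁ ⊕ κ₂ ≃ κ) : GL κ₁ Ω × GL κ₂ Ω →* GL κ Ω :=
  (Units.map (((Matrix.reindexAlgEquiv Ω Ω e : Matrix (κ₁ ⊕ κ₂) (κ₁ ⊕ κ₂) Ω →* Matrix κ κ Ω)).comp
    { toFun := fun p : Matrix κ₁ κ₁ Ω × Matrix κ₂ κ₂ Ω => fromBlocks p.1 0 0 p.2
      map_one' := fromBlocks_one
      map_mul' := fun p q => by simp [fromBlocks_multiply] })).comp
    (MulEquiv.prodUnits (M := Matrix κ₁ κ₁ Ω) (N := Matrix κ₂ κ₂ Ω)).symm.toMonoidHom

private theorem redB_val {κ₁ κ₂ : Type} [Fintype κ₁] [DecidableEq κ₁] [Fintype κ₂] [DecidableEq κ₂]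
    (e : κ₁ ⊕ κ₂ ≃ κ) (p : GL κ₁ Ω × GL κ₂ Ω) : (redB e p : Matrix κ κ Ω) =
      Matrix.reindex e e (fromBlocks (p.1 : Matrix κ₁ κ₁ Ω) 0 0 (p.2 : Matrix κ₂ κ₂ Ω)) := rfl

private theorem redB_inj {κ₁ κ₂ : Type} [Fintype κ₁] [DecidableEq κ₁] [Fintype κ₂] [DecidableEq κ₂]
    (e : κ₁ ⊕ κ₂ ≃ κ) : Function.Injective (redB (Ω := Ω) e) := fun p q h => by
  have h1 := congrArg Units.val h
  rw [redB_val, redB_val] at h1
  have h2 := fromBlocks_inj.1 ((Matrix.reindex e e).injective h1)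
  exact Prod.ext (Units.ext h2.1) (Units.ext h2.2.2.2)

private theorem redB_good {κ₁ κ₂ : Type} [Fintype κ₁] [DecidableEq κ₁] [Fintype κ₂] [DecidableEq κ₂]
    (e : κ₁ ⊕ κ₂ ≃ κ) : Good o Ω (fun p : GL κ₁ Ω × GL κ₂ Ω => redB e p) := by
  refine good_units ?_ ?_
  · simp only [redB_val, Matrix.reindex_apply]
    fun_prop
  · simp only [← map_inv, redB_val, Matrix.reindex_apply, Prod.fst_inv, Prod.snd_inv]
    fun_prop

private theorem ss_aux [IsAlgClosed Ω] (n : ℕ)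
    (hF : ∀ (κ : Type) [Fintype κ] [DecidableEq κ], Fintype.card κ ≤ n → FlDense o Ω κ) (k : ℕ) :
    ∀ (κ : Type) [Fintype κ] [DecidableEq κ], Fintype.card κ = k → k ≤ n →
    ∀ (T : (Fin g × Bool) ⊕ Fin s → GL κ Ω), IsRel T → Eig o T →
    (SS fun v => (T v : Matrix κ κ Ω)) →
    ∃ h : GL κ Ω, (fun v => h⁻¹ * T v * h) ∈ Cl Ω (Tgt o T) := by
  induction k using Nat.strong_induction_on with
  | _ k ih =>
  intro κ _ _ hk hn T hT hE hS
  by_cases hI : Irr fun v => (T v : Matrix κ κ Ω)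
  · exact ⟨1, by simpa using irr_case (hF κ (hk ▸ hn)) T hT hE hI⟩
  obtain ⟨n₁, n₂, e, c, A₁, A₂, h₁, h₂, hS₁, hS₂, hA⟩ := hS.split hI
  have hcard : n₁ + n₂ = k := by
    rw [← hk, ← Fintype.card_congr e]; simp
  have hdet : ∀ v, (A₁ v).det * (A₂ v).det ≠ 0 := fun v => by
    have h1 : ((c⁻¹ * T v * c : GL κ Ω) : Matrix κ κ Ω).det ≠ 0 :=
      (Matrix.isUnits_det_units _).ne_zero
    rw [Units.val_mul, Units.val_mul, hA v, Matrix.det_reindex_self, det_fromBlocks_zero₂₁] at h1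
    exact h1
  let T₁ : (Fin g × Bool) ⊕ Fin s → GL (Fin n₁) Ω := fun v =>
    Matrix.GeneralLinearGroup.mkOfDetNeZero (A₁ v) (left_ne_zero_of_mul (hdet v))
  let T₂ : (Fin g × Bool) ⊕ Fin s → GL (Fin n₂) Ω := fun v =>
    Matrix.GeneralLinearGroup.mkOfDetNeZero (A₂ v) (right_ne_zero_of_mul (hdet v))
  have hB : ∀ v, c⁻¹ * T v * c = redB e (T₁ v, T₂ v) := fun v => Units.ext (hA v)
  have hW : redW (fun v => (T₁ v, T₂ v)) = 1 := by
    apply redB_inj e
    rw [redW_map, map_one]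
    simp only [← hB]
    have := redW_map (MulAut.conj c⁻¹).toMonoidHom T
    rw [show redW T = 1 from hT, map_one] at this
    simpa using this.symm
  rw [redW_prod] at hW
  have hT₁ : IsRel T₁ := congrArg Prod.fst hW
  have hT₂ : IsRel T₂ := congrArg Prod.snd hW
  have hch : ∀ v, (T v : Matrix κ κ Ω).charpoly = (A₁ v).charpoly * (A₂ v).charpoly := fun v => by
    rw [← charpoly_fromBlocks_zero₂₁ (A₁ v) 0 (A₂ v), ← Matrix.charpoly_reindex e, ← hA v]
    simp
  have hE₁ : Eig o T₁ := fun j μ hμ => hE j μ (by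
    rw [hch]; exact Polynomial.root_mul.2 (Or.inl hμ))
  have hE₂ : Eig o T₂ := fun j μ hμ => hE j μ (by
    rw [hch]; exact Polynomial.root_mul.2 (Or.inr hμ))
  obtain ⟨c₁, hc₁⟩ := ih n₁ (by omega) (Fin n₁) (by simp) (by omega) T₁ hT₁ hE₁ hS₁
  obtain ⟨c₂, hc₂⟩ := ih n₂ (by omega) (Fin n₂) (by simp) (by omega) T₂ hT₂ hE₂ hS₂
  let Ψ : ((Fin g × Bool) ⊕ Fin s → GL (Fin n₁) Ω) × ((Fin g × Bool) ⊕ Fin s → GL (Fin n₂) Ω) →
      (Fin g × Bool) ⊕ Fin s → GL κ Ω := fun p v => redB e (p.1 v, p.2 v)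
  have hΨ : Good o Ω Ψ := Good.pi fun v => (redB_good e).comp (by fun_prop)
  refine ⟨c * redB e (c₁, c₂), ?_⟩
  have heq : (fun v => (c * redB e (c₁, c₂))⁻¹ * T v * (c * redB e (c₁, c₂))) =
      Ψ (fun v => c₁⁻¹ * T₁ v * c₁, fun v => c₂⁻¹ * T₂ v * c₂) := by
    funext v
    have : ((c₁⁻¹ * T₁ v * c₁, c₂⁻¹ * T₂ v * c₂) : GL (Fin n₁) Ω × GL (Fin n₂) Ω) =
        (c₁, c₂)⁻¹ * (T₁ v, T₂ v) * (c₁, c₂) := rfl
    simp only [Ψ]
    rw [this, map_mul, map_mul, map_inv, ← hB]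
    group
  rw [heq]
  refine hΨ.reg.map_Cl (fun p hp => subset_Cl _ ?_) (Cl_prod hc₁ hc₂)
  obtain ⟨⟨r₁, s₁, k₁, i₁⟩, ⟨r₂, s₂, k₂, i₂⟩⟩ := hp
  refine ⟨?_, SS.sum e s₁ s₂, fun j => ?_, hΨ.isInt (isInt_prod.2 ⟨i₁, i₂⟩)⟩
  · have h1 : redW (fun v => (p.1 v, p.2 v)) = 1 := by
      rw [redW_prod, show redW p.1 = 1 from r₁, show redW p.2 = 1 from r₂]
      rfl
    have h2 := redW_map (redB e) (fun v => (p.1 v, p.2 v))
    rw [h1, map_one] at h2
    exact h2.symm
  · obtain ⟨a₁, ha₁⟩ := isConj_iff.1 (k₁ j)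
    obtain ⟨a₂, ha₂⟩ := isConj_iff.1 (k₂ j)
    refine isConj_iff.2 ⟨c * redB e (a₁, a₂), ?_⟩
    have : ((T₁ (Sum.inr j), T₂ (Sum.inr j)) : GL (Fin n₁) Ω × GL (Fin n₂) Ω) =
        (a₁, a₂) * (p.1 (Sum.inr j), p.2 (Sum.inr j)) * (a₁, a₂)⁻¹ := Prod.ext ha₁.symm ha₂.symm
    have h3 := hB (Sum.inr j)
    rw [this, map_mul, map_mul, map_inv] at h3
    have h4 : T (Sum.inr j) = c * (c⁻¹ * T (Sum.inr j) * c) * c⁻¹ := by group
    rw [h4, h3]
    simp only [Ψ]
    group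

/-- strong induction on `card κ` with `SS.split`; the block sum is a good map sending
`Tgt T₁ × Tgt T₂` into `Tgt T` (`Cl_prod`, `SS.sum`). -/
theorem ss_case [IsAlgClosed Ω] (n : ℕ)
    (hF : ∀ (κ : Type) [Fintype κ] [DecidableEq κ], Fintype.card κ ≤ n → FlDense o Ω κ)
    (hn : Fintype.card κ ≤ n) (T : (Fin g × Bool) ⊕ Fin s → GL κ Ω)
    (hT : IsRel T) (hE : Eig o T) (hS : SS fun v => (T v : Matrix κ κ Ω)) :
    ∃ h : GL κ Ω, (fun v => h⁻¹ * T v * h) ∈ Cl Ω (Tgt o T) := by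
  exact ss_aux n hF _ κ rfl hn T hT hE hS

end Crest.Agent.R003
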