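import Crest.Prelude.Def_CharVarRel
import Crest.Agent.R003.Red

/-! Row 3: from `GL` over the ring of integers to the statement. -/

set_option autoImplicit false
set_option linter.unusedSectionVars false

namespace Crest.Agent.R003

open NumberField Crest.NumberTheoryR.CharVarRel Matrix

/-- every invertible matrix is a multiple of a matrix of determinant one -/
theorem h91_exists_SL {r : ℕ} (hr : 1 ≤ r) (h : GL (Fin r) ℂ) :
    ∃ (k : SpecialLinearGroup (Fin r) ℂ) (a : ℂ), k.1 = a • (h : Matrix (Fin r) (Fin r) ℂ) := by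
  obtain ⟨a, ha⟩ := IsAlgClosed.exists_pow_nat_eq
    ((h⁻¹ : GL (Fin r) ℂ) : Matrix (Fin r) (Fin r) ℂ).det (n := r) hr
  refine ⟨⟨a • (h : Matrix (Fin r) (Fin r) ℂ), ?_⟩, a, rfl⟩
  rw [det_smul, Fintype.card_fin, ha, ← det_mul, Units.inv_mul, det_one]

/-- an invariant polynomial is invariant under `GL` conjugation (rescale `h` by an `r`-th root of
its determinant) -/
theorem evalRep_conj {g s r : ℕ} (hr : 1 ≤ r) {f : MvPolynomial (RelVar g s r) ℂ}
    (hf : IsConjInvariantRel f) (T T' : RelGen g s → SpecialLinearGroup (Fin r) ℂ)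
    (h : GL (Fin r) ℂ) (hT : ∀ v, (T' v).1 = ((h⁻¹ : GL (Fin r) ℂ) : Matrix (Fin r) (Fin r) ℂ) *
      (T v).1 * (h : Matrix (Fin r) (Fin r) ℂ)) :
    evalRep f T' = evalRep f T := by
  obtain ⟨k, a, hk⟩ := h91_exists_SL hr h⁻¹
  rw [← hf k T]
  congr 1
  funext v
  rw [eq_mul_inv_iff_mul_eq]
  refine Subtype.ext ?_
  change (T' v).1 * k.1 = k.1 * (T v).1
  rw [hT, hk, Matrix.mul_smul, Matrix.smul_mul, Matrix.mul_assoc, Units.mul_inv, Matrix.mul_one]

/-- matrices whose entries are integral elements of `L` are integrally valued in `L` -/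
theorem integrallyValued_of_entries {g s r : ℕ} (L : Subfield ℂ)
    (T : RelGen g s → SpecialLinearGroup (Fin r) ℂ)
    (h : ∀ v i j, (T v).1 i j ∈ L ∧ IsIntegral ℤ ((T v).1 i j)) : IsIntegrallyValuedIn L T := by
  intro p hp
  clear hp
  unfold evalRep
  induction p using MvPolynomial.induction_on with
  | C a =>
    rw [MvPolynomial.aeval_C]
    exact ⟨intCast_mem L a, isIntegral_algebraMap⟩
  | add p q hp hq =>
    rw [map_add]
    exact ⟨add_mem hp.1 hq.1, hp.2.add hq.2⟩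
  | mul_X p v hp =>
    rw [map_mul, MvPolynomial.aeval_X]
    exact ⟨mul_mem hp.1 (h _ _ _).1, hp.2.mul (h _ _ _).2⟩

theorem h91_rel_iff {g s r : ℕ} (T : RelGen g s → SpecialLinearGroup (Fin r) ℂ) :
    IsRelSurfaceRep g s r T ↔ IsRel fun v => SpecialLinearGroup.toGL (T v) := by
  unfold IsRelSurfaceRep IsRel hprod
  rw [← SpecialLinearGroup.toGL_inj, map_mul, map_list_prod, map_list_prod, List.map_map,
    List.map_map, map_one]
  simp only [Function.comp_def, map_mul, map_inv]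

theorem h91_unit (F : Subfield ℂ) {μ : ℂ} (hμ : μ ∈ F) {m : ℕ} (hm : 0 < m) (h : μ ^ m = 1) :
    ∃ u : (𝓞 F)ˣ, algebraMap (𝓞 F) ℂ u = μ := by
  have h1 : (⟨μ, hμ⟩ : F) ^ m = 1 := Subtype.ext h
  have h2 : IsIntegral ℤ (⟨μ, hμ⟩ : F) := IsIntegral.of_pow hm (h1 ▸ isIntegral_one)
  have h3 : (⟨⟨μ, hμ⟩, h2⟩ : 𝓞 F) ^ m = 1 := Subtype.ext h1
  exact ⟨(IsUnit.of_pow_eq_one h3 hm.ne').unit, rfl⟩

theorem h91_int (F : Subfield ℂ) {x : ℂ} (h : IsInt (𝓞 F) ℂ x) : x ∈ F ∧ IsIntegral ℤ x := by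
  obtain ⟨y, rfl⟩ := isInt_iff_mem.1 h
  exact ⟨(y : F).2, (RingOfIntegers.isIntegral y).algebraMap⟩

theorem h91_cm {G : Type} [Group G] {z w : G} (hz : ∀ x, z * x = x * z) (hw : ∀ x, w * x = x * w)
    (a b : G) : cm (z * a) (w * b) = cm a b := by
  calc cm (z * a) (w * b) = (z * (a * (w * (b * a⁻¹))) * z⁻¹) * (b⁻¹ * w⁻¹) := by
        simp only [cm, _root_.mul_inv_rev, mul_assoc]
    _ = a * (w * (b * a⁻¹ * b⁻¹) * w⁻¹) := by
        rw [hz, mul_inv_cancel_right]; simp only [mul_assoc]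
    _ = cm a b := by rw [hw, mul_inv_cancel_right]; simp only [cm, mul_assoc]

theorem h91_scalar_comm {r : ℕ} (a : ℂˣ) (x : GL (Fin r) ℂ) :
    GeneralLinearGroup.scalar (Fin r) a * x = x * GeneralLinearGroup.scalar (Fin r) a :=
  Units.ext (Matrix.scalar_commute (a : ℂ) (fun _ => Commute.all _ _) _).eq

/-- the rescaled points of `Tgt` are zeros of `f` -/
theorem h91_vanish {g s r : ℕ} (hr : 1 ≤ r) (F : Subfield ℂ)
    (c : Fin s → SpecialLinearGroup (Fin r) ℂ) (f : MvPolynomial (RelVar g s r) ℂ)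
    (hvan : ∀ T : RelGen g s → SpecialLinearGroup (Fin r) ℂ, IsRelSurfaceRep g s r T →
      IsSemisimpleRep T → HasBoundaryClasses c T →
      IsIntegrallyValuedIn (unitRootField F r) T → evalRep f T = 0)
    {T : RelGen g s → SpecialLinearGroup (Fin r) ℂ} (hcl : HasBoundaryClasses c T)
    {T' : RelGen g s → GL (Fin r) ℂ} (h : T' ∈ Tgt (𝓞 F) fun v => SpecialLinearGroup.toGL (T v))
    (β : RelGen g s → ℂˣ) (h1 : ∀ j, β (Sum.inr j) = 1)
    (h2 : ∀ v, β v ^ r * GeneralLinearGroup.det (T' v) = 1) :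
    MvPolynomial.aeval (fun v : RelVar g s r => (β v.1 : ℂ) *
      (T' v.1 : Matrix (Fin r) (Fin r) ℂ) v.2.1 v.2.2) f = 0 := by
  obtain ⟨a1, a2, a3, a4⟩ := h
  let S : RelGen g s → SpecialLinearGroup (Fin r) ℂ := fun v =>
    ⟨(β v : ℂ) • (T' v : Matrix (Fin r) (Fin r) ℂ), by
      rw [det_smul, Fintype.card_fin]; exact congrArg Units.val (h2 v)⟩
  have hS : ∀ v, SpecialLinearGroup.toGL (S v) = GeneralLinearGroup.scalar (Fin r) (β v) * T' v :=
    fun v => Units.ext (Matrix.smul_eq_diagonal_mul _ _)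
  refine hvan S ?_ ?_ ?_ (integrallyValued_of_entries _ S fun v i j => ?_)
  · rw [h91_rel_iff]
    unfold IsRel hprod at a1 ⊢
    simp only [hS, h91_cm (h91_scalar_comm _) (h91_scalar_comm _), h1, map_one, one_mul]
    exact a1
  · intro W hW
    obtain ⟨W', b1, b2⟩ := a2 W fun v x hx => by
      have := W.smul_mem (((β v)⁻¹ : ℂˣ) : ℂ) (hW v x hx)
      simpa [S, Matrix.smul_mulVec, smul_smul] using this
    refine ⟨W', fun v x hx => ?_, b2⟩
    simpa [S, Matrix.smul_mulVec] using W'.smul_mem (β v : ℂ) (b1 v x hx)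
  · intro j
    obtain ⟨k, hk⟩ := hcl j
    obtain ⟨u, hu⟩ := isConj_iff.1 (a3 j).symm
    obtain ⟨k', a, hk'⟩ := h91_exists_SL hr u
    refine ⟨k' * k, ?_⟩
    have h3 : S (Sum.inr j) * k' = k' * T (Sum.inr j) := by
      refine Subtype.ext ?_
      change ((β (Sum.inr j) : ℂ) • (T' (Sum.inr j) : Matrix (Fin r) (Fin r) ℂ)) * k'.1 =
        k'.1 * (T (Sum.inr j)).1
      rw [h1, Units.val_one, one_smul, hk', Matrix.mul_smul, Matrix.smul_mul, ← hu,
        ← Units.val_mul, inv_mul_cancel_right]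
      rfl
    rw [eq_mul_inv_of_mul_eq h3, hk]
    simp only [_root_.mul_inv_rev, mul_assoc]
  · have b1 := isInt_units.1 (isInt_pi.1 a4 v)
    have b2 := h91_int F (isInt_matrix.1 b1.1 i j)
    have b3 := h91_int F ((Good.det Good.id).isInt b1.1)
    have b4 := h91_int F ((Good.det Good.id).isInt b1.2)
    have b5 : (β v : ℂ) ^ r = ((T' v)⁻¹ : GL (Fin r) ℂ).1.det :=
      congrArg Units.val (eq_inv_of_mul_eq_one_left (h2 v))
    have b6 : ((β v : ℂ) ^ r)⁻¹ = (T' v).1.det :=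
      inv_eq_of_mul_eq_one_right (congrArg Units.val (h2 v))
    have b7 : (β v : ℂ) ∈ unitRootSet F r :=
      ⟨b5 ▸ b4.1, pow_ne_zero _ (β v).ne_zero, b5 ▸ b4.2, b6 ▸ b3.2⟩
    exact ⟨mul_mem (Subfield.subset_closure (Or.inr b7)) (Subfield.subset_closure (Or.inl b2.1)),
      (IsIntegral.of_pow hr b7.2.2.1).mul b2.2⟩

/-- The final reduction.  `o = 𝓞 F`, `algebraMap o ℂ x = ((x : F) : ℂ)` by `rfl`.  Roots of unity in `F` are
units of `o`, so `ss_case` applies to `T` seen in `GL`.  With `Cl_roots` (`d T' v = det (T' v)` as a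
unit) the point `(h⁻¹ T h, α = 1)` is in the closure of the `(T', α)` with `T' ∈ Tgt`,
`α v ^ r = det (T' v)`; restrict further (`Cl_inter_ne` with the function
`∏_j ∏_{ω ^ r = 1, ω ≠ 1} (α (inr j) - ω)`, or use roots only for the handles) so that
`α (inr j) = 1`.  The function `(T', α) ↦ f (α⁻¹ • T')` is regular and vanishes there by `hvan`:
`α v ∈ unitRootSet F r`, and `GL`-conjugate elements of `SL` are `SL`-conjugate. -/
theorem final_reduction (g s r : ℕ) (hr : 1 ≤ r) (F : Subfield ℂ)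
    (hF : ∀ (κ : Type) [Fintype κ] [DecidableEq κ], Fintype.card κ ≤ r → FlDense (𝓞 F) ℂ κ)
    (c : Fin s → SpecialLinearGroup (Fin r) ℂ) (hc : ∀ j, IsQuasiUnipotent (c j))
    (hcK : ∀ j, ∀ μ : ℂ, (c j).1.charpoly.IsRoot μ → μ ∈ F)
    (f : MvPolynomial (RelVar g s r) ℂ) (hf : IsConjInvariantRel f)
    (hvan : ∀ T : RelGen g s → SpecialLinearGroup (Fin r) ℂ, IsRelSurfaceRep g s r T →
      IsSemisimpleRep T → HasBoundaryClasses c T →
      IsIntegrallyValuedIn (unitRootField F r) T → evalRep f T = 0)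
    (T : RelGen g s → SpecialLinearGroup (Fin r) ℂ) (hT : IsRelSurfaceRep g s r T)
    (hss : IsSemisimpleRep T) (hcl : HasBoundaryClasses c T) :
    evalRep f T = 0 := by
  have hE : Eig (𝓞 F) fun v => SpecialLinearGroup.toGL (T v) := fun j μ hμ => by
    obtain ⟨k, hk⟩ := hcl j
    have h1 : (T (Sum.inr j)).1.charpoly = (c j).1.charpoly := by
      rw [hk]
      change (k.1 * (c j).1 * (k⁻¹).1).charpoly = _
      rw [charpoly_mul_comm, ← Matrix.mul_assoc]
      change ((k⁻¹ * k).1 * (c j).1).charpoly = _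
      rw [inv_mul_cancel]
      exact congrArg _ (Matrix.one_mul _)
    have h2 : (c j).1.charpoly.IsRoot μ := h1 ▸ hμ
    obtain ⟨m, hm, hμm⟩ := hc j μ h2
    exact h91_unit F (hcK j μ h2) hm hμm
  obtain ⟨h, hh⟩ := ss_case (o := 𝓞 F) r hF (Fintype.card_fin r).le
    (fun v => SpecialLinearGroup.toGL (T v)) ((h91_rel_iff T).1 hT) hE hss
  have hdet : ∀ v, GeneralLinearGroup.det (h⁻¹ * SpecialLinearGroup.toGL (T v) * h) = 1 := fun v => by
    rw [map_mul, map_mul, map_inv, SpecialLinearGroup.coeToGL_det, mul_one, inv_mul_cancel]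
  let d : (RelGen g s → GL (Fin r) ℂ) → Fin g × Bool → ℂˣ :=
    fun T' i => GeneralLinearGroup.det (T' (Sum.inl i))
  have hd : Good ℂ ℂ d := Good.pi fun i => good_units
    (Good.det (Good.uval (Good.apply (Sum.inl i))))
    (Good.det (Good.uval (Good.uinv (Good.apply (Sum.inl i)))))
  have h1 := Cl_roots (r := r) hr hd (S := Tgt (𝓞 F) fun v => SpecialLinearGroup.toGL (T v))
    ⟨(fun v => h⁻¹ * SpecialLinearGroup.toGL (T v) * h, fun _ => 1),
      fun i => (one_pow r).trans (hdet _).symm⟩ hh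
  let β : (Fin g × Bool → ℂˣ) → RelGen g s → ℂˣ := fun α => Sum.elim (fun i => (α i)⁻¹) fun _ => 1
  let Φ : {p : (RelGen g s → GL (Fin r) ℂ) × (Fin g × Bool → ℂˣ) // ∀ i, p.2 i ^ r = d p.1 i} → ℂ :=
    fun q => MvPolynomial.aeval (fun v : RelVar g s r => (β q.1.2 v.1 : ℂ) *
      (q.1.1 v.1 : Matrix (Fin r) (Fin r) ℂ) v.2.1 v.2.2) f
  have hΦ : Good ℂ ℂ Φ := Good.aeval f fun v => by
    refine Good.mul ?_ (Good.entry (Good.uval ((Good.apply v.1).comp Good.id.val.fst)) _ _)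
    rcases v with ⟨i | j, _⟩
    · exact Good.uval (Good.uinv ((Good.apply i).comp Good.id.val.snd))
    · exact Good.one
  have h2 := Cl.eq_zero h1 hΦ fun q hq => by
    obtain ⟨⟨T', α⟩, hα⟩ := q
    refine h91_vanish hr F c f hvan hcl hq (β α) (fun _ => rfl) ?_
    rintro (i | j)
    · change ((α i)⁻¹) ^ r * d T' i = 1
      rw [← hα i, inv_pow, inv_mul_cancel]
    · obtain ⟨u, hu⟩ := isConj_iff.1 (hq.2.2.1 j)
      have h3 := congrArg GeneralLinearGroup.det hu
      rw [map_mul, map_mul, map_inv, SpecialLinearGroup.coeToGL_det, mul_inv_cancel_comm] at h3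
      change 1 ^ r * GeneralLinearGroup.det (T' (Sum.inr j)) = 1
      rw [one_pow, one_mul, h3]
  rw [← evalRep_conj hr hf T (fun v => ⟨(h⁻¹ * SpecialLinearGroup.toGL (T v) * h : GL (Fin r) ℂ),
    congrArg Units.val (hdet v)⟩) h fun v => rfl, ← h2]
  unfold evalRep
  congr 2
  funext v
  rcases v with ⟨i | j, _⟩ <;> simp [β]

end Crest.Agent.R003
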