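import Crest.Agent.R003.Gauge
import Crest.Agent.R003.Defs2

/-! Row 3: the final stage: thin problems whose inversions are at the last letters. -/

set_option autoImplicit false
set_option linter.unusedSectionVars false

namespace Crest.Agent.R003

open Matrix

namespace Prob

variable {o : Type} [CommRing o] {ι : Type} [Fintype ι] [DecidableEq ι] {P : Prob o ι}
  {Ω : Type} [Field Ω] [Algebra o Ω]

variable (P Ω) in
/-- flat solutions -/
abbrev Flat : Type := {s : P.Sol Ω // ∀ i, s.1.1 i = 1}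

variable (P) in
/-- `A` maps the blocks of the slot `i` to blocks of the slot `k` -/
def Mono (i k : P.I) (A : Matrix ι ι Ω) : Prop :=
  ∃ φ : P.Λ → P.Λ, ∀ a b, A a b ≠ 0 → P.lev (k, b) = φ (P.lev (i, a))

theorem Mono.mul {i j k : P.I} {A B : Matrix ι ι Ω} (hA : P.Mono i j A) (hB : P.Mono j k B) :
    P.Mono i k (A * B) := by
  obtain ⟨φ, hφ⟩ := hA
  obtain ⟨ψ, hψ⟩ := hB
  refine ⟨ψ ∘ φ, fun a c h => ?_⟩
  rw [Matrix.mul_apply] at h
  obtain ⟨b, -, hb⟩ := Finset.exists_ne_zero_of_sum_ne_zero h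
  rw [hψ b c (right_ne_zero_of_mul hb), hφ a b (left_ne_zero_of_mul hb)]
  rfl
theorem Mono.eq_one {i : P.I} {A : Matrix ι ι Ω} (hA : P.Mono i i A) (hU : Uni (P.lv i) A) :
    A = 1 := by
  obtain ⟨φ, hφ⟩ := hA
  ext a b
  rw [Matrix.one_apply]
  by_cases hab : P.lv i a < P.lv i b
  · rw [if_neg fun e => by subst e; exact lt_irrefl _ hab]
    by_contra h
    have h1 := hφ a a (by rw [hU a a (lt_irrefl _), if_pos rfl]; exact one_ne_zero)
    exact hab.ne (h1.trans (hφ a b h).symm)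
  · exact hU a b hab
theorem mono_L (hT : P.Thin) (s : P.Sol Ω) (i : P.I) : P.Mono i (P.nx i) (P.L s.1.2.1 i) := by
  classical
  refine ⟨fun c => if h : ∃ q : ι × ι, P.lev (i, q.1) = c ∧ P.Ex (i, q.1) (P.nx i, q.2) then
    P.lev (P.nx i, h.choose.2) else c, fun a b hab => ?_⟩
  have h1 := IsPre.L_supp s.2 i a b hab
  have h : ∃ q : ι × ι, P.lev (i, q.1) = P.lev (i, a) ∧ P.Ex (i, q.1) (P.nx i, q.2) :=
    ⟨(a, b), rfl, h1⟩
  simp only [dif_pos h]
  exact (hT.ex_right h1 (h.choose_spec.2.of_blk ⟨rfl, h.choose_spec.1⟩ ⟨rfl, rfl⟩)).2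

/-- a letter without inversion conjugates the unipotent groups into each other (`uni_conj_rel`) -/
theorem conj_uni (hT : P.Thin) (s : P.Sol Ω) {i : P.I} (hi : ∀ x ∈ P.InvSet, x.1 ≠ i)
    {v : Matrix ι ι Ω} (hv : Uni (P.lv (P.nx i)) v) :
    Uni (P.lv i) (P.L s.1.2.1 i * v * P.Linv s.1 i) := by
  rw [← add_sub_cancel 1 v]
  refine uni_conj_rel (IsPre.L_mul_Linv s.2 i) (r := fun a b => P.Ex (i, a) (P.nx i, b))
    (IsPre.L_supp s.2 i) (fun b a => IsPre.Linv_supp s.2 i a b) fun a a' b b' hN h1 h2 => ?_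
  have hlt := hv.sub_one b b' hN
  rcases lt_trichotomy (P.lv i a) (P.lv i a') with h | h | h
  · exact h
  · exact absurd (hT.ex_right (h1.of_blk (s' := (i, a')) ⟨rfl, h⟩ ⟨rfl, rfl⟩) h2).2 hlt.ne
  · exact absurd rfl (hi (i, P.lev (i, a'), P.lev (i, a)) ⟨a', a, _, _, rfl, rfl, h, h2, h1, hlt⟩)
theorem conj_uni' (hT : P.Thin) (s : P.Sol Ω) {i : P.I} (hi : ∀ x ∈ P.InvSet, x.1 ≠ i)
    {v : Matrix ι ι Ω} (hv : Uni (P.lv i) v) :
    Uni (P.lv (P.nx i)) (P.Linv s.1 i * v * P.L s.1.2.1 i) := by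
  rw [← add_sub_cancel 1 v]
  refine uni_conj_rel (IsPre.Linv_mul_L s.2 i) (r := fun b a => P.Ex (i, a) (P.nx i, b))
    (fun b a => IsPre.Linv_supp s.2 i a b) (IsPre.L_supp s.2 i) fun b b' a a' hN h1 h2 => ?_
  have hlt := hv.sub_one a a' hN
  rcases lt_trichotomy (P.lv (P.nx i) b) (P.lv (P.nx i) b') with h | h | h
  · exact h
  · exact absurd (hT.ex_left (h1.of_blk (t' := (P.nx i, b')) ⟨rfl, rfl⟩ ⟨rfl, h⟩) h2).2 hlt.ne
  · exact absurd rfl (hi (i, P.lev (i, a), P.lev (i, a')) ⟨a, a', _, _, rfl, rfl, hlt, h1, h2, h⟩)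

/-- the slots are determined by the letters and the frames -/
theorem Flat_ext {s s' : P.Sol Ω} (h : s.1.2 = s'.1.2) : s = s' := by
  refine Subtype.ext (Prod.ext (funext fun i => ?_) h)
  have h1 := s.2.fr i
  rw [h, s'.2.fr i, Matrix.mul_assoc, Matrix.mul_assoc, Units.mul_right_inj] at h1
  have h2 := congrArg (· * P.Linv s'.1 i) h1
  simpa only [Matrix.mul_assoc, IsPre.L_mul_Linv s'.2 i, Matrix.mul_one] using h2.symm

/-- the unipotent matrix with the given entries above the diagonal blocks -/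
def Flat_m (N : P.I → Matrix ι ι Ω) (i : P.I) : Matrix ι ι Ω :=
  1 + Matrix.of fun a b => if P.lv i a < P.lv i b then N i a b else 0

theorem Flat_m_uni (N : P.I → Matrix ι ι Ω) (i : P.I) : Uni (P.lv i) (Flat_m N i) :=
  uni_one_add fun a b hab => by
    by_contra hc
    exact hab (if_neg hc)

theorem Flat_m_eq {N : P.I → Matrix ι ι Ω} {i : P.I} (h : Uni (P.lv i) (N i)) :
    Flat_m N i = N i := by
  ext a b
  change (1 : Matrix ι ι Ω) a b + (if P.lv i a < P.lv i b then N i a b else 0) = N i a b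
  split_ifs with hab
  · rw [Matrix.one_apply_ne fun e => by subst e; exact lt_irrefl _ hab, zero_add]
  · rw [add_zero, Matrix.one_apply]
    exact (h a b hab).symm

/-- the change of frames -/
noncomputable def Flat_w (N : P.I → Matrix ι ι Ω) (i : P.I) : GL ι Ω :=
  if i = P.st i then 1 else uniGL (Flat_m N i) (Flat_m_uni N i)

theorem Flat_w_uni (N : P.I → Matrix ι ι Ω) (i : P.I) :
    Uni (P.lv i) (Flat_w N i : Matrix ι ι Ω) := by
  unfold Flat_w
  split_ifs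
  · exact Uni.one
  · exact Flat_m_uni N i

theorem Flat_good_w {X : Type} [Coord Ω X] {N : X → P.I → Matrix ι ι Ω} (hN : Good o Ω N) :
    Good o Ω fun x => Flat_w (N x) :=
  Good.pi fun i => Good.ite Good.glone (good_uniGL (Good.mone.madd (Good.of fun a b =>
    Good.ite (((Good.apply i).comp hN).entry a b) Good.zero)) _)

theorem Flat_sol (hT : P.Thin) (hl : ∀ i, ¬ P.Last i → ∀ x ∈ P.InvSet, x.1 ≠ i) (f : P.Sol Ω)
    (N : P.I → Matrix ι ι Ω) : P.IsSol (P.slide f.1 (Flat_w N)) := by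
  refine IsPre.slide f.2 _ fun i => ?_
  refine (((Flat_w_uni N i).inv (Flat_w N i).mul_inv).mul (f.2.uni i)).mul ?_
  by_cases hi : P.Last i
  · have e : Flat_w N (P.nx i) = 1 := if_pos (Eq.trans hi (st_nx i).symm)
    rw [e, Units.val_one, Matrix.mul_one, IsPre.L_mul_Linv f.2]
    exact Uni.one
  · exact conj_uni hT f (hl i hi) (Flat_w_uni N _)

theorem Flat_frames (hT : P.Thin) (hl : ∀ i, ¬ P.Last i → ∀ x ∈ P.InvSet, x.1 ≠ i) (s : P.Sol Ω) :
    ∃ g : P.I → GL ι Ω, (∀ i, g (P.st i) = s.1.2.2 (P.st i)) ∧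
      (∀ i, (g (P.nx i) : Matrix ι ι Ω) = (g i : Matrix ι ι Ω) * P.L s.1.2.1 i) ∧
      ∀ i, Uni (P.lv i) (((g i)⁻¹ * s.1.2.2 i : GL ι Ω) : Matrix ι ι Ω) := by
  obtain ⟨LG, hL, hL'⟩ : ∃ LG : P.I → GL ι Ω, (∀ i, (LG i : Matrix ι ι Ω) = P.L s.1.2.1 i) ∧
      ∀ i, (((LG i)⁻¹ : GL ι Ω) : Matrix ι ι Ω) = P.Linv s.1 i :=
    ⟨fun i => ⟨P.L s.1.2.1 i, P.Linv s.1 i, IsPre.L_mul_Linv s.2 i, IsPre.Linv_mul_L s.2 i⟩,
      fun _ => rfl, fun _ => rfl⟩
  obtain ⟨XG, hX⟩ : ∃ XG : P.I → GL ι Ω, ∀ i, (XG i : Matrix ι ι Ω) = s.1.1 i :=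
    ⟨fun i => uniGL (s.1.1 i) (s.2.uni i), fun _ => rfl⟩
  have hfr : ∀ i, s.1.2.2 (P.nx i) = s.1.2.2 i * XG i * LG i := fun i => Units.ext (by
    rw [Units.val_mul, Units.val_mul, hX, hL, s.2.fr i])
  have hXu : ∀ i, Uni (P.lv i) (XG i : Matrix ι ι Ω) := fun i => hX i ▸ s.2.uni i
  have hLm : ∀ i, P.Mono i (P.nx i) (LG i : Matrix ι ι Ω) := fun i => hL i ▸ mono_L hT s i
  obtain ⟨g, g0, g1⟩ : ∃ g : P.I → GL ι Ω, (∀ i, g (P.st i) = s.1.2.2 (P.st i)) ∧
      ∀ i, ¬ P.Last i → g (P.nx i) = g i * LG i := by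
    refine ⟨fun i => s.1.2.2 (P.st i) *
      ((List.range (P.ht i)).map fun k => LG ((P.nx ^ k) (P.st i))).prod, fun i => ?_,
      fun i hi => ?_⟩
    · simp only [ht_st, st_st, List.range_zero, List.map_nil, List.prod_nil, mul_one]
    · simp only [ht_nx hi, st_nx, List.range_succ, List.map_append, List.prod_append,
        List.map_singleton, List.prod_singleton, pow_ht, mul_assoc]
  have key : ∀ i, Uni (P.lv i) (((g i)⁻¹ * s.1.2.2 i : GL ι Ω) : Matrix ι ι Ω) ∧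
      P.Mono (P.st i) i (((s.1.2.2 (P.st i))⁻¹ * g i : GL ι Ω) : Matrix ι ι Ω) := by
    refine ht_induction (fun i => ?_) fun i hi ih => ⟨?_, ?_⟩
    · rw [g0, st_st, inv_mul_cancel]
      refine ⟨Uni.one, id, fun a b hab => ?_⟩
      by_contra hc
      exact hab (Matrix.one_apply_ne fun e => hc (by rw [e]; rfl))
    · have e : (g (P.nx i))⁻¹ * s.1.2.2 (P.nx i) =
          (LG i)⁻¹ * ((g i)⁻¹ * s.1.2.2 i * XG i) * LG i := by
        rw [g1 i hi, hfr]
        group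
      rw [e, Units.val_mul, Units.val_mul, hL, hL', Units.val_mul]
      exact conj_uni' hT s (hl i hi) (ih.1.mul (hXu i))
    · rw [g1 i hi, st_nx, ← mul_assoc, Units.val_mul]
      exact ih.2.mul (hLm i)
  refine ⟨g, g0, fun i => ?_, fun i => (key i).1⟩
  rw [← hL, ← Units.val_mul]
  congr 1
  by_cases hi : P.Last i
  swap
  · exact g1 i hi
  have hi' : P.nx i = P.st i := hi
  have h1 : (g i)⁻¹ * s.1.2.2 i * XG i * (LG i * ((s.1.2.2 (P.st i))⁻¹ * g i)) = 1 := by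
    rw [← hi', hfr]
    group
  have h3 := congrArg Units.val h1
  rw [Units.val_mul, Units.val_mul, Units.val_mul (LG i), Units.val_one] at h3
  have h2 : LG i * ((s.1.2.2 (P.st i))⁻¹ * g i) = 1 :=
    Units.ext (Mono.eq_one ((hi' ▸ hLm i).mul (key i).2) (((key i).1.mul (hXu i)).inv h3))
  rw [hi', g0, eq_inv_of_mul_eq_one_left h2]
  group

/-- The good map `Flat × (I → Matrix) → Sol`, `(f, N) ↦ slide f w` with `w i = 1` if `i = st i` and
`w i = uniGL (1 + mask (lev < lev) (N i))` otherwise, hits `s`: by `ht_induction` there are frames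
`g⁰ i` with `g⁰ (st i) = g (st i)`, `g⁰ (nx i) = g⁰ i * L i` for `i` not last (recursion on `ht`), such that
`w i = (g⁰ i)⁻¹ * g i` is unipotent and `(g (st i))⁻¹ * g⁰ i` is `Mono (st i) i`; for `i` last,
`L i * (g (st i))⁻¹ * g⁰ i` is the inverse of `w i * X i`, so it is `1` by `Mono.eq_one`. -/
theorem flat_reduce (hB : Big o Ω) (hT : P.Thin) (hl : ∀ x ∈ P.InvSet, P.Last x.1) (s : P.Sol Ω)
    (h : ∀ f : P.Flat Ω, InZ o Ω f) : InZ o Ω s := by
  have hl' : ∀ i, ¬ P.Last i → ∀ x ∈ P.InvSet, x.1 ≠ i := fun i hi x hx e => hi (e ▸ hl x hx)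
  have hgood : Good o Ω fun x : P.Flat Ω × (P.I → Matrix ι ι Ω) =>
      (⟨P.slide x.1.1.1 (Flat_w x.2), Flat_sol hT hl' x.1.1 x.2⟩ : P.Sol Ω) :=
    good_subtype_iff.2 (good_slide (Good.fst Good.id).val.val (Flat_good_w (Good.snd Good.id)))
  obtain ⟨g, g0, g1, g2⟩ := Flat_frames hT hl' s
  have hf : P.IsSol ((fun _ => 1, s.1.2.1, g) : P.Data Ω) :=
    ⟨fun _ => Uni.one, s.2.supp, s.2.fix, s.2.sq, fun i => by
      dsimp only
      rw [g1, Matrix.mul_one]⟩
  obtain ⟨N, hN⟩ : ∃ N : P.I → Matrix ι ι Ω, ∀ i, Flat_w N i = (g i)⁻¹ * s.1.2.2 i := by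
    refine ⟨fun i => (((g i)⁻¹ * s.1.2.2 i : GL ι Ω) : Matrix ι ι Ω), fun i => ?_⟩
    unfold Flat_w
    split_ifs with hi
    · rw [hi, g0, inv_mul_cancel]
    · exact Units.ext (Flat_m_eq
        (N := fun i => (((g i)⁻¹ * s.1.2.2 i : GL ι Ω) : Matrix ι ι Ω)) (g2 i))
  have h1 := hgood.inZ ((h ⟨⟨_, hf⟩, fun _ => rfl⟩).prodMk (InZ.pi fun i => hB.inZ_matrix (N i)))
  convert h1 using 1
  refine Flat_ext (Prod.ext rfl (funext fun i => ?_))
  change _ = g i * Flat_w N i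
  rw [hN, mul_inv_cancel_left]

variable (P) in
/-- the letters of a flat solution -/
structure IsM (M : Matrix P.Site P.Site Ω) : Prop where
  supp : ∀ s t, P.pc s ≠ P.tau (P.pc t) → M s t = 0
  fix : ∀ s, P.tau (P.pc s) = P.pc s → ∀ t, M s t = if s = t then P.uu Ω s else 0
  sq : ∀ s, P.tau (P.pc s) ≠ P.pc s → ∀ t, (M * M) s t = if s = t then P.uu Ω s else 0
  cyc : ∀ i, ((List.range (Function.minimalPeriod P.nx i)).map
    fun k => P.L M ((P.nx ^ k) i)).prod = 1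

/-- the product of `n` consecutive letters -/
def FlatB_pr (M : Matrix P.Site P.Site Ω) (i : P.I) (n : ℕ) : Matrix ι ι Ω :=
  ((List.range n).map fun k => P.L M ((P.nx ^ k) i)).prod

theorem FlatB_pr_zero (M : Matrix P.Site P.Site Ω) (i : P.I) : FlatB_pr M i 0 = 1 := rfl

theorem FlatB_pr_succ (M : Matrix P.Site P.Site Ω) (i : P.I) (n : ℕ) :
    FlatB_pr M i (n + 1) = FlatB_pr M i n * P.L M ((P.nx ^ n) i) := by
  simp [FlatB_pr, List.range_succ]

theorem FlatB_pr_add (M : Matrix P.Site P.Site Ω) (i : P.I) (n m : ℕ) :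
    FlatB_pr M i (n + m) = FlatB_pr M i n * FlatB_pr M ((P.nx ^ n) i) m := by
  induction m with
  | zero => simp [FlatB_pr_zero]
  | succ m ih =>
    rw [← Nat.add_assoc, FlatB_pr_succ, FlatB_pr_succ, ih, Matrix.mul_assoc, Nat.add_comm n m, pow_add,
      Equiv.Perm.mul_apply]

theorem FlatB_good_pr {X : Type} [Coord Ω X] {M : X → Matrix P.Site P.Site Ω} (hM : Good o Ω M)
    (i : P.I) (n : ℕ) : Good o Ω fun x => FlatB_pr (M x) i n := by
  induction n with
  | zero => exact Good.mone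
  | succ n ih => simp only [FlatB_pr_succ]; exact ih.mmul (good_L hM _)

theorem FlatB_ht_lt (i : P.I) : P.ht i < Function.minimalPeriod P.nx (P.st i) := by
  have hp : 0 < Function.minimalPeriod P.nx (P.st i) :=
    Function.minimalPeriod_pos_of_mem_periodicPts (P.nx.injective.mem_periodicPts _)
  refine lt_of_le_of_lt (Nat.sInf_le (s := {k | (P.nx ^ k) (P.st i) = i}) ?_) (Nat.mod_lt (P.ht i) hp)
  exact Function.iterate_mod_minimalPeriod_eq.trans (pow_ht i)

theorem FlatB_last {i : P.I} (h : P.Last i) : P.ht i + 1 = Function.minimalPeriod P.nx (P.st i) := by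
  refine le_antisymm (FlatB_ht_lt i) (Function.IsPeriodicPt.minimalPeriod_le (Nat.succ_pos _) ?_)
  change (P.nx ^ (P.ht i + 1)) (P.st i) = P.st i
  rw [pow_succ', Equiv.Perm.mul_apply, pow_ht]
  exact h

theorem FlatB_frame (f : P.Flat Ω) (i : P.I) (n : ℕ) :
    (f.1.1.2.2 ((P.nx ^ n) i) : Matrix ι ι Ω) =
      (f.1.1.2.2 i : Matrix ι ι Ω) * FlatB_pr f.1.1.2.1 i n := by
  induction n with
  | zero => simp [FlatB_pr_zero]
  | succ n ih =>
    rw [pow_succ', Equiv.Perm.mul_apply, f.1.2.fr, f.2, Matrix.mul_one, ih, FlatB_pr_succ,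
      Matrix.mul_assoc]

theorem FlatB_isM (f : P.Flat Ω) : P.IsM f.1.1.2.1 := by
  refine ⟨f.1.2.supp, fun s => f.1.2.fix s id, fun s => f.1.2.sq s id, fun i => ?_⟩
  have h1 := FlatB_frame f i (Function.minimalPeriod P.nx i)
  rw [show (P.nx ^ Function.minimalPeriod P.nx i) i = i from
    Function.isPeriodicPt_minimalPeriod P.nx i] at h1
  exact ((f.1.1.2.2 i).mul_right_inj.1 ((mul_one _).trans h1)).symm

theorem FlatB_inv (M : {M : Matrix P.Site P.Site Ω // P.IsM M}) (i : P.I) :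
    FlatB_pr M.1 (P.st i) (P.ht i) *
      FlatB_pr M.1 i (Function.minimalPeriod P.nx (P.st i) - P.ht i) = 1 := by
  have h1 := FlatB_pr_add M.1 (P.st i) (P.ht i) (Function.minimalPeriod P.nx (P.st i) - P.ht i)
  rw [pow_ht, Nat.add_sub_cancel' (FlatB_ht_lt i).le] at h1
  exact h1.symm.trans (M.2.cyc _)

/-- the frame relative to the first slot -/
noncomputable def FlatB_U (M : {M : Matrix P.Site P.Site Ω // P.IsM M}) (i : P.I) : GL ι Ω :=
  ⟨FlatB_pr M.1 (P.st i) (P.ht i), FlatB_pr M.1 i (Function.minimalPeriod P.nx (P.st i) - P.ht i),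
    FlatB_inv M i, mul_eq_one_comm.1 (FlatB_inv M i)⟩

theorem FlatB_U_nx (M : {M : Matrix P.Site P.Site Ω // P.IsM M}) (i : P.I) :
    (FlatB_U M (P.nx i) : Matrix ι ι Ω) = (FlatB_U M i : Matrix ι ι Ω) * P.L M.1 i := by
  change FlatB_pr M.1 (P.st (P.nx i)) (P.ht (P.nx i)) = FlatB_pr M.1 (P.st i) (P.ht i) * P.L M.1 i
  have h1 := FlatB_pr_succ M.1 (P.st i) (P.ht i)
  rw [pow_ht] at h1
  rw [← h1, st_nx]
  by_cases h : P.Last i
  · rw [FlatB_last h, show P.nx i = P.st i from h, ht_st]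
    exact (M.2.cyc _).symm
  · rw [ht_nx h]

/-- the parametrisation of the flat solutions -/
noncomputable def FlatB_F (q : {M : Matrix P.Site P.Site Ω // P.IsM M} × (P.I → GL ι Ω)) :
    P.Flat Ω :=
  ⟨⟨(fun _ => 1, q.1.1, fun i => q.2 (P.st i) * FlatB_U q.1 i),
    ⟨fun _ => Uni.one, q.1.2.supp, fun s _ => q.1.2.fix s, fun s _ => q.1.2.sq s, fun i => by
      simp only [Units.val_mul, st_nx, FlatB_U_nx, Matrix.mul_one, Matrix.mul_assoc]⟩⟩,
    fun _ => rfl⟩

theorem FlatB_good_F : Good o Ω (FlatB_F (P := P) (Ω := Ω)) := by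
  have hM : Good o Ω fun q : {M : Matrix P.Site P.Site Ω // P.IsM M} × (P.I → GL ι Ω) => q.1.1 :=
    Good.id.fst.val
  refine good_subtype_iff.2 (good_subtype_iff.2 ?_)
  refine (Good.pi fun _ => Good.mone).prodMk (hM.prodMk (Good.pi fun i => Good.glmul ?_ ?_))
  · exact (Good.apply (P.st i)).comp Good.id.snd
  · exact good_units (FlatB_good_pr hM _ _) (FlatB_good_pr hM _ _)

/-- `M` has the good inverse `M' = diagonal (u⁻¹ or u⁻²) * M`, so `L M i` has the good inverse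
`b a ↦ M' (J⁻¹ (nx i, b)) (i, a)`.  The good map `{M // IsM M} × (I → GL) → Flat`,
`(M, h) ↦ (1, M, i ↦ h (st i) * ∏_{k < ht i} L M (nx^k (st i)))` hits every point; for `i` last
`ht i + 1 = minimalPeriod nx (st i)`. -/
theorem flat_of_isM (hB : Big o Ω) (f : P.Flat Ω)
    (h : ∀ M : {M : Matrix P.Site P.Site Ω // P.IsM M}, InZ o Ω M) : InZ o Ω f := by
  have h1 := FlatB_good_F.inZ
    ((h ⟨_, FlatB_isM f⟩).prodMk (InZ.pi fun i => hB.inZ_GL (f.1.1.2.2 i)))
  have e : FlatB_F (⟨_, FlatB_isM f⟩, fun i => f.1.1.2.2 i) = f := by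
    refine Subtype.ext (Subtype.ext (Prod.ext (funext fun i => (f.2 i).symm) (Prod.ext rfl ?_)))
    funext i
    refine Units.ext ?_
    have h2 := FlatB_frame f (P.st i) (P.ht i)
    rw [pow_ht] at h2
    exact h2.symm
  rwa [e] at h1

variable (P) in
/-- coordinates on the pieces of a thin problem -/
structure Chart where
  H : Type
  [fH : Fintype H]
  [dH : DecidableEq H]
  sz : H → ℕ
  blk : P.Site → H
  idx : P.Site → ℕ
  site : H → ℕ → P.Site
  τ : H → H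
  π : Equiv.Perm H
  u : H → oˣ
  blk_eq : ∀ s t, blk s = blk t ↔ P.pc s = P.pc t
  sz_blk : ∀ s, sz (blk s) = P.bsz s
  idx_lt : ∀ s, idx s < sz (blk s)
  site_blk : ∀ s, site (blk s) (idx s) = s
  blk_site : ∀ p a, a < sz p → blk (site p a) = p
  idx_site : ∀ p a, a < sz p → idx (site p a) = a
  surj : ∀ p, ∃ s, blk s = p
  τ_τ : ∀ p, τ (τ p) = p
  sz_τ : ∀ p, sz (τ p) = sz p
  sz_π : ∀ p, sz (π p) = sz p
  u_τ : ∀ p, u (τ p) = u p
  τ_blk : ∀ s t, blk s = τ (blk t) ↔ P.pc s = P.tau (P.pc t)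
  π_blk : ∀ s, π (τ (blk s)) = blk (P.J s)
  idx_J : ∀ s, idx (P.J s) = idx s
  u_blk : ∀ s, u (blk s) = P.u (P.pc s)

attribute [instance] Chart.fH Chart.dH

/-- `H` is the range of `pc`; `idx s` is the number of sites `t` in the block of `s` with `z t < z s` for
some linear order on the labels (`z_inj`, `blk_J`, `z_J`); `card_piece` for `τ`. -/
theorem exists_chart (hT : P.Thin) (s : P.Sol Ω) : Nonempty P.Chart := by
  classical
  obtain ⟨lo, -⟩ := exists_wellFoundedLT (α := P.Z)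
  have hpc : ∀ s t, P.pc s = P.pc t ↔ Blk P.lev s t := fun s t => ⟨hT s t, P.blk_pc s t⟩
  -- the pieces
  obtain ⟨cnt, hcnt⟩ : ∃ cnt : P.Pc → ℕ,
      cnt = fun p => (Finset.univ.filter fun s => P.pc s = p).card := ⟨_, rfl⟩
  have cnt_pc : ∀ s, cnt (P.pc s) = P.bsz s := fun s => by
    rw [hcnt]
    exact congrArg Finset.card (Finset.filter_congr fun t _ => eq_comm.trans (hpc s t))
  have cnt_tau : ∀ p, cnt (P.tau p) = cnt p := fun p => by
    rw [hcnt]; exact (s.2.card_piece p).symm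
  have tau_mem : ∀ p : Set.range P.pc, P.tau p.1 ∈ Set.range P.pc := by
    rintro ⟨_, t, rfl⟩
    have h1 : 0 < cnt (P.tau (P.pc t)) := by rw [cnt_tau, cnt_pc]; exact bsz_pos t
    rw [hcnt] at h1
    obtain ⟨r, hr⟩ := Finset.card_pos.1 h1
    exact ⟨r, (Finset.mem_filter.1 hr).2⟩
  obtain ⟨blk, hblk⟩ : ∃ blk : P.Site → Set.range P.pc, ∀ s, (blk s).1 = P.pc s :=
    ⟨fun s => ⟨P.pc s, s, rfl⟩, fun _ => rfl⟩
  have blk_eq : ∀ s t, blk s = blk t ↔ P.pc s = P.pc t := fun s t => by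
    rw [Subtype.ext_iff, hblk, hblk]
  have surj : ∀ p, ∃ s, blk s = p := by
    rintro ⟨_, t, rfl⟩
    exact ⟨t, Subtype.ext (hblk t)⟩
  obtain ⟨τ, hτ⟩ : ∃ τ : Set.range P.pc → Set.range P.pc, ∀ p, (τ p).1 = P.tau p.1 :=
    ⟨fun p => ⟨_, tau_mem p⟩, fun _ => rfl⟩
  have τ_τ : ∀ p, τ (τ p) = p := fun p => Subtype.ext (by rw [hτ, hτ, P.tau_tau])
  choose rp hrp using surj
  have σ_blk : ∀ s, blk (P.J (rp (blk s))) = blk (P.J s) := fun s => by
    rw [blk_eq, hpc, P.blk_J, ← hpc, ← blk_eq, hrp]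
  have σ_inj : Function.Injective fun p => blk (P.J (rp (τ p))) := fun p q h => by
    have h1 : blk (rp (τ p)) = blk (rp (τ q)) := by
      rw [blk_eq, hpc, ← P.blk_J, ← hpc, ← blk_eq]; exact h
    rw [hrp, hrp] at h1
    rw [← τ_τ p, h1, τ_τ]
  -- the indices
  obtain ⟨idx, hidx⟩ : ∃ idx : P.Site → ℕ,
      idx = fun s => (Finset.univ.filter fun t => Blk P.lev s t ∧ P.z t < P.z s).card := ⟨_, rfl⟩
  have idx_lt : ∀ s, idx s < P.bsz s := fun s => by
    rw [hidx]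
    refine Finset.card_lt_card ⟨fun t ht => ?_, fun h => ?_⟩
    · exact Finset.mem_filter.2 ⟨Finset.mem_univ _, (Finset.mem_filter.1 ht).2.1⟩
    · exact lt_irrefl _ (Finset.mem_filter.1
        (h (Finset.mem_filter.2 ⟨Finset.mem_univ s, blk_refl s⟩))).2.2
  have idx_mono : ∀ s t, Blk P.lev s t → P.z s < P.z t → idx s < idx t := fun s t h h' => by
    rw [hidx]
    refine Finset.card_lt_card ⟨fun r hr => ?_, fun h2 => ?_⟩
    · obtain ⟨-, h3, h4⟩ := Finset.mem_filter.1 hr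
      exact Finset.mem_filter.2 ⟨Finset.mem_univ _, blk_trans (blk_symm h) h3, h4.trans h'⟩
    · exact lt_irrefl _ (Finset.mem_filter.1
        (h2 (Finset.mem_filter.2 ⟨Finset.mem_univ s, blk_symm h, h'⟩))).2.2
  have idx_inj : ∀ s t, Blk P.lev s t → idx s = idx t → s = t := fun s t h h' => by
    rcases lt_trichotomy (P.z s) (P.z t) with h1 | h1 | h1
    · exact absurd h' (idx_mono s t h h1).ne
    · exact P.z_inj s t h h1
    · exact absurd h' (idx_mono t s (blk_symm h) h1).ne'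
  have idx_J : ∀ s, idx (P.J s) = idx s := fun s => by
    rw [hidx]
    exact (Finset.card_equiv P.J fun t => by simp [P.blk_J, P.z_J]).symm
  have idx_surj : ∀ s a, a < P.bsz s → ∃ t, Blk P.lev s t ∧ idx t = a := fun s a ha => by
    obtain ⟨t, ht, hta⟩ := Finset.surjOn_of_injOn_of_card_le
      (s := Finset.univ.filter fun t => Blk P.lev s t) (t := Finset.range (P.bsz s)) idx
      (fun t ht => by
        rw [Finset.mem_coe, Finset.mem_range, bsz_blk (Finset.mem_filter.1 ht).2]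
        exact idx_lt t)
      (fun t ht r hr h => idx_inj t r
        (blk_trans (blk_symm (Finset.mem_filter.1 ht).2) (Finset.mem_filter.1 hr).2) h)
      (by rw [Finset.card_range]; exact le_rfl) (Finset.mem_coe.2 (Finset.mem_range.2 ha))
    exact ⟨t, (Finset.mem_filter.1 ht).2, hta⟩
  have hsite : ∀ (p : Set.range P.pc) (a : ℕ), ∃ t, a < cnt p.1 → blk t = p ∧ idx t = a := by
    intro p a
    by_cases ha : a < cnt p.1
    · rw [← hrp p, hblk, cnt_pc] at ha
      obtain ⟨t, h1, h2⟩ := idx_surj _ a ha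
      exact ⟨t, fun _ => ⟨((blk_eq _ _).2 (P.blk_pc _ _ h1)).symm.trans (hrp p), h2⟩⟩
    · exact ⟨rp p, fun h => absurd h ha⟩
  choose site hsite using hsite
  have idx_lt' : ∀ s, idx s < cnt (blk s).1 := fun s => by rw [hblk, cnt_pc]; exact idx_lt s
  exact ⟨{
    H := Set.range P.pc
    fH := Fintype.ofFinite _
    dH := inferInstance
    sz := fun p => cnt p.1
    blk := blk
    idx := idx
    site := site
    τ := τ
    π := Equiv.ofBijective _ σ_inj.bijective_of_finite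
    u := fun p => P.u p.1
    blk_eq := blk_eq
    sz_blk := fun s => by rw [hblk, cnt_pc]
    idx_lt := idx_lt'
    site_blk := fun s => idx_inj _ _ (hT _ _ ((blk_eq _ _).1 (hsite _ _ (idx_lt' s)).1))
      (hsite _ _ (idx_lt' s)).2
    blk_site := fun p a ha => (hsite p a ha).1
    idx_site := fun p a ha => (hsite p a ha).2
    surj := fun p => ⟨rp p, hrp p⟩
    τ_τ := τ_τ
    sz_τ := fun p => by rw [hτ, cnt_tau]
    sz_π := fun p => by
      rw [Equiv.ofBijective_apply, hblk, cnt_pc, bsz_J, ← cnt_pc, ← hblk, hrp, hτ, cnt_tau]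
    u_τ := fun p => by rw [hτ, P.u_tau]
    τ_blk := fun s t => by rw [Subtype.ext_iff, hτ, hblk, hblk]
    π_blk := fun s => by rw [Equiv.ofBijective_apply, τ_τ, σ_blk]
    idx_J := idx_J
    u_blk := fun s => by rw [hblk] }⟩

/-- extension by zero -/
def flC_ext {m : ℕ} (B : Matrix (Fin m) (Fin m) Ω) (a b : ℕ) : Ω :=
  if h : a < m ∧ b < m then B ⟨a, h.1⟩ ⟨b, h.2⟩ else 0

theorem flC_ext_val {m : ℕ} (B : Matrix (Fin m) (Fin m) Ω) (a b : Fin m) :
    flC_ext B a b = B a b := dif_pos ⟨a.2, b.2⟩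

theorem flC_ext_mul {m : ℕ} (A B : Matrix (Fin m) (Fin m) Ω) (a b : ℕ) :
    flC_ext (A * B) a b = ∑ e ∈ Finset.range m, flC_ext A a e * flC_ext B e b := by
  rw [← Fin.sum_univ_eq_sum_range (fun e => flC_ext A a e * flC_ext B e b)]
  by_cases ha : a < m
  · by_cases hb : b < m
    · simp only [flC_ext, ha, hb, Fin.is_lt, and_self, dif_pos, Matrix.mul_apply]
    · simp [flC_ext, hb]
  · simp [flC_ext, ha]

theorem flC_ext_smul {m : ℕ} (c : Ω) {a : ℕ} (ha : a < m) (b : ℕ) :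
    flC_ext (c • (1 : Matrix (Fin m) (Fin m) Ω)) a b = if a = b then c else 0 := by
  by_cases hb : b < m
  · simp [flC_ext, ha, hb, Matrix.one_apply]
  · rw [flC_ext, dif_neg fun h => hb h.2, if_neg (by omega)]

namespace Chart

variable (ch : P.Chart)

/-- half edges of size `m` -/
abbrev flC_H (m : ℕ) : Type := {p : ch.H // ch.sz p = m}

/-- the restricted involution -/
def flC_τ (m : ℕ) (p : ch.flC_H m) : ch.flC_H m := ⟨ch.τ p, (ch.sz_τ p).trans p.2⟩

/-- the restricted permutation -/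
def flC_π (m : ℕ) : Equiv.Perm (ch.flC_H m) := ch.π.subtypePerm fun p => by rw [ch.sz_π]

theorem flC_π_pow (m k : ℕ) (p : ch.flC_H m) : ((ch.flC_π m ^ k) p).1 = (ch.π ^ k) p.1 := by
  rw [flC_π, Equiv.Perm.subtypePerm_pow]
  rfl

/-- `A` are the coordinates of the rows of `M` in pieces of size `m` -/
def flC_Rep (M : Matrix P.Site P.Site Ω) {m : ℕ} (A : ch.flC_H m → Matrix (Fin m) (Fin m) Ω) :
    Prop :=
  ∀ (p : ch.flC_H m) (s t : P.Site), ch.blk s = p →
    M s t = if ch.blk s = ch.τ (ch.blk t) then flC_ext (A p) (ch.idx s) (ch.idx t) else 0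

theorem flC_sum (q : ch.H) (f : ℕ → Ω) :
    ∑ t : P.Site, (if ch.blk t = q then f (ch.idx t) else 0) =
      ∑ e ∈ Finset.range (ch.sz q), f e := by
  rw [← Finset.sum_filter]
  refine Finset.sum_nbij' ch.idx (ch.site q) ?_ ?_ ?_ ?_ fun _ _ => rfl
  · intro t ht
    have ht := (Finset.mem_filter.1 ht).2
    exact Finset.mem_range.2 (ht ▸ ch.idx_lt t)
  · intro e he
    exact Finset.mem_filter.2 ⟨Finset.mem_univ _, ch.blk_site q e (Finset.mem_range.1 he)⟩
  · intro t ht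
    have ht := (Finset.mem_filter.1 ht).2
    exact ht ▸ ch.site_blk t
  · intro e he
    exact ch.idx_site q e (Finset.mem_range.1 he)

theorem flC_sum' (q : ch.H) (j : P.I) (hj : ∀ t, ch.blk t = q → t.1 = j) (f : ℕ → Ω) :
    ∑ d : ι, (if ch.blk (j, d) = q then f (ch.idx (j, d)) else 0) =
      ∑ e ∈ Finset.range (ch.sz q), f e := by
  rw [← ch.flC_sum, Fintype.sum_prod_type, Finset.sum_eq_single j]
  · intro i _ hi
    exact Finset.sum_eq_zero fun d _ => if_neg fun h => hi (hj _ h)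
  · exact fun h => absurd (Finset.mem_univ _) h

theorem flC_slot (k : ℕ) (s : P.Site) :
    ∀ t : P.Site, ch.blk t = (ch.π ^ k) (ch.blk s) → t.1 = (P.nx ^ k) s.1 := by
  induction k with
  | zero => exact fun t h => P.pc_slot _ _ ((ch.blk_eq _ _).1 h)
  | succ k ih =>
    intro t h
    obtain ⟨r, hr⟩ := ch.surj ((ch.π ^ k) (ch.blk s))
    obtain ⟨t, rfl⟩ := P.J.surjective t
    rw [pow_succ', Equiv.Perm.mul_apply, ← ch.π_blk, ← hr] at h
    rw [pow_succ', Equiv.Perm.mul_apply, ← ih r hr]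
    exact P.pc_exit _ _ ((ch.τ_blk _ _).1 (ch.π.injective h).symm)

theorem flC_eq {s t : P.Site} (h : ch.blk s = ch.blk t) (h' : ch.idx s = ch.idx t) : s = t := by
  rw [← ch.site_blk s, h, h', ch.site_blk]

theorem flC_delta {m : ℕ} (c : Ω) (p : ch.flC_H m) {s : P.Site} (hs : ch.blk s = p) (t : P.Site) :
    (if ch.blk t = p then flC_ext (c • (1 : Matrix (Fin m) (Fin m) Ω)) (ch.idx s) (ch.idx t)
      else 0) = if s = t then c else 0 := by
  have h1 : ch.idx s < m := by rw [← p.2, ← hs]; exact ch.idx_lt s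
  rw [flC_ext_smul c h1]
  by_cases h : s = t
  · subst h
    simp [hs]
  · rw [if_neg h]
    split_ifs with h2 h3
    · exact absurd (ch.flC_eq (hs.trans h2.symm) h3) h
    · rfl
    · rfl

theorem flC_scalar {m : ℕ} {c : Ω} (p : ch.flC_H m) {B : Matrix (Fin m) (Fin m) Ω}
    (h : ∀ s t, ch.blk s = p → ch.blk t = p →
      flC_ext B (ch.idx s) (ch.idx t) = if s = t then c else 0) : B = c • 1 := by
  ext a b
  have ha : (a : ℕ) < ch.sz p := p.2.symm ▸ a.2
  have hb : (b : ℕ) < ch.sz p := p.2.symm ▸ b.2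
  have h1 := h _ _ (ch.blk_site p a ha) (ch.blk_site p b hb)
  rw [← ch.flC_delta c p (ch.blk_site p a ha), if_pos (ch.blk_site p b hb), ch.idx_site p a ha,
    ch.idx_site p b hb, flC_ext_val, flC_ext_val] at h1
  exact h1

variable {ch} {M : Matrix P.Site P.Site Ω} {m : ℕ}

theorem flC_Rep.L {A : ch.flC_H m → Matrix (Fin m) (Fin m) Ω} (hM : ch.flC_Rep M A)
    (p : ch.flC_H m) (i : P.I) (c : ι) (hp : ch.blk (i, c) = p) (c' : ι) :
    P.L M i c c' = if ch.blk (P.nx i, c') = ch.π p then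
      flC_ext (A p) (ch.idx (i, c)) (ch.idx (P.nx i, c')) else 0 := by
  obtain ⟨t, ht⟩ := P.J.surjective (P.nx i, c')
  rw [Prob.L, Matrix.of_apply, ← ht, Equiv.symm_apply_apply, hM p _ _ hp, ch.idx_J, ← ch.π_blk,
    hp]
  exact if_congr ⟨fun h => by rw [h], fun h => (ch.π.injective h).symm⟩ rfl rfl

theorem flC_Rep.key {A : ch.flC_H m → Matrix (Fin m) (Fin m) Ω} (hM : ch.flC_Rep M A)
    (p : ch.flC_H m) (i : P.I) (c : ι) (hp : ch.blk (i, c) = p) (k : ℕ) : ∀ c' : ι,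
    ((List.range k).map fun j => P.L M ((P.nx ^ j) i)).prod c c' =
      if ch.blk ((P.nx ^ k) i, c') = (ch.π ^ k) p then
        flC_ext ((List.range k).map fun j => A ((ch.flC_π m ^ j) p)).prod (ch.idx (i, c))
          (ch.idx ((P.nx ^ k) i, c')) else 0 := by
  induction k with
  | zero =>
    intro c'
    have := ch.flC_delta (1 : Ω) p hp (i, c')
    rw [one_smul] at this
    simp only [List.range_zero, List.map_nil, List.prod_nil, pow_zero, Equiv.Perm.one_apply, this,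
      Matrix.one_apply, Prod.mk.injEq, true_and]
  | succ k ih =>
    intro c'
    have hq := ch.flC_π_pow m k p
    have h1 := ch.flC_sum' ((ch.π ^ k) p) ((P.nx ^ k) i)
      (fun t ht => ch.flC_slot k (i, c) t (by rw [ht, hp])) fun e =>
        flC_ext ((List.range k).map fun j => A ((ch.flC_π m ^ j) p)).prod (ch.idx (i, c)) e *
          flC_ext (A ((ch.flC_π m ^ k) p)) e (ch.idx ((P.nx ^ (k + 1)) i, c'))
    rw [← hq, ((ch.flC_π m ^ k) p).2, ← flC_ext_mul, hq] at h1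
    simp only [List.range_succ, List.map_append, List.prod_append, List.map_cons, List.map_nil,
      List.prod_cons, List.prod_nil, Matrix.mul_one]
    rw [← h1, Matrix.mul_apply]
    simp only [ih]
    split_ifs with h2
    · refine Finset.sum_congr rfl fun d _ => ?_
      split_ifs with h3
      · rw [hM.L ((ch.flC_π m ^ k) p) _ d (h3.trans hq.symm), hq, ← Equiv.Perm.mul_apply,
          ← Equiv.Perm.mul_apply, ← pow_succ', ← pow_succ', if_pos h2]
      · exact zero_mul _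
    · refine Finset.sum_eq_zero fun d _ => ?_
      split_ifs with h3
      · rw [hM.L ((ch.flC_π m ^ k) p) _ d (h3.trans hq.symm), hq, ← Equiv.Perm.mul_apply,
          ← Equiv.Perm.mul_apply, ← pow_succ', ← pow_succ', if_neg h2, mul_zero]
      · exact zero_mul _

theorem flC_Rep.sq {A : ch.flC_H m → Matrix (Fin m) (Fin m) Ω} (hM : ch.flC_Rep M A)
    (p : ch.flC_H m) (s t : P.Site) (hs : ch.blk s = p) :
    (M * M) s t = if ch.blk t = p then
      flC_ext (A p * A (ch.flC_τ m p)) (ch.idx s) (ch.idx t) else 0 := by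
  have h1 := ch.flC_sum (ch.τ p) fun e =>
    flC_ext (A p) (ch.idx s) e * flC_ext (A (ch.flC_τ m p)) e (ch.idx t)
  rw [ch.sz_τ, p.2, ← flC_ext_mul] at h1
  have h2 : ∀ r : ch.H, (p : ch.H) = ch.τ r ↔ r = ch.τ p :=
    fun r => ⟨fun h => by rw [h, ch.τ_τ], fun h => by rw [h, ch.τ_τ]⟩
  rw [← h1, Matrix.mul_apply]
  simp only [hM p s _ hs, hs, h2]
  split_ifs with h3
  · refine Finset.sum_congr rfl fun r _ => ?_
    split_ifs with h4
    · rw [hM (ch.flC_τ m p) r t h4, if_pos (by rw [h4, h3])]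
    · exact zero_mul _
  · refine Finset.sum_eq_zero fun r _ => ?_
    split_ifs with h4
    · rw [hM (ch.flC_τ m p) r t h4, if_neg, mul_zero]
      intro h5
      exact h3 (by rw [← ch.τ_τ (ch.blk t), ← h5, h4, ch.τ_τ])
    · exact zero_mul _

theorem flC_Rep.fix {A : ch.flC_H m → Matrix (Fin m) (Fin m) Ω} (hM : ch.flC_Rep M A)
    (p : ch.flC_H m) (hp : ch.τ p = p) (s t : P.Site) (hs : ch.blk s = p) :
    M s t = if ch.blk t = p then flC_ext (A p) (ch.idx s) (ch.idx t) else 0 := by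
  rw [hM p s t hs, hs]
  exact if_congr ⟨fun h => by rw [← hp, h, ch.τ_τ], fun h => by rw [h, hp]⟩ rfl rfl

theorem flC_per (k : ℕ) (i : P.I) (hk : k = Function.minimalPeriod P.nx i) : (P.nx ^ k) i = i := by
  have := Function.isPeriodicPt_minimalPeriod P.nx i
  rw [Function.IsPeriodicPt, Function.IsFixedPt, ← Equiv.Perm.coe_pow] at this
  rw [hk, this]

theorem flC_Rep.period {A : ch.flC_H m → Matrix (Fin m) (Fin m) Ω} (hM : ch.flC_Rep M A)
    (h : P.IsM M) (p : ch.flC_H m) (i : P.I) (c : ι) (hp : ch.blk (i, c) = p) :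
    Function.minimalPeriod (ch.flC_π m) p = Function.minimalPeriod P.nx i := by
  have h1 := hM.key p i c hp (Function.minimalPeriod P.nx i) c
  rw [h.cyc, Matrix.one_apply_eq, flC_per _ i rfl, hp] at h1
  have h2 : (p : ch.H) = (ch.π ^ Function.minimalPeriod P.nx i) p := by
    by_contra h2
    rw [if_neg h2] at h1
    exact one_ne_zero h1
  refine Nat.dvd_antisymm (Function.IsPeriodicPt.minimalPeriod_dvd ?_)
    (Function.IsPeriodicPt.minimalPeriod_dvd ?_)
  · rw [Function.IsPeriodicPt, Function.IsFixedPt, ← Equiv.Perm.coe_pow]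
    exact Subtype.ext ((ch.flC_π_pow _ _ _).trans h2.symm)
  · have h3 := Function.isPeriodicPt_minimalPeriod (ch.flC_π m) p
    rw [Function.IsPeriodicPt, Function.IsFixedPt, ← Equiv.Perm.coe_pow] at h3 ⊢
    have h4 := ch.flC_π_pow m (Function.minimalPeriod (ch.flC_π m) p) p
    rw [h3] at h4
    exact (ch.flC_slot _ (i, c) (i, c) (by rw [hp]; exact h4)).symm

theorem flC_uu (p : ch.flC_H m) {s : P.Site} (hs : ch.blk s = p) :
    P.uu Ω s = algebraMap o Ω (ch.u p : o) := by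
  rw [← hs, ch.u_blk]

theorem flC_τ_iff (p : ch.flC_H m) {s : P.Site} (hs : ch.blk s = p) :
    P.tau (P.pc s) = P.pc s ↔ ch.flC_τ m p = p := by
  rw [eq_comm, ← ch.τ_blk, hs, eq_comm, Subtype.ext_iff]
  rfl

theorem flC_Rep.fix' {A : ch.flC_H m → Matrix (Fin m) (Fin m) Ω} (hM : ch.flC_Rep M A)
    (h : P.IsM M) (p : ch.flC_H m) (hp : ch.flC_τ m p = p) :
    A p = algebraMap o Ω (ch.u p : o) • 1 := by
  refine ch.flC_scalar p fun s t hs ht => ?_
  have h1 := hM.fix p (congrArg Subtype.val hp) s t hs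
  rw [if_pos ht, h.fix s ((flC_τ_iff p hs).2 hp), flC_uu p hs] at h1
  exact h1.symm

theorem flC_Rep.sq' {A : ch.flC_H m → Matrix (Fin m) (Fin m) Ω} (hM : ch.flC_Rep M A)
    (h : P.IsM M) (p : ch.flC_H m) (hp : ch.flC_τ m p ≠ p) :
    A p * A (ch.flC_τ m p) = algebraMap o Ω (ch.u p : o) • 1 := by
  refine ch.flC_scalar p fun s t hs ht => ?_
  have h1 := hM.sq p s t hs
  rw [if_pos ht, h.sq s (fun h2 => hp ((flC_τ_iff p hs).1 h2)), flC_uu p hs] at h1
  exact h1.symm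

theorem flC_Rep.isUnit {A : ch.flC_H m → Matrix (Fin m) (Fin m) Ω} (hM : ch.flC_Rep M A)
    (h : P.IsM M) (p : ch.flC_H m) : IsUnit (A p) := by
  have hu : algebraMap o Ω (ch.u p : o) ≠ 0 := ((ch.u p).isUnit.map (algebraMap o Ω)).ne_zero
  by_cases hp : ch.flC_τ m p = p
  · refine IsUnit.of_mul_eq_one ((algebraMap o Ω (ch.u p : o))⁻¹ • 1) ?_
    rw [hM.fix' h p hp, smul_mul_smul_comm, mul_inv_cancel₀ hu, one_smul, one_mul]
  · refine IsUnit.of_mul_eq_one ((algebraMap o Ω (ch.u p : o))⁻¹ • A (ch.flC_τ m p)) ?_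
    rw [Matrix.mul_smul, hM.sq' h p hp, smul_smul, inv_mul_cancel₀ hu, one_smul]

theorem flC_val_prod {α : Type} (l : List α) (f : α → GL (Fin m) Ω) :
    ((l.map f).prod : GL (Fin m) Ω).val = (l.map fun a => (f a).val).prod := by
  induction l with
  | nil => rfl
  | cons a l ih => simp only [List.map_cons, List.prod_cons, Units.val_mul, ih]

theorem flC_word {A : ch.flC_H m → GL (Fin m) Ω} (hM : ch.flC_Rep M fun p => (A p).val)
    (h : P.IsM M) : IsWord Ω (Fin m) o (ch.flC_τ m) (fun p => ch.u p) (ch.flC_π m) A := by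
  refine ⟨hM.fix' h, hM.sq' h, fun p => Units.ext ?_⟩
  rw [flC_val_prod, Units.val_one, ← one_smul Ω (1 : Matrix (Fin m) (Fin m) Ω)]
  refine ch.flC_scalar p fun s t hs ht => ?_
  obtain ⟨i, c⟩ := s
  obtain ⟨i', c'⟩ := t
  obtain rfl : i = i' := P.pc_slot _ _ ((ch.blk_eq _ _).1 (hs.trans ht.symm))
  have h0 := hM.period h p i c hs
  have h1 := hM.key p i c hs (Function.minimalPeriod P.nx i) c'
  have h3 := Function.isPeriodicPt_minimalPeriod (ch.flC_π m) p
  rw [Function.IsPeriodicPt, Function.IsFixedPt, ← Equiv.Perm.coe_pow, h0] at h3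
  rw [h.cyc, flC_per _ i rfl, ← ch.flC_π_pow, h3, if_pos ht] at h1
  rw [h0, ← h1, Matrix.one_apply]
  simp only [Prod.mk.injEq, true_and]

theorem flC_isM
    (hper : ∀ (m : ℕ) (p : ch.flC_H m) (i : P.I) (c : ι), ch.blk (i, c) = p →
      Function.minimalPeriod (ch.flC_π m) p = Function.minimalPeriod P.nx i)
    (h : ∀ s : P.Site, ∃ A : ch.flC_H (ch.sz (ch.blk s)) → GL (Fin (ch.sz (ch.blk s))) Ω,
      IsWord Ω _ o (ch.flC_τ _) (fun p => ch.u p) (ch.flC_π _) A ∧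
        ch.flC_Rep M fun p => (A p).val) : P.IsM M := by
  refine ⟨fun s t hst => ?_, fun s hs t => ?_, fun s hs t => ?_, fun i => ?_⟩
  · obtain ⟨A, -, hM⟩ := h s
    rw [hM ⟨_, rfl⟩ s t rfl, if_neg fun h1 => hst ((ch.τ_blk s t).1 h1)]
  · obtain ⟨A, hA, hM⟩ := h s
    have h1 := (flC_τ_iff ⟨ch.blk s, rfl⟩ rfl).1 hs
    rw [hM.fix ⟨_, rfl⟩ (congrArg Subtype.val h1) s t rfl, hA.fix _ h1,
      ch.flC_delta _ ⟨ch.blk s, rfl⟩ rfl, flC_uu ⟨ch.blk s, rfl⟩ rfl]
  · obtain ⟨A, hA, hM⟩ := h s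
    have h1 := fun h1 => hs ((flC_τ_iff ⟨ch.blk s, rfl⟩ rfl).2 h1)
    rw [hM.sq ⟨_, rfl⟩ s t rfl, hA.sq _ h1,
      ch.flC_delta _ ⟨ch.blk s, rfl⟩ rfl, flC_uu ⟨ch.blk s, rfl⟩ rfl]
  · ext c c'
    obtain ⟨A, hA, hM⟩ := h (i, c)
    have h0 := hper _ ⟨ch.blk (i, c), rfl⟩ i c rfl
    have h3 := Function.isPeriodicPt_minimalPeriod (ch.flC_π _) ⟨ch.blk (i, c), rfl⟩
    rw [Function.IsPeriodicPt, Function.IsFixedPt, ← Equiv.Perm.coe_pow, h0] at h3
    have h4 := congrArg Units.val (hA.face ⟨ch.blk (i, c), rfl⟩)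
    rw [flC_val_prod, h0, Units.val_one, ← one_smul Ω (1 : Matrix _ _ Ω)] at h4
    rw [hM.key ⟨_, rfl⟩ i c rfl, flC_per _ i rfl, ← ch.flC_π_pow, h3, h4,
      ch.flC_delta _ ⟨ch.blk (i, c), rfl⟩ rfl, Matrix.one_apply]
    simp only [Prod.mk.injEq, true_and]

end Chart

/-- For `m ≤ n` let `H m = {p // sz p = m}` with the restrictions of `τ`, `u`, `π` (`subtypePerm`).
The good map `(∀ m : Fin (n+1), {A : H m → GL (Fin m) // IsWord ..}) → {M // IsM M}` is
`M s t = A (blk s) (idx s) (idx t)` if `blk s = τ (blk t)` and `0` otherwise (extend a matrix on `Fin m`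
by zero to `ℕ × ℕ` to avoid casts); it hits `M₀` with `A p a b = M₀ (site p a) (site (τ p) b)`.
Key formula (induction on `k`): `(∏_{j<k} L M (nx^j i)) c c'` is
`(∏_{j<k} A (π^j p)) (idx (i,c)) (idx (nx^k i, c'))` if `blk (nx^k i, c') = π^k p`, else `0`, where
`p = blk (i,c)`.  The slot of `π p` is `nx` of the slot of `p` (`pc_exit`), and `M₀.cyc` shows
`π^k p = p` for `k = minimalPeriod nx i`; hence the two minimal periods agree. -/
theorem isM_dense (ch : P.Chart) {n : ℕ} (hn : P.Le n) (hQ : ∀ m ≤ n, QP Ω (Fin m) o)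
    (M₀ : {M : Matrix P.Site P.Site Ω // P.IsM M}) : InZ o Ω M₀ := by
  have hsz : ∀ s, ch.sz (ch.blk s) < n + 1 := fun s => by
    rw [ch.sz_blk]; exact Nat.lt_succ_of_le (hn s)
  have hA₀ : ∀ m, ch.flC_Rep M₀.1 fun p : ch.flC_H m =>
      Matrix.of fun a b : Fin m => M₀.1 (ch.site p a) (ch.site (ch.τ p) b) := by
    intro m p s t hs
    split_ifs with h
    · have h1 : ch.idx s < m := by rw [← p.2, ← hs]; exact ch.idx_lt s
      have h3 : ch.τ p = ch.blk t := by rw [← hs, h, ch.τ_τ]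
      have h2 : ch.idx t < m := by rw [← p.2, ← ch.sz_τ, h3]; exact ch.idx_lt t
      rw [flC_ext, dif_pos ⟨h1, h2⟩]
      change _ = M₀.1 (ch.site p (ch.idx s)) (ch.site (ch.τ p) (ch.idx t))
      rw [h3, ← hs, ch.site_blk, ch.site_blk]
    · exact M₀.2.supp s t fun h1 => h ((ch.τ_blk s t).2 h1)
  have hper := fun m => (hA₀ m).period M₀.2
  let W : Type := ∀ m : Fin (n + 1), {A : ch.flC_H m → GL (Fin m) Ω //
    IsWord Ω (Fin m) o (ch.flC_τ m) (fun p => ch.u p) (ch.flC_π m) A}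
  let f : W → Matrix P.Site P.Site Ω := fun w => Matrix.of fun s t =>
    if ch.blk s = ch.τ (ch.blk t) then
      flC_ext ((w ⟨_, hsz s⟩).1 ⟨ch.blk s, rfl⟩).val (ch.idx s) (ch.idx t) else 0
  have hf : ∀ (w : W) (m : Fin (n + 1)), ch.flC_Rep (f w) fun p => ((w m).1 p).val := by
    rintro w ⟨m, hm⟩ ⟨p, hp⟩ s t hs
    obtain rfl : ch.blk s = p := hs
    obtain rfl : ch.sz (ch.blk s) = m := hp
    rfl
  have hf' : ∀ w : W, P.IsM (f w) := fun w =>
    Chart.flC_isM hper fun s => ⟨(w ⟨_, hsz s⟩).1, (w ⟨_, hsz s⟩).2, hf w ⟨_, hsz s⟩⟩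
  have hgood : Good o Ω fun w : W =>
      (⟨f w, hf' w⟩ : {M : Matrix P.Site P.Site Ω // P.IsM M}) := by
    refine good_subtype_iff.2 (good_matrix fun s t => Good.ite ?_ Good.zero)
    refine Good.dite (fun h => Good.entry (Good.uval ?_) _ _) fun _ => Good.zero
    exact (Good.apply _).comp (Good.val (Good.apply _))
  let w₀ : W := fun m => ⟨fun p => ((hA₀ m).isUnit M₀.2 p).unit, Chart.flC_word (hA₀ m) M₀.2⟩
  have h₀ : InZ o Ω w₀ := InZ.pi fun m =>
    hQ m (Nat.le_of_lt_succ m.2) _ _ _ _ (fun p => Subtype.ext (ch.τ_τ p)) (fun p => ch.u_τ p) _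
  have e : M₀ = ⟨f w₀, hf' w₀⟩ := by
    refine Subtype.ext (Matrix.ext fun s t => ?_)
    exact hA₀ _ ⟨ch.blk s, rfl⟩ s t rfl
  rw [e]
  exact hgood.inZ h₀

theorem final_stage (hB : Big o Ω) (hT : P.Thin) (hl : ∀ x ∈ P.InvSet, P.Last x.1) {n : ℕ}
    (hn : P.Le n) (hQ : ∀ m ≤ n, QP Ω (Fin m) o) : P.Dense Ω := fun s =>
  flat_reduce hB hT hl s fun f => flat_of_isM hB f fun M =>
    (exists_chart hT s).elim fun ch => isM_dense ch hn hQ M

end Prob

end Crest.Agent.R003
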