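import Crest.Agent.R003.PL1

/-! Row 3: gauge transformations. -/

set_option autoImplicit false
set_option linter.unusedSectionVars false

namespace Crest.Agent.R003

open Matrix

namespace Prob

variable {o : Type} [CommRing o] {ι : Type} [Fintype ι] [DecidableEq ι] {P : Prob o ι}
  {Ω : Type} [Field Ω] [Algebra o Ω]

theorem Gauge_dpart {G : Matrix P.Site P.Site Ω} (hG : ∀ s t, P.pc s ≠ P.pc t → G s t = 0)
    (s t : P.Site) : dpart P.lev G s t = if Blk P.lev s t then G s t else 0 := by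
  simp only [dpart, Matrix.of_apply]
  by_cases h : Blk P.lev s t
  · rw [if_pos h, if_pos h.2]
  · rw [if_neg h]
    split_ifs with h1
    · exact hG s t fun h2 => h ⟨P.pc_slot s t h2, h1⟩
    · rfl

theorem IsGauge.inv' {G G' : Matrix P.Site P.Site Ω} (hG : P.IsGauge G) (h : G * G' = 1) :
    P.IsGauge G' := by
  have h' : G' * G = 1 := mul_eq_one_comm.1 h
  have hs : ∀ s t, P.pc s ≠ P.pc t → G' s t = 0 := fun s t hst =>
    supp_inv h h' hG.supp s t (Ne.symm hst)
  refine ⟨hs, Par.inv (l := P.lev) hG.par h, fun s t hst => ?_⟩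
  have h1 : dpart P.lev G * dpart P.lev G' = 1 := Par.dpart_inv (l := P.lev) hG.par h
  have h2 : (dpart P.lev G).submatrix P.J P.J = dpart P.lev G := by
    ext a b
    rw [Matrix.submatrix_apply, Gauge_dpart hG.supp, Gauge_dpart hG.supp]
    by_cases h3 : Blk P.lev a b
    · rw [if_pos h3, if_pos ((P.blk_J a b).2 h3), hG.inv a b h3]
    · rw [if_neg h3, if_neg fun h4 => h3 ((P.blk_J a b).1 h4)]
  have h3 : dpart P.lev G * (dpart P.lev G').submatrix P.J P.J = 1 := by
    rw [← h2, Matrix.submatrix_mul_equiv, h1, Matrix.submatrix_one_equiv]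
  have h4 := congrFun (congrFun (Matrix.right_inv_eq_right_inv h3 h1) s) t
  rwa [Matrix.submatrix_apply, Gauge_dpart hs, Gauge_dpart hs, if_pos hst,
    if_pos ((P.blk_J s t).2 hst)] at h4

variable (P Ω) in
abbrev Gg : Type := {G : GL P.Site Ω // P.IsGauge (G : Matrix P.Site P.Site Ω)}

theorem IsGauge.Gauge_slot {G : Matrix P.Site P.Site Ω} (hG : P.IsGauge G) (s t : P.Site)
    (h : s.1 ≠ t.1) : G s t = 0 := hG.supp s t fun h1 => h (P.pc_slot s t h1)

theorem IsGauge.Gauge_loc {G G' : Matrix P.Site P.Site Ω} (hG : P.IsGauge G) (h : G * G' = 1)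
    (i : P.I) : P.loc G i * P.loc G' i = 1 := by
  rw [← loc_mul hG.Gauge_slot, h, loc_one]

theorem IsGauge.Gauge_loc_push {G G' : Matrix P.Site P.Site Ω} (hG : P.IsGauge G)
    (h : G * G' = 1) (i : P.I) : P.loc (P.push G) i * P.loc (P.push G') i = 1 := by
  rw [← loc_mul (push_slot hG.supp), ← push_mul, h, push_one, loc_one]

theorem IsGauge.Gauge_par {G : Matrix P.Site P.Site Ω} (hG : P.IsGauge G) (i : P.I) :
    Par (P.lv i) (P.loc G i) := fun _ _ h => hG.par _ _ h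

theorem IsGauge.Gauge_par_push {G : Matrix P.Site P.Site Ω} (hG : P.IsGauge G) (i : P.I) :
    Par (P.lv i) (P.loc (P.push G) i) := by
  intro a b h
  change G (P.J.symm (i, a)) (P.J.symm (i, b)) = 0
  by_cases h1 : P.pc (P.J.symm (i, b)) = P.pc (P.J.symm (i, a))
  · refine hG.par _ _ ((lt_J_iff h1).1 ?_)
    rw [Equiv.apply_symm_apply, Equiv.apply_symm_apply]
    exact h
  · exact hG.supp _ _ (Ne.symm h1)

theorem IsGauge.Gauge_dpart_push {G : Matrix P.Site P.Site Ω} (hG : P.IsGauge G) (i : P.I) :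
    dpart (P.lv i) (P.loc (P.push G) i) = dpart (P.lv i) (P.loc G i) := by
  ext a b
  simp only [dpart, Matrix.of_apply]
  split_ifs with h
  · have h1 : Blk P.lev (P.J.symm (i, a)) (P.J.symm (i, b)) := by
      rw [← P.blk_J, Equiv.apply_symm_apply, Equiv.apply_symm_apply]
      exact ⟨rfl, h⟩
    have h2 := hG.inv _ _ h1
    rw [Equiv.apply_symm_apply, Equiv.apply_symm_apply] at h2
    exact h2.symm
  · rfl

theorem Gauge_row {G G' N : Matrix P.Site P.Site Ω} (hG' : P.IsGauge G') (h : G' * G = 1)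
    {s : P.Site} {c : Ω} (hN : ∀ r, P.pc r = P.pc s → ∀ t, N r t = if r = t then c else 0)
    (t : P.Site) : (G' * N * G) s t = if s = t then c else 0 := by
  have h1 : ∀ r', (G' * N) s r' = c * G' s r' := by
    intro r'
    rw [Matrix.mul_apply, Finset.sum_eq_single r']
    · by_cases h2 : P.pc r' = P.pc s
      · rw [hN r' h2, if_pos rfl, mul_comm]
      · rw [hG'.supp s r' (Ne.symm h2), zero_mul, mul_zero]
    · intro r _ hr
      by_cases h2 : P.pc r = P.pc s
      · rw [hN r h2, if_neg hr, mul_zero]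
      · rw [hG'.supp s r (Ne.symm h2), zero_mul]
    · exact fun h2 => (h2 (Finset.mem_univ _)).elim
  rw [Matrix.mul_apply]
  simp only [h1, mul_assoc]
  rw [← Finset.mul_sum, ← Matrix.mul_apply, h, Matrix.one_apply]
  split_ifs <;> simp

/-- the inverse of a gauge transformation -/
def Gauge_inv (G : P.Gg Ω) : P.Gg Ω := ⟨G.1⁻¹, G.2.inv' G.1.mul_inv⟩

/-- the change of frames of a gauge transformation -/
def Gauge_fr (G : P.Gg Ω) (i : P.I) : GL ι Ω :=
  ⟨P.loc (P.push G.1.val) i, P.loc (P.push (G.1⁻¹).val) i, G.2.Gauge_loc_push G.1.mul_inv i,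
    (Gauge_inv G).2.Gauge_loc_push G.1.inv_mul i⟩

/-- the action on data -/
def Gauge_act (G : P.Gg Ω) (d : P.Data Ω) : P.Data Ω :=
  (fun i => P.loc (P.push (G.1⁻¹).val) i * d.1 i * P.loc G.1.val i,
    (G.1⁻¹).val * d.2.1 * G.1.val, fun i => d.2.2 i * Gauge_fr G i)

theorem Gauge_isSol (G : P.Gg Ω) {d : P.Data Ω} (hd : P.IsSol d) : P.IsSol (Gauge_act G d) := by
  have hG := G.2
  have hG' : P.IsGauge (G.1⁻¹).val := (Gauge_inv G).2
  refine ⟨fun i => ?_, fun s t h => ?_, fun s h0 h t => ?_, fun s h0 h t => ?_, fun i => ?_⟩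
  · have h1 := hG'.Gauge_par_push i
    have h2 := hG.Gauge_par i
    have h3 := hd.uni i
    refine uni_iff.2 ⟨(h1.mul h3.par).mul h2, ?_⟩
    change dpart _ (P.loc (P.push (G.1⁻¹).val) i * d.1 i * P.loc G.1.val i) = 1
    rw [(h1.mul h3.par).dpart_mul h2, h1.dpart_mul h3.par, (uni_iff.1 h3).2, mul_one,
      hG'.Gauge_dpart_push]
    exact (hG'.Gauge_par i).dpart_inv (hG'.Gauge_loc G.1.inv_mul i)
  · change ((G.1⁻¹).val * d.2.1 * G.1.val) s t = 0
    rw [Matrix.mul_apply]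
    refine Finset.sum_eq_zero fun r' _ => ?_
    by_cases h1 : P.pc r' = P.pc t
    · rw [Matrix.mul_apply, Finset.sum_eq_zero, zero_mul]
      intro r _
      by_cases h2 : P.pc s = P.pc r
      · rw [hd.supp r r' (by rwa [← h2, h1]), mul_zero]
      · rw [hG'.supp s r h2, zero_mul]
    · rw [hG.supp r' t h1, mul_zero]
  · refine Gauge_row hG' G.1.inv_mul (fun r hr t' => ?_) t
    rw [hd.fix r h0 (by rw [hr, h]) t', uu, hr]
  · have e : (Gauge_act G d).2.1 * (Gauge_act G d).2.1 =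
        (G.1⁻¹).val * (d.2.1 * d.2.1) * G.1.val := by
      simp only [Gauge_act, mul_assoc, Units.mul_inv_cancel_left]
    rw [e]
    refine Gauge_row hG' G.1.inv_mul (fun r hr t' => ?_) t
    rw [hd.sq r h0 (by rwa [hr]) t', uu, hr]
  · change (d.2.2 (P.nx i)).val * P.loc (P.push G.1.val) (P.nx i) =
      (d.2.2 i).val * P.loc (P.push G.1.val) i *
        (P.loc (P.push (G.1⁻¹).val) i * d.1 i * P.loc G.1.val i) *
        P.L ((G.1⁻¹).val * d.2.1 * G.1.val) i
    rw [L_mul hd.supp hG.supp hG'.supp, hd.fr i]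
    simp only [mul_assoc]
    rw [← mul_assoc (P.loc G.1.val i), hG.Gauge_loc G.1.mul_inv, one_mul,
      ← mul_assoc (P.loc (P.push G.1.val) i), hG.Gauge_loc_push G.1.mul_inv, one_mul]

theorem Gauge_good_inv : Good o Ω (Gauge_inv : P.Gg Ω → P.Gg Ω) :=
  good_subtype_iff.2 (Good.uinv (Good.val Good.id))

/-- The gauge group acts: `X i ↦ loc (push G⁻¹) i * X i * loc G i`, `M ↦ G⁻¹ M G`,
`g i ↦ g i * loc (push G) i` (use `L_mul`; the new `X i` is block triangular with diagonal blocks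
`γ⁻¹ γ = 1` by the `J`-invariance of the diagonal blocks; on a fixed piece `M` is a scalar).
The action is a good map and `G⁻¹` undoes `G`. -/
theorem exists_gact : ∃ F : P.Gg Ω × P.Sol Ω → P.Sol Ω, Good o Ω F ∧
    (∀ G s, (F (G, s)).1.2.1 = ((G.1⁻¹ : GL P.Site Ω) : Matrix P.Site P.Site Ω) * s.1.2.1 * G.1) ∧
    ∀ (G G' : P.Gg Ω) s, G'.1 = G.1⁻¹ → F (G', F (G, s)) = s := by
  refine ⟨fun p => ⟨Gauge_act p.1 p.2.1, Gauge_isSol p.1 p.2.2⟩, ?_, fun _ _ => rfl,
    fun G G' s h => ?_⟩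
  · have g1 : Good o Ω fun p : P.Gg Ω × P.Sol Ω => p.1.1 := Good.val (Good.fst Good.id)
    have g2 : Good o Ω fun p : P.Gg Ω × P.Sol Ω => p.2.1 := Good.val (Good.snd Good.id)
    refine good_subtype_iff.2 (Good.prodMk (Good.pi fun i => ?_)
      (Good.prodMk ((g1.uinv.uval.mmul g2.snd.fst).mmul g1.uval) (Good.pi fun i => ?_)))
    · exact ((good_loc (good_push g1.uinv.uval) i).mmul ((Good.apply i).comp g2.fst)).mmul
        (good_loc g1.uval i)
    · exact ((Good.apply i).comp g2.snd.snd).glmul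
        (good_units (good_loc (good_push g1.uval) i) (good_loc (good_push g1.uinv.uval) i))
  · obtain rfl : G' = Gauge_inv G := Subtype.ext h
    have hG := G.2
    refine Subtype.ext (Prod.ext (funext fun i => ?_) (Prod.ext ?_ (funext fun i => ?_)))
    · change P.loc (P.push G.1.val) i *
        (P.loc (P.push (G.1⁻¹).val) i * s.1.1 i * P.loc G.1.val i) * P.loc (G.1⁻¹).val i = s.1.1 i
      simp only [mul_assoc]
      rw [hG.Gauge_loc G.1.mul_inv, mul_one, ← mul_assoc, hG.Gauge_loc_push G.1.mul_inv, one_mul]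
    · change G.1.val * ((G.1⁻¹).val * s.1.2.1 * G.1.val) * (G.1⁻¹).val = s.1.2.1
      simp only [mul_assoc, Units.mul_inv, mul_one, Units.mul_inv_cancel_left]
    · refine Units.ext ?_
      change (s.1.2.2 i).val * P.loc (P.push G.1.val) i * P.loc (P.push (G.1⁻¹).val) i =
        (s.1.2.2 i).val
      rw [mul_assoc, hG.Gauge_loc_push G.1.mul_inv, mul_one]

/-- gauge by an element whose inverse is in the closure of the integral gauge transformations -/
theorem gauge_step (G G' : P.Gg Ω) (h : G'.1 = G.1⁻¹) (hz : InZ o Ω G') (s : P.Sol Ω) :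
    ∃ s' : P.Sol Ω, s'.1.2.1 = ((G.1⁻¹ : GL P.Site Ω) : Matrix P.Site P.Site Ω) * s.1.2.1 * G.1 ∧
      (InZ o Ω s' → InZ o Ω s) := by
  obtain ⟨F, h1, h2, h3⟩ := exists_gact (o := o) (P := P) (Ω := Ω)
  refine ⟨F (G, s), h2 G s, fun hs => ?_⟩
  rw [← h3 G G' s h]
  exact h1.inZ (hz.prodMk hs)

theorem Gauge_step' (G : P.Gg Ω) (hz : InZ o Ω G) (s : P.Sol Ω) :
    ∃ s' : P.Sol Ω, s'.1.2.1 = ((G.1⁻¹ : GL P.Site Ω) : Matrix P.Site P.Site Ω) * s.1.2.1 * G.1 ∧
      (InZ o Ω s' → InZ o Ω s) :=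
  gauge_step G (Gauge_inv G) rfl (Gauge_good_inv.inZ hz) s

/-- the part of a matrix on increasing pairs of a piece -/
def Gauge_up (N : Matrix P.Site P.Site Ω) : Matrix P.Site P.Site Ω :=
  Matrix.of fun s t => if P.pc s = P.pc t ∧ P.lev s < P.lev t then N s t else 0

theorem Gauge_up_uni (N : Matrix P.Site P.Site Ω) : Uni P.lev (1 + Gauge_up N) :=
  uni_one_add fun a b h => by
    by_contra h1
    exact h (if_neg fun h2 => h1 h2.2)

theorem Gauge_up_gauge (N : Matrix P.Site P.Site Ω) : P.IsGauge (1 + Gauge_up N) := by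
  refine ⟨fun s t h => ?_, (Gauge_up_uni N).par, fun s t h => ?_⟩
  · have h1 : s ≠ t := fun h2 => h (h2 ▸ rfl)
    simp [Gauge_up, h, h1]
  · rw [Gauge_up_uni N _ _ h.2.not_lt, Gauge_up_uni N _ _ ((P.blk_J s t).2 h).2.not_lt]
    simp only [EmbeddingLike.apply_eq_iff_eq]

/-- unipotent gauge transformations: they form an affine space (the image of all matrices `N`
under `N ↦ 1 + (part of N on increasing pairs in a piece)`, with the adjugate as inverse). -/
theorem gauge_unip (hB : Big o Ω) {G G' : Matrix P.Site P.Site Ω} (h : G * G' = 1)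
    (hG : ∀ s t, (G - 1) s t ≠ 0 → P.pc s = P.pc t ∧ P.lev s < P.lev t) (s : P.Sol Ω) :
    ∃ s' : P.Sol Ω, s'.1.2.1 = G' * s.1.2.1 * G ∧ (InZ o Ω s' → InZ o Ω s) := by
  have hgood : Good o Ω fun N : Matrix P.Site P.Site Ω =>
      (⟨uniGL _ (Gauge_up_uni N), Gauge_up_gauge N⟩ : P.Gg Ω) :=
    good_subtype_iff.2 (good_uniGL (Good.mone.madd (good_matrix fun a b =>
      Good.ite (Good.entry Good.id a b) Good.zero)) Gauge_up_uni)
  have e : 1 + Gauge_up (G - 1) = G := by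
    have : Gauge_up (G - 1) = G - 1 := by
      ext a b
      simp only [Gauge_up, Matrix.of_apply]
      split_ifs with h1
      · rfl
      · by_contra h2
        exact h1 (hG a b (Ne.symm h2))
    rw [this, add_sub_cancel]
  obtain ⟨s', h1, h2⟩ := Gauge_step' _ (hgood.inZ (hB.inZ_matrix (G - 1))) s
  refine ⟨s', ?_, h2⟩
  have e1 : (uniGL _ (Gauge_up_uni (G - 1))).val = G := e
  have e2 : ((uniGL _ (Gauge_up_uni (G - 1)))⁻¹).val = G' :=
    Units.inv_eq_of_mul_eq_one_right (by rw [e1, h])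
  rw [h1, e1, e2]

open Classical in
/-- transport of a matrix on the block of `s₀` to all blocks of its disc -/
noncomputable def Gauge_ext (s₀ : P.Site) (ρ : P.Z → {t : P.Site // Blk P.lev s₀ t})
    (A : Matrix {t : P.Site // Blk P.lev s₀ t} {t : P.Site // Blk P.lev s₀ t} Ω) :
    Matrix P.Site P.Site Ω :=
  Matrix.of fun s t => if Blk P.lev s t ∧ ∃ r, Blk P.lev s₀ r ∧ P.z s = P.z r then
    A (ρ (P.z s)) (ρ (P.z t)) else if s = t then 1 else 0

section ext
variable {s₀ : P.Site} {ρ : P.Z → {t : P.Site // Blk P.lev s₀ t}}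
  (A A' : Matrix {t : P.Site // Blk P.lev s₀ t} {t : P.Site // Blk P.lev s₀ t} Ω)

theorem Gauge_ext_not {s t : P.Site} (h : ¬ Blk P.lev s t) : Gauge_ext s₀ ρ A s t = 0 := by
  have h1 : s ≠ t := fun h2 => h (h2 ▸ blk_refl s)
  simp [Gauge_ext, h, h1]

theorem Gauge_ext_off {s : P.Site} (h : ¬ ∃ r, Blk P.lev s₀ r ∧ P.z s = P.z r) (t : P.Site) :
    Gauge_ext s₀ ρ A s t = if s = t then 1 else 0 := by
  simp only [Gauge_ext, Matrix.of_apply, h, and_false, if_false]

theorem Gauge_ext_on {s t : P.Site} (h : Blk P.lev s t)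
    (h' : ∃ r, Blk P.lev s₀ r ∧ P.z s = P.z r) :
    Gauge_ext s₀ ρ A s t = A (ρ (P.z s)) (ρ (P.z t)) := by
  simp only [Gauge_ext, Matrix.of_apply, h, h', and_self, if_true]

theorem Gauge_ext_gauge : P.IsGauge (Gauge_ext s₀ ρ A) := by
  refine ⟨fun s t h => Gauge_ext_not A fun h1 => h (P.blk_pc s t h1),
    fun s t h => Gauge_ext_not A fun h1 => h.ne' h1.2, fun s t h => ?_⟩
  simp only [Gauge_ext, Matrix.of_apply, P.blk_J, P.z_J, EmbeddingLike.apply_eq_iff_eq]

theorem Gauge_ext_mul (hρ : ∀ r : {t : P.Site // Blk P.lev s₀ t}, ρ (P.z r) = r)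
    (h : A * A' = 1) : Gauge_ext s₀ ρ A * Gauge_ext s₀ ρ A' = 1 := by
  ext s t
  rw [Matrix.mul_apply, Matrix.one_apply]
  by_cases hm : ∃ r, Blk P.lev s₀ r ∧ P.z s = P.z r
  · by_cases hb : Blk P.lev s t
    · obtain ⟨r₀, hr₀, hz⟩ := hm
      have hex : ∀ r : {t : P.Site // Blk P.lev s₀ t}, ∃ t', Blk P.lev s t' ∧ P.z t' = P.z r :=
        fun r => exists_blk_z hz.symm (blk_trans (blk_symm hr₀) r.2)
      have hex' : ∀ t', Blk P.lev s t' → ∃ r : {t : P.Site // Blk P.lev s₀ t}, P.z r = P.z t' :=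
        fun t' ht' => by
          obtain ⟨r, h1, h2⟩ := exists_blk_z hz ht'
          exact ⟨⟨r, blk_trans hr₀ h1⟩, h2⟩
      choose β hβ1 hβ2 using hex
      have hinj : Function.Injective β := fun r r' e => by
        rw [← hρ r, ← hρ r', ← hβ2, ← hβ2, e]
      have e1 := Fintype.sum_of_injective β hinj
        (fun r => A (ρ (P.z s)) r * A' r (ρ (P.z t)))
        (fun r => Gauge_ext s₀ ρ A s r * Gauge_ext s₀ ρ A' r t) (fun r hr => ?_) fun r => ?_
      · rw [← e1, ← Matrix.mul_apply, h, Matrix.one_apply]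
        refine if_congr ⟨fun e => P.z_inj s t hb ?_, fun e => by rw [e]⟩ rfl rfl
        obtain ⟨r, h1⟩ := hex' t hb
        rw [hz, ← h1, hρ ⟨r₀, hr₀⟩, hρ r] at e
        rw [hz, ← h1, ← e]
      · by_cases h1 : Blk P.lev s r
        · obtain ⟨r', h2⟩ := hex' r h1
          exact (hr ⟨r', P.z_inj _ _ (blk_trans (blk_symm (hβ1 r')) h1)
            ((hβ2 r').trans h2)⟩).elim
        · simp only [Gauge_ext_not A h1, zero_mul]
      · rw [Gauge_ext_on A (hβ1 r) ⟨r₀, hr₀, hz⟩,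
          Gauge_ext_on A' (blk_trans (blk_symm (hβ1 r)) hb) ⟨r, r.2, hβ2 r⟩, hβ2, hρ]
    · rw [if_neg fun e : s = t => hb (e ▸ blk_refl s)]
      refine Finset.sum_eq_zero fun r _ => ?_
      by_cases h1 : Blk P.lev s r
      · rw [Gauge_ext_not A' fun h2 => hb (blk_trans h1 h2), mul_zero]
      · rw [Gauge_ext_not A h1, zero_mul]
  · simp only [Gauge_ext_off A hm, ite_mul, one_mul, zero_mul, Finset.sum_ite_eq,
      Finset.mem_univ, if_true, Gauge_ext_off A' hm]

theorem Gauge_ext_good {X : Type} [Coord Ω X]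
    {f : X → Matrix {t : P.Site // Blk P.lev s₀ t} {t : P.Site // Blk P.lev s₀ t} Ω}
    (hf : Good o Ω f) : Good o Ω fun x => Gauge_ext s₀ ρ (f x) :=
  good_matrix fun _ _ => Good.ite (hf.entry _ _) (Good.ite Good.one Good.zero)

end ext

/-- Change of basis on the disc through the block of `s₀`: `γ` (a matrix supported on this block,
with inverse `γ'` there) is transported to all blocks carrying the same labels:
`G s t = γ s₁ t₁` if `s`, `t` are in one block and `s₁`, `t₁` are the sites of the block of `s₀`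
with the same labels, `G s t = δ` otherwise.  This is a good map `GL (block) → Gg`. -/
theorem gauge_levi (hB : Big o Ω) (s₀ : P.Site) (γ : GL {t : P.Site // Blk P.lev s₀ t} Ω)
    (s : P.Sol Ω) :
    ∃ (G : P.Gg Ω) (s' : P.Sol Ω),
      s'.1.2.1 = ((G.1⁻¹ : GL P.Site Ω) : Matrix P.Site P.Site Ω) * s.1.2.1 * G.1 ∧
      (InZ o Ω s' → InZ o Ω s) ∧
      (∀ t t', ¬ Blk P.lev t t' → (G.1 : Matrix P.Site P.Site Ω) t t' = 0) ∧
      (∀ t t' : {t : P.Site // Blk P.lev s₀ t},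
        (G.1 : Matrix P.Site P.Site Ω) t t' = (γ : Matrix _ _ Ω) t t') ∧
      (∀ t t', (∀ r, Blk P.lev s₀ r → P.z t ≠ P.z r) →
        (G.1 : Matrix P.Site P.Site Ω) t t' = if t = t' then 1 else 0) := by
  obtain ⟨ρ, hρ⟩ : ∃ ρ : P.Z → {t : P.Site // Blk P.lev s₀ t},
      ∀ r : {t : P.Site // Blk P.lev s₀ t}, ρ (P.z r) = r := by
    have : Nonempty {t : P.Site // Blk P.lev s₀ t} := ⟨⟨s₀, blk_refl s₀⟩⟩
    exact Function.Injective.hasLeftInverse (f := fun r : {t : P.Site // Blk P.lev s₀ t} => P.z r)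
      fun r r' e => Subtype.ext (P.z_inj _ _ (blk_trans (blk_symm r.2) r'.2) e)
  have hgood : Good o Ω fun γ : GL {t : P.Site // Blk P.lev s₀ t} Ω =>
      (⟨⟨Gauge_ext s₀ ρ γ.val, Gauge_ext s₀ ρ (γ⁻¹).val, Gauge_ext_mul _ _ hρ γ.mul_inv,
        Gauge_ext_mul _ _ hρ γ.inv_mul⟩, Gauge_ext_gauge _⟩ : P.Gg Ω) :=
    good_subtype_iff.2 (good_units (Gauge_ext_good (Good.uval Good.id))
      (Gauge_ext_good (Good.uval (Good.uinv Good.id))))
  obtain ⟨s', h1, h2⟩ := Gauge_step' _ (hgood.inZ (hB.inZ_GL γ)) s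
  refine ⟨_, s', h1, h2, fun t t' h => Gauge_ext_not _ h, fun t t' => ?_,
    fun t t' h => Gauge_ext_off _ (fun ⟨r, h3, h4⟩ => h r h3 h4) t'⟩
  have := Gauge_ext_on (ρ := ρ) γ.val (blk_trans (blk_symm t.2) t'.2) ⟨t, t.2, rfl⟩
  rwa [hρ, hρ] at this

end Prob

end Crest.Agent.R003
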