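import Crest.Agent.R003.Main
import Crest.Agent.R003.Red

/-! Row 3: the problem attached to a punctured surface with flags. -/

set_option autoImplicit false
set_option linter.unusedSectionVars false

namespace Crest.Agent.R003

open Matrix

variable {o : Type} [CommRing o] {κ : Type} [Fintype κ] [DecidableEq κ] {Ω : Type} [Field Ω]
  [Algebra o Ω] {g s : ℕ}

/-- cyclic successor of the handles and punctures -/
def iσ (g s : ℕ) : Equiv.Perm (Fin g ⊕ Fin s) :=
  (finSumFinEquiv.trans (finRotate (g + s))).trans finSumFinEquiv.symm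

/-- slots: four letters `a, b, a⁻¹, b⁻¹` for a handle, `h, z, h⁻¹, 1` for a puncture -/
abbrev IS (g s : ℕ) : Type := (Fin g ⊕ Fin s) × Fin 4

def inx (g s : ℕ) : Equiv.Perm (IS g s) where
  toFun x := ![(x.1, 1), (x.1, 2), (x.1, 3), (iσ g s x.1, 0)] x.2
  invFun x := ![((iσ g s).symm x.1, 3), (x.1, 0), (x.1, 1), (x.1, 2)] x.2
  left_inv := by rintro ⟨c, t⟩; fin_cases t <;> simp
  right_inv := by rintro ⟨c, t⟩; fin_cases t <;> simp

/-- the partner of a letter -/
def iθ : IS g s → IS g s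
  | (.inl i, t) => (.inl i, ![2, 3, 0, 1] t)
  | (.inr j, t) => (.inr j, ![2, 1, 0, 3] t)

theorem iθ_iθ (x : IS g s) : iθ (iθ x) = x := by
  obtain ⟨c | c, t⟩ := x <;> fin_cases t <;> rfl

def iJ (g s : ℕ) (κ : Type) : Equiv.Perm (IS g s × κ) :=
  Equiv.prodCongr ((Function.Involutive.toPerm iθ iθ_iθ).trans (inx g s)) (Equiv.refl κ)

theorem iJ_apply (x : IS g s × κ) : iJ g s κ x = (inx g s (iθ x.1), x.2) := rfl

def ilev (l : Fin s → κ → ℕ) : IS g s × κ → ℕ
  | ((.inl _, _), _) => 0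
  | ((.inr j, t), a) => if t = 1 ∨ t = 2 then l j a else 0

def ipc (l : Fin s → κ → ℕ) : IS g s × κ → IS g s × ℕ
  | ((.inl i, t), _) => ((.inl i, t), 0)
  | ((.inr j, t), a) => ((.inr j, t), if t = 1 then l j a else 0)

def iu (z : Fin s → ℕ → oˣ) : IS g s × ℕ → oˣ
  | ((.inl _, _), _) => 1
  | ((.inr j, t), n) => if t = 1 then z j n else 1

theorem ipc_fst (l : Fin s → κ → ℕ) (x : IS g s × κ) : (ipc l x).1 = x.1 := by
  obtain ⟨⟨c | c, t⟩, a⟩ := x <;> rfl

theorem ilev_iJ (l : Fin s → κ → ℕ) (x : IS g s × κ) : ilev l (iJ g s κ x) = ilev l x := by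
  obtain ⟨⟨c | c, t⟩, a⟩ := x <;> fin_cases t <;> simp [iJ_apply, iθ, inx, ilev] <;>
    cases iσ g s _ <;> simp [ilev]

theorem iJ_zpow_snd (k : ℤ) (x : IS g s × κ) : ((iJ g s κ ^ k) x).2 = x.2 := by
  induction k using Int.induction_on generalizing x with
  | zero => rfl
  | succ k ih => rw [_root_.zpow_add_one, Equiv.Perm.mul_apply, ih]; rfl
  | pred k ih => rw [_root_.zpow_sub_one, Equiv.Perm.mul_apply, ih]; rfl

variable (g) in
/-- the initial problem -/
noncomputable def initP (l : Fin s → κ → ℕ) (z : Fin s → ℕ → oˣ) : Prob o κ where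
  I := IS g s
  nx := inx g s
  Λ := ℕ
  lev := ilev l
  J := iJ g s κ
  Pc := IS g s × ℕ
  pc := ipc l
  tau p := (iθ p.1, p.2)
  u := iu z
  Z := Quotient (Equiv.Perm.SameCycle.setoid (iJ g s κ))
  dZ := Classical.decEq _
  z x := Quotient.mk _ x
  tau_tau p := by simp [iθ_iθ]
  u_tau := by rintro ⟨⟨c | c, t⟩, n⟩ <;> fin_cases t <;> simp [iθ, iu]
  pc_slot s t h := by simpa [ipc_fst] using congrArg Prod.fst h
  pc_exit s t h := by
    have := congrArg Prod.fst h
    simp only [ipc_fst] at this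
    rw [iJ_apply, this]
  pc_exit' s t h := by
    have := congrArg Prod.fst h
    simp only [ipc_fst] at this
    rw [iJ_apply, iJ_apply, this]
  blk_pc := by
    rintro ⟨⟨c | c, t⟩, a⟩ ⟨x, b⟩ ⟨rfl, h⟩
    · rfl
    · fin_cases t <;> simp_all [ipc, ilev]
  blk_J s t := by
    simp only [Blk, iJ_apply, EmbeddingLike.apply_eq_iff_eq,
      (Function.Involutive.injective iθ_iθ).eq_iff]
    rw [← iJ_apply, ← iJ_apply, ilev_iJ, ilev_iJ]
  lt_J s t _ h := by rwa [ilev_iJ, ilev_iJ]
  z_J s := Quotient.sound (Equiv.Perm.sameCycle_apply_left.2 (Equiv.Perm.SameCycle.refl _ _))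
  z_cyc s t h := Quotient.exact h
  z_inj s t h h' := by
    obtain ⟨k, hk⟩ : (iJ g _ κ).SameCycle s t := Quotient.exact h'
    exact Prod.ext h.1 (by rw [← hk, iJ_zpow_snd])

theorem iniA_rot {M : Type} [Monoid M] {n : ℕ} (F : Fin n → Mˣ) (W : Fin n → M)
    (h : ∀ k, (F (finRotate n k) : M) = F k * W k) : (List.ofFn W).prod = 1 := by
  cases n with
  | zero => simp
  | succ m =>
    have h1 : ∀ k : Fin (m + 1), (F k : M) = F 0 * Fin.partialProd W k.castSucc := by
      intro k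
      induction k using Fin.induction with
      | zero => simp
      | succ k ih =>
        have h2 := h k.castSucc
        rw [finRotate_apply, Fin.coeSucc_eq_succ, ih, mul_assoc, ← Fin.partialProd_succ,
          Fin.succ_castSucc] at h2
        exact h2
    have h2 := h (Fin.last m)
    rw [finRotate_last, h1 (Fin.last m), mul_assoc, ← Fin.partialProd_succ] at h2
    have h3 : Fin.partialProd W (Fin.last m).succ = (List.ofFn W).prod := by
      rw [Fin.partialProd, List.take_of_length_le (by simp)]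
    rw [h3] at h2
    exact (Units.mul_right_inj (F 0)).1 (by rw [← h2, mul_one])

theorem iniA_rot' {M : Type} [Monoid M] {n : ℕ} (W : Fin n → M) (hW : ∀ k, IsUnit (W k))
    (h : (List.ofFn W).prod = 1) : ∃ F : Fin n → Mˣ, ∀ k, (F (finRotate n k) : M) = F k * W k := by
  have h1 : ∀ k, IsUnit (Fin.partialProd W k) := by
    intro k
    induction k using Fin.induction with
    | zero => simp
    | succ k ih => rw [Fin.partialProd_succ]; exact ih.mul (hW k)
  refine ⟨fun k => (h1 k.castSucc).unit, fun k => ?_⟩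
  simp only [IsUnit.unit_spec]
  rw [← Fin.partialProd_succ]
  cases n with
  | zero => exact k.elim0
  | succ m =>
    induction k using Fin.lastCases with
    | last =>
      have h3 : Fin.partialProd W (Fin.last m).succ = (List.ofFn W).prod := by
        rw [Fin.partialProd, List.take_of_length_le (by simp)]
      rw [finRotate_last, h3, h, Fin.castSucc_zero, Fin.partialProd_zero]
    | cast k => rw [finRotate_apply, Fin.coeSucc_eq_succ, Fin.succ_castSucc]

theorem iniA_ofFn {M : Type} [Monoid M] (W : Fin g ⊕ Fin s → M) :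
    (List.ofFn fun k => W (finSumFinEquiv.symm k)).prod =
      ((List.finRange g).map fun i => W (.inl i)).prod *
        ((List.finRange s).map fun j => W (.inr j)).prod := by
  rw [List.ofFn_add, List.prod_append, List.ofFn_eq_map, List.ofFn_eq_map]
  simp only [finSumFinEquiv_symm_apply_natAdd]
  congr 3
  funext i
  exact congrArg W (finSumFinEquiv_symm_apply_castAdd i)

/-- the word of a handle or puncture -/
def iniA_W {M : Type} [Monoid M] (Y : IS g s → M) (c : Fin g ⊕ Fin s) : M :=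
  Y (c, 0) * Y (c, 1) * Y (c, 2) * Y (c, 3)

theorem iniA_rel {M : Type} [Monoid M] (F : IS g s → Mˣ) (Y : IS g s → M)
    (h : ∀ i, (F (inx g s i) : M) = F i * Y i) :
    ((List.finRange g).map fun i => iniA_W Y (.inl i)).prod *
      ((List.finRange s).map fun j => iniA_W Y (.inr j)).prod = 1 := by
  rw [← iniA_ofFn]
  refine iniA_rot (fun k => F (finSumFinEquiv.symm k, 0)) _ fun k => ?_
  have h0 : (F (finSumFinEquiv.symm k, 1) : M) = _ := h (finSumFinEquiv.symm k, 0)
  have h1 : (F (finSumFinEquiv.symm k, 2) : M) = _ := h (finSumFinEquiv.symm k, 1)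
  have h2 : (F (finSumFinEquiv.symm k, 3) : M) = _ := h (finSumFinEquiv.symm k, 2)
  have h3 : (F (iσ g s (finSumFinEquiv.symm k), 0) : M) = _ := h (finSumFinEquiv.symm k, 3)
  rw [h2, h1, h0] at h3
  simpa only [iσ, Equiv.trans_apply, Equiv.apply_symm_apply, iniA_W, mul_assoc] using h3

theorem iniA_rel' {M : Type} [Monoid M] (Y : IS g s → M) (hY : ∀ i, IsUnit (Y i))
    (h : ((List.finRange g).map fun i => iniA_W Y (.inl i)).prod *
      ((List.finRange s).map fun j => iniA_W Y (.inr j)).prod = 1) :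
    ∃ F : IS g s → Mˣ, ∀ i, (F (inx g s i) : M) = F i * Y i := by
  rw [← iniA_ofFn] at h
  obtain ⟨F, hF⟩ := iniA_rot' _ (fun k => (((hY _).mul (hY _)).mul (hY _)).mul (hY _)) h
  refine ⟨fun i => ![F (finSumFinEquiv i.1), F (finSumFinEquiv i.1) * (hY (i.1, 0)).unit,
    F (finSumFinEquiv i.1) * (hY (i.1, 0)).unit * (hY (i.1, 1)).unit,
    F (finSumFinEquiv i.1) * (hY (i.1, 0)).unit * (hY (i.1, 1)).unit * (hY (i.1, 2)).unit] i.2, ?_⟩
  rintro ⟨c, t⟩
  fin_cases t
  · rfl
  · rfl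
  · rfl
  · have := hF (finSumFinEquiv c)
    simp only [Equiv.symm_apply_apply, ← mul_assoc] at this
    change (F (finSumFinEquiv (iσ g s c)) : M) =
      F (finSumFinEquiv c) * Y (c, 0) * Y (c, 1) * Y (c, 2) * Y (c, 3)
    rw [← this]
    simp only [iσ, Equiv.trans_apply, Equiv.apply_symm_apply]

/-- the letters -/
def iniA_L (M : Matrix (IS g s × κ) (IS g s × κ) Ω) (i : IS g s) : Matrix κ κ Ω :=
  Matrix.of fun a b => M (i, a) (iθ i, b)

theorem iniA_L_eq (l : Fin s → κ → ℕ) (z : Fin s → ℕ → oˣ)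
    (M : Matrix (IS g s × κ) (IS g s × κ) Ω) (i : IS g s) :
    (initP g l z).L M i = iniA_L M i := by
  ext a b
  change M (i, a) ((iJ g s κ).symm (inx g s i, b)) = M (i, a) (iθ i, b)
  congr 1
  rw [Equiv.symm_apply_eq, iJ_apply, iθ_iθ]

theorem iniA_mul {M : Matrix (IS g s × κ) (IS g s × κ) Ω}
    (hM : ∀ x y : IS g s × κ, y.1 ≠ iθ x.1 → M x y = 0) (i i' : IS g s) (a b : κ) :
    (M * M) (i, a) (i', b) = if i = i' then (iniA_L M i * iniA_L M (iθ i)) a b else 0 := by
  rw [Matrix.mul_apply, Fintype.sum_prod_type, Finset.sum_eq_single (iθ i)]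
  · split_ifs with h
    · subst h
      simp only [Matrix.mul_apply, iniA_L, Matrix.of_apply, iθ_iθ]
    · refine Finset.sum_eq_zero fun c _ => ?_
      rw [hM (iθ i, c) (i', b) (by rw [iθ_iθ]; exact Ne.symm h), mul_zero]
  · intro j _ hj
    exact Finset.sum_eq_zero fun c _ => by rw [hM (i, a) (j, c) hj, zero_mul]
  · exact fun h => absurd (Finset.mem_univ _) h

theorem iniA_const {l : κ → ℕ} (hl : ∀ a, l a = 0) {x : Matrix κ κ Ω} (hx : Uni l x) : x = 1 := by
  ext a b
  rw [hx a b (by rw [hl, hl]; exact lt_irrefl 0), Matrix.one_apply]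

/-- the diagonal matrix of a puncture -/
def iniA_D (Ω : Type) [Field Ω] [Algebra o Ω] (v : κ → oˣ) : Matrix κ κ Ω :=
  Matrix.diagonal fun a => algebraMap o Ω (v a : o)

theorem iniA_D_mul (v : κ → oˣ) : iniA_D Ω v * iniA_D Ω v⁻¹ = 1 := by
  simp only [iniA_D, Matrix.diagonal_mul_diagonal, ← map_mul, Pi.inv_apply, Units.mul_inv,
    map_one, Matrix.diagonal_one]

theorem iniA_D_mul' (v : κ → oˣ) : iniA_D Ω v⁻¹ * iniA_D Ω v = 1 :=
  mul_eq_one_comm.1 (iniA_D_mul v)

theorem iniA_u (l : Fin s → κ → ℕ) (z : Fin s → ℕ → oˣ) (i : IS g s) (hi : iθ i ≠ i) (a : κ) :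
    iu z (ipc l (i, a)) = 1 := by
  obtain ⟨c | c, t⟩ := i
  · rfl
  · fin_cases t
    · rfl
    · exact absurd rfl hi
    · rfl
    · rfl

section sol
variable {l : Fin s → κ → ℕ} {z : Fin s → ℕ → oˣ} {d : (initP g l z).Data Ω}

theorem iniA_supp (hd : (initP g l z).IsSol d) (x y : IS g s × κ) (h : y.1 ≠ iθ x.1) :
    d.2.1 x y = 0 := by
  refine hd.supp x y fun h1 => h ?_
  have h2 : (ipc l x).1 = iθ (ipc l y).1 := congrArg Prod.fst h1
  rw [ipc_fst, ipc_fst] at h2
  rw [h2, iθ_iθ]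

theorem iniA_sq (hd : (initP g l z).IsSol d) (i : IS g s) (hi : iθ i ≠ i) :
    iniA_L d.2.1 i * iniA_L d.2.1 (iθ i) = 1 := by
  ext a b
  have h1 := iniA_mul (iniA_supp hd) i i a b
  have h2 := hd.sq (i, a) not_false (fun h => hi (by
    have h2 : iθ (ipc l (i, a)).1 = (ipc l (i, a)).1 := congrArg Prod.fst h
    rwa [ipc_fst] at h2)) (i, b)
  have h3 : (initP g l z).uu Ω (i, a) = 1 := by
    change algebraMap o Ω (iu z (ipc l (i, a)) : o) = 1
    rw [iniA_u l z i hi, Units.val_one, map_one]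
  rw [if_pos rfl] at h1
  rw [← h1, Matrix.one_apply]
  refine h2.trans ?_
  rw [h3]
  exact if_congr (by simp) rfl rfl

theorem iniA_fix (hd : (initP g l z).IsSol d) (i : IS g s) (hi : iθ i = i) (a b : κ) :
    iniA_L d.2.1 i a b = if a = b then algebraMap o Ω (iu z (ipc l (i, a)) : o) else 0 := by
  have h2 := hd.fix (i, a) not_false (Prod.ext (by
    change iθ (ipc l (i, a)).1 = (ipc l (i, a)).1
    rwa [ipc_fst]) rfl) (i, b)
  rw [iniA_L, Matrix.of_apply, hi]
  exact h2.trans (if_congr (by simp) rfl rfl)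

theorem iniA_fix1 (hd : (initP g l z).IsSol d) (j : Fin s) :
    iniA_L d.2.1 (.inr j, 1) = iniA_D Ω fun a => z j (l j a) := by
  ext a b
  rw [iniA_fix hd _ rfl, iniA_D, Matrix.diagonal_apply]
  rfl

theorem iniA_fix3 (hd : (initP g l z).IsSol d) (j : Fin s) : iniA_L d.2.1 (.inr j, 3) = 1 := by
  ext a b
  rw [iniA_fix hd _ rfl, Matrix.one_apply]
  exact if_congr Iff.rfl (map_one _) rfl

/-- a letter with its inverse -/
def iniA_gl (d : (initP g l z).Sol Ω) (i : IS g s) (hi : iθ i ≠ i) : GL κ Ω :=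
  ⟨iniA_L d.1.2.1 i, iniA_L d.1.2.1 (iθ i), iniA_sq d.2 i hi, mul_eq_one_comm.1 (iniA_sq d.2 i hi)⟩

theorem iniA_good_L (i : IS g s) :
    Good o Ω fun d : (initP g l z).Sol Ω => iniA_L d.1.2.1 i :=
  good_matrix fun _ _ => Good.entry (Good.fst (Good.snd (Good.val Good.id))) _ _

theorem iniA_good_gl (i : IS g s) (hi : iθ i ≠ i) :
    Good o Ω fun d : (initP g l z).Sol Ω => iniA_gl d i hi :=
  good_units (iniA_good_L i) (iniA_good_L _)

end sol

theorem iniA_ne0 (c : Fin g ⊕ Fin s) : iθ ((c, 0) : IS g s) ≠ (c, 0) := by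
  cases c <;> simp [iθ]

theorem iniA_ne1 (i : Fin g) : iθ ((.inl i, 1) : IS g s) ≠ (.inl i, 1) := by
  simp [iθ]

theorem iniA_val_prod {α : Type} (L : List α) (f : α → GL κ Ω) :
    ((L.map f).prod : GL κ Ω).val = (L.map fun a => (f a).val).prod := by
  induction L with
  | nil => rfl
  | cons a L ih => simp only [List.map_cons, List.prod_cons, Units.val_mul, ih]

/-- the retraction -/
noncomputable def iniA_R (l : Fin s → κ → ℕ) (z : Fin s → ℕ → oˣ) (d : (initP g l z).Sol Ω) :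
    (Fin g → GL κ Ω × GL κ Ω) × (Fin s → GL κ Ω) × (Fin s → Matrix κ κ Ω) :=
  (fun i => (iniA_gl d (.inl i, 0) (iniA_ne0 _), iniA_gl d (.inl i, 1) (iniA_ne1 _)),
    fun j => iniA_gl d (.inr j, 0) (iniA_ne0 _),
    fun j => iniA_D Ω (fun a => z j (l j a))⁻¹ * d.1.1 (.inr j, 1) *
      iniA_D Ω (fun a => z j (l j a)) * d.1.1 (.inr j, 2))

theorem iniA_isFl (l : Fin s → κ → ℕ) (z : Fin s → ℕ → oˣ) (d : (initP g l z).Sol Ω) :
    IsFl l z (iniA_R l z d) := by
  refine ⟨fun j => Uni.mul (Uni.conj (d.2.uni (.inr j, 1)) (fun a b hab => ?_) (iniA_D_mul' _))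
    (d.2.uni (.inr j, 2)), ?_⟩
  · exact Matrix.diagonal_apply_ne _ fun h => by rw [h] at hab; exact lt_irrefl _ hab
  · have h := iniA_rel (g := g) (s := s) d.1.2.2 (fun i => d.1.1 i * iniA_L d.1.2.1 i) fun i => by
      rw [← Matrix.mul_assoc, ← iniA_L_eq l z]
      exact d.2.fr i
    have h1 : ∀ i t, d.1.1 (.inl i, t) = 1 := fun i t =>
      iniA_const (fun _ => rfl) (d.2.uni (.inl i, t))
    have h2 : ∀ j, d.1.1 (.inr j, 0) = 1 := fun j =>
      iniA_const (fun _ => rfl) (d.2.uni (.inr j, 0))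
    have h3 : ∀ j, d.1.1 (.inr j, 3) = 1 := fun j =>
      iniA_const (fun _ => rfl) (d.2.uni (.inr j, 3))
    rw [← h, hprod, iniA_val_prod]
    congr 3
    · funext i
      simp only [iniA_W, h1, Matrix.one_mul]
      rfl
    · funext j
      simp only [iniA_W, h2, h3, Matrix.one_mul, iniA_fix1 d.2, iniA_fix3 d.2, Matrix.mul_one]
      change iniA_L d.1.2.1 (.inr j, 0) * (iniA_D Ω (fun a => z j (l j a)) *
        (iniA_D Ω (fun a => z j (l j a))⁻¹ * d.1.1 (.inr j, 1) *
          iniA_D Ω (fun a => z j (l j a)) * d.1.1 (.inr j, 2))) * iniA_L d.1.2.1 (.inr j, 2) = _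
      simp only [← Matrix.mul_assoc]
      rw [Matrix.mul_assoc _ (iniA_D Ω _) (iniA_D Ω _), iniA_D_mul, Matrix.mul_one]

/-- the letters of a point of the surface variety -/
noncomputable def iniA_Λ (l : Fin s → κ → ℕ) (z : Fin s → ℕ → oˣ)
    (d : (Fin g → GL κ Ω × GL κ Ω) × (Fin s → GL κ Ω) × (Fin s → Matrix κ κ Ω)) :
    IS g s → Matrix κ κ Ω
  | (.inl i, t) => ![(d.1 i).1.val, (d.1 i).2.val, (d.1 i).1⁻¹.val, (d.1 i).2⁻¹.val] t
  | (.inr j, t) => ![(d.2.1 j).val, iniA_D Ω fun a => z j (l j a), (d.2.1 j)⁻¹.val, 1] t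

theorem iniA_Λ_fix (l : Fin s → κ → ℕ) (z : Fin s → ℕ → oˣ)
    (d : (Fin g → GL κ Ω × GL κ Ω) × (Fin s → GL κ Ω) × (Fin s → Matrix κ κ Ω)) (i : IS g s)
    (hi : iθ i = i) (a b : κ) :
    iniA_Λ l z d i a b = if a = b then algebraMap o Ω (iu z (ipc l (i, a)) : o) else 0 := by
  obtain ⟨c | c, t⟩ := i
  · fin_cases t <;> simp [iθ] at hi
  · fin_cases t
    · simp [iθ] at hi
    · exact Matrix.diagonal_apply _ a b
    · simp [iθ] at hi
    · exact Matrix.one_apply.trans (if_congr Iff.rfl (map_one _).symm rfl)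

theorem iniA_Λ_sq (l : Fin s → κ → ℕ) (z : Fin s → ℕ → oˣ)
    (d : (Fin g → GL κ Ω × GL κ Ω) × (Fin s → GL κ Ω) × (Fin s → Matrix κ κ Ω)) (i : IS g s)
    (hi : iθ i ≠ i) : iniA_Λ l z d i * iniA_Λ l z d (iθ i) = 1 := by
  obtain ⟨c | c, t⟩ := i
  · fin_cases t
    · exact Units.mul_inv _
    · exact Units.mul_inv _
    · exact Units.inv_mul _
    · exact Units.inv_mul _
  · fin_cases t
    · exact Units.mul_inv _
    · exact absurd rfl hi
    · exact Units.inv_mul _
    · exact absurd rfl hi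

/-- the slots of a point of the surface variety -/
def iniA_X (x : Fin s → Matrix κ κ Ω) : IS g s → Matrix κ κ Ω
  | (.inl _, _) => 1
  | (.inr j, t) => ![1, 1, x j, 1] t

/-- `a = L (inl i, 0)` with inverse `L (inl i, 2)` (by `IsPre.sq`; `L M i a b = M (i,a) (iθ i, b)`),
`b = L (inl i, 1)` with inverse `L (inl i, 3)`, `h = L (inr j, 0)` with inverse `L (inr j, 2)`,
`L (inr j, 1) = diagonal z`, `L (inr j, 3) = 1`, `x = z⁻¹ X (inr j, 1) z * X (inr j, 2)`; the other
slots have constant level, so `X = 1`.  The frames satisfy `g (iσ c, 0) = g (c, 0) * W c`, which gives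
the relation (enumerate by `Fin (g + s)`, `List.finRange`/`List.ofFn_add`); conversely take
`g (c, 0) = ∏_{c' < c} W c'`. -/
theorem init_retract (l : Fin s → κ → ℕ) (z : Fin s → ℕ → oˣ) :
    ∃ R : (initP g l z).Sol Ω → FlV Ω g l z, Good o Ω R ∧ Function.Surjective R := by
  refine ⟨fun d => ⟨iniA_R l z d, iniA_isFl l z d⟩, good_subtype_iff.2 ?_, fun ⟨d, hd⟩ => ?_⟩
  · refine Good.prodMk (Good.pi fun i => (iniA_good_gl _ _).prodMk (iniA_good_gl _ _))
      (Good.prodMk (Good.pi fun j => iniA_good_gl _ _) (Good.pi fun j => ?_))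
    have hX : ∀ i, Good o Ω fun d : (initP g l z).Sol Ω => d.1.1 i := fun i =>
      (Good.apply i).comp (Good.fst (Good.val Good.id))
    exact (((Good.diagonal fun a => Good.algMap _).mmul (hX _)).mmul
      (Good.diagonal fun a => Good.algMap _)).mmul (hX _)
  · let M : Matrix (IS g s × κ) (IS g s × κ) Ω :=
      Matrix.of fun x y => if y.1 = iθ x.1 then iniA_Λ l z d x.1 x.2 y.2 else 0
    have hM : ∀ x y : IS g s × κ, y.1 ≠ iθ x.1 → M x y = 0 := fun x y h => if_neg h
    have hL : ∀ i, iniA_L M i = iniA_Λ l z d i := fun i => Matrix.ext fun a b => if_pos rfl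
    have hU : ∀ i, IsUnit (iniA_X d.2.2 i * iniA_Λ l z d i) := by
      rintro ⟨c | c, t⟩
      · fin_cases t <;> exact isUnit_one.mul (Units.isUnit _)
      · fin_cases t
        · exact isUnit_one.mul (Units.isUnit _)
        · exact isUnit_one.mul (IsUnit.of_mul_eq_one _ (iniA_D_mul _))
        · exact (IsUnit.of_mul_eq_one _ (hd.uni c).mul_adjugate).mul (Units.isUnit _)
        · exact isUnit_one.mul isUnit_one
    obtain ⟨F, hF⟩ := iniA_rel' _ hU (by
      have h := hd.rel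
      rw [hprod, iniA_val_prod] at h
      rw [← h]
      congr 3
      · funext i
        simp [iniA_W, iniA_X, iniA_Λ]
      · funext j
        simp [iniA_W, iniA_X, iniA_Λ, iniA_D, Matrix.mul_assoc])
    have hs : (initP g l z).IsSol (iniA_X d.2.2, M, F) := by
      refine ⟨?_, ?_, ?_, ?_, fun i => ?_⟩
      · rintro ⟨c | c, t⟩
        · exact Uni.one
        · fin_cases t
          · exact Uni.one
          · exact Uni.one
          · exact hd.uni c
          · exact Uni.one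
      · rintro ⟨i, a⟩ ⟨i', b⟩ h
        change (if i' = iθ i then iniA_Λ l z d i a b else 0) = 0
        split_ifs with h1
        · subst h1
          change ipc l (i, a) ≠ (iθ (ipc l (iθ i, b)).1, (ipc l (iθ i, b)).2) at h
          obtain ⟨c | c, t⟩ := i
          · fin_cases t <;> exact absurd rfl h
          · fin_cases t
            · exact absurd rfl h
            · exact Matrix.diagonal_apply_ne _ fun h2 => h (by rw [h2]; rfl)
            · exact absurd rfl h
            · exact absurd rfl h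
        · rfl
      · rintro ⟨i, a⟩ - h ⟨i', b⟩
        have h1 : iθ (ipc l (i, a)).1 = (ipc l (i, a)).1 := congrArg Prod.fst h
        rw [ipc_fst] at h1
        change (if i' = iθ i then iniA_Λ l z d i a b else 0) =
          if ((i, a) : IS g s × κ) = (i', b) then algebraMap o Ω (iu z (ipc l (i, a)) : o) else 0
        change iθ i = i at h1
        rw [h1]
        by_cases h2 : i' = i
        · subst h2
          rw [if_pos rfl, iniA_Λ_fix l z d _ h1]
          exact if_congr ⟨fun h3 => congrArg (Prod.mk _) h3, fun h3 => congrArg Prod.snd h3⟩ rfl rfl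
        · rw [if_neg h2, if_neg fun h3 => h2 (congrArg Prod.fst h3).symm]
      · rintro ⟨i, a⟩ - h ⟨i', b⟩
        have h1 : iθ i ≠ i := fun h1 => h (Prod.ext (by
          change iθ (ipc l (i, a)).1 = (ipc l (i, a)).1
          rwa [ipc_fst]) rfl)
        refine (iniA_mul hM i i' a b).trans ?_
        change _ = if ((i, a) : IS g s × κ) = (i', b) then
          algebraMap o Ω (iu z (ipc l (i, a)) : o) else 0
        rw [hL, hL]
        by_cases h2 : i = i'
        · subst h2
          rw [if_pos rfl, iniA_Λ_sq l z d _ h1, iniA_u l z _ h1, Units.val_one, map_one,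
            Matrix.one_apply]
          exact if_congr ⟨fun h3 => congrArg (Prod.mk _) h3, fun h3 => congrArg Prod.snd h3⟩ rfl rfl
        · exact (if_neg h2).trans (if_neg fun h3 => h2 (congrArg Prod.fst h3)).symm
      · change (F (inx g s i) : Matrix κ κ Ω) = F i * iniA_X d.2.2 i * (initP g l z).L M i
        rw [iniA_L_eq, hL, hF, Matrix.mul_assoc]
    refine ⟨⟨_, hs⟩, Subtype.ext (Prod.ext (funext fun i => Prod.ext (Units.ext (hL _))
      (Units.ext (hL _))) (Prod.ext (funext fun j => Units.ext (hL _)) (funext fun j => ?_)))⟩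
    change iniA_D Ω (fun a => z j (l j a))⁻¹ * 1 * iniA_D Ω (fun a => z j (l j a)) * d.2.2 j = d.2.2 j
    rw [Matrix.mul_one, iniA_D_mul', Matrix.one_mul]

theorem init_first (c : Fin g ⊕ Fin s) (a : κ) :
    (iJ g s κ).SameCycle ((c, 0), a) ((iσ g s c, 0), a) := by
  rcases c with c | c
  · exact ⟨4, rfl⟩
  · exact ⟨2, rfl⟩

theorem init_first' (c c' : Fin g ⊕ Fin s) (a : κ) :
    (iJ g s κ).SameCycle ((c, 0), a) ((c', 0), a) := by
  have key : ∀ (n : ℕ) (c : Fin g ⊕ Fin s),
      (iJ g s κ).SameCycle ((c, 0), a) (((iσ g s ^ n) c, 0), a) := by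
    intro n
    induction n with
    | zero => exact fun c => Equiv.Perm.SameCycle.refl _ _
    | succ n ih => exact fun c => by rw [pow_succ', Equiv.Perm.mul_apply]; exact (ih c).trans (init_first _ a)
  have h2 : ∀ (n : ℕ) (c : Fin g ⊕ Fin s),
      finSumFinEquiv ((iσ g s ^ n) c) = (finRotate (g + s) ^ n) (finSumFinEquiv c) := by
    intro n
    induction n with
    | zero => exact fun c => rfl
    | succ n ih => exact fun c => by rw [pow_succ', pow_succ', Equiv.Perm.mul_apply,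
        Equiv.Perm.mul_apply, ← ih]; simp [iσ]
  have h3 : ∀ (N : ℕ) (x y : Fin N), ∃ n : ℕ, (finRotate N ^ n) x = y := by
    intro N x y
    obtain _ | _ | N := N
    · exact x.elim0
    · exact ⟨0, Subsingleton.elim (α := Fin 1) _ _⟩
    · have hc := isCycle_finRotate (n := N)
      have hs : ∀ x : Fin (N + 2), finRotate (N + 2) x ≠ x := fun x => by
        rw [← Equiv.Perm.mem_support, support_finRotate]; exact Finset.mem_univ _
      exact hc.exists_pow_eq (hs x) (hs y)
  obtain ⟨n, hn⟩ := h3 _ (finSumFinEquiv c) (finSumFinEquiv c')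
  have := key n c
  rwa [finSumFinEquiv.injective ((h2 n c).trans hn)] at this

/-- all slots of constant level lie in one cycle of `inx ∘ iθ`: handle
`0 ↦ 3 ↦ 2 ↦ 1 ↦ next`, puncture `0 ↦ 3 ↦ next`; `finRotate` is a cycle. -/
theorem init_cycle (c c' : Fin g ⊕ Fin s) (t : Fin 4) (ht : ∀ j, c = .inr j → t = 0 ∨ t = 3) (a : κ) :
    (iJ g s κ).SameCycle ((c, t), a) ((c', 0), a) := by
  refine Equiv.Perm.SameCycle.trans (Equiv.Perm.SameCycle.symm ?_) (init_first' c c' a)
  rcases c with c | c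
  · fin_cases t
    · exact ⟨0, rfl⟩
    · exact ⟨3, rfl⟩
    · exact ⟨2, rfl⟩
    · exact ⟨1, rfl⟩
  · rcases ht c rfl with rfl | rfl
    · exact ⟨0, rfl⟩
    · exact ⟨1, rfl⟩

theorem init_split (l : Fin s → κ → ℕ) (z : Fin s → ℕ → oˣ) (hl : ∀ j, Function.Injective (l j))
    (h2 : 2 ≤ Fintype.card κ) (j₀ : Fin s) (a₀ : κ) :
    (initP g l z).Splittable ((.inr j₀, 0), a₀) ∧
      ∀ t, (∀ r, Blk (initP g l z).lev ((.inr j₀, 0), a₀) r → (initP g l z).z t ≠ (initP g l z).z r) →
        (initP g l z).bsz t ≤ 1 := by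
  refine ⟨⟨?_, ?_, ?_⟩, ?_⟩
  · intro h
    have := congrArg (fun p : IS g s × ℕ => p.1.2) h
    simp [initP, ipc, iθ] at this
  · rintro ⟨x, b⟩ h
    have h1 : x = (.inr j₀, 0) := (initP g l z).pc_slot _ _ h
    subst h1
    exact ⟨rfl, rfl⟩
  · obtain ⟨a, b, hab⟩ := Fintype.exists_pair_of_one_lt_card (α := κ) (by omega)
    exact ⟨((.inr j₀, 2), a), ((.inr j₀, 2), b), rfl, rfl, fun h => hab (hl j₀ h.2)⟩
  · rintro ⟨⟨c, t⟩, a⟩ h
    by_cases ht : ∀ j, c = .inr j → t = 0 ∨ t = 3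
    · exact (h ((.inr j₀, 0), a) ⟨rfl, rfl⟩ (Quotient.sound (init_cycle c _ t ht a))).elim
    · push Not at ht
      obtain ⟨j, rfl, h0, h3⟩ := ht
      have ht : t = 1 ∨ t = 2 := by omega
      refine Finset.card_le_one.2 ?_
      rintro ⟨x, b⟩ hb ⟨x', b'⟩ hb'
      obtain ⟨rfl, e1⟩ := (Finset.mem_filter.1 hb).2
      obtain ⟨rfl, e2⟩ := (Finset.mem_filter.1 hb').2
      have e : ilev (g := g) l ((.inr j, t), b) = ilev (g := g) l ((.inr j, t), b') :=
        e1.symm.trans e2
      simp only [ilev, ht, if_true] at e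
      rw [hl j e]

theorem flv_all (hB : Big o Ω) (hQ : ∀ m ≤ Fintype.card κ, QP Ω (Fin m) o) : FlDense o Ω κ := by
  intro g s l z d
  obtain ⟨R, hR, hs⟩ := init_retract (Ω := Ω) (g := g) l z
  obtain ⟨x, rfl⟩ := hs d
  exact hR.inZ (Prob.dense_of_le hB hQ _ (fun t => Prob.bsz_le t) x)

theorem flv_two (hB : Big o Ω) (h2 : 2 ≤ Fintype.card κ)
    (hQ : ∀ m ≤ Fintype.card κ - 1, QP Ω (Fin m) o) (l : Fin (s + 1) → κ → ℕ)
    (z : Fin (s + 1) → ℕ → oˣ) (hl : ∀ j, Function.Injective (l j)) (d : FlV Ω g l z) :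
    InZ o Ω d := by
  obtain ⟨R, hR, hs⟩ := init_retract (Ω := Ω) (g := g) l z
  obtain ⟨x, rfl⟩ := hs d
  obtain ⟨a₀⟩ : Nonempty κ := Fintype.card_pos_iff.1 (by omega)
  obtain ⟨h1, h3⟩ := init_split (g := g) l z hl h2 0 a₀
  obtain ⟨P', -, hle, hd⟩ := Prob.split_step hB h1 x
  refine hR.inZ (hd (Prob.dense_of_le hB hQ P' (hle _ ?_ fun t ht => ?_)))
  · have := Prob.bsz_le (P := initP g l z) ((.inr 0, 0), a₀)
    omega
  · have := h3 t ht
    omega

end Crest.Agent.R003
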