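import Crest.Agent.R003.Defs2

/-! Row 3: generic points and derivations; Friedland's theorem. -/

set_option autoImplicit false
set_option linter.unusedSectionVars false

namespace Crest.Agent.R003

open Matrix

/-- dimension formula: for a prime `P` of `k[x_σ]` there is a set `T` of at least
`card σ - height P` variables which are algebraically independent modulo `P`.
(Induction on the number of variables with `Polynomial.height_eq_height_add_one` and friends:
for `P` in `R[X]` over `p = P ∩ R`, either `P = p R[X]` (same height, `X` is a new independent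
variable) or the height is `height p + 1`; only the inequality `height p + 1 ≤ height P` for
`P ≠ p R[X]` and `height p ≤ height P` is needed.) -/
theorem exists_indep_vars {k σ : Type} [Field k] [Fintype σ] (P : Ideal (MvPolynomial σ k))
    [P.IsPrime] : ∃ T : Finset σ, (Fintype.card σ : ℕ∞) ≤ T.card + P.height ∧
      AlgebraicIndependent k (fun t : T => Ideal.Quotient.mk P (MvPolynomial.X (t : σ))) := by
  classical
  let A := MvPolynomial σ k ⧸ P
  let v : Finset σ → σ → MvPolynomial σ A := fun S i =>
    if i ∈ S then MvPolynomial.C (Ideal.Quotient.mk P (MvPolynomial.X i)) else MvPolynomial.X i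
  let φ : Finset σ → MvPolynomial σ k →ₐ[k] MvPolynomial σ A := fun S => MvPolynomial.aeval (v S)
  have hφ : ∀ (S T : Finset σ) (F : MvPolynomial T k), MvPolynomial.aeval (fun t : T => v S t) F =
      φ S (MvPolynomial.rename Subtype.val F) := fun S T F => by
    rw [MvPolynomial.aeval_rename]
    rfl
  have hQ : ∀ S, (RingHom.ker (φ S)).IsPrime := fun S => RingHom.ker_isPrime _
  have key : ∀ S : Finset σ, ∃ T : Finset σ,
      (Fintype.card σ : ℕ∞) ≤ T.card + (RingHom.ker (φ S)).height ∧
      AlgebraicIndependent k fun t : T => v S t := fun S => by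
    induction S using Finset.induction_on with
    | empty =>
      refine ⟨Finset.univ, le_self_add, ?_⟩
      simp only [v, Finset.notMem_empty, if_false]
      exact ((MvPolynomial.algebraicIndependent_X σ A).restrictScalars
        (algebraMap k A).injective).comp _ Subtype.val_injective
    | insert i S hi ih =>
      obtain ⟨T, h1, h2⟩ := ih
      have hle : RingHom.ker (φ S) ≤ RingHom.ker (φ (insert i S)) := fun F hF => by
        have e : φ (insert i S) = ((MvPolynomial.aeval (v (insert i S)) :
            MvPolynomial σ A →ₐ[A] MvPolynomial σ A).restrictScalars k).comp (φ S) := by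
          refine MvPolynomial.algHom_ext fun j => ?_
          by_cases hj : j ∈ S <;> simp [φ, v, hj]
        rw [RingHom.mem_ker, e, AlgHom.comp_apply, RingHom.mem_ker.1 hF, map_zero]
      rcases hle.eq_or_lt with h | h
      · refine ⟨T, h ▸ h1, algebraicIndependent_iff.2 fun F hF => algebraicIndependent_iff.1 h2 F ?_⟩
        rw [hφ, ← RingHom.mem_ker] at hF ⊢
        rwa [h]
      · refine ⟨T.erase i, h1.trans ?_, ?_⟩
        · have h3 : (T.card : ℕ∞) ≤ (T.erase i).card + 1 := by
            exact_mod_cast tsub_le_iff_right.1 (Finset.pred_card_le_card_erase (a := i))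
          refine (add_le_add_left h3 _).trans ?_
          rw [add_assoc, add_comm 1]
          exact add_le_add_right (Ideal.height_add_one_le_of_lt_of_isPrime h) _
        · convert h2.comp (fun t : T.erase i => (⟨t, Finset.mem_of_mem_erase t.2⟩ : T))
            (fun a b h => Subtype.ext (congrArg Subtype.val h :)) using 2 with t
          simp [v, Finset.ne_of_mem_erase t.2]
  obtain ⟨T, h1, h2⟩ := key Finset.univ
  have e : φ Finset.univ = ((IsScalarTower.toAlgHom k A (MvPolynomial σ A)).comp
      (Ideal.Quotient.mkₐ k P)) := MvPolynomial.algHom_ext fun j => by simp [φ, v, A]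
  have e' : RingHom.ker (φ Finset.univ) = P := by
    ext F
    rw [RingHom.mem_ker, e, ← Ideal.Quotient.eq_zero_iff_mem]
    exact MvPolynomial.C_eq_zero
  rw [e'] at h1
  refine ⟨T, h1, .of_comp (A' := MvPolynomial σ A) (IsScalarTower.toAlgHom k A _) ?_⟩
  convert h2 using 2 with t
  exact (if_pos (Finset.mem_univ _)).symm

theorem h85_extend {k A K : Type} [CommRing k] [CommRing A] [Field K] [Algebra k A] [Algebra k K]
    [Algebra A K] [IsScalarTower k A K] [Algebra.FormallySmooth A K] (d : Derivation k A K) :
    ∃ D : Derivation k K K, ∀ a, D (algebraMap A K a) = d a := by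
  have hinj : Function.Injective (KaehlerDifferential.mapBaseChange k A K) := by
    rw [injective_iff_map_eq_zero]
    intro x hx
    obtain ⟨y, rfl⟩ := (Algebra.H1Cotangent.exact_δ_mapBaseChange k A K x).1 hx
    rw [Subsingleton.elim y 0, map_zero]
  obtain ⟨s, hs⟩ := LinearMap.exists_leftInverse_of_injective
    (KaehlerDifferential.mapBaseChange k A K) (LinearMap.ker_eq_bot.2 hinj)
  let l : TensorProduct A K (KaehlerDifferential k A) →ₗ[K] K :=
    LinearMap.liftBaseChange K d.liftKaehlerDifferential
  refine ⟨(l ∘ₗ s).compDer (KaehlerDifferential.D k K), fun a => ?_⟩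
  have h1 : KaehlerDifferential.D k K (algebraMap A K a) =
      KaehlerDifferential.mapBaseChange k A K (1 ⊗ₜ KaehlerDifferential.D k A a) := by
    rw [KaehlerDifferential.mapBaseChange_tmul, one_smul, KaehlerDifferential.map_D]
  have h2 := LinearMap.congr_fun hs (1 ⊗ₜ KaehlerDifferential.D k A a)
  change l (s (KaehlerDifferential.D k K (algebraMap A K a))) = d a
  rw [h1]
  rw [LinearMap.comp_apply, LinearMap.id_apply] at h2
  rw [h2]
  simp [l]

theorem h85_basis_der {k K B : Type} [Field k] [CharZero k] [Field K] [Algebra k K]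
    {b : B → K} (hb : IsTranscendenceBasis k b) (c : B → K) :
    ∃ D : Derivation k K K, ∀ s, D (b s) = c s := by
  let A := MvPolynomial B k
  letI : Algebra A K := (MvPolynomial.aeval b : A →ₐ[k] K).toAlgebra
  have hA : ∀ a : A, algebraMap A K a = MvPolynomial.aeval b a := fun _ => rfl
  have : IsScalarTower k A K := IsScalarTower.of_algebraMap_eq fun c => by
    rw [hA, AlgHom.commutes]
  have : FaithfulSMul A K := (faithfulSMul_iff_algebraMap_injective A K).2 hb.1
  have halg : Algebra.IsAlgebraic A K := by
    refine ⟨fun y => ?_⟩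
    refine (hb.isAlgebraic.1 y).of_ringHom_of_comp_eq
      (hb.1.aevalEquiv : A →+* Algebra.adjoin k (Set.range b)) (RingHom.id K)
      hb.1.aevalEquiv.surjective Function.injective_id ?_
    ext a <;> simp [hA]
  let F := FractionRing A
  letI : Algebra F K := FractionRing.liftAlgebra A K
  have : IsScalarTower A F K := FractionRing.isScalarTower_liftAlgebra A K
  have : Algebra.IsAlgebraic F K := halg.extendScalars (IsFractionRing.injective A F)
  have : CharZero F := algebraRat.charZero F
  have e1 : Algebra.FormallyEtale A F := Algebra.FormallyEtale.of_isLocalization (nonZeroDivisors A)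
  have e2 : Algebra.FormallyEtale F K := Algebra.FormallyEtale.of_isSeparable F K
  have e3 : Algebra.FormallyEtale A K := Algebra.FormallyEtale.comp A F K
  obtain ⟨D, hD⟩ := h85_extend (k := k) (A := A) (K := K) (MvPolynomial.mkDerivation k c)
  refine ⟨D, fun s => ?_⟩
  have h := hD (MvPolynomial.X s)
  rwa [hA, MvPolynomial.aeval_X, MvPolynomial.mkDerivation_X] at h

/-- derivations dual to an algebraically independent family (complete to a transcendence basis,
use `MvPolynomial.pderiv`, extend to the fraction field and to the separable algebraic extension;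
see also `Crest.Agent.R278.Alg*` `exists_extend`, `Differential` on algebraic extensions,
or `KaehlerDifferential` for formally smooth / etale maps). -/
theorem exists_dual_der {k K T : Type} [Field k] [CharZero k] [Field K] [Algebra k K]
    [DecidableEq T] {x : T → K} (hx : AlgebraicIndependent k x) (t : T) :
    ∃ D : Derivation k K K, ∀ s, D (x s) = if s = t then 1 else 0 := by
  classical
  obtain ⟨B, hB, hb⟩ := exists_isTranscendenceBasis_superset (s := Set.range x) hx.to_subtype_range
  obtain ⟨D, hD⟩ := h85_basis_der hb fun y => if (y : K) = x t then 1 else 0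
  refine ⟨D, fun s => ?_⟩
  rw [hD ⟨x s, hB ⟨s, rfl⟩⟩]
  simp only [hx.injective.eq_iff]

/-- Generisation: a point `x` of a variety defined by `N` equations is a specialisation of a point
`x'` (over a bigger algebraically closed field) with at least `card σ - N` independent
derivations.  Take a minimal prime `P` over the ideal of the equations contained in the maximal
ideal of `x` (`Ideal.exists_minimalPrimes_le`), Krull's height theorem
(`Ideal.height_le_spanRank_toENat_of_mem_minimalPrimes`), `K = AlgebraicClosure (FractionRing (R ⧸ P))`. -/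
theorem exists_generic {k σ ν : Type} [Field k] [CharZero k] [Fintype σ] [Fintype ν]
    (f : ν → MvPolynomial σ k) (x : σ → k) (hx : ∀ n, MvPolynomial.eval x (f n) = 0) :
    ∃ (K : Type) (_ : Field K) (_ : Algebra k K) (_ : IsAlgClosed K) (x' : σ → K),
      (∀ n, MvPolynomial.aeval x' (f n) = 0) ∧
      (∀ F : MvPolynomial σ k, MvPolynomial.aeval x' F = 0 → MvPolynomial.eval x F = 0) ∧
      ∃ T : Finset σ, Fintype.card σ ≤ T.card + Fintype.card ν ∧
        ∀ t ∈ T, ∃ D : Derivation k K K, D (x' t) = 1 ∧ ∀ s ∈ T, s ≠ t → D (x' s) = 0 := by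
  classical
  let R := MvPolynomial σ k
  let I : Ideal R := Ideal.span ((Finset.univ.image f : Finset R) : Set R)
  let m : Ideal R := RingHom.ker (MvPolynomial.eval x)
  have : m.IsPrime := RingHom.ker_isPrime _
  have hIm : I ≤ m := by
    refine Ideal.span_le.2 fun g hg => ?_
    obtain ⟨n, -, rfl⟩ := Finset.mem_image.1 (Finset.mem_coe.1 hg)
    exact hx n
  obtain ⟨P, hP, hPm⟩ := Ideal.exists_minimalPrimes_le hIm
  have hPp : P.IsPrime := hP.1.1
  have hh : P.height ≤ (Fintype.card ν : ℕ∞) :=
    (Ideal.height_le_card_of_mem_minimalPrimes_span_finset hP).trans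
      (by exact_mod_cast Finset.card_image_le)
  obtain ⟨T, hT, hind⟩ := exists_indep_vars P
  let K := AlgebraicClosure (FractionRing (R ⧸ P))
  have hinj : Function.Injective (algebraMap (R ⧸ P) K) := by
    rw [IsScalarTower.algebraMap_eq (R ⧸ P) (FractionRing (R ⧸ P)) K, RingHom.coe_comp]
    exact (algebraMap (FractionRing (R ⧸ P)) K).injective.comp (IsFractionRing.injective _ _)
  let φ : (R ⧸ P) →ₐ[k] K := IsScalarTower.toAlgHom k (R ⧸ P) K
  let x' : σ → K := fun s => φ (Ideal.Quotient.mk P (MvPolynomial.X s))
  have hev : ∀ F : R, MvPolynomial.aeval x' F = φ (Ideal.Quotient.mk P F) := by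
    intro F
    have : (MvPolynomial.aeval x' : R →ₐ[k] K) = φ.comp (Ideal.Quotient.mkₐ k P) :=
      MvPolynomial.algHom_ext fun s => by simp [x']
    rw [this]
    rfl
  have hker : ∀ F : R, MvPolynomial.aeval x' F = 0 ↔ F ∈ P := by
    intro F
    rw [hev, ← Ideal.Quotient.eq_zero_iff_mem]
    exact map_eq_zero_iff φ hinj
  refine ⟨K, inferInstance, inferInstance, inferInstance, x', fun n => (hker _).2 ?_,
    fun F hF => hPm ((hker F).1 hF), T, ?_, fun t ht => ?_⟩
  · exact hP.1.2 (Ideal.subset_span (by simp))
  · exact_mod_cast hT.trans (add_le_add le_rfl hh)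
  · obtain ⟨D, hD⟩ := exists_dual_der (hind.map' (f := φ) hinj) ⟨t, ht⟩
    refine ⟨D, by simpa using hD ⟨t, ht⟩, fun s hs hst => ?_⟩
    simpa [hst] using hD ⟨s, hs⟩

/-- fewer homogeneous equations (of positive degree) than variables have a nontrivial solution:
otherwise by the Nullstellensatz the irrelevant ideal, of height `card σ`, is a minimal prime over
the ideal of the equations.  (One can also use `exists_generic` at `x = 0`, or
`exists_indep_vars` and `MvPolynomial.vanishingIdeal_zeroLocus_eq_radical`.) -/
theorem exists_common_zero {K σ ν : Type} [Field K] [IsAlgClosed K] [Fintype σ] [Fintype ν]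
    (f : ν → MvPolynomial σ K) (hf : ∀ n, MvPolynomial.eval 0 (f n) = 0)
    (h : Fintype.card ν < Fintype.card σ) :
    ∃ x : σ → K, x ≠ 0 ∧ ∀ n, MvPolynomial.eval x (f n) = 0 := by
  classical
  obtain ⟨P, hP, -⟩ := Ideal.exists_minimalPrimes_le
    (I := Ideal.span (Finset.univ.image f : Finset (MvPolynomial σ K)))
    (J := MvPolynomial.vanishingIdeal K {(0 : σ → K)}) (Ideal.span_le.2 fun F hF => by
      obtain ⟨n, -, rfl⟩ := Finset.mem_image.1 hF
      exact (MvPolynomial.mem_vanishingIdeal_singleton_iff _ _).2 (hf n))
  have := hP.isPrime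
  obtain ⟨T, h1, h2⟩ := exists_indep_vars P
  have h3 := Ideal.height_le_card_of_mem_minimalPrimes_span_finset hP
  have h4 : Fintype.card σ ≤ T.card + (Finset.univ.image f).card := by
    exact_mod_cast h1.trans (add_le_add_right h3 _)
  have h5 : (Finset.univ.image f).card ≤ Fintype.card ν := Finset.card_image_le
  obtain ⟨t, ht⟩ := Finset.card_pos.1 (by omega : 0 < T.card)
  have h6 : MvPolynomial.X t ∉ MvPolynomial.vanishingIdeal K (MvPolynomial.zeroLocus K P) := by
    rw [MvPolynomial.IsPrime.vanishingIdeal_zeroLocus, ← Ideal.Quotient.eq_zero_iff_mem]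
    exact h2.ne_zero ⟨t, ht⟩
  by_contra! h7
  refine h6 fun x hx => ?_
  by_contra h8
  obtain ⟨n, hn⟩ := h7 x fun h => h8 (by simp [h])
  exact hn (hx _ (hP.1.2 (Ideal.subset_span (by simp))))

private theorem fr_nil {K κ : Type} [Field K] [Fintype κ] [DecidableEq κ] (a : Matrix κ κ K)
    (ha : ∀ S : Finset κ, (a.submatrix (fun i : S => (i : κ)) (fun i : S => (i : κ))).det ≠ 0)
    (d : κ → K) {m : ℕ} (h : (a * diagonal d) ^ m = 0) : d = 0 := by
  classical
  obtain ⟨S, hS⟩ : ∃ S : Finset κ, ∀ i, i ∈ S ↔ d i ≠ 0 :=
    ⟨Finset.univ.filter fun i => d i ≠ 0, fun i => by simp⟩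
  have h1 : ∀ n : ℕ, ((a * diagonal d) ^ n).submatrix (fun i : S => (i : κ)) (fun i : S => (i : κ)) =
      (a.submatrix (fun i : S => (i : κ)) (fun i : S => (i : κ)) *
        diagonal fun i : S => d i) ^ n := by
    intro n
    induction n with
    | zero => exact submatrix_one _ Subtype.val_injective
    | succ n ih =>
      rw [pow_succ', pow_succ', ← ih]
      ext i j
      simp only [submatrix_apply, mul_apply (M := a * diagonal d),
        mul_apply (M := a.submatrix _ _ * diagonal _), mul_diagonal]
      rw [Finset.sum_coe_sort S fun l => a i l * d l * ((a * diagonal d) ^ n) l j]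
      refine (Finset.sum_subset (Finset.subset_univ S) fun l _ hl => ?_).symm
      rw [not_not.1 (mt (hS l).2 hl), mul_zero, zero_mul]
  by_contra hd
  obtain ⟨i, hi⟩ := Function.ne_iff.1 hd
  have : Nonempty S := ⟨⟨i, (hS i).2 hi⟩⟩
  have h2 := congrArg det (h1 m)
  rw [h, det_pow, det_mul, det_diagonal] at h2
  have h3 : ∏ l : S, d l ≠ 0 := Finset.prod_ne_zero_iff.2 fun l _ => (hS l).1 l.2
  refine pow_ne_zero m (mul_ne_zero (ha S) h3) (h2.symm.trans ?_)
  exact det_zero

/-- Friedland's theorem.  The coefficient of the characteristic polynomial of `a * diagonal d` of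
degree `m - j` is `± ∑_{|S| = j} det a_S * ∏_{i ∈ S} d i`, homogeneous of degree `j`.  Solve
`coeff_j (d) = c_j * z ^ j` (`1 ≤ j ≤ m`) nontrivially in `(d, z)`; `z = 0` is impossible (take
`j = |supp d|`), so rescale to `z = 1`. -/
theorem friedland {K κ : Type} [Field K] [IsAlgClosed K] [Fintype κ] [DecidableEq κ]
    (a : Matrix κ κ K)
    (ha : ∀ S : Finset κ, (a.submatrix (fun i : S => (i : κ)) (fun i : S => (i : κ))).det ≠ 0)
    (t : κ → K) :
    ∃ d : κ → K, (a * diagonal d).charpoly = ∏ i, (Polynomial.X - Polynomial.C (t i)) := by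
  obtain ⟨f, hf⟩ : ∃ f : Fin (Fintype.card κ) → MvPolynomial (Option κ) K,
      ∀ (x : Option κ → K) j, MvPolynomial.eval x (f j) =
        (a * diagonal fun i => x (some i)).charpoly.coeff j -
          (∏ i, (Polynomial.X - Polynomial.C (t i * x none))).coeff j := by
    refine ⟨fun j => (a.map MvPolynomial.C * diagonal fun i => MvPolynomial.X (some i)).charpoly.coeff j
      - (∏ i, (Polynomial.X - Polynomial.C (MvPolynomial.C (t i) * MvPolynomial.X none))).coeff j,
      fun x j => ?_⟩
    rw [map_sub, ← Polynomial.coeff_map, ← Polynomial.coeff_map, ← charpoly_map,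
      Polynomial.map_prod, Matrix.map_mul, diagonal_map (map_zero _), Matrix.map_map]
    congr 3
    · congr 1
      · ext i j
        simp
      · simp
    · simp
  obtain ⟨x, hx0, hx⟩ := exists_common_zero f (fun j => by rw [hf]; simp) (by simp)
  have hmon : (∏ i, (Polynomial.X - Polynomial.C (t i * x none))).Monic :=
    Polynomial.monic_prod_X_sub_C _ _
  have hdeg : (∏ i, (Polynomial.X - Polynomial.C (t i * x none))).natDegree = Fintype.card κ := by
    rw [Polynomial.natDegree_finsetProd_X_sub_C_eq_card, Finset.card_univ]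
  have h1 : (a * diagonal fun i => x (some i)).charpoly =
      ∏ i, (Polynomial.X - Polynomial.C (t i * x none)) := by
    ext j
    have hd := (a * diagonal fun i => x (some i)).charpoly_natDegree_eq_dim
    rcases lt_trichotomy j (Fintype.card κ) with h | rfl | h
    · exact sub_eq_zero.1 ((hf x ⟨j, h⟩).symm.trans (hx _))
    · have e1 := (a * diagonal fun i => x (some i)).charpoly_monic.coeff_natDegree
      have e2 := hmon.coeff_natDegree
      rw [hd] at e1
      rw [hdeg] at e2
      rw [e1, e2]
    · rw [Polynomial.coeff_eq_zero_of_natDegree_lt (hd ▸ h),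
        Polynomial.coeff_eq_zero_of_natDegree_lt (hdeg ▸ h)]
  have hz : x none ≠ 0 := by
    intro hz
    have h2 := (a * diagonal fun i => x (some i)).aeval_self_charpoly
    simp only [h1, hz, mul_zero, map_zero, sub_zero, Finset.prod_const, map_pow,
      Polynomial.aeval_X] at h2
    have h3 := fr_nil a ha _ h2
    refine hx0 (funext fun o => ?_)
    cases o with
    | none => exact hz
    | some i => exact congrFun h3 i
  refine ⟨fun i => (x none)⁻¹ * x (some i), Polynomial.funext fun r => ?_⟩
  have h2 := congrArg (Polynomial.eval (x none * r)) h1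
  have h3 : scalar κ (x none * r) - (a * diagonal fun i => x (some i)) =
      x none • (scalar κ r - a * diagonal fun i => (x none)⁻¹ * x (some i)) := by
    ext i j
    simp only [Matrix.sub_apply, Matrix.smul_apply, scalar_apply, mul_diagonal, diagonal_apply,
      smul_eq_mul]
    split_ifs <;> field_simp <;> ring
  rw [eval_charpoly, h3, det_smul, ← eval_charpoly] at h2
  refine mul_left_cancel₀ (pow_ne_zero (Fintype.card κ) hz) (h2.trans ?_)
  simp only [Polynomial.eval_prod, Polynomial.eval_sub, Polynomial.eval_X, Polynomial.eval_C]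
  rw [← Finset.card_univ, ← Finset.prod_const, ← Finset.prod_mul_distrib]
  exact Finset.prod_congr rfl fun i _ => by ring

end Crest.Agent.R003
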