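import Crest.Agent.R003.Fat
import Crest.Agent.R003.Deo
import Crest.Agent.R003.Flat

/-! Row 3: the main induction. -/

set_option autoImplicit false
set_option linter.unusedSectionVars false

namespace Crest.Agent.R003

open Matrix

namespace Prob

variable {o : Type} [CommRing o] {ι : Type} [Fintype ι] [DecidableEq ι] {P : Prob o ι}
  {Ω : Type} [Field Ω] [Algebra o Ω]

theorem dense_of_le (hB : Big o Ω) {n : ℕ} (hQ : ∀ m ≤ n, QP Ω (Fin m) o) (P : Prob o ι)
    (hn : P.Le n) : P.Dense Ω := by
  induction h1 : P.Phi using Nat.strong_induction_on generalizing P with | _ a iha =>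
  induction h2 : P.fat using Nat.strong_induction_on generalizing P with | _ b ihb =>
  induction h3 : P.inv using Nat.strong_induction_on generalizing P with | _ c ihc =>
  induction h4 : P.wt using Nat.strong_induction_on generalizing P with | _ d ihd =>
  intro s
  by_cases hT : P.Thin
  · by_cases hl : ∀ x ∈ P.InvSet, P.Last x.1
    · exact final_stage hB hT hl hn hQ s
    · push Not at hl
      obtain ⟨x, hx, hl⟩ := hl
      obtain ⟨P', h, hle, hd⟩ := thin_step hB hT hx hl s
      refine hd ?_
      have hf : P.fat = 0 := thin_iff_fat.1 hT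
      rcases h with h | ⟨h, hT', h' | ⟨h', h''⟩⟩
      · exact iha _ (h1 ▸ h) P' (hle n hn) rfl
      · exact ihc _ (h3 ▸ h') P' (hle n hn) (h.trans h1) (by rw [thin_iff_fat.1 hT', ← h2, hf]) rfl
      · exact ihd _ (h4 ▸ h'') P' (hle n hn) (h.trans h1) (by rw [thin_iff_fat.1 hT', ← h2, hf])
          (h'.trans h3) rfl
  · obtain ⟨P', h, hle, hd⟩ := fat_step hB hT s
    refine hd ?_
    rcases h with h | ⟨h, h'⟩
    · exact iha _ (h1 ▸ h) P' (hle n hn) rfl
    · exact ihb _ (h2 ▸ h') P' (hle n hn) (h.trans h1) rfl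

end Prob

end Crest.Agent.R003
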