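import Crest.Agent.R003.Prob

/-! Row 3: basic facts on problems: blocks, letters, slides. -/

set_option autoImplicit false
set_option linter.unusedSectionVars false

namespace Crest.Agent.R003

open Matrix

namespace Prob

variable {o : Type} [CommRing o] {ι : Type} [Fintype ι] [DecidableEq ι] {P : Prob o ι}
  {Ω : Type} [Field Ω] [Algebra o Ω]

theorem blk_refl (s : P.Site) : Blk P.lev s s := ⟨rfl, rfl⟩
theorem blk_symm {s t : P.Site} (h : Blk P.lev s t) : Blk P.lev t s := ⟨h.1.symm, h.2.symm⟩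
theorem blk_trans {s t r : P.Site} (h : Blk P.lev s t) (h' : Blk P.lev t r) : Blk P.lev s r :=
  ⟨h.1.trans h'.1, h.2.trans h'.2⟩

theorem blk_zpow (k : ℤ) (s t : P.Site) : Blk P.lev ((P.J ^ k) s) ((P.J ^ k) t) ↔ Blk P.lev s t := by
  induction k using Int.induction_on generalizing s t with
  | zero => rfl
  | succ k ih => rw [_root_.zpow_add_one, Equiv.Perm.mul_apply, Equiv.Perm.mul_apply, ih, P.blk_J]
  | pred k ih =>
    rw [_root_.zpow_sub_one, Equiv.Perm.mul_apply, Equiv.Perm.mul_apply, ih, ← P.blk_J]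
    simp
theorem z_zpow (k : ℤ) (s : P.Site) : P.z ((P.J ^ k) s) = P.z s := by
  induction k using Int.induction_on generalizing s with
  | zero => rfl
  | succ k ih => rw [_root_.zpow_add_one, Equiv.Perm.mul_apply, ih, P.z_J]
  | pred k ih =>
    rw [_root_.zpow_sub_one, Equiv.Perm.mul_apply, ih, ← P.z_J]
    simp
theorem bsz_pos (s : P.Site) : 0 < P.bsz s :=
  Finset.card_pos.2 ⟨s, Finset.mem_filter.2 ⟨Finset.mem_univ _, blk_refl s⟩⟩
theorem bsz_le (s : P.Site) : P.bsz s ≤ Fintype.card ι := by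
  refine Finset.card_le_card_of_injOn Prod.snd (fun _ _ => Finset.mem_univ _) fun t ht r hr h => ?_
  exact Prod.ext ((Finset.mem_filter.1 ht).2.1.symm.trans (Finset.mem_filter.1 hr).2.1) h
theorem bsz_blk {s t : P.Site} (h : Blk P.lev s t) : P.bsz s = P.bsz t :=
  congrArg Finset.card (Finset.filter_congr fun _ _ =>
    ⟨fun h' => blk_trans (blk_symm h) h', fun h' => blk_trans h h'⟩)
theorem bsz_J (s : P.Site) : P.bsz (P.J s) = P.bsz s :=
  (Finset.card_equiv P.J fun t => by simp [P.blk_J]).symm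
theorem bsz_of_z {s t : P.Site} (h : P.z s = P.z t) : P.bsz s = P.bsz t := by
  obtain ⟨k, rfl⟩ := P.z_cyc s t h
  exact Finset.card_equiv (P.J ^ k) fun t => by simp [blk_zpow]
theorem zsz_z (s : P.Site) : P.zsz (P.z s) = P.bsz s :=
  le_antisymm (Finset.sup_le fun _ ht => (bsz_of_z (Finset.mem_filter.1 ht).2).le)
    (Finset.le_sup (f := P.bsz) (Finset.mem_filter.2 ⟨Finset.mem_univ _, rfl⟩))
/-- the set of labels of a block only depends on its disc -/
theorem exists_blk_z {s t s' : P.Site} (h : P.z s = P.z t) (h' : Blk P.lev s s') :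
    ∃ t', Blk P.lev t t' ∧ P.z t' = P.z s' := by
  obtain ⟨k, rfl⟩ := P.z_cyc s t h
  exact ⟨(P.J ^ k) s', (blk_zpow k s s').2 h', z_zpow k s'⟩
theorem lt_J_iff {s t : P.Site} (h : P.pc s = P.pc t) :
    P.lev (P.J s) < P.lev (P.J t) ↔ P.lev s < P.lev t := by
  refine ⟨fun h' => ?_, P.lt_J s t h⟩
  rcases lt_trichotomy (P.lev s) (P.lev t) with h1 | h1 | h1
  · exact h1
  · exact absurd ((P.blk_J s t).2 ⟨P.pc_slot s t h, h1⟩).2 h'.ne
  · exact absurd (P.lt_J t s h.symm h1) h'.not_gt
/-- comparison of the first potential along a map of labels: if every label of `P'` in use is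
either `f ζ` for a label `ζ` of `P` in use of at least the same rank or belongs to `E` -/
theorem phi_le_of {P' : Prob o ι} (f : P.Z → P'.Z) (E : Finset P'.Z) (m : ℕ)
    (h : ∀ s' : P'.Site, (∃ s : P.Site, P'.z s' = f (P.z s) ∧ P'.bsz s' ≤ P.bsz s) ∨
      (P'.z s' ∈ E ∧ P'.bsz s' ≤ m)) :
    P'.Phi ≤ P.Phi + E.card * (2 * Fintype.card ι + 2) ^ m := by
  classical
  have hB : 0 < 2 * Fintype.card ι + 2 := by omega
  unfold Phi
  generalize 2 * Fintype.card ι + 2 = B at hB ⊢
  rw [← Finset.sum_filter_not_add_sum_filter _ fun ζ => ζ ∈ E ∧ P'.zsz ζ ≤ m]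
  refine add_le_add ?_ ?_
  · refine le_trans ?_ (Finset.sum_le_sum_of_subset (Finset.filter_subset
      (fun ζ => f ζ ∈ (Finset.univ.image P'.z).filter fun ζ => ¬ (ζ ∈ E ∧ P'.zsz ζ ≤ m)) _))
    rw [← Finset.sum_fiberwise_eq_sum_filter]
    refine Finset.sum_le_sum fun ζ hζ => ?_
    obtain ⟨hζ, hn⟩ := Finset.mem_filter.1 hζ
    obtain ⟨s', -, rfl⟩ := Finset.mem_image.1 hζ
    rw [zsz_z] at hn ⊢
    obtain ⟨s, h1, h2⟩ := (h s').resolve_right hn
    refine le_trans ?_ (Finset.single_le_sum (f := fun ζ => B ^ P.zsz ζ) (a := P.z s)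
      (fun _ _ => Nat.zero_le _) (Finset.mem_filter.2
        ⟨Finset.mem_image_of_mem _ (Finset.mem_univ _), h1.symm⟩))
    simp only [zsz_z]
    exact Nat.pow_le_pow_right hB h2
  · refine (Finset.sum_le_card_nsmul _ _ (B ^ m) fun ζ hζ =>
      Nat.pow_le_pow_right hB (Finset.mem_filter.1 hζ).2.2).trans ?_
    rw [smul_eq_mul]
    exact Nat.mul_le_mul_right _ (Finset.card_le_card fun ζ hζ => (Finset.mem_filter.1 hζ).2.1)
theorem thin_iff_fat : P.Thin ↔ P.fat = 0 := by
  unfold fat Thin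
  rw [Finset.card_eq_zero, Finset.filter_eq_empty_iff]
  exact ⟨fun h q _ hq => hq.2 (h _ _ hq.1),
    fun h s t hst => by_contra fun hn => h (Finset.mem_univ (s, t)) ⟨hst, hn⟩⟩
theorem invSet_finite : P.InvSet.Finite := by
  refine (Set.finite_univ.prod ((Set.finite_range P.lev).prod (Set.finite_range P.lev))).subset ?_
  rintro x ⟨a, a', t, t', h1, h2, -⟩
  exact ⟨trivial, ⟨_, h1⟩, ⟨_, h2⟩⟩

theorem Ex.slot {s t : P.Site} (h : P.Ex s t) : t.1 = P.nx s.1 := by
  simpa using P.pc_exit s (P.J.symm t) h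
theorem Ex.of_blk {s t s' t' : P.Site} (h : P.Ex s t) (hs : Blk P.lev s s') (ht : Blk P.lev t t') :
    P.Ex s' t' := by
  have h1 : Blk P.lev (P.J.symm t) (P.J.symm t') := (P.blk_J _ _).1 (by simpa using ht)
  unfold Ex at h ⊢
  rw [← P.blk_pc _ _ hs, ← P.blk_pc _ _ h1, h]
theorem Thin.ex_left (hT : P.Thin) {s s' t : P.Site} (h : P.Ex s t) (h' : P.Ex s' t) :
    Blk P.lev s s' :=
  hT s s' (Eq.trans h (Eq.symm h'))
theorem Thin.ex_right (hT : P.Thin) {s t t' : P.Site} (h : P.Ex s t) (h' : P.Ex s t') :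
    Blk P.lev t t' := by
  have h1 := congrArg P.tau (Eq.trans (Eq.symm h) h')
  rw [P.tau_tau, P.tau_tau] at h1
  simpa using (P.blk_J _ _).2 (hT _ _ h1)

/-! cycles of `nx` -/
theorem st_nx (i : P.I) : P.st (P.nx i) = P.st i :=
  congrArg Quotient.out (Quotient.sound (s := Equiv.Perm.SameCycle.setoid P.nx)
    (Equiv.Perm.sameCycle_apply_left.2 (Equiv.Perm.SameCycle.refl _ _)))
theorem st_st (i : P.I) : P.st (P.st i) = P.st i :=
  congrArg Quotient.out (Quotient.out_eq _)
theorem pow_ht (i : P.I) : (P.nx ^ P.ht i) (P.st i) = i := by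
  have h : P.nx.SameCycle (P.st i) i :=
    Quotient.exact (s := Equiv.Perm.SameCycle.setoid P.nx) (Quotient.out_eq _)
  obtain ⟨k, -, hk⟩ := h.exists_pow_eq'
  exact Nat.sInf_mem (s := {k | (P.nx ^ k) (P.st i) = i}) ⟨k, hk⟩
theorem ht_st (i : P.I) : P.ht (P.st i) = 0 :=
  Nat.le_zero.1 (Nat.sInf_le (s := {k | (P.nx ^ k) (P.st (P.st i)) = P.st i}) (st_st i))
theorem ht_eq_zero {i : P.I} (h : P.ht i = 0) : i = P.st i := by
  have := pow_ht i
  rw [h] at this
  exact this.symm
theorem ht_lt (i : P.I) : P.ht i < Fintype.card P.I := by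
  have key : ∀ k l, k < l → l ≤ P.ht i → (P.nx ^ k) (P.st i) ≠ (P.nx ^ l) (P.st i) := by
    intro k l hkl hl e
    have h1 : (P.nx ^ (P.ht i - l + k)) (P.st i) = i := by
      rw [pow_add, Equiv.Perm.mul_apply, e, ← Equiv.Perm.mul_apply, ← pow_add,
        Nat.sub_add_cancel hl, pow_ht]
    have h2 : P.ht i ≤ P.ht i - l + k := Nat.sInf_le (s := {k | (P.nx ^ k) (P.st i) = i}) h1
    omega
  have := Finset.card_le_card_of_injOn (s := Finset.range (P.ht i + 1)) (t := Finset.univ)
    (fun k => (P.nx ^ k) (P.st i)) (fun _ _ => Finset.mem_univ _) fun k hk l hl e => by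
      rw [Finset.mem_coe, Finset.mem_range] at hk hl
      rcases lt_trichotomy k l with h | h | h
      · exact absurd e (key k l h (by omega))
      · exact h
      · exact absurd e.symm (key l k h (by omega))
  rwa [Finset.card_range] at this
theorem ht_nx {i : P.I} (h : ¬ P.Last i) : P.ht (P.nx i) = P.ht i + 1 := by
  refine le_antisymm (Nat.sInf_le (s := {k | (P.nx ^ k) (P.st (P.nx i)) = P.nx i}) ?_) ?_
  · change (P.nx ^ (P.ht i + 1)) (P.st (P.nx i)) = P.nx i
    rw [pow_succ', Equiv.Perm.mul_apply, st_nx, pow_ht]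
  · have h1 := pow_ht (P.nx i)
    rcases hk : P.ht (P.nx i) with _ | k
    · exact absurd ((ht_eq_zero hk).trans (st_nx i)) h
    · rw [hk, pow_succ', Equiv.Perm.mul_apply, st_nx] at h1
      exact Nat.succ_le_succ (Nat.sInf_le (s := {k | (P.nx ^ k) (P.st i) = i}) (P.nx.injective h1))
theorem nx_ne_of_not_last {i : P.I} (h : ¬ P.Last i) : P.nx i ≠ i := fun e => by
  have := ht_nx h
  rw [e] at this
  omega
/-- induction along a cycle -/
theorem ht_induction {p : P.I → Prop} (h0 : ∀ i, p (P.st i))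
    (h1 : ∀ i, ¬ P.Last i → p i → p (P.nx i)) (i : P.I) : p i := by
  induction hn : P.ht i generalizing i with
  | zero => exact ht_eq_zero hn ▸ h0 i
  | succ n ih =>
    obtain ⟨j, rfl⟩ := P.nx.surjective i
    have hj : ¬ P.Last j := fun e => by
      rw [show P.nx j = P.st j from e, ht_st] at hn
      omega
    exact h1 j hj (ih j (by have := ht_nx hj; omega))

/-! letters -/
section
variable {act : P.Pc → Prop} {d : P.Data Ω}
theorem IsPre.L_mul_Linv (h : P.IsPre act d) (i : P.I) : P.L d.2.1 i * P.Linv d i = 1 := by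
  rw [mul_eq_one_comm]
  unfold Linv
  rw [Matrix.mul_assoc, Matrix.mul_assoc, ← Matrix.mul_assoc (d.2.2 i : Matrix ι ι Ω), ← h.fr i]
  exact (d.2.2 (P.nx i)).inv_mul
theorem IsPre.Linv_mul_L (h : P.IsPre act d) (i : P.I) : P.Linv d i * P.L d.2.1 i = 1 := by
  exact mul_eq_one_comm.1 (h.L_mul_Linv i)
theorem IsPre.L_supp (h : P.IsPre act d) (i : P.I) (a b : ι) (hab : P.L d.2.1 i a b ≠ 0) :
    P.Ex (i, a) (P.nx i, b) := by
  by_contra hne
  exact hab (h.supp _ _ hne)
theorem IsPre.Linv_supp (h : P.IsPre act d) (i : P.I) (a b : ι) (hab : P.Linv d i b a ≠ 0) :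
    P.Ex (i, a) (P.nx i, b) := by
  by_contra hne
  refine hab (supp_inv (p := fun a => P.pc (i, a))
    (q := fun b => P.tau (P.pc (P.J.symm (P.nx i, b)))) (h.L_mul_Linv i) (h.Linv_mul_L i)
    (fun a b hab => h.supp _ _ hab) b a hne)
theorem IsPre.exists_ex_right (h : P.IsPre act d) (s : P.Site) : ∃ t, P.Ex s t := by
  obtain ⟨i, a⟩ := s
  by_contra hne
  have h1 := congrFun (congrFun (h.L_mul_Linv i) a) a
  rw [Matrix.mul_apply, Matrix.one_apply_eq, Finset.sum_eq_zero] at h1
  · exact zero_ne_one h1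
  · intro b _
    have : P.L d.2.1 i a b = 0 := by
      by_contra hab
      exact hne ⟨_, h.L_supp i a b hab⟩
    rw [this, zero_mul]
theorem IsPre.exists_ex_left (h : P.IsPre act d) (t : P.Site) : ∃ s, P.Ex s t := by
  obtain ⟨j, b⟩ := t
  obtain ⟨i, rfl⟩ := P.nx.surjective j
  by_contra hne
  have h1 := congrFun (congrFun (h.Linv_mul_L i) b) b
  rw [Matrix.mul_apply, Matrix.one_apply_eq, Finset.sum_eq_zero] at h1
  · exact zero_ne_one h1
  · intro a _
    have : P.L d.2.1 i a b = 0 := by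
      by_contra hab
      exact hne ⟨_, h.L_supp i a b hab⟩
    rw [this, mul_zero]
/-- a piece and its partner have the same number of sites -/
theorem IsPre.card_piece (h : P.IsPre act d) (p : P.Pc) :
    (Finset.univ.filter fun s => P.pc s = p).card =
      (Finset.univ.filter fun s => P.pc s = P.tau p).card := by
  have key : ∀ p : P.Pc, (Finset.univ.filter fun s => P.pc s = p).card ≤
      (Finset.univ.filter fun s => P.pc s = P.tau p).card := by
    intro p
    rcases (Finset.univ.filter fun s => P.pc s = p).eq_empty_or_nonempty with he | ⟨s₀, hs₀⟩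
    · rw [he]
      exact Nat.zero_le _
    have hs₀' : P.pc s₀ = p := (Finset.mem_filter.1 hs₀).2
    set i := s₀.1 with hi
    let A := {a : ι // P.pc (i, a) = p}
    let B := {b : ι // P.pc (P.J.symm (P.nx i, b)) = P.tau p}
    have h1 : (Finset.univ.filter fun s => P.pc s = p).card ≤ Fintype.card A := by
      rw [Fintype.card_subtype]
      refine Finset.card_le_card_of_injOn Prod.snd ?_ ?_
      · intro s hs
        have hs' : P.pc s = p := (Finset.mem_filter.1 hs).2
        have : s.1 = i := P.pc_slot _ _ (hs'.trans hs₀'.symm)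
        simp only [Finset.coe_filter, Finset.mem_univ, true_and, Set.mem_ofPred_eq]
        rw [← this]
        exact hs'
      · intro s hs t ht hst
        have hs' : P.pc s = p := (Finset.mem_filter.1 hs).2
        have ht' : P.pc t = p := (Finset.mem_filter.1 ht).2
        exact Prod.ext (P.pc_slot _ _ (hs'.trans ht'.symm)) hst
    have h2 : Fintype.card B ≤ (Finset.univ.filter fun s => P.pc s = P.tau p).card := by
      rw [Fintype.card_subtype]
      refine Finset.card_le_card_of_injOn (fun b => P.J.symm (P.nx i, b)) ?_ ?_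
      · intro b hb
        simpa using hb
      · intro b _ b' _ hbb
        exact (Prod.ext_iff.1 (P.J.symm.injective hbb)).2
    have h3 : (P.L d.2.1 i).submatrix (Subtype.val : A → ι) (Subtype.val : B → ι) *
        (P.Linv d i).submatrix (Subtype.val : B → ι) (Subtype.val : A → ι) = 1 := by
      ext a a'
      have h4 := congrFun (congrFun (h.L_mul_Linv i) a.1) a'.1
      rw [Matrix.mul_apply] at h4
      rw [Matrix.mul_apply]
      simp only [Matrix.submatrix_apply]
      rw [← Finset.sum_subtype (Finset.univ.filter fun b : ι =>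
        P.pc (P.J.symm (P.nx i, b)) = P.tau p) (by simp)
        (fun b => P.L d.2.1 i a.1 b * P.Linv d i b a'.1), Finset.sum_filter_of_ne, h4]
      · simp [Matrix.one_apply, Subtype.ext_iff]
      · intro b _ hb
        have h5 : P.pc (i, a.1) = P.tau (P.pc (P.J.symm (P.nx i, b))) :=
          h.L_supp i a.1 b (left_ne_zero_of_mul hb)
        rw [← a.2, h5, P.tau_tau]
    have h6 : Fintype.card A ≤ Fintype.card B := by
      rw [← Matrix.rank_one (R := Ω) (n := A), ← h3]
      exact (Matrix.rank_mul_le_left _ _).trans (Matrix.rank_le_card_width _)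
    exact h1.trans (h6.trans h2)
  refine le_antisymm (key p) ?_
  simpa [P.tau_tau] using key (P.tau p)
theorem IsPre.mono {act' : P.Pc → Prop} (h : P.IsPre act d) (hh : ∀ p, act p → act' p) :
    P.IsPre act' d := by
  exact ⟨h.uni, h.supp, fun s hs => h.fix s fun ha => hs (hh _ ha),
    fun s hs => h.sq s fun ha => hs (hh _ ha), h.fr⟩
end

section good
variable {X : Type} [Coord Ω X]
@[fun_prop] theorem good_L {M : X → Matrix P.Site P.Site Ω} (hM : Good o Ω M) (i : P.I) :
    Good o Ω (fun x => P.L (M x) i) := by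
  unfold L; fun_prop
@[fun_prop] theorem good_Linv {d : X → P.Data Ω} (hd : Good o Ω d) (i : P.I) :
    Good o Ω (fun x => P.Linv (d x) i) := by
  unfold Linv; fun_prop
@[fun_prop] theorem good_loc {M : X → Matrix P.Site P.Site Ω} (hM : Good o Ω M) (i : P.I) :
    Good o Ω (fun x => P.loc (M x) i) := by
  unfold loc; fun_prop
@[fun_prop] theorem good_push {M : X → Matrix P.Site P.Site Ω} (hM : Good o Ω M) :
    Good o Ω (fun x => P.push (M x)) := by
  unfold push; fun_prop
@[fun_prop] theorem good_mask {α β : Type} (p : α → Prop) (q : β → Prop) [DecidablePred p]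
    [DecidablePred q] {M : X → Matrix α β Ω} (hM : Good o Ω M) :
    Good o Ω (fun x => mask p q (M x)) := by
  unfold mask; fun_prop
@[fun_prop] theorem good_dpart {α Λ : Type} [LinearOrder Λ] (l : α → Λ) {M : X → Matrix α α Ω}
    (hM : Good o Ω M) : Good o Ω (fun x => dpart l (M x)) := by
  unfold dpart; fun_prop
@[fun_prop] theorem good_cor (j : P.I) (a b : ι) {M : X → Matrix ι ι Ω}
    (hM : Good o Ω M) : Good o Ω (fun x => P.cor j a b (M x)) := by
  unfold cor; fun_prop
end good

/-- change of frames at the slots, letters unchanged -/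
def slide (d : P.Data Ω) (w : P.I → GL ι Ω) : P.Data Ω :=
  (fun i => ((w i)⁻¹ : GL ι Ω) * d.1 i * (P.L d.2.1 i * (w (P.nx i) : Matrix ι ι Ω) * P.Linv d i),
    d.2.1, fun i => d.2.2 i * w i)

theorem IsPre.slide {act : P.Pc → Prop} {d : P.Data Ω} (h : P.IsPre act d) (w : P.I → GL ι Ω)
    (hw : ∀ i, Uni (P.lv i) ((P.slide d w).1 i)) : P.IsPre act (P.slide d w) := by
  refine ⟨hw, h.supp, h.fix, h.sq, fun i => ?_⟩
  simp only [Prob.slide, Units.val_mul, Matrix.mul_assoc]
  rw [h.Linv_mul_L i, Matrix.mul_one, ← Matrix.mul_assoc (w i : Matrix ι ι Ω), (w i).mul_inv,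
    Matrix.one_mul, h.fr i]
  simp only [Matrix.mul_assoc]

@[fun_prop] theorem good_slide {X : Type} [Coord Ω X] {d : X → P.Data Ω} {w : X → P.I → GL ι Ω}
    (hd : Good o Ω d) (hw : Good o Ω w) : Good o Ω (fun x => P.slide (d x) (w x)) := by
  unfold slide; fun_prop

/-- a unipotent matrix as an element of `GL` -/
def uniGL {Λ : Type} [LinearOrder Λ] {l : ι → Λ} (x : Matrix ι ι Ω) (h : Uni l x) : GL ι Ω :=
  ⟨x, x.adjugate, h.mul_adjugate, h.adjugate_mul⟩

theorem good_uniGL {X : Type} [Coord Ω X] {Λ : Type} [LinearOrder Λ] {l : ι → Λ}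
    {x : X → Matrix ι ι Ω} (hx : Good o Ω x) (h : ∀ y, Uni l (x y)) :
    Good o Ω (fun y => uniGL (x y) (h y)) := good_units hx hx.adjugate

private theorem sum_slot (f : P.Site → Ω) (i : P.I) (hf : ∀ s, f s ≠ 0 → s.1 = i) :
    ∑ s, f s = ∑ a, f (i, a) := by
  rw [Fintype.sum_prod_type, Finset.sum_eq_single i]
  · intro j _ hj
    refine Finset.sum_eq_zero fun a _ => ?_
    by_contra hne
    exact hj (hf _ hne)
  · simp

/-- how the letters change when `M` is multiplied by matrices supported in the pieces -/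
theorem L_mul {M G G' : Matrix P.Site P.Site Ω} (hM : ∀ s t, P.pc s ≠ P.tau (P.pc t) → M s t = 0)
    (hG : ∀ s t, P.pc s ≠ P.pc t → G s t = 0) (hG' : ∀ s t, P.pc s ≠ P.pc t → G' s t = 0)
    (i : P.I) : P.L (G' * M * G) i = P.loc G' i * P.L M i * P.loc (P.push G) (P.nx i) := by
  ext a b
  simp only [L, loc, push, Matrix.mul_apply, Matrix.of_apply, Matrix.submatrix_apply]
  rw [← P.J.symm.sum_comp, sum_slot _ (P.nx i)]
  · refine Finset.sum_congr rfl fun c _ => ?_
    congr 1
    refine sum_slot _ i fun s hs => ?_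
    by_contra hne
    exact left_ne_zero_of_mul hs (hG' _ _ fun hp => hne (P.pc_slot _ _ hp).symm)
  · intro t ht
    obtain ⟨s, -, hs⟩ := Finset.exists_ne_zero_of_sum_ne_zero (left_ne_zero_of_mul ht)
    have h1 : P.pc (i, a) = P.pc s := by
      by_contra hne
      exact left_ne_zero_of_mul hs (hG' _ _ hne)
    have h2 : P.pc s = P.tau (P.pc (P.J.symm t)) := by
      by_contra hne
      exact right_ne_zero_of_mul hs (hM _ _ hne)
    simpa using P.pc_exit _ _ (h1.trans h2)
theorem loc_mul {G G' : Matrix P.Site P.Site Ω} (hG : ∀ s t : P.Site, s.1 ≠ t.1 → G s t = 0) (i : P.I) :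
    P.loc (G * G') i = P.loc G i * P.loc G' i := by
  ext a b
  simp only [loc, Matrix.mul_apply, Matrix.of_apply]
  refine sum_slot _ i fun s hs => ?_
  by_contra hne
  exact left_ne_zero_of_mul hs (hG _ _ (Ne.symm hne))
theorem loc_one (i : P.I) : P.loc (1 : Matrix P.Site P.Site Ω) i = 1 := by
  ext a b
  simp [loc, Matrix.one_apply]
theorem push_mul (G G' : Matrix P.Site P.Site Ω) : P.push (G * G') = P.push G * P.push G' := by
  exact (Matrix.submatrix_mul_equiv G G' _ P.J.symm _).symm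
theorem push_one : P.push (1 : Matrix P.Site P.Site Ω) = 1 := by
  exact Matrix.submatrix_one_equiv _
theorem push_slot {G : Matrix P.Site P.Site Ω} (hG : ∀ s t, P.pc s ≠ P.pc t → G s t = 0)
    (s t : P.Site) (h : s.1 ≠ t.1) : P.push G s t = 0 := by
  refine hG _ _ fun hp => h ?_
  simpa using P.pc_exit' _ _ hp

end Prob

end Crest.Agent.R003
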