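import Crest.Agent.R003.Z2
import Crest.Agent.R003.LA

/-!
# Row 3: the class of matrix problems.

A problem is a family of cyclic words `X i, L i, X (nx i), L (nx i), ...` in `GL ι`, whose product
around every cycle of `nx` is `1` (recorded by frames `g`, `g (nx i) = g i * X i * L i`).
`X i` ("slot") is unipotent for the level function `lev (i, ·)`.
A *site* is a pair `(i, a)`; a *block* is a set of sites of one slot with the same level.
The letter `L i` is a direct sum of *pieces*; the rows of a piece are the sites with a given label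
`pc`.  A piece fixed by `tau` is a scalar `u` times a bijection, two pieces swapped by `tau` are
mutually inverse (up to the scalar `u`) matrices.  The permutation `J` of the sites identifies
the rows of the piece `tau p` with the columns of the piece `p`; all letters are stored in one
matrix `M`, `L i a b = M (i,a) (J⁻¹ (nx i, b))`.
The cycles of `J` (labelled by `z`) are the boundaries of the rank one discs.
-/

set_option autoImplicit false
set_option linter.unusedSectionVars false

namespace Crest.Agent.R003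

open Matrix

/-- same slot and same level -/
def Blk {I ι Λ : Type} (lev : I × ι → Λ) (s t : I × ι) : Prop := s.1 = t.1 ∧ lev s = lev t

instance {I ι Λ : Type} [DecidableEq I] [DecidableEq Λ] (lev : I × ι → Λ) (s t : I × ι) :
    Decidable (Blk lev s t) := inferInstanceAs (Decidable (_ ∧ _))

structure Prob (o : Type) [CommRing o] (ι : Type) where
  I : Type
  [fI : Fintype I]
  [dI : DecidableEq I]
  nx : Equiv.Perm I
  Λ : Type
  [loΛ : LinearOrder Λ]
  lev : I × ι → Λ
  J : Equiv.Perm (I × ι)
  Pc : Type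
  [dPc : DecidableEq Pc]
  pc : I × ι → Pc
  tau : Pc → Pc
  u : Pc → oˣ
  Z : Type
  [dZ : DecidableEq Z]
  z : I × ι → Z
  tau_tau : ∀ p, tau (tau p) = p
  u_tau : ∀ p, u (tau p) = u p
  pc_slot : ∀ s t, pc s = pc t → s.1 = t.1
  pc_exit : ∀ s t, pc s = tau (pc t) → (J t).1 = nx s.1
  pc_exit' : ∀ s t, pc s = pc t → (J s).1 = (J t).1
  blk_pc : ∀ s t, Blk lev s t → pc s = pc t
  blk_J : ∀ s t, Blk lev (J s) (J t) ↔ Blk lev s t
  lt_J : ∀ s t, pc s = pc t → lev s < lev t → lev (J s) < lev (J t)
  z_J : ∀ s, z (J s) = z s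
  z_cyc : ∀ s t, z s = z t → J.SameCycle s t
  z_inj : ∀ s t, Blk lev s t → z s = z t → s = t

attribute [instance] Prob.fI Prob.dI Prob.loΛ Prob.dPc Prob.dZ

namespace Prob

variable {o : Type} [CommRing o] {ι : Type} [Fintype ι] [DecidableEq ι] (P : Prob o ι)

abbrev Site : Type := P.I × ι

/-- level function of the slot `i` -/
abbrev lv (i : P.I) : ι → P.Λ := fun a => P.lev (i, a)

/-- size of the block of a site -/
def bsz (s : P.Site) : ℕ := (Finset.univ.filter fun t => Blk P.lev s t).card

/-- all blocks have size at most `n` -/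
def Le (n : ℕ) : Prop := ∀ s, P.bsz s ≤ n

/-- rank of the disc with label `ζ` -/
def zsz (ζ : P.Z) : ℕ := (Finset.univ.filter fun s => P.z s = ζ).sup P.bsz

/-- first potential -/
def Phi : ℕ := ∑ ζ ∈ Finset.univ.image P.z, (2 * Fintype.card ι + 2) ^ P.zsz ζ

/-- second potential: pairs of sites in the same piece but in different blocks -/
def fat : ℕ :=
  (Finset.univ.filter fun q : P.Site × P.Site => P.pc q.1 = P.pc q.2 ∧ ¬ Blk P.lev q.1 q.2).card

def Thin : Prop := ∀ s t, P.pc s = P.pc t → Blk P.lev s t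

/-- the row `s` and the column `t` (a site of the next slot) belong to the same piece -/
def Ex (s t : P.Site) : Prop := P.pc s = P.tau (P.pc (P.J.symm t))

/-- inversions: pairs of blocks of a slot whose order is reversed by the letter -/
def InvSet : Set (P.I × P.Λ × P.Λ) :=
  {x | ∃ a a' t t', P.lev (x.1, a) = x.2.1 ∧ P.lev (x.1, a') = x.2.2 ∧ x.2.1 < x.2.2 ∧
    P.Ex (x.1, a) t ∧ P.Ex (x.1, a') t' ∧ P.lev t' < P.lev t}

/-- third potential -/
noncomputable def inv : ℕ := P.InvSet.ncard

/-- the chosen first slot of the cycle of `i` -/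
noncomputable def st (i : P.I) : P.I := (Quotient.mk (Equiv.Perm.SameCycle.setoid P.nx) i).out

/-- distance from the first slot of the cycle -/
noncomputable def ht (i : P.I) : ℕ := sInf {k | (P.nx ^ k) (P.st i) = i}

/-- the last letter of a cycle -/
def Last (i : P.I) : Prop := P.nx i = P.st i

/-- fourth potential -/
noncomputable def wt : ℕ := ∑ᶠ x ∈ P.InvSet, (Fintype.card P.I - P.ht x.1)

variable (Ω : Type) [Field Ω] [Algebra o Ω]

/-- slots, letters, frames -/
abbrev Data : Type := (P.I → Matrix ι ι Ω) × Matrix P.Site P.Site Ω × (P.I → GL ι Ω)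

variable {Ω}

/-- the `i`-th letter -/
def L (M : Matrix P.Site P.Site Ω) (i : P.I) : Matrix ι ι Ω :=
  Matrix.of fun a b => M (i, a) (P.J.symm (P.nx i, b))

/-- the scalar of a piece -/
abbrev uu (Ω : Type) [Field Ω] [Algebra o Ω] (s : P.Site) : Ω := algebraMap o Ω (P.u (P.pc s) : o)

/-- solutions, with no condition (other than the support) on the pieces satisfying `act` -/
structure IsPre (act : P.Pc → Prop) (d : P.Data Ω) : Prop where
  uni : ∀ i, Uni (P.lv i) (d.1 i)
  supp : ∀ s t, P.pc s ≠ P.tau (P.pc t) → d.2.1 s t = 0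
  fix : ∀ s, ¬ act (P.pc s) → P.tau (P.pc s) = P.pc s → ∀ t,
    d.2.1 s t = if s = t then P.uu Ω s else 0
  sq : ∀ s, ¬ act (P.pc s) → P.tau (P.pc s) ≠ P.pc s → ∀ t,
    (d.2.1 * d.2.1) s t = if s = t then P.uu Ω s else 0
  fr : ∀ i, (d.2.2 (P.nx i) : Matrix ι ι Ω) = (d.2.2 i : Matrix ι ι Ω) * d.1 i * P.L d.2.1 i

def IsSol (d : P.Data Ω) : Prop := P.IsPre (fun _ => False) d

variable (Ω) in
abbrev Sol : Type := {d : P.Data Ω // P.IsSol d}

variable (Ω) in
/-- integral solutions are Zariski dense -/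
def Dense : Prop := ∀ s : P.Sol Ω, InZ o Ω s

/-- inverse of the `i`-th letter, computed from the frames -/
def Linv (d : P.Data Ω) (i : P.I) : Matrix ι ι Ω :=
  ((d.2.2 (P.nx i))⁻¹ : GL ι Ω) * (d.2.2 i : Matrix ι ι Ω) * d.1 i

/-- the part of a global matrix at slot `i` -/
def loc (G : Matrix P.Site P.Site Ω) (i : P.I) : Matrix ι ι Ω := Matrix.of fun a b => G (i, a) (i, b)

/-- transport of a global matrix along `J` -/
def push (G : Matrix P.Site P.Site Ω) : Matrix P.Site P.Site Ω := G.submatrix P.J.symm P.J.symm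

/-- gauge transformations: supported in the pieces, block upper triangular, with `J`-invariant
diagonal blocks -/
structure IsGauge (G : Matrix P.Site P.Site Ω) : Prop where
  supp : ∀ s t, P.pc s ≠ P.pc t → G s t = 0
  par : ∀ s t, P.lev t < P.lev s → G s t = 0
  inv : ∀ s t, Blk P.lev s t → G (P.J s) (P.J t) = G s t

/-- new pieces -/
def repiece (Pc : Type) [DecidableEq Pc] (pc : P.Site → Pc) (tau : Pc → Pc) (u : Pc → oˣ)
    (tau_tau : ∀ p, tau (tau p) = p) (u_tau : ∀ p, u (tau p) = u p)
    (h1 : ∀ s t, pc s = pc t → P.pc s = P.pc t)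
    (h2 : ∀ s t, pc s = tau (pc t) → P.pc s = P.tau (P.pc t))
    (h3 : ∀ s t, Blk P.lev s t → pc s = pc t) : Prob o ι where
  I := P.I
  nx := P.nx
  Λ := P.Λ
  lev := P.lev
  J := P.J
  Pc := Pc
  pc := pc
  tau := tau
  u := u
  Z := P.Z
  z := P.z
  tau_tau := tau_tau
  u_tau := u_tau
  pc_slot s t h := P.pc_slot s t (h1 s t h)
  pc_exit s t h := P.pc_exit s t (h2 s t h)
  pc_exit' s t h := P.pc_exit' s t (h1 s t h)
  blk_pc := h3
  blk_J := P.blk_J
  lt_J s t h := P.lt_J s t (h1 s t h)
  z_J := P.z_J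
  z_cyc := P.z_cyc
  z_inj := P.z_inj

/-- `a`, `b` represent two adjacent blocks of the slot `j`, with `a` below `b` -/
structure Adj (j : P.I) (a b : ι) : Prop where
  lt : P.lev (j, a) < P.lev (j, b)
  adj : ∀ c, ¬ (P.lev (j, a) < P.lev (j, c) ∧ P.lev (j, c) < P.lev (j, b))

/-- the previous letter reverses the order of the two blocks -/
def Bwd (j : P.I) (a b : ι) : Prop :=
  ∀ s s', P.Ex s (j, a) → P.Ex s' (j, b) → P.lev s' < P.lev s

/-- the letter `j` reverses the order of the two blocks -/
def Fwd (j : P.I) (a b : ι) : Prop :=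
  ∀ t t', P.Ex (j, a) t → P.Ex (j, b) t' → P.lev t' < P.lev t

/-- the letter `j` keeps the order of the two blocks -/
def NFwd (j : P.I) (a b : ι) : Prop :=
  ∀ t t', P.Ex (j, a) t → P.Ex (j, b) t' → P.lev t < P.lev t'

/-- the corner `y` of the slot `j`: rows in the block of `a`, columns in the block of `b` -/
def cor (j : P.I) (a b : ι) (x : Matrix ι ι Ω) : Matrix ι ι Ω :=
  mask (fun c => P.lev (j, c) = P.lev (j, a)) (fun c => P.lev (j, c) = P.lev (j, b)) x

/-- the indicator of the block of `a` in the slot `j` -/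
def ind (Ω : Type) [Field Ω] (j : P.I) (a : ι) : Matrix ι ι Ω :=
  Matrix.diagonal fun c => if P.lev (j, c) = P.lev (j, a) then 1 else 0

/-- the piece of `s` is a single block, its partner is not -/
structure Splittable (s : P.Site) : Prop where
  ne : P.tau (P.pc s) ≠ P.pc s
  single : ∀ t, P.pc t = P.pc s → Blk P.lev s t
  multi : ∃ t t', P.pc t = P.tau (P.pc s) ∧ P.pc t' = P.tau (P.pc s) ∧ ¬ Blk P.lev t t'

/-- data of a cell: a set of active pieces, an involution `ς` of the sites and signs -/
structure Cell where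
  act : P.Pc → Prop
  [dec : DecidablePred act]
  ς : Equiv.Perm P.Site
  ε : P.Site → oˣ
  act_tau : ∀ p, act (P.tau p) ↔ act p
  ς_ς : ∀ s, ς (ς s) = s
  ς_of_not : ∀ s, ¬ act (P.pc s) → ς s = s
  ς_pc : ∀ s, act (P.pc s) → P.pc (ς s) = P.tau (P.pc s)
  ς_blk : ∀ s, Blk P.lev s (ς s) → ς s = s
  ε_blk : ∀ s t, Blk P.lev s t → P.lev (ς s) = P.lev (ς t) → ε s = ε t
  card_le : (Finset.univ.filter fun s => act (P.pc s)).card ≤ 2 * Fintype.card ι

attribute [instance] Cell.dec

variable {P}

/-- size of the new block of an active site -/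
def Cell.nsz (C : P.Cell) (s : P.Site) : ℕ :=
  (Finset.univ.filter fun t => Blk P.lev s t ∧ P.lev (C.ς s) = P.lev (C.ς t)).card

/-- the model monomial matrix -/
def Cell.M0 (C : P.Cell) (Ω : Type) [Field Ω] [Algebra o Ω] : Matrix P.Site P.Site Ω :=
  Matrix.of fun s t => if t = C.ς s then algebraMap o Ω (C.ε s : o) else 0

/-- presolutions whose active rows are `ℓ M₀ ℓ⁻¹` with `ℓ` block diagonal -/
structure Cell.IsForm (C : P.Cell) (d : P.Data Ω) : Prop where
  pre : P.IsPre C.act d
  form : ∃ l l' : Matrix P.Site P.Site Ω, l * l' = 1 ∧ (∀ s t, ¬ Blk P.lev s t → l s t = 0) ∧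
    ∀ s t, C.act (P.pc s) → d.2.1 s t = (l * C.M0 Ω * l') s t

end Prob

end Crest.Agent.R003
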