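import Crest.Agent.R003.SepAux52
import Crest.Agent.R003.Defs2

/-! Row 3: spectral linear algebra: discriminant, diagonalisation, invariant flags. -/

set_option autoImplicit false
set_option linter.unusedSectionVars false

namespace Crest.Agent.R003

open Matrix

variable {o : Type} [CommRing o] {Ω : Type} [Field Ω] [Algebra o Ω] {κ : Type} [Fintype κ]
  [DecidableEq κ]

/-- (`Matrix.charpoly_coeff_eq_sum_minors`-like formula, or the universal matrix over
`MvPolynomial (κ × κ) ℤ` with `Matrix.charpoly_map` and `Good.aeval`) -/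
theorem good_charpoly_coeff {X : Type} [Coord Ω X] {f : X → Matrix κ κ Ω} (hf : Good o Ω f)
    (k : ℕ) : Good o Ω (fun x => (f x).charpoly.coeff k) := by
  obtain ⟨P, ev, h1, h2⟩ := h52_lift hf
  simp only [h2, Polynomial.coeff_map, h1]
  exact good_iff_mem.2 (P.coeff k).2

/-- discriminant (up to sign) of the characteristic polynomial -/
noncomputable def disc (A : Matrix κ κ Ω) : Ω :=
  Polynomial.resultant A.charpoly (Polynomial.derivative A.charpoly) (Fintype.card κ)
    (Fintype.card κ - 1)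

theorem good_disc {X : Type} [Coord Ω X] {f : X → Matrix κ κ Ω} (hf : Good o Ω f) :
    Good o Ω (fun x => disc (f x)) := by
  obtain ⟨P, ev, h1, h2⟩ := h52_lift hf
  convert good_iff_mem.2 (P.resultant (Polynomial.derivative P) (Fintype.card κ)
    (Fintype.card κ - 1)).2 with x
  rw [disc, h2, Polynomial.derivative_map, Polynomial.resultant_map_map, h1]

/-- (`Polynomial.isUnit_resultant_iff_isCoprime`; in characteristic zero the derivative has degree
`card κ - 1`) -/
theorem disc_ne_zero_iff [CharZero Ω] (A : Matrix κ κ Ω) : disc A ≠ 0 ↔ A.charpoly.Separable := by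
  rw [Polynomial.separable_def, ← Polynomial.isUnit_resultant_iff_isCoprime A.charpoly_monic,
    isUnit_iff_ne_zero, Polynomial.natDegree_derivative, charpoly_natDegree_eq_dim, disc]

/-- eigenvectors for distinct eigenvalues form a basis -/
theorem diag_of_charpoly {A : Matrix κ κ Ω} {t : κ → Ω} (ht : Function.Injective t)
    (h : A.charpoly = ∏ i, (Polynomial.X - Polynomial.C (t i))) :
    ∃ h : GL κ Ω, A = (h : Matrix κ κ Ω) * diagonal t * ((h⁻¹ : GL κ Ω) : Matrix κ κ Ω) := by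
  have h1 : ∀ i, ∃ v, v ≠ 0 ∧ A *ᵥ v = t i • v := fun i => by
    have h0 : A.charpoly.eval (t i) = 0 := by
      rw [h, Polynomial.eval_prod]
      exact Finset.prod_eq_zero (Finset.mem_univ i) (by simp)
    rw [eval_charpoly] at h0
    obtain ⟨v, hv, e⟩ := exists_mulVec_eq_zero_iff.2 h0
    refine ⟨v, hv, ?_⟩
    rw [sub_mulVec, sub_eq_zero] at e
    rw [← e]
    ext a
    simp [mulVec_diagonal]
  choose v hv e using h1
  obtain ⟨g, hg⟩ : IsUnit (Matrix.of v)ᵀ := linearIndependent_cols_iff_isUnit.1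
    (Module.End.eigenvectors_linearIndependent' (toLin' A) t ht v fun i =>
      ⟨Module.End.mem_eigenspace_iff.2 (e i), hv i⟩)
  refine ⟨g, (Units.eq_mul_inv_iff_mul_eq _).2 ?_⟩
  ext a i
  rw [hg, mul_diagonal, mul_comm]
  exact congrFun (e i) a

theorem diag_of_separable [IsAlgClosed Ω] {A : Matrix κ κ Ω} (h : A.charpoly.Separable) :
    ∃ (h : GL κ Ω) (t : κ → Ω), Function.Injective t ∧
      A = (h : Matrix κ κ Ω) * diagonal t * ((h⁻¹ : GL κ Ω) : Matrix κ κ Ω) := by
  classical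
  have hs := IsAlgClosed.splits A.charpoly
  have hn := Polynomial.nodup_roots h
  let e : κ ≃ A.charpoly.roots.toFinset := Fintype.equivOfCardEq (by
    rw [Fintype.card_coe, Multiset.toFinset_card_of_nodup hn, ← hs.natDegree_eq_card_roots,
      charpoly_natDegree_eq_dim])
  have ht : Function.Injective fun i => (e i : Ω) := Subtype.val_injective.comp e.injective
  obtain ⟨g, hg⟩ := diag_of_charpoly (A := A) ht (by
    rw [e.prod_comp fun r => Polynomial.X - Polynomial.C (r : Ω),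
      Finset.prod_coe_sort _ fun r : Ω => Polynomial.X - Polynomial.C r, Finset.prod,
      Multiset.toFinset_val, hn.dedup]
    exact hs.eq_prod_roots_of_monic A.charpoly_monic)
  exact ⟨g, _, ht, hg⟩

theorem separable_diag (h : GL κ Ω) {t : κ → Ω} (ht : Function.Injective t) :
    ((h : Matrix κ κ Ω) * diagonal t * ((h⁻¹ : GL κ Ω) : Matrix κ κ Ω)).charpoly.Separable := by
  rw [coe_units_inv, charpoly_units_conj, charpoly_diagonal]
  exact Polynomial.separable_prod_X_sub_C_iff.2 ht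

theorem comm_diag {t : κ → Ω} (ht : Function.Injective t) {Y : Matrix κ κ Ω}
    (h : Y * diagonal t = diagonal t * Y) : Y = diagonal fun i => Y i i := by
  ext i j
  rcases eq_or_ne i j with rfl | hij
  · simp
  have := congrFun (congrFun h i) j
  rw [mul_diagonal, diagonal_mul, mul_comm] at this
  rw [diagonal_apply_ne _ hij]
  by_contra h0
  exact hij (ht (mul_right_cancel₀ h0 this)).symm

/-- a matrix commuting with a matrix with separable characteristic polynomial is a polynomial in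
it (Lagrange interpolation) -/
theorem comm_separable [IsAlgClosed Ω] {b Y : Matrix κ κ Ω} (hb : b.charpoly.Separable)
    (h : Y * b = b * Y) : ∃ p : Polynomial Ω, Y = Polynomial.aeval b p := by
  classical
  obtain ⟨g, t, ht, e⟩ := diag_of_separable hb
  have e1 := (Units.eq_mul_inv_iff_mul_eq _).1 e
  have e2 : ((g⁻¹ : GL κ Ω) : Matrix κ κ Ω) * b = diagonal t * (g⁻¹ : GL κ Ω) := by
    rw [e, ← mul_assoc, ← mul_assoc, Units.inv_mul, one_mul]
  have e3 := comm_diag (Y := ((g⁻¹ : GL κ Ω) : Matrix κ κ Ω) * Y * g) ht (by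
    rw [mul_assoc, ← e1, ← mul_assoc, mul_assoc _ Y, h, ← mul_assoc, e2]
    simp only [mul_assoc])
  refine ⟨Lagrange.interpolate Finset.univ t fun i => (((g⁻¹ : GL κ Ω) : Matrix κ κ Ω) * Y * g) i i,
    (Units.mul_left_inj g).1 ?_⟩
  rw [h52_aeval e1]
  simp only [Lagrange.eval_interpolate_at_node _ ht.injOn (Finset.mem_univ _)]
  rw [← e3, ← mul_assoc, ← mul_assoc, Units.mul_inv, one_mul]

/-- matrices with separable characteristic polynomial are dense (line to a diagonal matrix with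
distinct entries; `disc` along the line is a nonzero polynomial function) -/
theorem Cl_separable [CharZero Ω] (A : Matrix κ κ Ω) :
    A ∈ Cl Ω {B : Matrix κ κ Ω | B.charpoly.Separable} := by
  have ht : Function.Injective fun i => ((Fintype.equivFin κ i : ℕ) : Ω) :=
    Nat.cast_injective.comp (Fin.val_injective.comp (Fintype.equivFin κ).injective)
  obtain ⟨D, hD⟩ : ∃ D : Matrix κ κ Ω, disc D ≠ 0 :=
    ⟨_, (disc_ne_zero_iff _).2 (separable_diag 1 ht)⟩
  have hγ : Good Ω Ω fun s : Ω => A + s • (D - A) :=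
    (Good.const' A).madd (Good.id.msmul (Good.const' _))
  have hi : {s : Ω | disc (A + s • (D - A)) ≠ 0}.Infinite := fun hf => hD (by
    simpa using Cl.eq_zero (Cl_of_infinite hf.infinite_compl 1) (good_disc hγ)
      fun s hs => not_not.1 hs)
  simpa using hγ.map_Cl (T := {B : Matrix κ κ Ω | B.charpoly.Separable})
    (fun s hs => subset_Cl _ ((disc_ne_zero_iff _).1 hs)) (Cl_of_infinite hi 0)

/-- irreducible family of matrices (or `κ` empty) -/
def Irr {J : Type} (A : J → Matrix κ κ Ω) : Prop :=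
  ∀ W : Submodule Ω (κ → Ω), (∀ j, ∀ v ∈ W, A j *ᵥ v ∈ W) → W = ⊥ ∨ W = ⊤

theorem Sepb_eig [IsAlgClosed Ω] {Y : Matrix κ κ Ω} {V : Submodule Ω (κ → Ω)} (hV : V ≠ ⊥)
    (hY : ∀ v ∈ V, Y *ᵥ v ∈ V) : ∃ c : Ω, ∃ v ∈ V, v ≠ 0 ∧ Y *ᵥ v = c • v := by
  have : Nontrivial V := Submodule.nontrivial_iff_ne_bot.mpr hV
  let f : Module.End Ω V := (Matrix.toLin' Y).restrict (p := V) (q := V) (fun v hv => hY v hv)
  obtain ⟨c, hc⟩ := Module.End.exists_eigenvalue f
  obtain ⟨v, hv⟩ := hc.exists_hasEigenvector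
  refine ⟨c, v, v.2, fun h0 => hv.2 (Subtype.ext h0), ?_⟩
  have := congrArg Subtype.val hv.apply_eq_smul
  exact this

/-- the `c`-eigenspace of `Y` -/
def Sepb_eigs (Y : Matrix κ κ Ω) (c : Ω) : Submodule Ω (κ → Ω) where
  carrier := {v | Y *ᵥ v = c • v}
  add_mem' := fun {a b} ha hb => by
    simp only [Set.mem_ofPred_eq] at ha hb ⊢
    rw [mulVec_add, ha, hb, smul_add]
  zero_mem' := by simp
  smul_mem' := fun t a ha => by
    simp only [Set.mem_ofPred_eq] at ha ⊢
    rw [mulVec_smul, ha, smul_comm]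

theorem Sepb_eigs_inv {Y B : Matrix κ κ Ω} (h : Y * B = B * Y) (c : Ω) :
    ∀ v ∈ Sepb_eigs Y c, B *ᵥ v ∈ Sepb_eigs Y c := by
  intro v hv
  change Y *ᵥ v = c • v at hv
  change Y *ᵥ (B *ᵥ v) = c • (B *ᵥ v)
  rw [mulVec_mulVec, h, ← mulVec_mulVec, hv, mulVec_smul]

/-- vectors supported on the level `n` -/
def Sepb_lev (Ω : Type) [Field Ω] (l : κ → ℕ) (n : ℕ) : Submodule Ω (κ → Ω) where
  carrier := {v | ∀ a, l a ≠ n → v a = 0}
  add_mem' := fun {a b} ha hb i hi => by
    rw [Pi.add_apply, ha i hi, hb i hi, add_zero]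
  zero_mem' := fun _ _ => rfl
  smul_mem' := fun t a ha i hi => by
    rw [Pi.smul_apply, ha i hi, smul_zero]

theorem Sepb_lev_inv {l : κ → ℕ} {Y : Matrix κ κ Ω} (h : BD l Y) (n : ℕ) :
    ∀ v ∈ Sepb_lev Ω l n, Y *ᵥ v ∈ Sepb_lev Ω l n := by
  intro v hv a ha
  change ∑ b, Y a b * v b = 0
  refine Finset.sum_eq_zero fun b _ => ?_
  by_cases hb : l b = n
  · rw [h a b (hb ▸ ha), zero_mul]
  · rw [hv b hb, mul_zero]

/-- Schur's lemma (an eigenspace is invariant) -/
theorem Irr.schur [IsAlgClosed Ω] {J : Type} {A : J → Matrix κ κ Ω} (h : Irr A) {Y : Matrix κ κ Ω}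
    (hY : ∀ j, Y * A j = A j * Y) : ∃ c : Ω, Y = c • (1 : Matrix κ κ Ω) := by
  by_cases h0 : (⊤ : Submodule Ω (κ → Ω)) = ⊥
  · refine ⟨0, ?_⟩
    ext a b
    have : (Pi.single a 1 : κ → Ω) ∈ (⊥ : Submodule Ω (κ → Ω)) := h0 ▸ Submodule.mem_top
    have := congrFun ((Submodule.mem_bot Ω).1 this) a
    simp at this
  obtain ⟨c, v, -, hv0, hv⟩ := Sepb_eig (Y := Y) h0 (fun _ _ => Submodule.mem_top)
  refine ⟨c, ?_⟩
  rcases h (Sepb_eigs Y c) (fun j => Sepb_eigs_inv (hY j) c) with h1 | h1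
  · have : v ∈ Sepb_eigs Y c := hv
    rw [h1] at this
    exact (hv0 ((Submodule.mem_bot Ω).1 this)).elim
  · ext a b
    have : (Pi.single b 1 : κ → Ω) ∈ Sepb_eigs Y c := h1 ▸ Submodule.mem_top
    change Y *ᵥ _ = _ at this
    have := congrFun this a
    simpa [Matrix.one_apply, Pi.single_apply] using this

theorem Irr.conj {J : Type} {A : J → Matrix κ κ Ω} (h : Irr A) (g : GL κ Ω) :
    Irr fun j => ((g⁻¹ : GL κ Ω) : Matrix κ κ Ω) * A j * (g : Matrix κ κ Ω) := by
  intro W hW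
  have e1 : ∀ w : κ → Ω, ((g⁻¹ : GL κ Ω) : Matrix κ κ Ω) *ᵥ ((g : Matrix κ κ Ω) *ᵥ w) = w := by
    intro w
    rw [mulVec_mulVec, ← Units.val_mul, inv_mul_cancel, Units.val_one, one_mulVec]
  have e2 : ∀ w : κ → Ω, (g : Matrix κ κ Ω) *ᵥ (((g⁻¹ : GL κ Ω) : Matrix κ κ Ω) *ᵥ w) = w := by
    intro w
    rw [mulVec_mulVec, ← Units.val_mul, mul_inv_cancel, Units.val_one, one_mulVec]
  have hm : ∀ v, v ∈ W.comap (Matrix.toLin' ((g⁻¹ : GL κ Ω) : Matrix κ κ Ω)) ↔
      ((g⁻¹ : GL κ Ω) : Matrix κ κ Ω) *ᵥ v ∈ W := fun v => Iff.rfl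
  rcases h (W.comap (Matrix.toLin' ((g⁻¹ : GL κ Ω) : Matrix κ κ Ω))) (fun j v hv => by
    rw [hm] at hv ⊢
    have := hW j _ hv
    rwa [← mulVec_mulVec, ← mulVec_mulVec, e2] at this) with h1 | h1
  · left
    refine (Submodule.eq_bot_iff _).2 fun w hw => ?_
    have : (g : Matrix κ κ Ω) *ᵥ w ∈ W.comap (Matrix.toLin' ((g⁻¹ : GL κ Ω) : Matrix κ κ Ω)) := by
      rw [hm, e1]; exact hw
    rw [h1, Submodule.mem_bot] at this
    rw [← e1 w, this, mulVec_zero]
  · right
    refine Submodule.eq_top_iff'.2 fun w => ?_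
    have : (g : Matrix κ κ Ω) *ᵥ w ∈ W.comap (Matrix.toLin' ((g⁻¹ : GL κ Ω) : Matrix κ κ Ω)) :=
      h1 ▸ Submodule.mem_top
    rwa [hm, e1] at this

/-- reduced echelon basis of a subspace of `κ → Ω` -/
theorem Sepb_echelon (W : Submodule Ω (κ → Ω)) : ∃ (S : Finset κ) (w : κ → κ → Ω),
    (∀ v ∈ W, (∀ t ∈ S, v t = 0) → v = 0) ∧ (∀ s ∈ S, w s ∈ W) ∧
      ∀ s ∈ S, ∀ t ∈ S, w s t = if t = s then 1 else 0 := by
  classical
  obtain ⟨S, hS, hmin⟩ := Finset.exists_min_image
    (Finset.univ.filter fun S : Finset κ => ∀ v ∈ W, (∀ t ∈ S, v t = 0) → v = 0) Finset.card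
    ⟨Finset.univ, Finset.mem_filter.2 ⟨Finset.mem_univ _, fun v _ hv =>
      funext fun t => hv t (Finset.mem_univ _)⟩⟩
  have hS' := (Finset.mem_filter.1 hS).2
  have key : ∀ s, ∃ w : κ → Ω, s ∈ S → w ∈ W ∧ ∀ t ∈ S, w t = if t = s then 1 else 0 := by
    intro s
    by_cases hs : s ∈ S
    · have : ¬ ∀ v ∈ W, (∀ t ∈ S.erase s, v t = 0) → v = 0 := fun h =>
        (hmin _ (Finset.mem_filter.2 ⟨Finset.mem_univ _, h⟩)).not_gt
          (Finset.card_erase_lt_of_mem hs)
      push Not at this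
      obtain ⟨v, hv, hv1, hv0⟩ := this
      have hvs : v s ≠ 0 := fun h => hv0 (hS' v hv fun t ht => by
        by_cases hts : t = s
        · rw [hts, h]
        · exact hv1 t (Finset.mem_erase.2 ⟨hts, ht⟩))
      refine ⟨(v s)⁻¹ • v, fun _ => ⟨W.smul_mem _ hv, fun t ht => ?_⟩⟩
      rw [Pi.smul_apply, smul_eq_mul]
      split_ifs with hts
      · rw [hts, inv_mul_cancel₀ hvs]
      · rw [hv1 t (Finset.mem_erase.2 ⟨hts, ht⟩), mul_zero]
    · exact ⟨0, fun h => (hs h).elim⟩
  choose w hw using key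
  exact ⟨S, w, hS', fun s hs => (hw s hs).1, fun s hs => (hw s hs).2⟩

/-- Refinement of an invariant flag: `W` is a proper nonzero subspace of the level `n`, invariant
under the block diagonal parts.  Change the basis of the level `n` to a basis adapted to `W`
(a block diagonal matrix `g`), `l' a = 2 * l a + (0 or 1)`. -/
theorem flag_refine {J : Type} {A : J → Matrix κ κ Ω} {l : κ → ℕ} (hA : ∀ j, Par l (A j)) (n : ℕ)
    (W : Submodule Ω (κ → Ω)) (hW : ∀ v ∈ W, ∀ a, l a ≠ n → v a = 0) (h0 : W ≠ ⊥)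
    (h1 : ∃ v : κ → Ω, (∀ a, l a ≠ n → v a = 0) ∧ v ∉ W)
    (hinv : ∀ j, ∀ v ∈ W, dpart l (A j) *ᵥ v ∈ W) :
    ∃ (g : GL κ Ω) (l' : κ → ℕ),
      (∀ j, Par l' (((g⁻¹ : GL κ Ω) : Matrix κ κ Ω) * A j * (g : Matrix κ κ Ω))) ∧
      (Finset.univ.image l).card < (Finset.univ.image l').card := by
  classical
  obtain ⟨S, w, hS, hw, hδ⟩ := Sepb_echelon W
  have hlS : ∀ s ∈ S, l s = n := fun s hs => by
    by_contra hne
    have := hW _ (hw s hs) s hne
    rw [hδ s hs s hs, if_pos rfl] at this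
    exact one_ne_zero this
  -- the combination of the `w s` with the coordinates of `v`
  have hcomb : ∀ v : κ → Ω, (∑ s ∈ S, v s • w s) ∈ W ∧ ∀ t ∈ S, (∑ s ∈ S, v s • w s) t = v t := by
    intro v
    refine ⟨W.sum_mem fun s hs => W.smul_mem _ (hw s hs), fun t ht => ?_⟩
    rw [Finset.sum_apply, Finset.sum_eq_single t]
    · rw [Pi.smul_apply, hδ t ht t ht, if_pos rfl, smul_eq_mul, mul_one]
    · intro s hs hst
      rw [Pi.smul_apply, hδ s hs t ht, if_neg (Ne.symm hst), smul_zero]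
    · exact fun h => (h ht).elim
  have hrep : ∀ v ∈ W, v = ∑ s ∈ S, v s • w s := fun v hv =>
    sub_eq_zero.1 (hS _ (W.sub_mem hv (hcomb v).1) fun t ht => by
      rw [Pi.sub_apply, (hcomb v).2 t ht, sub_self])
  let N : Matrix κ κ Ω := Matrix.of fun a b => if b ∈ S ∧ a ∉ S then w b a else 0
  have hNN : N * N = 0 := by
    ext a b
    rw [Matrix.mul_apply, Matrix.zero_apply]
    refine Finset.sum_eq_zero fun c _ => ?_
    by_cases hc : c ∈ S
    · have : N c b = 0 := if_neg fun h => h.2 hc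
      rw [this, mul_zero]
    · have : N a c = 0 := if_neg fun h => hc h.1
      rw [this, zero_mul]
  have hN : BD l N := fun a b hab => by
    change (if b ∈ S ∧ a ∉ S then w b a else 0) = 0
    split_ifs with h
    · exact hW _ (hw b h.1) a (hlS b h.1 ▸ hab)
    · rfl
  have h1BD : BD l (1 : Matrix κ κ Ω) := fun a b hab => one_apply_ne fun e => hab (e ▸ rfl)
  have hp : BD l (1 + N) := fun a b hab => by
    rw [Matrix.add_apply, h1BD a b hab, hN a b hab, add_zero]
  have hq : BD l (1 - N) := fun a b hab => by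
    rw [Matrix.sub_apply, h1BD a b hab, hN a b hab, sub_zero]
  let g : GL κ Ω := ⟨1 + N, 1 - N, by
      rw [add_mul, mul_sub, mul_sub, hNN]; simp, by
      rw [sub_mul, mul_add, mul_add, hNN]; simp⟩
  have hg : (g : Matrix κ κ Ω) = 1 + N := rfl
  have hg' : ((g⁻¹ : GL κ Ω) : Matrix κ κ Ω) = 1 - N := rfl
  have hcol : ∀ b ∈ S, (1 + N) *ᵥ (Pi.single b 1 : κ → Ω) = w b := fun b hb => by
    funext a
    rw [mulVec_single_one]
    change (1 : Matrix κ κ Ω) a b + (if b ∈ S ∧ a ∉ S then w b a else 0) = w b a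
    by_cases ha : a ∈ S
    · rw [if_neg fun h => h.2 ha, add_zero, hδ b hb a ha, Matrix.one_apply]
    · rw [if_pos ⟨hb, ha⟩, one_apply_ne fun e : a = b => ha (e ▸ hb), zero_add]
  have hrow : ∀ v ∈ W, ∀ a, a ∉ S → ((1 - N) *ᵥ v) a = 0 := fun v hv a ha => by
    rw [sub_mulVec, one_mulVec, Pi.sub_apply, sub_eq_zero]
    conv_lhs => rw [hrep v hv]
    rw [Finset.sum_apply]
    change _ = ∑ b, (if b ∈ S ∧ a ∉ S then w b a else 0) * v b
    rw [← Finset.sum_subset (Finset.subset_univ S)]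
    · refine Finset.sum_congr rfl fun b hb => ?_
      rw [if_pos ⟨hb, ha⟩, Pi.smul_apply, smul_eq_mul, mul_comm]
    · intro b _ hb
      rw [if_neg fun h => hb h.1, zero_mul]
  refine ⟨g, fun a => 2 * l a + if l a = n ∧ a ∉ S then 1 else 0, fun j a b hab => ?_, ?_⟩
  · rw [hg, hg']
    have hpar : Par l ((1 - N) * A j * (1 + N)) := (hq.par.mul (hA j)).mul hp.par
    rcases lt_trichotomy (l b) (l a) with h | h | h
    · exact hpar a b h
    · have ha : l a = n ∧ a ∉ S := by
        by_contra hne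
        simp only [if_neg hne, h] at hab
        omega
      have hb : b ∈ S := by
        by_contra hne
        simp only [h, if_pos ha, if_pos (And.intro ha.1 hne)] at hab
        omega
      have e : ((1 - N) * A j * (1 + N)) a b = dpart l ((1 - N) * A j * (1 + N)) a b :=
        (if_pos h.symm).symm
      rw [e, (hq.par.mul (hA j)).dpart_mul hp.par, hq.par.dpart_mul (hA j), hq.dpart_eq,
        hp.dpart_eq]
      have := hrow _ (hinv j _ (hw b hb)) a ha.2
      rw [← hcol b hb, mulVec_mulVec, mulVec_mulVec, mulVec_single_one] at this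
      exact this
    · exfalso
      simp only at hab
      split_ifs at hab <;> omega
  · have himg : Finset.univ.image l = (Finset.univ.image
        fun a => 2 * l a + if l a = n ∧ a ∉ S then 1 else 0).image (· / 2) := by
      rw [Finset.image_image]
      refine Finset.image_congr fun a _ => ?_
      simp only [Function.comp]
      split_ifs <;> omega
    rw [himg]
    refine lt_of_le_of_ne Finset.card_image_le fun hc => ?_
    have hinj := Finset.card_image_iff.1 hc
    obtain ⟨s, hs⟩ : S.Nonempty := by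
      by_contra hne
      rw [Finset.not_nonempty_iff_eq_empty] at hne
      exact h0 ((Submodule.eq_bot_iff _).2 fun v hv => hS v hv (by simp [hne]))
    obtain ⟨t, ht, htS⟩ : ∃ t, l t = n ∧ t ∉ S := by
      by_contra hne
      push Not at hne
      obtain ⟨v, hv, hvW⟩ := h1
      refine hvW ?_
      have : v = ∑ s ∈ S, v s • w s := funext fun a => by
        by_cases ha : l a = n
        · exact ((hcomb v).2 a (hne a ha)).symm
        · rw [hv a ha, hW _ (hcomb v).1 a ha]
      rw [this]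
      exact (hcomb v).1
    have := hinj (Finset.mem_coe.2 (Finset.mem_image_of_mem _ (Finset.mem_univ s)))
      (Finset.mem_coe.2 (Finset.mem_image_of_mem _ (Finset.mem_univ t))) (by
        simp only [hlS s hs, ht, hs, htS, not_true, not_false_iff, and_true, and_false, if_true,
          if_false]
        omega)
    simp only [hlS s hs, ht, hs, htS, not_true, not_false_iff, and_true, and_false, if_true,
      if_false] at this
    omega

/-- A composition series: take `(g, l)` with the greatest number of levels and use `flag_refine`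
(with an eigenspace of `Y` in one level). -/
theorem exists_flag [IsAlgClosed Ω] {J : Type} (A : J → Matrix κ κ Ω) :
    ∃ (g : GL κ Ω) (l : κ → ℕ),
      (∀ j, Par l (((g⁻¹ : GL κ Ω) : Matrix κ κ Ω) * A j * (g : Matrix κ κ Ω))) ∧
      (∀ Y : Matrix κ κ Ω, BD l Y →
        (∀ j, Y * dpart l (((g⁻¹ : GL κ Ω) : Matrix κ κ Ω) * A j * (g : Matrix κ κ Ω)) =
          dpart l (((g⁻¹ : GL κ Ω) : Matrix κ κ Ω) * A j * (g : Matrix κ κ Ω)) * Y) →
        ∃ c : ℕ → Ω, Y = diagonal fun a => c (l a)) ∧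
      (¬ Irr A → ∃ a b, l a ≠ l b) := by
  classical
  let T : Set ℕ := {k | ∃ (g : GL κ Ω) (l : κ → ℕ),
    (∀ j, Par l (((g⁻¹ : GL κ Ω) : Matrix κ κ Ω) * A j * (g : Matrix κ κ Ω))) ∧
      (Finset.univ.image l).card = k}
  have hne : T.Nonempty := ⟨_, 1, fun _ => 0, fun j a b h => (lt_irrefl _ h).elim, rfl⟩
  have hbdd : BddAbove T := ⟨Fintype.card κ, by
    rintro _ ⟨g, l, -, rfl⟩
    exact Finset.card_image_le⟩
  obtain ⟨g, l, hpar, hk⟩ := Nat.sSup_mem hne hbdd
  have R : ∀ (n : ℕ) (W : Submodule Ω (κ → Ω)), (∀ v ∈ W, ∀ a, l a ≠ n → v a = 0) → W ≠ ⊥ →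
      (∀ j, ∀ v ∈ W,
        dpart l (((g⁻¹ : GL κ Ω) : Matrix κ κ Ω) * A j * (g : Matrix κ κ Ω)) *ᵥ v ∈ W) →
      ∀ v : κ → Ω, (∀ a, l a ≠ n → v a = 0) → v ∈ W := by
    intro n W hW h0 hinv v hv
    by_contra hvW
    obtain ⟨g', l', h1, h2⟩ := flag_refine hpar n W hW h0 ⟨v, hv, hvW⟩ hinv
    have : (Finset.univ.image l').card ∈ T := ⟨g * g', l', fun j => by
      have := h1 j
      rw [_root_.mul_inv_rev, Units.val_mul, Units.val_mul]
      simpa only [Matrix.mul_assoc] using this, rfl⟩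
    exact (le_csSup hbdd this).not_gt (hk ▸ h2)
  refine ⟨g, l, hpar, fun Y hY hc => ?_, fun hirr => ?_⟩
  · have key : ∀ n, ∃ c : Ω, ∀ v ∈ Sepb_lev Ω l n, Y *ᵥ v = c • v := by
      intro n
      by_cases h0 : Sepb_lev Ω l n = ⊥
      · refine ⟨0, fun v hv => ?_⟩
        rw [h0, Submodule.mem_bot] at hv
        rw [hv, mulVec_zero, smul_zero]
      obtain ⟨c, v, hv, hv0, hvc⟩ := Sepb_eig h0 (Sepb_lev_inv hY n)
      refine ⟨c, fun u hu => (R n (Sepb_lev Ω l n ⊓ Sepb_eigs Y c) (fun v hv => hv.1)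
        (fun h => hv0 ?_) (fun j v hv => ⟨Sepb_lev_inv (dpart_bd _) n v hv.1,
          Sepb_eigs_inv (hc j) c v hv.2⟩) u hu).2⟩
      have : v ∈ Sepb_lev Ω l n ⊓ Sepb_eigs Y c := ⟨hv, hvc⟩
      rwa [h, Submodule.mem_bot] at this
    choose c hc using key
    refine ⟨c, ?_⟩
    ext a b
    have := congrFun (hc (l b) (Pi.single b 1) fun t ht =>
      Pi.single_eq_of_ne (fun e : t = b => ht (e ▸ rfl)) _) a
    rw [mulVec_single_one] at this
    change Y a b = _ at this
    rw [this, diagonal_apply, Pi.smul_apply, Pi.single_apply]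
    split_ifs with h
    · rw [h, smul_eq_mul, mul_one]
    · rw [smul_zero]
  · by_contra hl
    push Not at hl
    apply hirr
    have hB : Irr fun j => ((g⁻¹ : GL κ Ω) : Matrix κ κ Ω) * A j * (g : Matrix κ κ Ω) := by
      intro W hW
      by_cases h0 : W = ⊥
      · exact Or.inl h0
      right
      obtain ⟨v, -, hv0⟩ := (Submodule.ne_bot_iff _).1 h0
      obtain ⟨a, -⟩ := Function.ne_iff.1 hv0
      refine Submodule.eq_top_iff'.2 fun u => R (l a) W (fun v _ b hb => (hb (hl b a)).elim) h0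
        (fun j v hv => ?_) u (fun b hb => (hb (hl b a)).elim)
      have : BD l (((g⁻¹ : GL κ Ω) : Matrix κ κ Ω) * A j * (g : Matrix κ κ Ω)) :=
        fun a b hab => (hab (hl a b)).elim
      rw [this.dpart_eq]
      exact hW j v hv
    have := hB.conj g⁻¹
    have e : (fun j => (((g⁻¹)⁻¹ : GL κ Ω) : Matrix κ κ Ω) *
        (((g⁻¹ : GL κ Ω) : Matrix κ κ Ω) * A j * (g : Matrix κ κ Ω)) *
        ((g⁻¹ : GL κ Ω) : Matrix κ κ Ω)) = A := by
      funext j
      rw [inv_inv, ← Matrix.mul_assoc, ← Matrix.mul_assoc, ← Units.val_mul, mul_inv_cancel,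
        Units.val_one, Matrix.one_mul, Matrix.mul_assoc, ← Units.val_mul, mul_inv_cancel,
        Units.val_one, Matrix.mul_one]
    rwa [e] at this

/-- simultaneous triangularisation of a commuting family (from `exists_flag`: the diagonal parts
are block scalars, so every block diagonal matrix is a block scalar, so the blocks are points) -/
theorem exists_triang [IsAlgClosed Ω] {J : Type} (A : J → Matrix κ κ Ω)
    (hA : ∀ i j, A i * A j = A j * A i) :
    ∃ (g : GL κ Ω) (l : κ → ℕ), Function.Injective l ∧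
      ∀ j, Par l (((g⁻¹ : GL κ Ω) : Matrix κ κ Ω) * A j * (g : Matrix κ κ Ω)) := by
  obtain ⟨g, l, hpar, hsc, -⟩ := exists_flag A
  refine ⟨g, l, fun a b hab => ?_, hpar⟩
  have e : ∀ i j, (((g⁻¹ : GL κ Ω) : Matrix κ κ Ω) * A i * (g : Matrix κ κ Ω)) *
      (((g⁻¹ : GL κ Ω) : Matrix κ κ Ω) * A j * (g : Matrix κ κ Ω)) =
      ((g⁻¹ : GL κ Ω) : Matrix κ κ Ω) * (A i * A j) * (g : Matrix κ κ Ω) := by
    intro i j
    have : (g : Matrix κ κ Ω) * ((g⁻¹ : GL κ Ω) : Matrix κ κ Ω) = 1 := by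
      rw [← Units.val_mul, mul_inv_cancel, Units.val_one]
    simp only [Matrix.mul_assoc]
    rw [← Matrix.mul_assoc (g : Matrix κ κ Ω), this, Matrix.one_mul]
  have hd : ∀ i, ∃ c : ℕ → Ω,
      dpart l (((g⁻¹ : GL κ Ω) : Matrix κ κ Ω) * A i * (g : Matrix κ κ Ω)) =
        diagonal fun a => c (l a) := fun i => hsc _ (dpart_bd _) fun j => by
    rw [← (hpar i).dpart_mul (hpar j), ← (hpar j).dpart_mul (hpar i), e, e, hA]
  obtain ⟨c, hc⟩ := hsc (diagonal (Pi.single a 1))
    (fun s t hst => diagonal_apply_ne _ fun e => hst (e ▸ rfl)) fun j => by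
      obtain ⟨c, hc⟩ := hd j
      rw [hc, diagonal_mul_diagonal, diagonal_mul_diagonal]
      simp only [mul_comm]
  by_contra hne
  have h1 := congrFun (diagonal_injective hc) a
  have h2 := congrFun (diagonal_injective hc) b
  rw [Pi.single_eq_same] at h1
  rw [Pi.single_eq_of_ne (Ne.symm hne), ← hab, ← h1] at h2
  exact zero_ne_one h2

end Crest.Agent.R003
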