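import Crest.Agent.R003.Defs2

/-! Row 3: auxiliary lemmas for `Sep.lean` (characteristic polynomial, diagonalisation). -/

set_option autoImplicit false
set_option linter.unusedSectionVars false

namespace Crest.Agent.R003

open Matrix Polynomial

variable {o : Type} [CommRing o] {Ω : Type} [Field Ω] [Algebra o Ω] {κ : Type} [Fintype κ]
  [DecidableEq κ]

/-- a good matrix valued map is a matrix over the ring of good functions -/
theorem h52_lift {X : Type} [Coord Ω X] {f : X → Matrix κ κ Ω} (hf : Good o Ω f) :
    ∃ (P : Polynomial (GA o Ω X)) (ev : X → GA o Ω X →+* Ω), (∀ x a, ev x a = a.1 x) ∧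
      ∀ x, (f x).charpoly = P.map (ev x) :=
  ⟨(Matrix.of fun i j => (⟨fun x => f x i j, good_iff_mem.1 (hf.entry i j)⟩ : GA o Ω X)).charpoly,
    fun x => (Pi.evalRingHom (fun _ : X => Ω) x).comp (GA o Ω X).val.toRingHom, fun _ _ => rfl,
    fun _ => by rw [← charpoly_map]; rfl⟩

theorem h52_aeval {b h : Matrix κ κ Ω} {t : κ → Ω} (e : b * h = h * diagonal t) (p : Polynomial Ω) :
    aeval b p * h = h * diagonal fun i => p.eval (t i) := by
  induction p using Polynomial.induction_on with
  | C a => simp [Algebra.algebraMap_eq_smul_one, ← smul_one_eq_diagonal]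
  | add p q hp hq => simp only [map_add, add_mul, hp, hq, eval_add, ← mul_add, diagonal_add]
  | monomial n a ih =>
    rw [pow_succ', mul_left_comm, map_mul, aeval_X, Matrix.mul_assoc, ih, ← Matrix.mul_assoc, e,
      Matrix.mul_assoc, diagonal_mul_diagonal]
    simp only [eval_mul, eval_X]

end Crest.Agent.R003
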