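import Crest.Agent.R003.Gauge

/-! Row 3: splitting a disc. -/

set_option autoImplicit false
set_option linter.unusedSectionVars false

namespace Crest.Agent.R003

open Matrix

namespace Prob

variable {o : Type} [CommRing o] {ι : Type} [Fintype ι] [DecidableEq ι] {P : Prob o ι}
  {Ω : Type} [Field Ω] [Algebra o Ω]

variable (P) in
/-- refine the levels: the labels in `K` go up -/
def refine (K : P.Z → Prop) [DecidablePred K] : Prob o ι where
  I := P.I
  nx := P.nx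
  Λ := P.Λ ×ₗ Bool
  lev s := toLex (P.lev s, decide (K (P.z s)))
  J := P.J
  Pc := P.Pc
  pc := P.pc
  tau := P.tau
  u := P.u
  Z := P.Z
  z := P.z
  tau_tau := P.tau_tau
  u_tau := P.u_tau
  pc_slot := P.pc_slot
  pc_exit := P.pc_exit
  pc_exit' := P.pc_exit'
  blk_pc s t h := P.blk_pc s t ⟨h.1, congrArg (fun x => (ofLex x).1) h.2⟩
  blk_J s t := by
    have := P.blk_J s t
    simp only [Blk, toLex_inj, Prod.mk.injEq, P.z_J] at this ⊢
    tauto
  lt_J s t h h' := by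
    rw [Prod.Lex.toLex_lt_toLex] at h' ⊢
    rcases h' with h' | ⟨h1, h2⟩
    · exact Or.inl (P.lt_J s t h h')
    · exact Or.inr ⟨((P.blk_J s t).2 ⟨P.pc_slot s t h, h1⟩).2, by simpa [P.z_J] using h2⟩
  z_J := P.z_J
  z_cyc := P.z_cyc
  z_inj s t h := P.z_inj s t ⟨h.1, congrArg (fun x => (ofLex x).1) h.2⟩

variable (P) in
/-- the upper halves of the piece of `s₀` and of its partner -/
def side (s₀ t₁ : P.Site) (K : P.Z → Prop) [DecidablePred K] (s : P.Site) : Bool :=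
  decide ((P.pc s = P.pc s₀ ∧ K (P.z s)) ∨ (P.pc s = P.tau (P.pc s₀) ∧ ¬ Blk P.lev t₁ s))

variable (P) in
/-- the split problem -/
def splitP (s₀ t₁ : P.Site) (K : P.Z → Prop) [DecidablePred K] : Prob o ι :=
  (P.refine K).repiece (P.Pc × Bool) (fun s => (P.pc s, P.side s₀ t₁ K s))
    (fun c => (P.tau c.1, c.2)) (fun c => P.u c.1) (fun c => by simp [P.tau_tau])
    (fun c => P.u_tau c.1) (fun _ _ h => congrArg Prod.fst h) (fun _ _ h => congrArg Prod.fst h)
    (fun s t h => by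
      have h1 : Blk P.lev s t := ⟨h.1, congrArg (fun x => (ofLex x).1) h.2⟩
      have h2 : decide (K (P.z s)) = decide (K (P.z t)) := congrArg (fun x => (ofLex x).2) h.2
      have h3 : Blk P.lev t₁ s ↔ Blk P.lev t₁ t :=
        ⟨fun h => blk_trans h h1, fun h => blk_trans h (blk_symm h1)⟩
      have h4 : K (P.z s) ↔ K (P.z t) := by simpa using h2
      simp only [side, P.blk_pc s t h1, h3, h4])

variable (P) in
/-- `t₁` represents the lowest block of the partner piece, `K` is a proper nonempty set of labels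
of the block of `s₀` -/
structure SplitData (s₀ t₁ : P.Site) (K : P.Z → Prop) : Prop where
  mem : P.pc t₁ = P.tau (P.pc s₀)
  low : ∀ t, P.pc t = P.tau (P.pc s₀) → P.lev t₁ ≤ P.lev t
  sub : ∀ ζ, K ζ → ∃ r, Blk P.lev s₀ r ∧ P.z r = ζ
  yes : ∃ r, Blk P.lev s₀ r ∧ K (P.z r)
  no : ∃ r, Blk P.lev s₀ r ∧ ¬ K (P.z r)

variable {s₀ t₁ : P.Site} {K : P.Z → Prop} [DecidablePred K]

theorem splitA_blk (s t : P.Site) :
    Blk (P.splitP s₀ t₁ K).lev s t ↔ Blk P.lev s t ∧ (K (P.z s) ↔ K (P.z t)) := by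
  change (s.1 = t.1 ∧ toLex (P.lev s, decide (K (P.z s))) = toLex (P.lev t, decide (K (P.z t)))) ↔ _
  simp only [Blk, toLex_inj, Prod.mk.injEq, decide_eq_decide, and_assoc]

theorem splitA_bsz (t : P.Site) : (P.splitP s₀ t₁ K).bsz t =
    (Finset.univ.filter fun t' : P.Site => Blk P.lev t t' ∧ (K (P.z t) ↔ K (P.z t'))).card :=
  congrArg Finset.card (Finset.filter_congr fun t' _ => splitA_blk t t')

theorem splitA_sum {α : Type} [Fintype α] (p : α → Prop) [DecidablePred p] (f : α → Ω)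
    (hf : ∀ a, ¬ p a → f a = 0) : ∑ a, f a = ∑ a : {a // p a}, f a := by
  rw [← Fintype.sum_subtype_add_sum_subtype p f,
    Finset.sum_eq_zero fun (a : {a // ¬ p a}) _ => hf a a.2, add_zero]

/-- blocks get smaller; the blocks carrying the labels of the block of `s₀` get strictly smaller
(`exists_blk_z`) -/
theorem splitP_bsz (hD : P.SplitData s₀ t₁ K) (t : P.Site) :
    (P.splitP s₀ t₁ K).bsz t ≤ P.bsz t ∧
      ((∃ r, Blk P.lev s₀ r ∧ P.z t = P.z r) → (P.splitP s₀ t₁ K).bsz t < P.bsz s₀) := by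
  have hsub : (Finset.univ.filter fun t' : P.Site => Blk P.lev t t' ∧ (K (P.z t) ↔ K (P.z t'))) ⊆
      Finset.univ.filter fun t' => Blk P.lev t t' :=
    Finset.monotone_filter_right _ fun _ _ h => h.1
  rw [splitA_bsz]
  refine ⟨Finset.card_le_card hsub, fun ⟨r, hr, hz⟩ => ?_⟩
  rw [bsz_blk hr, ← bsz_of_z hz]
  refine Finset.card_lt_card ((Finset.ssubset_iff_of_subset hsub).2 ?_)
  obtain ⟨r₁, h1, h1'⟩ := hD.yes
  obtain ⟨r₂, h2, h2'⟩ := hD.no
  obtain ⟨t1, h3, h3'⟩ := exists_blk_z hz.symm (blk_trans (blk_symm hr) h1)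
  obtain ⟨t2, h4, h4'⟩ := exists_blk_z hz.symm (blk_trans (blk_symm hr) h2)
  by_cases hK : K (P.z t)
  · refine ⟨t2, by simpa using h4, fun h => ?_⟩
    rw [Finset.mem_filter, h4'] at h
    exact h2' (h.2.2.1 hK)
  · refine ⟨t1, by simpa using h3, fun h => ?_⟩
    rw [Finset.mem_filter, h3'] at h
    exact hK (h.2.2.2 h1')

theorem splitP_phi (hD : P.SplitData s₀ t₁ K) :
    (P.splitP s₀ t₁ K).Phi + (2 * Fintype.card ι + 1) * (2 * Fintype.card ι + 2) ^ (P.bsz s₀ - 1)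
      ≤ P.Phi := by
  have h0 : P.z s₀ ∈ Finset.univ.image P.z := Finset.mem_image_of_mem _ (Finset.mem_univ _)
  have e1 : (P.splitP s₀ t₁ K).Phi = ∑ ζ ∈ Finset.univ.image P.z,
      (2 * Fintype.card ι + 2) ^ (P.splitP s₀ t₁ K).zsz ζ := rfl
  have hz : ∀ s : P.Site, (P.splitP s₀ t₁ K).zsz (P.z s) = (P.splitP s₀ t₁ K).bsz s :=
    fun s => zsz_z (P := P.splitP s₀ t₁ K) s
  rw [e1, Phi, ← Finset.add_sum_erase _ _ h0, ← Finset.add_sum_erase _ _ h0, hz, zsz_z,
    add_right_comm]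
  refine Nat.add_le_add ?_ (Finset.sum_le_sum fun ζ hζ => ?_)
  · have h1 := (splitP_bsz hD s₀).2 ⟨s₀, blk_refl s₀, rfl⟩
    obtain ⟨b, hb⟩ : ∃ b, P.bsz s₀ = b + 1 := ⟨P.bsz s₀ - 1, by omega⟩
    rw [hb] at h1 ⊢
    have h2 : (2 * Fintype.card ι + 2) ^ (P.splitP s₀ t₁ K).bsz s₀ ≤
        (2 * Fintype.card ι + 2) ^ b := Nat.pow_le_pow_right (by omega) (by omega)
    rw [Nat.add_sub_cancel, pow_succ]
    nlinarith
  · obtain ⟨s, -, rfl⟩ := Finset.mem_image.1 (Finset.mem_of_mem_erase hζ)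
    rw [hz, zsz_z]
    exact Nat.pow_le_pow_right (by omega) (splitP_bsz hD s).1

section retract
variable {A B : Matrix P.Site P.Site Ω}

/-- supported in the upper right corners of the blocks -/
def SplitSp (K : P.Z → Prop) (A : Matrix P.Site P.Site Ω) : Prop :=
  ∀ s t, ¬ (Blk P.lev s t ∧ ¬ K (P.z s) ∧ K (P.z t)) → A s t = 0

theorem SplitSp.add (hA : SplitSp K A) (hB : SplitSp K B) : SplitSp K (A + B) := fun s t h => by
  rw [Matrix.add_apply, hA s t h, hB s t h, add_zero]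

theorem SplitSp.neg (hA : SplitSp K A) : SplitSp K (-A) := fun s t h => by
  rw [Matrix.neg_apply, hA s t h, neg_zero]

theorem SplitSp.pow (hA : SplitSp K A) (l : ℕ) {s t : P.Site}
    (h : ¬ (Blk P.lev s t ∧ ¬ K (P.z s) ∧ K (P.z t))) :
    A ((P.J⁻¹ ^ l) s) ((P.J⁻¹ ^ l) t) = 0 := by
  refine hA _ _ ?_
  rwa [inv_pow, ← zpow_natCast, ← _root_.zpow_neg, blk_zpow, z_zpow, z_zpow]

theorem SplitSp.push (hA : SplitSp K A) : SplitSp K (P.push A) := fun _ _ h => hA.pow 1 h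

theorem SplitSp.mul (hA : SplitSp K A) (hB : SplitSp K B) {α : Type} [Fintype α] [DecidableEq α]
    (f : α → P.Site) : (1 + A.submatrix f f) * (1 + B.submatrix f f) = 1 + (A + B).submatrix f f := by
  have h : A.submatrix f f * B.submatrix f f = 0 := by
    ext a b
    refine Finset.sum_eq_zero fun c _ => ?_
    by_cases h : K (P.z (f c))
    · exact mul_eq_zero_of_right _ (hB _ _ fun h' => h'.2.1 h)
    · exact mul_eq_zero_of_left (hA _ _ fun h' => h h'.2.2) _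
  rw [add_mul, mul_add, mul_add, h, one_mul, one_mul, mul_one, add_zero, add_assoc, add_comm (B.submatrix f f)]
  rfl

theorem SplitSp.bd (hA : SplitSp K A) (i : P.I) : BD (P.lv i) (1 + P.loc A i) := fun a b h => by
  rw [Matrix.add_apply, Matrix.one_apply_ne fun e => h (by rw [e]), zero_add]
  exact hA _ _ fun h' => h h'.1.2

theorem SplitSp.lt (hA : SplitSp K A) {s t : P.Site} (h : A s t ≠ 0) :
    (P.refine K).lev s < (P.refine K).lev t := by
  obtain ⟨h1, h2, h3⟩ := not_imp_comm.1 (hA s t) h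
  exact Prod.Lex.toLex_lt_toLex.2 (Or.inr ⟨h1.2, by simp [h2, h3]⟩)

theorem SplitSp.up (hA : SplitSp K A) : Gauge_up (P := P.refine K) A = A := by
  ext s t
  by_cases h : A s t = 0
  · exact (ite_eq_iff.2 (by tauto)).trans h.symm
  · exact if_pos ⟨P.blk_pc _ _ (not_imp_comm.1 (hA s t) h).1, hA.lt h⟩

theorem Split_loc (A : Matrix P.Site P.Site Ω) (i : P.I) : P.loc (1 + A) i = 1 + P.loc A i := by
  rw [← loc_one (P := P) i]
  rfl

variable (K) in
/-- the corners of the diagonal blocks of the slots -/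
def Split_del (d : P.Data Ω) : Matrix P.Site P.Site Ω := Matrix.of fun s t =>
  if Blk P.lev s t ∧ ¬ K (P.z s) ∧ K (P.z t) then d.1 s.1 s.2 t.2 else 0

theorem Split_del_sp (d : P.Data Ω) : SplitSp K (Split_del K d) := fun _ _ h => if_neg h

theorem Split_dpart {d : P.Data Ω} {i : P.I} (h : Uni ((P.refine K).lv i) (d.1 i)) :
    Par (P.lv i) (d.1 i) ∧ dpart (P.lv i) (d.1 i) = 1 + P.loc (Split_del K d) i := by
  refine ⟨fun a b hab => h.par a b (Prod.Lex.toLex_lt_toLex.2 (Or.inl hab)), ?_⟩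
  ext a b
  simp only [dpart, loc, Split_del, Matrix.of_apply, Matrix.add_apply, Blk, true_and]
  by_cases h1 : P.lv i a = P.lv i b
  · by_cases h2 : ¬ K (P.z (i, a)) ∧ K (P.z (i, b))
    · rw [if_pos h1, if_pos ⟨h1, h2⟩, Matrix.one_apply_ne fun e : a = b => h2.1 (e ▸ h2.2), zero_add]
    · rw [if_pos h1, if_neg fun h3 => h2 h3.2, add_zero]
      refine h a b fun h3 => ?_
      rcases Prod.Lex.toLex_lt_toLex.1 h3 with h3 | ⟨-, h3⟩
      · exact h3.ne h1
      · exact h2 ⟨of_decide_eq_false (Bool.lt_iff.1 h3).1, of_decide_eq_true (Bool.lt_iff.1 h3).2⟩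
  · rw [if_neg h1, if_neg fun h3 => h1 h3.1, add_zero, Matrix.one_apply_ne fun e => h1 (by rw [e])]

variable (s₀) in
/-- the solution of `N = push N - A` outside of the block of `s₀` -/
noncomputable def Split_N (A : Matrix P.Site P.Site Ω) : Matrix P.Site P.Site Ω :=
  Matrix.of fun s t => -∑ l ∈ Finset.range (sInf {k | Blk P.lev s₀ ((P.J⁻¹ ^ k) s)}),
    A ((P.J⁻¹ ^ l) s) ((P.J⁻¹ ^ l) t)

theorem SplitSp.N (hA : SplitSp K A) : SplitSp K (Split_N s₀ A) := fun _ _ h =>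
  neg_eq_zero.2 (Finset.sum_eq_zero fun l _ => hA.pow l h)

variable (s₀) in
/-- the defect -/
noncomputable def Split_e (A : Matrix P.Site P.Site Ω) : Matrix P.Site P.Site Ω :=
  P.push (Split_N s₀ A) + -Split_N s₀ A + -A

theorem SplitSp.e (hA : SplitSp K A) : SplitSp K (Split_e s₀ A) :=
  (hA.N.push.add hA.N.neg).add hA.neg

theorem SplitSp.e_blk (hA : SplitSp K A) (hD : P.SplitData s₀ t₁ K) {s : P.Site}
    (h : ¬ Blk P.lev s₀ s) (t : P.Site) : Split_e s₀ A s t = 0 := by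
  change -∑ l ∈ Finset.range (sInf {k | Blk P.lev s₀ ((P.J⁻¹ ^ (k + 1)) s)}),
    A ((P.J⁻¹ ^ (l + 1)) s) ((P.J⁻¹ ^ (l + 1)) t) + - -∑ l ∈ Finset.range
      (sInf {k | Blk P.lev s₀ ((P.J⁻¹ ^ k) s)}), A ((P.J⁻¹ ^ l) s) ((P.J⁻¹ ^ l) t) + -A s t = 0
  rcases Nat.eq_zero_or_pos (sInf {k | Blk P.lev s₀ ((P.J⁻¹ ^ k) s)}) with h0 | h0
  · have h1 := Set.eq_empty_iff_forall_notMem.1 ((Nat.sInf_eq_zero.1 h0).resolve_left h)
    have h1' : sInf {k | Blk P.lev s₀ ((P.J⁻¹ ^ (k + 1)) s)} = 0 :=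
      Nat.sInf_eq_zero.2 (Or.inr (Set.eq_empty_iff_forall_notMem.2 fun k => h1 (k + 1)))
    rw [h0, h1', hA s t fun h2 => ?_]
    · simp
    · obtain ⟨r, h3, h4⟩ := hD.sub _ h2.2.2
      obtain ⟨k, rfl⟩ := (Equiv.Perm.sameCycle_inv.2 (P.z_cyc t r h4.symm)).exists_nat_pow_eq
      refine h1 k (blk_trans h3 ?_)
      rw [inv_pow, ← zpow_natCast, ← _root_.zpow_neg, blk_zpow]
      exact blk_symm h2.1
  · rw [← Nat.sInf_add (p := fun k => Blk P.lev s₀ ((P.J⁻¹ ^ k) s)) h0, Finset.sum_range_succ']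
    simp

variable (s₀ K) in
/-- the change of frames of the slide -/
noncomputable def Split_w (d : P.Data Ω) (i : P.I) : Matrix ι ι Ω :=
  P.Linv d i * (1 + P.loc (Split_e s₀ (Split_del K d)) i) * P.L d.2.1 i

theorem Split_w_uni (h : P.Splittable s₀) (hD : P.SplitData s₀ t₁ K) {d : P.Data Ω}
    (hd : (P.splitP s₀ t₁ K).IsSol d) (j : P.I) : Uni (P.lv j) (Split_w s₀ K d (P.nx.symm j)) := by
  obtain ⟨i, rfl⟩ := P.nx.surjective j
  rw [Equiv.symm_apply_apply]
  refine uni_conj_rel (IsPre.Linv_mul_L hd i)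
    (r := fun a b => (P.splitP s₀ t₁ K).Ex (i, b) (P.nx i, a)) (fun a b => IsPre.Linv_supp hd i b a)
    (fun b a => IsPre.L_supp hd i b a) fun a a' b b' h0 h1 h2 => ?_
  obtain ⟨h3, h4, h5⟩ := not_imp_comm.1 ((Split_del_sp d).e _ _) h0
  have h6 : Blk P.lev s₀ (i, b) := not_not.1 fun h6 => h0 ((Split_del_sp d).e_blk hD h6 _)
  have key : ∀ {s t : P.Site}, Blk P.lev s₀ s →
      (P.pc s, P.side s₀ t₁ K s) = (P.tau (P.pc t), P.side s₀ t₁ K t) →
      P.pc t = P.tau (P.pc s₀) ∧ (K (P.z s) ↔ ¬ Blk P.lev t₁ t) := fun {s t} h7 h9 => by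
    rw [Prod.mk.injEq, ← P.blk_pc _ _ h7] at h9
    have h10 : P.pc t = P.tau (P.pc s₀) := by rw [h9.1, P.tau_tau]
    refine ⟨h10, ?_⟩
    simpa [← P.blk_pc _ _ h7, h10, h.ne, h.ne.symm] using decide_eq_decide.1 h9.2
  change P.lev (P.nx i, a) < P.lev (P.nx i, a')
  rw [← P.J.apply_symm_apply (P.nx i, a), ← P.J.apply_symm_apply (P.nx i, a')]
  obtain ⟨k1, k2⟩ := key (t := P.J.symm (P.nx i, a)) h6 h1
  obtain ⟨k3, k4⟩ := key (t := P.J.symm (P.nx i, a')) (blk_trans h6 h3) h2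
  refine P.lt_J _ _ (k1.trans k3.symm) ?_
  rw [← (not_not.1 fun h7 => h4 (k2.2 h7)).2]
  exact (hD.low _ k3).lt_of_ne fun h7 => k4.1 h5 ⟨P.pc_slot _ _ (hD.mem.trans k3.symm), h7⟩

theorem Split_coarse {d : P.Data Ω} (hd : (P.splitP s₀ t₁ K).IsSol d) : (P.refine K).IsSol d :=
  ⟨hd.uni, fun s t h => hd.supp s t fun h' => h (congrArg Prod.fst h'),
    fun s h0 h => hd.fix s h0 (Prod.ext h rfl),
    fun s h0 h => hd.sq s h0 fun h' => h (congrArg Prod.fst h'), hd.fr⟩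

theorem Split_good_act {X : Type} [Coord Ω X] {G : X → P.Gg Ω} {d : X → P.Data Ω}
    (hG : Good o Ω G) (g2 : Good o Ω d) : Good o Ω fun x => Gauge_act (G x) (d x) := by
  have g1 := hG.val
  refine Good.prodMk (Good.pi fun i => ?_)
    (Good.prodMk ((g1.uinv.uval.mmul g2.snd.fst).mmul g1.uval) (Good.pi fun i => ?_))
  · exact ((good_loc (good_push g1.uinv.uval) i).mmul ((Good.apply i).comp g2.fst)).mmul
      (good_loc g1.uval i)
  · exact ((Good.apply i).comp g2.snd.snd).glmul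
      (good_units (good_loc (good_push g1.uval) i) (good_loc (good_push g1.uinv.uval) i))

theorem Split_act_one {G : P.Gg Ω} (hG : G.1 = 1) {w : P.I → GL ι Ω} (hw : ∀ i, w i = 1)
    {act : P.Pc → Prop} {d : P.Data Ω} (hd : P.IsPre act d) : Gauge_act G (P.slide d w) = d := by
  refine Prod.ext (funext fun i => ?_) (Prod.ext ?_ (funext fun i => Units.ext ?_))
  · simp [Gauge_act, Prob.slide, hG, hw, push_one, loc_one, hd.L_mul_Linv]
  · simp [Gauge_act, Prob.slide, hG]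
  · simp [Gauge_act, Gauge_fr, Prob.slide, hG, hw, push_one, loc_one]

/-- the gauge transformation (for the refined problem) -/
def SplitSp.G (hA : SplitSp K A) : (P.refine K).Gg Ω :=
  ⟨(⟨1 + A, 1 + -A, (hA.mul hA.neg id).trans (by simp), (hA.neg.mul hA id).trans (by simp)⟩ :
    GL P.Site Ω), by
    have := Gauge_up_gauge (P := P.refine K) A
    rwa [hA.up] at this⟩

variable (h : P.Splittable s₀) (hD : P.SplitData s₀ t₁ K) {d : P.Data Ω}
  (hd : (P.splitP s₀ t₁ K).IsSol d)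

/-- the retraction -/
noncomputable def Split_R : P.Data Ω :=
  Gauge_act (P := P.refine K) ((Split_del_sp d).N (s₀ := s₀)).G
    (P.slide d fun j => uniGL _ (Split_w_uni h hD hd j))

theorem Split_slide (i : P.I) : (P.slide d fun j => uniGL _ (Split_w_uni h hD hd j)).1 i =
    (Split_w s₀ K d (P.nx.symm i)).adjugate * d.1 i *
      (1 + P.loc (Split_e s₀ (Split_del K d)) i) := by
  have h1 : P.L d.2.1 i * P.Linv d i = 1 := IsPre.L_mul_Linv hd i
  change _ * (P.L d.2.1 i * Split_w s₀ K d (P.nx.symm (P.nx i)) * P.Linv d i) = _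
  rw [Equiv.symm_apply_apply, Split_w, ← mul_assoc (P.L d.2.1 i), ← mul_assoc (P.L d.2.1 i), h1,
    one_mul, mul_assoc _ (P.L d.2.1 i), h1, mul_one]
  rfl

theorem Split_R_ref : (P.refine K).IsSol (Split_R (P := P) h hD hd) := by
  refine Gauge_isSol (P := P.refine K) _ (IsPre.slide (Split_coarse hd) _ fun i => ?_)
  have h1 : Uni ((P.refine K).lv i) (Split_w s₀ K d (P.nx.symm i)).adjugate :=
    (Split_w_uni h hD hd i).adjugate.mono fun a b hab => Prod.Lex.toLex_lt_toLex.2 (Or.inl hab)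
  have h2 : Uni ((P.refine K).lv i) (1 + P.loc (Split_e s₀ (Split_del K d)) i) :=
    uni_one_add fun a b hab => (Split_del_sp d).e.lt hab
  exact Split_slide h hD hd i ▸ (h1.mul ((Split_coarse hd).uni i)).mul h2

theorem Split_R_sol : P.IsSol (Split_R h hD hd) := by
  have hs := Split_R_ref h hD hd
  refine ⟨fun i => ?_, hs.supp, hs.fix, hs.sq, hs.fr⟩
  have h0 := Split_del_sp (K := K) d
  have hN := h0.N (s₀ := s₀)
  have e3 : P.push (1 + -Split_N s₀ (Split_del K d)) = 1 + P.push (-Split_N s₀ (Split_del K d)) :=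
    congrArg (· + P.push (-Split_N s₀ (Split_del K d))) push_one
  change Uni _ (P.loc (P.push (1 + -Split_N s₀ (Split_del K d))) i *
    (P.slide d fun j => uniGL _ (Split_w_uni h hD hd j)).1 i *
      P.loc (1 + Split_N s₀ (Split_del K d)) i)
  rw [Split_slide h hD hd, e3, Split_loc, Split_loc]
  obtain ⟨p1, p2⟩ := uni_iff.1 (Split_w_uni h hD hd i).adjugate
  obtain ⟨p3, p4⟩ := Split_dpart ((Split_coarse hd).uni i)
  have p5 := (h0.e (s₀ := s₀)).bd i
  have p6 := hN.neg.push.bd i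
  have p7 := hN.bd i
  refine uni_iff.2 ⟨(p6.par.mul ((p1.mul p3).mul p5.par)).mul p7.par, ?_⟩
  rw [(p6.par.mul ((p1.mul p3).mul p5.par)).dpart_mul p7.par,
    p6.par.dpart_mul ((p1.mul p3).mul p5.par), (p1.mul p3).dpart_mul p5.par, p1.dpart_mul p3, p2,
    p4, p5.dpart_eq, p6.dpart_eq, p7.dpart_eq, one_mul]
  refine (congrArg (_ * · * _) (h0.mul h0.e (Prod.mk i))).trans ((congrArg (· * _)
    (hN.neg.push.mul (h0.add h0.e) (Prod.mk i))).trans
    (((hN.neg.push.add (h0.add h0.e)).mul hN (Prod.mk i)).trans ?_))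
  ext a b
  simp [Split_e, push]

theorem Split_R_eq (hd' : P.IsSol d) : Split_R h hD hd = d := by
  have e0 : Split_del K d = 0 := by
    ext ⟨i, a⟩ ⟨j, b⟩
    refine ite_eq_right_iff.2 fun ⟨⟨h1, h2⟩, h3, h4⟩ => ?_
    obtain rfl : i = j := h1
    exact (hd'.uni i a b h2.not_lt).trans (if_neg fun e : a = b => h3 (e ▸ h4))
  have e1 : Split_N s₀ (0 : Matrix P.Site P.Site Ω) = 0 := by
    ext s t
    simp [Split_N]
  refine Split_act_one (P := P.refine K) (Units.ext ?_) (fun j => Units.ext ?_) (Split_coarse hd)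
  · change (1 + Split_N s₀ (Split_del K d) : Matrix P.Site P.Site Ω) = 1
    rw [e0, e1, add_zero]
  · change Split_w s₀ K d _ = 1
    rw [Split_w, e0, Split_e, e1, ← Split_loc]
    simp [push, loc_one, IsPre.Linv_mul_L hd']

theorem Split_R_good {X : Type} [Coord Ω X] {d : X → P.Data Ω} (g0 : Good o Ω d)
    (hd : ∀ x, (P.splitP s₀ t₁ K).IsSol (d x)) : Good o Ω fun x => Split_R h hD (hd x) := by
  have g1 : Good o Ω fun x => Split_del K (d x) :=
    good_matrix fun s t => Good.ite (((Good.apply s.1).comp g0.fst).entry _ _) Good.zero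
  have g2 : Good o Ω fun x => Split_N s₀ (Split_del K (d x)) :=
    good_matrix fun s t => (Good.sum fun l => g1.entry _ _).neg
  have g3 : Good o Ω fun x => ((Split_del_sp (K := K) (d x)).N (s₀ := s₀)).G :=
    good_subtype_iff.2 (good_units (Good.mone.madd g2) (Good.mone.madd g2.mneg))
  have g4 : Good o Ω fun x => P.slide (d x) fun j => uniGL _ (Split_w_uni h hD (hd x) j) :=
    good_slide g0 (Good.pi fun j => good_uniGL (((good_Linv g0 _).mmul (Good.mone.madd (good_loc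
      (((good_push g2).madd g2.mneg).madd g1.mneg) _))).mmul (good_L g0.snd.fst _)) _)
  exact Split_good_act (P := P.refine K) g3 g4

end retract

/-- Retraction.  Let `(X, M, g)` be a solution of the split problem, `β₀` the block of `s₀`,
`i₀ = s₀.1`.  Let `δ s t = X s.1 s.2 t.2` if `Blk P.lev s t ∧ ¬ K (z s) ∧ K (z t)`, else `0`, so that
`dpart (P.lv i) (X i) = 1 + loc δ i`; products of two matrices with this support vanish.
Let `k s` be the least `k` with `J⁻ᵏ s ∈ β₀` (`sInf`; constant on blocks),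
`N s t = - ∑_{l < k s} δ (J⁻ˡ s) (J⁻ˡ t)`, `e = push N - N - δ`; `e` is supported on `β₀ × β₀`
(outside `β₀`, on the disc, `k s = k (J⁻¹ s) + 1`; off the disc `δ = N = 0` by `hD.sub`).
First `slide` with `w (nx i₀) = Linv i₀ * (1 + loc e i₀) * L i₀` (inverse: `1 - loc e i₀`), `w = 1`
elsewhere; `w (nx i₀)` is unipotent for the OLD levels (`uni_conj_rel`, `L_supp` for the split
problem, `lt_J`, `hD.low`).  Then change `X i ↦ loc (push (1 - N)) i * X i * loc (1 + N) i`,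
`M ↦ (1 - N) M (1 + N)`, `g i ↦ g i * loc (push (1 + N)) i` as in `Gauge_isSol`: the diagonal blocks
become `1 - push N + δ + e + N = 1`.  On a solution of `P` we have `δ = N = e = 0`. -/
theorem split_retract (h : P.Splittable s₀) (hD : P.SplitData s₀ t₁ K) :
    ∃ R : (P.splitP s₀ t₁ K).Sol Ω → P.Sol Ω, Good o Ω R ∧
      ∀ (d : P.Sol Ω) (h' : (P.splitP s₀ t₁ K).IsSol d.1), R ⟨d.1, h'⟩ = d := by
  exact ⟨fun d => ⟨Split_R h hD d.2, Split_R_sol h hD d.2⟩,
    good_subtype_iff.2 (Split_R_good h hD (Good.val Good.id) fun d => d.2),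
    fun d h' => Subtype.ext (Split_R_eq h hD h' d.2)⟩

/-- Normalisation.  `A = M` on (rows of the partner piece `q`) × (block `β₀` of `s₀`) is invertible
(`IsPre.sq`, `card_piece`).  Choose a bijection `e : β₀ ≃ q`, apply `gauge_levi` with `γ = A⁻¹ E`
(`E` the matrix of `e`); the gauge is trivial on `q`, whose blocks are smaller than `β₀`
(`bsz_of_z`).  Take `t₁` of least level in `q`, `K ζ = ∃ r ∈ β₀, z r = ζ ∧ ¬ Blk t₁ (e r)`. -/
theorem split_norm (hB : Big o Ω) (h : P.Splittable s₀) (s : P.Sol Ω) :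
    ∃ (t₁ : P.Site) (K : P.Z → Prop) (_ : DecidablePred K) (s' : P.Sol Ω),
      P.SplitData s₀ t₁ K ∧ (InZ o Ω s' → InZ o Ω s) ∧ (P.splitP s₀ t₁ K).IsSol s'.1 := by
  classical
  have hp : ∀ t, Blk P.lev s₀ t ↔ P.pc t = P.pc s₀ :=
    fun t => ⟨fun ht => (P.blk_pc _ _ ht).symm, h.single t⟩
  have hcard : P.bsz s₀ = (Finset.univ.filter fun t => P.pc t = P.tau (P.pc s₀)).card := by
    rw [← s.2.card_piece, bsz]
    exact congrArg Finset.card (Finset.filter_congr fun t _ => hp t)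
  obtain ⟨e⟩ : Nonempty ({t : P.Site // Blk P.lev s₀ t} ≃ {t : P.Site // P.pc t = P.tau (P.pc s₀)}) :=
    ⟨Fintype.equivOfCardEq (by rw [Fintype.card_subtype, Fintype.card_subtype]; exact hcard)⟩
  have hu : P.uu Ω s₀ ≠ 0 := ((P.u (P.pc s₀)).isUnit.map (algebraMap o Ω)).ne_zero
  -- the products of the two pieces
  have hsqp : ∀ d : P.Data Ω, P.IsSol d → ∀ r, Blk P.lev s₀ r → ∀ t,
      ∑ x : {t : P.Site // P.pc t = P.tau (P.pc s₀)}, d.2.1 r x * d.2.1 x t =
        if r = t then P.uu Ω s₀ else 0 := by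
    intro d hd r hr t
    have h1 := (hp r).1 hr
    have h2 := hd.sq r not_false (by rw [h1]; exact h.ne) t
    rw [Matrix.mul_apply, splitA_sum (fun x => P.pc x = P.tau (P.pc s₀))] at h2
    · rw [h2, uu, uu, h1]
    · intro x hx
      rw [hd.supp r x, zero_mul]
      intro h3
      exact hx (by rw [← h1, h3, P.tau_tau])
  have hsqq : ∀ x, P.pc x = P.tau (P.pc s₀) → ∀ t,
      ∑ r : {t : P.Site // Blk P.lev s₀ t}, s.1.2.1 x r * s.1.2.1 r t =
        if x = t then P.uu Ω s₀ else 0 := by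
    intro x hx t
    have h2 := s.2.sq x not_false (by rw [hx, P.tau_tau]; exact h.ne.symm) t
    rw [Matrix.mul_apply, splitA_sum (fun r => Blk P.lev s₀ r)] at h2
    · rw [h2, uu, uu, hx, P.u_tau]
    · intro r hr
      rw [s.2.supp x r, zero_mul]
      intro h3
      exact hr ((hp r).2 (by rw [← P.tau_tau (P.pc r), ← h3, hx, P.tau_tau]))
  let γ : Matrix {t : P.Site // Blk P.lev s₀ t} {t : P.Site // Blk P.lev s₀ t} Ω :=
    Matrix.of fun r r' => (P.uu Ω s₀)⁻¹ * s.1.2.1 r (e r')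
  let γ' : Matrix {t : P.Site // Blk P.lev s₀ t} {t : P.Site // Blk P.lev s₀ t} Ω :=
    Matrix.of fun r r' => s.1.2.1 (e r) r'
  have hγ : γ * γ' = 1 := by
    ext r r'
    simp only [γ, γ', Matrix.mul_apply, Matrix.of_apply, mul_assoc]
    rw [← Finset.mul_sum, e.sum_comp fun x => s.1.2.1 r x * s.1.2.1 x r', hsqp _ s.2 r r.2,
      Matrix.one_apply]
    by_cases h1 : r = r'
    · rw [if_pos h1, if_pos (congrArg Subtype.val h1), inv_mul_cancel₀ hu]
    · rw [if_neg h1, if_neg fun h2 => h1 (Subtype.ext h2), mul_zero]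
  obtain ⟨G, s', hM, hZ, hG1, hG2, hG3⟩ :=
    gauge_levi hB s₀ ⟨γ, γ', hγ, mul_eq_one_comm.1 hγ⟩ s
  -- the gauge is trivial on the partner piece
  have hq : ∀ x, P.pc x = P.tau (P.pc s₀) → ∀ r, Blk P.lev s₀ r → P.z x ≠ P.z r := by
    intro x hx r hr hz
    have h1 : P.bsz x = P.bsz s₀ := (bsz_of_z hz).trans (bsz_blk hr).symm
    have hsub : (Finset.univ.filter fun t => Blk P.lev x t) ⊆
        Finset.univ.filter fun t => P.pc t = P.tau (P.pc s₀) :=
      Finset.monotone_filter_right _ fun t _ ht => (P.blk_pc _ _ ht).symm.trans hx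
    have h2 := Finset.eq_of_subset_of_card_le hsub (by rw [← hcard, ← h1]; exact le_rfl)
    obtain ⟨t, t', ht, ht', htt⟩ := h.multi
    have h3 : t ∈ Finset.univ.filter fun t => Blk P.lev x t := by rw [h2]; simpa using ht
    have h4 : t' ∈ Finset.univ.filter fun t => Blk P.lev x t := by rw [h2]; simpa using ht'
    exact htt (blk_trans (blk_symm (Finset.mem_filter.1 h3).2) (Finset.mem_filter.1 h4).2)
  have hA : ∀ x, P.pc x = P.tau (P.pc s₀) → ∀ r : {t : P.Site // Blk P.lev s₀ t},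
      s'.1.2.1 x r = if x = e r then 1 else 0 := by
    intro x hx r
    have h1 : ((G.1 : Matrix P.Site P.Site Ω) * s'.1.2.1) x r = s'.1.2.1 x r := by
      simp only [Matrix.mul_apply, hG3 x _ (hq x hx), ite_mul, one_mul, zero_mul,
        Finset.sum_ite_eq, Finset.mem_univ, if_true]
    have h2 : (G.1 : Matrix P.Site P.Site Ω) * s'.1.2.1 = s.1.2.1 * G.1 := by
      rw [hM, ← Matrix.mul_assoc, ← Matrix.mul_assoc, Units.mul_inv, Matrix.one_mul]
    rw [← h1, h2, Matrix.mul_apply, splitA_sum (fun r => Blk P.lev s₀ r)]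
    · simp only [hG2, γ, Matrix.of_apply, mul_left_comm _ (P.uu Ω s₀)⁻¹]
      rw [← Finset.mul_sum, hsqq x hx]
      split_ifs
      · exact inv_mul_cancel₀ hu
      · exact mul_zero _
    · intro y hy
      rw [hG1 y r fun h3 => hy (blk_trans r.2 (blk_symm h3)), mul_zero]
  have hBm : ∀ r r' : {t : P.Site // Blk P.lev s₀ t}, r ≠ r' → s'.1.2.1 r (e r') = 0 := by
    intro r r' hr
    have h1 := hsqp _ s'.2 r r.2 r'
    rw [if_neg fun h2 => hr (Subtype.ext h2), Finset.sum_eq_single (e r')] at h1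
    · rwa [hA _ (e r').2, if_pos rfl, mul_one] at h1
    · intro x _ hx
      rw [hA _ x.2, if_neg fun h2 => hx (Subtype.ext h2), mul_zero]
    · exact fun h2 => absurd (Finset.mem_univ _) h2
  obtain ⟨t, t', ht, ht', htt⟩ := h.multi
  obtain ⟨t₁, h1, h2⟩ := Finset.exists_min_image
    (Finset.univ.filter fun t => P.pc t = P.tau (P.pc s₀)) P.lev ⟨t, by simpa using ht⟩
  have h1 : P.pc t₁ = P.tau (P.pc s₀) := (Finset.mem_filter.1 h1).2
  let K : P.Z → Prop := fun ζ => ∃ r : {t : P.Site // Blk P.lev s₀ t}, P.z r = ζ ∧ ¬ Blk P.lev t₁ (e r)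
  have hK : ∀ r : {t : P.Site // Blk P.lev s₀ t}, K (P.z r) ↔ ¬ Blk P.lev t₁ (e r) := by
    refine fun r => ⟨fun ⟨r', h3, h4⟩ => ?_, fun h3 => ⟨r, rfl, h3⟩⟩
    rwa [← Subtype.ext (P.z_inj _ _ (blk_trans (blk_symm r'.2) r.2) h3)]
  have hside : ∀ r : {t : P.Site // Blk P.lev s₀ t}, P.side s₀ t₁ K r = P.side s₀ t₁ K (e r) := by
    intro r
    simp only [side, (hp r).1 r.2, (e r).2, h.ne, h.ne.symm, hK, true_and, false_and, or_false,
      false_or]
  refine ⟨t₁, K, inferInstance, s', ⟨h1, fun t ht => h2 t (by simpa using ht),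
    fun ζ ⟨r, h3, _⟩ => ⟨r, r.2, h3⟩, ?_, ?_⟩, hZ, ?_, ?_, ?_, ?_, s'.2.fr⟩
  · by_cases h3 : Blk P.lev t₁ t
    · refine ⟨e.symm ⟨t', ht'⟩, (e.symm ⟨t', ht'⟩).2, (hK _).2 ?_⟩
      rw [e.apply_symm_apply]
      exact fun h4 => htt (blk_trans (blk_symm h3) h4)
    · refine ⟨e.symm ⟨t, ht⟩, (e.symm ⟨t, ht⟩).2, (hK _).2 ?_⟩
      rwa [e.apply_symm_apply]
  · refine ⟨e.symm ⟨t₁, h1⟩, (e.symm ⟨t₁, h1⟩).2, fun h3 => (hK _).1 h3 ?_⟩
    rw [e.apply_symm_apply]
    exact blk_refl t₁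
  · intro i
    exact Uni.mono (fun a b hab => Prod.Lex.toLex_lt_toLex.2 (Or.inl hab)) (s'.2.uni i)
  · intro (x : P.Site) (y : P.Site) hxy
    by_cases h3 : P.pc x = P.tau (P.pc y)
    swap
    · exact s'.2.supp x y h3
    have h4 : P.side s₀ t₁ K x ≠ P.side s₀ t₁ K y := fun h4 => hxy (Prod.ext h3 h4)
    by_cases h5 : P.pc y = P.pc s₀
    · have h6 := hA x (by rw [h3, h5]) ⟨y, (hp y).2 h5⟩
      rw [if_neg] at h6
      · exact h6
      · intro h7
        exact h4 (by rw [h7, ← hside])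
    by_cases h6 : P.pc y = P.tau (P.pc s₀)
    · have h7 : P.pc x = P.pc s₀ := by rw [h3, h6, P.tau_tau]
      have h8 := hBm ⟨x, (hp x).2 h7⟩ (e.symm ⟨y, h6⟩)
      rw [e.apply_symm_apply] at h8
      refine h8 fun h9 => h4 ?_
      have h10 := hside (e.symm ⟨y, h6⟩)
      rw [e.apply_symm_apply, ← h9] at h10
      exact h10
    · have h7 : P.pc x ≠ P.pc s₀ := fun h7 => h6 (by rw [← h7, h3, P.tau_tau])
      have h8 : P.pc x ≠ P.tau (P.pc s₀) := fun h8 =>
        h5 (by rw [← P.tau_tau (P.pc y), ← h3, h8, P.tau_tau])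
      exact absurd (by simp only [side, h5, h6, h7, h8, false_and, or_self]) h4
  · intro (x : P.Site) _ hx y
    exact s'.2.fix x not_false (congrArg Prod.fst hx) y
  · intro (x : P.Site) _ hx y
    exact s'.2.sq x not_false (fun h3 => hx (Prod.ext h3 rfl)) y

theorem split_step (hB : Big o Ω) (h : P.Splittable s₀) (s : P.Sol Ω) :
    ∃ P' : Prob o ι,
      P'.Phi + (2 * Fintype.card ι + 1) * (2 * Fintype.card ι + 2) ^ (P.bsz s₀ - 1) ≤ P.Phi ∧
      (∀ n, P.bsz s₀ ≤ n + 1 → (∀ t, (∀ r, Blk P.lev s₀ r → P.z t ≠ P.z r) → P.bsz t ≤ n) →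
        P'.Le n) ∧
      (P'.Dense Ω → InZ o Ω s) := by
  obtain ⟨t₁, K, _, s', hD, hs, hs'⟩ := split_norm hB h s
  refine ⟨P.splitP s₀ t₁ K, splitP_phi hD, fun n hn ht t => ?_, fun hd => hs ?_⟩
  · by_cases h1 : ∃ r, Blk P.lev s₀ r ∧ P.z t = P.z r
    · have := (splitP_bsz hD t).2 h1
      omega
    · exact (splitP_bsz hD t).1.trans (ht t fun r hr h2 => h1 ⟨r, hr, h2⟩)
  · obtain ⟨R, hR, hR'⟩ := split_retract (Ω := Ω) h hD
    rw [← hR' s' hs']
    exact hR.inZ (hd _)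

end Prob

end Crest.Agent.R003
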