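import Crest.Agent.R003.Coc

/-! Row 3: linear algebra lemmas for `St1`. -/

set_option autoImplicit false
set_option linter.unusedSectionVars false

namespace Crest.Agent.R003

open Matrix

variable {Ω : Type} [Field Ω] {κ : Type} [Fintype κ] [DecidableEq κ]
  {k : Type} [CommRing k] [Algebra k Ω]

theorem h30_trace_nilp {b y : Matrix κ κ Ω} (h : y * b = b * y) (hy : IsNilpotent y)
    (p : Polynomial Ω) : trace (y * Polynomial.aeval b p) = 0 := by
  have hc : Commute y (Polynomial.aeval b p) := by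
    induction p using Polynomial.induction_on' with
    | add p q hp hq => rw [map_add]; exact hp.add_right hq
    | monomial n a =>
      rw [Polynomial.aeval_monomial]
      exact (Algebra.commute_algebraMap_right a y).mul_right (Commute.pow_right h n)
  exact (Matrix.isNilpotent_trace_of_isNilpotent (hc.isNilpotent_mul_right hy)).eq_zero

theorem h30_par_diag {l : κ → ℕ} (hl : Function.Injective l) {x y : Matrix κ κ Ω} (hx : Par l x)
    (hy : Par l y) (i : κ) : (x * y) i i = x i i * y i i := by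
  rw [Matrix.mul_apply]
  refine Finset.sum_eq_single i (fun c _ hc => ?_) (by simp)
  rcases lt_trichotomy (l c) (l i) with h | h | h
  · rw [hx i c h, zero_mul]
  · exact absurd (hl h) hc
  · rw [hy c i h, mul_zero]

theorem h30_par_aeval {l : κ → ℕ} (hl : Function.Injective l) {x : Matrix κ κ Ω} (hx : Par l x)
    (p : Polynomial Ω) :
    Par l (Polynomial.aeval x p) ∧ ∀ i, Polynomial.aeval x p i i = p.eval (x i i) := by
  induction p using Polynomial.induction_on with
  | C a =>
    rw [Polynomial.aeval_C, Algebra.algebraMap_eq_smul_one]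
    refine ⟨fun i j hij => ?_, fun i => by simp⟩
    rw [Matrix.smul_apply, (Uni.one (l := l) (R := Ω)).par i j hij, smul_zero]
  | add p q hp hq =>
    rw [map_add]
    refine ⟨fun i j hij => ?_, fun i => ?_⟩
    · rw [Matrix.add_apply, hp.1 i j hij, hq.1 i j hij, add_zero]
    · rw [Matrix.add_apply, hp.2, hq.2, Polynomial.eval_add]
  | monomial n a h =>
    rw [pow_succ, ← mul_assoc, map_mul, Polynomial.aeval_X]
    refine ⟨h.1.mul hx, fun i => ?_⟩
    rw [h30_par_diag hl h.1 hx, h.2]
    simp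

theorem h30_aeval_conj {u v x : Matrix κ κ Ω} (huv : u * v = 1) (hvu : v * u = 1)
    (p : Polynomial Ω) : Polynomial.aeval (v * x * u) p = v * Polynomial.aeval x p * u := by
  induction p using Polynomial.induction_on with
  | C a =>
    rw [Polynomial.aeval_C, Polynomial.aeval_C, Algebra.algebraMap_eq_smul_one, Matrix.mul_smul,
      Matrix.smul_mul, mul_one, hvu]
  | add p q hp hq => rw [map_add, map_add, hp, hq, mul_add, add_mul]
  | monomial n a h =>
    rw [pow_succ, ← mul_assoc, map_mul, map_mul (Polynomial.aeval x), h, Polynomial.aeval_X,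
      Polynomial.aeval_X]
    simp only [mul_assoc]
    rw [← mul_assoc u v, huv, one_mul]

theorem h30_trace_der [IsAlgClosed Ω] (b : GL κ Ω) {y : Matrix κ κ Ω}
    (hc : y * (b : Matrix κ κ Ω) = b * y)
    (hy : ∀ p : Polynomial Ω, trace (y * Polynomial.aeval (b : Matrix κ κ Ω) p) = 0)
    (D : Derivation k Ω Ω) :
    trace (y * ((b : Matrix κ κ Ω).map D * ((b⁻¹ : GL κ Ω) : Matrix κ κ Ω))) = 0 := by
  classical
  obtain ⟨g, l, hl, hP⟩ := exists_triang (fun j : Bool => if j then y else (b : Matrix κ κ Ω))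
    (by rintro (_ | _) (_ | _) <;> simp [hc])
  set u : Matrix κ κ Ω := (g : Matrix κ κ Ω) with hu
  set v : Matrix κ κ Ω := ((g⁻¹ : GL κ Ω) : Matrix κ κ Ω) with hv
  set B : Matrix κ κ Ω := (b : Matrix κ κ Ω) with hB
  set B' : Matrix κ κ Ω := ((b⁻¹ : GL κ Ω) : Matrix κ κ Ω) with hB'
  have huv : u * v = 1 := g.mul_inv
  have hvu : v * u = 1 := g.inv_mul
  have hBB : B * B' = 1 := b.mul_inv
  have hBB' : B' * B = 1 := b.inv_mul
  have hPy : Par l (v * y * u) := by simpa using hP true
  have hPb : Par l (v * B * u) := by simpa using hP false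
  have hinv : (v * B * u) * (v * B' * u) = 1 := by
    simp only [mul_assoc]
    rw [← mul_assoc u v, huv, one_mul, ← mul_assoc B B', hBB, one_mul, hvu]
  have hPb' : Par l (v * B' * u) := hPb.inv hinv
  have hPD : Par l ((v * B * u).map D) := fun i j hij => by
    rw [Matrix.map_apply, hPb i j hij, map_zero]
  have hD1 : v.map D * u + v * u.map D = 0 := by
    rw [← map_mul_der, hvu]
    ext i j
    simp only [Matrix.map_apply, Matrix.one_apply, Matrix.zero_apply]
    split_ifs <;> simp
  -- the trace is conjugation invariant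
  have key : trace ((v * y * u) * ((v * B * u).map D * (v * B' * u))) =
      trace (y * (B.map D * B')) := by
    rw [map_mul_der, map_mul_der]
    have e1 : (v * y * u) * (((v.map D * B + v * B.map D) * u + v * B * u.map D) * (v * B' * u)) =
        v * (y * (u * v.map D) + y * (B.map D * B') + y * B * (u.map D * v) * B') * u := by
      simp only [mul_add, add_mul, mul_assoc]
      rw [← mul_assoc u v, huv, one_mul, ← mul_assoc B B', hBB, one_mul, ← mul_assoc u v, huv,
        one_mul, ← mul_assoc u v, huv, one_mul]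
    rw [e1, trace_mul_cycle, huv, one_mul, trace_add, trace_add, trace_mul_cycle (y * B), hc,
      ← mul_assoc B' B, hBB', one_mul]
    have e2 : u * v.map D + u.map D * v = 0 := by
      have := congrArg (fun M => u * M * v) hD1
      simp only [mul_add, add_mul, mul_assoc, mul_zero, zero_mul] at this
      rwa [huv, mul_one, ← mul_assoc u v, huv, one_mul] at this
    rw [add_right_comm, ← trace_add, ← mul_add, e2, mul_zero, trace_zero, zero_add]
  set p : Polynomial Ω := Lagrange.interpolate (Finset.univ.image fun i => (v * B * u) i i) id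
    (fun t => D t * t⁻¹) with hp
  have h1 := hy p
  rw [← key]
  rw [← one_mul (y * _), ← huv, ← trace_mul_cycle, ← mul_one y, ← huv] at h1
  have e3 : v * (y * (u * v) * Polynomial.aeval B p) * u =
      (v * y * u) * Polynomial.aeval (v * B * u) p := by
    rw [h30_aeval_conj huv hvu]
    simp only [mul_assoc]
  rw [e3] at h1
  rw [← h1]
  refine Finset.sum_congr rfl fun i _ => ?_
  obtain ⟨a1, a2⟩ := h30_par_aeval hl hPb p
  rw [diag_apply, diag_apply, h30_par_diag hl hPy (hPD.mul hPb'), h30_par_diag hl hPD hPb',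
    h30_par_diag hl hPy a1, a2, Matrix.map_apply]
  have a3 := h30_par_diag hl hPb hPb' i
  rw [hinv, Matrix.one_apply_eq] at a3
  have a4 := Lagrange.eval_interpolate_at_node (s := Finset.univ.image fun i => (v * B * u) i i)
    (v := id) (fun t => D t * t⁻¹) (Set.injOn_id _)
    (Finset.mem_image_of_mem _ (Finset.mem_univ i))
  rw [← hp, id] at a4
  rw [a4, ← eq_inv_of_mul_eq_one_right a3.symm]

theorem h30_diagonalizable [IsAlgClosed Ω] {b : Matrix κ κ Ω}
    (h : ∀ y, y * b = b * y → IsNilpotent y → y = 0) :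
    ∃ (g : GL κ Ω) (t : κ → Ω),
      b = (g : Matrix κ κ Ω) * diagonal t * ((g⁻¹ : GL κ Ω) : Matrix κ κ Ω) := by
  set f : Module.End Ω (κ → Ω) := Matrix.toLinAlgEquiv' b with hf
  have hs : f.IsSemisimple := by
    obtain ⟨n, hn, s, -, h1, h2, h3⟩ := Module.End.exists_isNilpotent_isSemisimple (f := f)
    have hc : Commute f n := Algebra.commute_of_mem_adjoin_self hn
    have h4 : (Matrix.toLinAlgEquiv' (R := Ω) (n := κ)).symm n = 0 := by
      refine h _ ?_ (h1.map _)
      apply (Matrix.toLinAlgEquiv' (R := Ω) (n := κ)).injective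
      rw [map_mul, map_mul, AlgEquiv.apply_symm_apply, ← hf, hc.eq]
    rw [EmbeddingLike.map_eq_zero_iff] at h4
    rwa [h3, h4, zero_add]
  set S : Set (κ → Ω) := {v | ∃ μ : Ω, b *ᵥ v = μ • v} with hS
  have hspan : ⊤ ≤ Submodule.span Ω S := by
    rw [← hs.iSup_eigenspace_eq_top]
    refine iSup_le fun μ v hv => Submodule.subset_span ⟨μ, ?_⟩
    simpa [hf] using Module.End.mem_eigenspace_iff.1 hv
  set B₀ := Module.Basis.ofSpan hspan with hB₀
  set B := B₀.reindex (B₀.indexEquiv (Pi.basisFun Ω κ)) with hB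
  have hBS : ∀ j, B j ∈ S := fun j => by
    rw [hB, Module.Basis.reindex_apply]
    exact Module.Basis.ofSpan_subset hspan ⟨_, rfl⟩
  choose t ht using hBS
  let := (Pi.basisFun Ω κ).invertibleToMatrix B
  refine ⟨unitOfInvertible ((Pi.basisFun Ω κ).toMatrix B), t, ?_⟩
  rw [Units.eq_mul_inv_iff_mul_eq]
  ext i j
  have := congrFun (ht j) i
  simp only [val_unitOfInvertible, Matrix.mul_diagonal, Module.Basis.toMatrix_apply,
    Pi.basisFun_repr]
  rw [Pi.smul_apply, smul_eq_mul, mul_comm] at this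
  rw [← this, Matrix.mul_apply]
  simp [Matrix.mulVec, dotProduct, Module.Basis.toMatrix_apply]

theorem h30_separable [IsAlgClosed Ω] {b : Matrix κ κ Ω}
    (h : ∀ y, y * b = b * y → IsNilpotent y → y = 0) : b.charpoly.Separable := by
  obtain ⟨g, t, rfl⟩ := h30_diagonalizable h
  refine separable_diag g fun i j hij => ?_
  by_contra hne
  set u : Matrix κ κ Ω := (g : Matrix κ κ Ω) with hu
  set v : Matrix κ κ Ω := ((g⁻¹ : GL κ Ω) : Matrix κ κ Ω) with hv
  have hvu : v * u = 1 := g.inv_mul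
  have hc : single i j (1 : Ω) * diagonal t = diagonal t * single i j 1 := by
    ext a c
    simp only [Matrix.mul_diagonal, Matrix.diagonal_mul, Matrix.single_apply]
    split_ifs with h1
    · rw [← h1.1, ← h1.2, hij, mul_comm]
    · simp
  have h1 := h (u * single i j 1 * v) (by
    simp only [mul_assoc]
    rw [← mul_assoc v u, hvu, one_mul, ← mul_assoc v u, hvu, one_mul, ← mul_assoc (single i j 1),
      hc, mul_assoc]) ⟨2, by
    rw [pow_two]
    simp only [mul_assoc]
    rw [← mul_assoc v u, hvu, one_mul, ← mul_assoc (single i j 1),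
      Matrix.single_mul_single_of_ne _ _ _ _ (Ne.symm hne), zero_mul, mul_zero]⟩
  have h2 := congrArg (fun M => (v * M * u) i j) h1
  simp only [mul_assoc] at h2
  rw [hvu, mul_one, ← mul_assoc, hvu, one_mul] at h2
  simp at h2

theorem h30_nilp_or_idem [IsAlgClosed Ω] (Y : Matrix κ κ Ω) :
    (∃ μ : Ω, IsNilpotent (Y - μ • (1 : Matrix κ κ Ω))) ∨ ∃ p : Polynomial Ω,
      Polynomial.aeval Y p * Polynomial.aeval Y p = Polynomial.aeval Y p ∧
      Polynomial.aeval Y p ≠ 0 ∧ Polynomial.aeval Y p ≠ 1 := by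
  rcases isEmpty_or_nonempty κ with hκ | hκ
  · exact Or.inl ⟨0, 0, Subsingleton.elim _ _⟩
  have hP : Y.charpoly ≠ 0 := Y.charpoly_monic.ne_zero
  obtain ⟨μ, hμ⟩ := IsAlgClosed.exists_root Y.charpoly (by
    rw [Matrix.charpoly_degree_eq_dim]
    exact_mod_cast Fintype.card_ne_zero)
  obtain ⟨Q, hQ, hQ'⟩ := Polynomial.exists_eq_pow_rootMultiplicity_mul_and_not_dvd _ hP μ
  have hm : 0 < Y.charpoly.rootMultiplicity μ := (Polynomial.rootMultiplicity_pos hP).2 hμ
  set m := Y.charpoly.rootMultiplicity μ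
  obtain ⟨a, c, hac⟩ : IsCoprime ((Polynomial.X - Polynomial.C μ) ^ m) Q :=
    (((Polynomial.irreducible_X_sub_C μ).coprime_iff_not_dvd).2 hQ').pow_left
  have hX : Polynomial.aeval Y (Polynomial.X - Polynomial.C μ) = Y - μ • (1 : Matrix κ κ Ω) := by
    rw [map_sub, Polynomial.aeval_X, Polynomial.aeval_C, Algebra.algebraMap_eq_smul_one]
  have h0 : ∀ r, Polynomial.aeval Y (r * ((Polynomial.X - Polynomial.C μ) ^ m * Q)) = 0 :=
    fun r => by rw [← hQ, map_mul, Matrix.aeval_self_charpoly, mul_zero]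
  by_cases h1 : Polynomial.aeval Y (a * (Polynomial.X - Polynomial.C μ) ^ m) = 0
  · refine Or.inl ⟨μ, m, ?_⟩
    have e : (Polynomial.X - Polynomial.C μ) ^ m =
        (Polynomial.X - Polynomial.C μ) ^ m * (a * (Polynomial.X - Polynomial.C μ) ^ m) +
          c * ((Polynomial.X - Polynomial.C μ) ^ m * Q) := by
      linear_combination (-(Polynomial.X - Polynomial.C μ) ^ m) * hac
    rw [← hX, ← map_pow, e, map_add, h0, map_mul, h1, mul_zero, add_zero]
  · refine Or.inr ⟨_, ?_, h1, fun h2 => ?_⟩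
    · have e : a * (Polynomial.X - Polynomial.C μ) ^ m =
          a * (Polynomial.X - Polynomial.C μ) ^ m * (a * (Polynomial.X - Polynomial.C μ) ^ m) +
            (a * c) * ((Polynomial.X - Polynomial.C μ) ^ m * Q) := by
        linear_combination (-(a * (Polynomial.X - Polynomial.C μ) ^ m)) * hac
      conv_rhs => rw [e, map_add, h0, add_zero, map_mul]
    · have h3 := congrArg Matrix.det h2
      have h4 : (Y - μ • (1 : Matrix κ κ Ω)).det = 0 := by
        have h5 : (Matrix.scalar κ μ - Y).det = 0 := by rw [← Matrix.eval_charpoly]; exact hμ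
        have h6 : Y - μ • (1 : Matrix κ κ Ω) = -(Matrix.scalar κ μ - Y) := by
          rw [neg_sub, Matrix.scalar_apply, Matrix.smul_one_eq_diagonal]
        rw [h6, Matrix.det_neg, h5, mul_zero]
      rw [map_mul, map_pow, hX, Matrix.det_mul, Matrix.det_pow, h4, zero_pow hm.ne', mul_zero,
        Matrix.det_one] at h3
      exact zero_ne_one h3

theorem h30_common_ker [Nonempty κ] (N : Submodule Ω (Matrix κ κ Ω))
    (hmul : ∀ x ∈ N, ∀ y ∈ N, x * y ∈ N) (hnil : ∀ x ∈ N, IsNilpotent x) :
    ∃ v : κ → Ω, v ≠ 0 ∧ ∀ x ∈ N, x *ᵥ v = 0 := by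
  set orb : (κ → Ω) → Submodule Ω (κ → Ω) := fun w => N.map ((Matrix.mulVecBilin Ω Ω).flip w)
    with horb
  have hmem : ∀ w v, v ∈ orb w ↔ ∃ x ∈ N, x *ᵥ w = v := fun w v => by simp [horb]
  obtain ⟨w₀, hw₀⟩ := exists_ne (0 : κ → Ω)
  obtain ⟨W, ⟨w, hw, rfl⟩, hmin⟩ := (wellFounded_lt (α := Submodule Ω (κ → Ω))).has_min
    {W | ∃ w ≠ 0, W = orb w} ⟨_, w₀, hw₀, rfl⟩
  refine ⟨w, hw, fun x hx => ?_⟩
  by_contra hne
  have hle : orb (x *ᵥ w) ≤ orb w := fun v hv => by
    obtain ⟨y, hy, rfl⟩ := (hmem _ _).1 hv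
    exact (hmem _ _).2 ⟨y * x, hmul y hy x hx, (Matrix.mulVec_mulVec _ _ _).symm⟩
  have heq : orb (x *ᵥ w) = orb w := hle.eq_of_not_lt (hmin _ ⟨_, hne, rfl⟩)
  obtain ⟨y, hy, hy'⟩ := (hmem _ _).1 (heq ▸ (hmem w _).2 ⟨x, hx, rfl⟩)
  obtain ⟨n, hn⟩ := hnil y hy
  have : ∀ j : ℕ, (y ^ j) *ᵥ (x *ᵥ w) = x *ᵥ w := fun j => by
    induction j with
    | zero => simp
    | succ j ih => rw [pow_succ, ← Matrix.mulVec_mulVec, hy', ih]
  apply hne
  rw [← this n, hn, Matrix.zero_mulVec]

end Crest.Agent.R003
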