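import Crest.Agent.R003.Coc

/-! Row 3: auxiliary lemmas for `cutC_idem`. -/

set_option autoImplicit false
set_option linter.unusedSectionVars false

namespace Crest.Agent.R003

open Matrix

/-- the off-diagonal part of a cocycle value -/
theorem h83_key {R : Type} [Ring R] {e γ γ' De Dγ x c : R} (hee : e * e = e) (h1 : γ * γ' = 1)
    (h2 : γ' * γ = 1) (he : e * γ = γ * e) (hD : De * γ + e * Dγ = Dγ * e + γ * De)
    (hc : c = Dγ * γ' + (x - γ * x * γ')) (hm : e * c + c * e = c) :
    c = (De * e - e * De + (x * e + e * x - 2 * (e * x * e))) -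
      γ * (De * e - e * De + (x * e + e * x - 2 * (e * x * e))) * γ' := by
  have he2 : γ' * e = e * γ' := by
    calc γ' * e = γ' * e * (γ * γ') := by rw [h1, mul_one]
      _ = γ' * (e * γ) * γ' := by simp only [mul_assoc]
      _ = e * γ' := by rw [he, ← mul_assoc, h2, one_mul]
  have he1 : ∀ u, e * (γ * u) = γ * (e * u) := fun u => by rw [← mul_assoc, he, mul_assoc]
  have hee' : ∀ u, e * (e * u) = e * u := fun u => by rw [← mul_assoc, hee]
  have hz : Dγ * γ' * e - e * (Dγ * γ') = De - γ * De * γ' := by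
    have h3 := congrArg (· * γ') hD
    simp only [add_mul, mul_assoc, h1, mul_one] at h3
    rw [mul_assoc, he2, mul_assoc, sub_eq_sub_iff_add_eq_add, ← h3]
  have h4 : e * c * e = 0 := by
    have h3 := congrArg (e * ·) hm
    simp only [mul_add, hee'] at h3
    rw [mul_assoc]
    exact add_eq_left.1 h3
  generalize Dγ * γ' = z at hc hz
  have h5 : z * e + e * z - 2 * (e * z * e) = (z * e - e * z) * e - e * (z * e - e * z) := by
    simp only [sub_mul, mul_sub, mul_assoc, hee, hee', two_mul]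
    abel
  calc c = c * e + e * c - 2 * (e * c * e) := by rw [h4, mul_zero, sub_zero, add_comm, hm]
    _ = (z * e + e * z - 2 * (e * z * e)) + ((x - γ * x * γ') * e + e * (x - γ * x * γ') -
        2 * (e * (x - γ * x * γ') * e)) := by
      rw [hc]
      simp only [mul_add, add_mul, two_mul]
      abel
    _ = _ := by
      rw [h5, hz]
      simp only [mul_add, add_mul, mul_sub, sub_mul, two_mul, mul_assoc, he1, he2]
      abel

theorem h83_mem {R : Type} [Ring R] {e : R} (hee : e * e = e) (u x : R) :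
    e * (u * e - e * u + (x * e + e * x - 2 * (e * x * e))) +
      (u * e - e * u + (x * e + e * x - 2 * (e * x * e))) * e =
      u * e - e * u + (x * e + e * x - 2 * (e * x * e)) := by
  have hee' : ∀ u, e * (e * u) = e * u := fun u => by rw [← mul_assoc, hee]
  simp only [mul_add, add_mul, mul_sub, sub_mul, two_mul, mul_assoc, hee, hee']
  abel

/-- a dimension count -/
theorem h83_dim {K V : Type} [Field K] [AddCommGroup V] [Module K V] [FiniteDimensional K V]
    {m T : Submodule K V} (hT : T ≤ m) (F : V × V →ₗ[K] V) (δ : V →ₗ[K] V × V)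
    (hF : ∀ x ∈ m, ∀ y ∈ m, F (x, y) ∈ m)
    (h : ∀ x ∈ m, ∀ y ∈ m, F (x, y) = 0 → ∃ t ∈ T, δ t = (x, y)) : T = m := by
  let j : m × m →ₗ[K] V × V := m.subtype.prodMap m.subtype
  have hj : Function.Injective j := Subtype.val_injective.prodMap Subtype.val_injective
  let f : m × m →ₗ[K] m := (F ∘ₗ j).codRestrict m fun p => hF _ p.1.2 _ p.2.2
  have h1 := f.finrank_range_add_finrank_ker
  have h2 := (LinearMap.range f).finrank_le
  have h3 := ((LinearMap.ker f).equivMapOfInjective j hj).finrank_eq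
  have h4 : (LinearMap.ker f).map j ≤ T.map δ := by
    rintro _ ⟨p, hp, rfl⟩
    exact h _ p.1.2 _ p.2.2 (congrArg Subtype.val (LinearMap.mem_ker.1 hp))
  have h5 := Submodule.finrank_mono h4
  have h6 := T.finrank_map_le δ
  rw [Module.finrank_prod] at h1
  exact Submodule.eq_of_le_of_finrank_le hT (by omega)

variable {Ω : Type} [Field Ω] {κ : Type} [Fintype κ] [DecidableEq κ] {g : ℕ}
  {k : Type} [CommRing k] [Algebra k Ω]

/-- the off-diagonal matrices for an idempotent -/
def h83_m (e : Matrix κ κ Ω) : Submodule Ω (Matrix κ κ Ω) where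
  carrier := {x | e * x + x * e = x}
  add_mem' {x y} (hx : e * x + x * e = x) (hy : e * y + y * e = y) := by
    show e * (x + y) + (x + y) * e = x + y
    rw [mul_add, add_mul, add_add_add_comm, hx, hy]
  zero_mem' := by simp
  smul_mem' c x (hx : e * x + x * e = x) := by
    show e * (c • x) + (c • x) * e = c • x
    rw [Matrix.mul_smul, Matrix.smul_mul, ← smul_add, hx]

theorem h83_Ad_mem {e x : Matrix κ κ Ω} {γ : GL κ Ω} (h : Commute e (γ : Matrix κ κ Ω))
    (hx : x ∈ h83_m e) : Ad γ x ∈ h83_m e := by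
  have hx' : e * x + x * e = x := hx
  show e * Ad γ x + Ad γ x * e = Ad γ x
  rw [Ad_apply, Matrix.mul_assoc _ _ e, ← h.units_inv_right.eq, ← Matrix.mul_assoc e,
    ← Matrix.mul_assoc e, h.eq, ← Matrix.mul_assoc, ← Matrix.add_mul, Matrix.mul_assoc,
    Matrix.mul_assoc, ← Matrix.mul_add, hx']

/-- `b` commutes with the off-diagonal matrices -/
theorem h83_comm {ρ : Fin (g + 2) → GL κ Ω × GL κ Ω} (hD : AllDer k ρ) {e : Matrix κ κ Ω}
    (hb : Commute e ((ρ 0).2 : Matrix κ κ Ω)) (ha1 : Commute e ((ρ 1).1 : Matrix κ κ Ω))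
    (hb1 : Commute e ((ρ 1).2 : Matrix κ κ Ω)) (hee : e * e = e) {y : Matrix κ κ Ω}
    (hy : y ∈ h83_m e) : y * ((ρ 0).2 : Matrix κ κ Ω) = ((ρ 0).2 : Matrix κ κ Ω) * y := by
  have key : h83_m e ⊓ LinearMap.ker (LinearMap.id - Ad (ρ 0).2) = h83_m e := by
    refine h83_dim inf_le_left (fox1 (ρ 1).1 (ρ 1).2)
      ((LinearMap.id - Ad (ρ 1).1).prod (LinearMap.id - Ad (ρ 1).2)) (fun x hx y hy => ?_)
      fun x hx y hy h0 => ?_
    · have c1 : Commute e (((ρ 1).1 * (ρ 1).2 * (ρ 1).1⁻¹ : GL κ Ω) : Matrix κ κ Ω) :=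
        (ha1.mul_right hb1).mul_right ha1.units_inv_right
      exact add_mem (sub_mem hx (h83_Ad_mem c1 hx))
        (sub_mem (h83_Ad_mem ha1 hy) (h83_Ad_mem (c1.mul_right hb1.units_inv_right) hy))
    · obtain ⟨D, x₀, hc⟩ := hD (Pi.single 1 (x, y)) (by
        rw [fox, LinearMap.sum_apply]
        refine Finset.sum_eq_zero fun i _ => ?_
        by_cases hi : i = 1
        · subst hi
          simp [h0]
        · simp [Pi.single_eq_of_ne hi])
      have hk : ∀ (γ : GL κ Ω) (c : Matrix κ κ Ω), Commute e (γ : Matrix κ κ Ω) → c ∈ h83_m e →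
          c = (γ : Matrix κ κ Ω).map D * ((γ⁻¹ : GL κ Ω) : Matrix κ κ Ω) + (x₀ - Ad γ x₀) →
          (LinearMap.id - Ad γ : Matrix κ κ Ω →ₗ[Ω] Matrix κ κ Ω)
            (e.map D * e - e * e.map D + (x₀ * e + e * x₀ - 2 * (e * x₀ * e))) = c :=
        fun γ c h1 h2 h3 => by
          rw [LinearMap.sub_apply, LinearMap.id_apply, Ad_apply]
          rw [Ad_apply] at h3
          refine (h83_key hee γ.mul_inv γ.inv_mul h1.eq ?_ h3 h2).symm
          rw [← map_mul_der, ← map_mul_der, h1.eq]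
      have h0' := congrFun hc 0
      have h1' := congrFun hc 1
      rw [Pi.single_eq_of_ne (Fin.zero_ne_one)] at h0'
      rw [Pi.single_eq_same] at h1'
      exact ⟨_, ⟨h83_mem hee _ _, hk _ 0 hb (zero_mem _) (congrArg Prod.snd h0')⟩,
        Prod.ext (hk _ x ha1 hx (congrArg Prod.fst h1')) (hk _ y hb1 hy (congrArg Prod.snd h1'))⟩
  rw [← key] at hy
  have h1 : y - Ad (ρ 0).2 y = 0 := hy.2
  rw [sub_eq_zero, Ad_apply] at h1
  conv_lhs => rw [h1]
  rw [Matrix.mul_assoc, Units.inv_mul, Matrix.mul_one]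

end Crest.Agent.R003
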