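import Crest.Agent.R003.Coc
import Crest.Agent.R003.St1Aux30
import Crest.Agent.R003.St1Aux83

/-! Row 3: at a generic point the loop b is regular semisimple. -/

set_option autoImplicit false
set_option linter.unusedSectionVars false

namespace Crest.Agent.R003

open Matrix

variable {Ω : Type} [Field Ω] {κ : Type} [Fintype κ] [DecidableEq κ] {g : ℕ}
  {k : Type} [CommRing k] [Algebra k Ω]

/-- the commutant of the surface cut along `b = (ρ 0).2` -/
def cutC (ρ : Fin (g + 1) → GL κ Ω × GL κ Ω) : Set (Matrix κ κ Ω) :=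
  {Y | ∀ x : Fin (g + 1) × Bool, x ≠ (0, true) → Y * gens ρ x = gens ρ x * Y}

/-- the elements of the centraliser of `b` orthogonal to all polynomials in `b` -/
def z0 (b : Matrix κ κ Ω) : Set (Matrix κ κ Ω) :=
  {y | y * b = b * y ∧ ∀ p : Polynomial Ω, trace (y * Polynomial.aeval b p) = 0}

theorem nilp_mem_z0 {b y : Matrix κ κ Ω} (h : y * b = b * y) (hy : IsNilpotent y) : y ∈ z0 b :=
  ⟨h, h30_trace_nilp h hy⟩

/-- triangularise `y` and `b` simultaneously (`exists_triang`): `tr (y * D b * b⁻¹) =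
∑ y_ii * D (b_ii) / b_ii = tr (y * p b)` for an interpolation polynomial `p`. -/
theorem z0_trace_der [IsAlgClosed Ω] (b : GL κ Ω) {y : Matrix κ κ Ω}
    (hy : y ∈ z0 (b : Matrix κ κ Ω)) (D : Derivation k Ω Ω) :
    trace (y * ((b : Matrix κ κ Ω).map D * ((b⁻¹ : GL κ Ω) : Matrix κ κ Ω))) = 0 :=
  h30_trace_der b hy.1 hy.2 D

/-- (`q = ∏ (X - λ)` over the distinct roots of the characteristic polynomial: `q b` is nilpotent,
hence zero, so `b` is diagonalisable; a repeated eigenvalue gives a commuting `E_ij`.) -/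
theorem separable_of_no_nilp [IsAlgClosed Ω] {b : Matrix κ κ Ω}
    (h : ∀ y, y * b = b * y → IsNilpotent y → y = 0) : b.charpoly.Separable :=
  h30_separable h

/-- Fitting: one eigenvalue, or a nontrivial idempotent polynomial -/
theorem nilp_or_idem [IsAlgClosed Ω] (Y : Matrix κ κ Ω) :
    (∃ μ : Ω, IsNilpotent (Y - μ • (1 : Matrix κ κ Ω))) ∨ ∃ p : Polynomial Ω,
      Polynomial.aeval Y p * Polynomial.aeval Y p = Polynomial.aeval Y p ∧
      Polynomial.aeval Y p ≠ 0 ∧ Polynomial.aeval Y p ≠ 1 :=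
  h30_nilp_or_idem Y

/-- a multiplicatively closed space of nilpotent matrices has a common kernel vector
(Engel's theorem in Mathlib, `LieModule.isNilpotent_iff_forall`, or a direct argument). -/
theorem exists_common_ker [Nonempty κ] (N : Submodule Ω (Matrix κ κ Ω))
    (hmul : ∀ x ∈ N, ∀ y ∈ N, x * y ∈ N) (hnil : ∀ x ∈ N, IsNilpotent x) :
    ∃ v : κ → Ω, v ≠ 0 ∧ ∀ x ∈ N, x *ᵥ v = 0 :=
  h30_common_ker N hmul hnil

variable [IsAlgClosed Ω] [CharZero Ω]

/-- `fox_dual` with `U = ⊤`, `α = 0`, `β = y` -/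
theorem z0_sub {ρ : Fin (g + 1) → GL κ Ω × GL κ Ω} {ξ : Ω}
    (hρ : ((hprod ρ : GL κ Ω) : Matrix κ κ Ω) = ξ • (1 : Matrix κ κ Ω)) (hD : AllDer k ρ)
    {y : Matrix κ κ Ω} (hy : y ∈ z0 ((ρ 0).2 : Matrix κ κ Ω)) :
    ∃ Y ∈ cutC ρ, y = Ad (ρ 0).1⁻¹ Y - Y := by
  obtain ⟨Y, h1, -, h2⟩ := fox_dual ρ ξ hρ ⊤ 0 y fun c hc _ => by
    obtain ⟨D, x, rfl⟩ := hD c hc
    have e : ((dco k ρ D + cob ρ x) 0).2 = ((ρ 0).2 : Matrix κ κ Ω).map D *
        (((ρ 0).2⁻¹ : GL κ Ω) : Matrix κ κ Ω) + (x - Ad (ρ 0).2 x) := rfl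
    rw [Matrix.zero_mul, trace_zero, zero_add, e, Matrix.mul_add, trace_add,
      z0_trace_der _ hy D, zero_add, Matrix.mul_sub, trace_sub, Ad_apply, ← Matrix.mul_assoc,
      ← Matrix.mul_assoc, hy.1, trace_mul_comm _ (((ρ 0).2⁻¹ : GL κ Ω) : Matrix κ κ Ω),
      ← Matrix.mul_assoc, ← Matrix.mul_assoc, Units.inv_mul, Matrix.one_mul, sub_self]
  have h3 : 0 - (Y - Ad (ρ 0).2⁻¹ Y) = 0 := ext_iff_trace_mul_right.2 fun x => by
    simpa using h2 (x, 0) trivial
  have h4 : y - (Ad (ρ 0).1⁻¹ Y - Y) = 0 := ext_iff_trace_mul_right.2 fun x => by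
    simpa using h2 (0, x) trivial
  refine ⟨Y, fun x hx => ?_, sub_eq_zero.1 h4⟩
  obtain ⟨i, s⟩ := x
  by_cases hi : i = 0
  · subst hi
    cases s
    · rw [zero_sub, neg_eq_zero, sub_eq_zero, Ad_apply, inv_inv] at h3
      change Y * ((ρ 0).2 : Matrix κ κ Ω) = ((ρ 0).2 : Matrix κ κ Ω) * Y
      conv_rhs => rw [h3]
      rw [← Matrix.mul_assoc, ← Matrix.mul_assoc, Units.mul_inv, Matrix.one_mul]
    · exact absurd rfl hx
  · exact h1 (i, s) hi

/-- elements of `cutC` commute with `[a,b]` (a scalar times the inverse of the product of the other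
commutators), so `a⁻¹ Y a` commutes with `b`. -/
theorem cutC_conj {ρ : Fin (g + 1) → GL κ Ω × GL κ Ω} {ξ : Ω}
    (hρ : ((hprod ρ : GL κ Ω) : Matrix κ κ Ω) = ξ • (1 : Matrix κ κ Ω)) {Y : Matrix κ κ Ω}
    (hY : Y ∈ cutC ρ) :
    Ad (ρ 0).1⁻¹ Y * ((ρ 0).2 : Matrix κ κ Ω) = ((ρ 0).2 : Matrix κ κ Ω) * Ad (ρ 0).1⁻¹ Y := by
  let S : Subgroup (GL κ Ω) :=
    { carrier := {u | Commute Y (u : Matrix κ κ Ω)}
      mul_mem' := fun ha hb => ha.mul_right hb
      one_mem' := Commute.one_right Y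
      inv_mem' := fun ha => ha.units_inv_right }
  have ha : ∀ i : Fin g, (ρ i.succ).1 ∈ S := fun i =>
    hY (i.succ, true) fun h => Fin.succ_ne_zero i (congrArg Prod.fst h)
  have hb : ∀ i, (ρ i).2 ∈ S := fun i => hY (i, false) fun h => by simpa using congrArg Prod.snd h
  have h1 : hprod ρ ∈ S := by
    change Commute Y _
    rw [hρ]
    exact (Commute.one_right Y).smul_right ξ
  have h2 : (((List.finRange g).map Fin.succ).map fun i => cm (ρ i).1 (ρ i).2).prod ∈ S := by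
    refine S.list_prod_mem fun u hu => ?_
    simp only [List.map_map, List.mem_map] at hu
    obtain ⟨i, -, rfl⟩ := hu
    exact S.mul_mem (S.mul_mem (S.mul_mem (ha i) (hb _)) (S.inv_mem (ha i))) (S.inv_mem (hb _))
  rw [hprod, List.finRange_succ, List.map_cons, List.prod_cons, S.mul_mem_cancel_right h2,
    S.mul_mem_cancel_right (S.inv_mem (hb 0))] at h1
  have h3 : Y * (((ρ 0).1 : Matrix κ κ Ω) * ((ρ 0).2 : Matrix κ κ Ω) *
      (((ρ 0).1⁻¹ : GL κ Ω) : Matrix κ κ Ω)) = ((ρ 0).1 : Matrix κ κ Ω) * ((ρ 0).2 : Matrix κ κ Ω) *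
      (((ρ 0).1⁻¹ : GL κ Ω) : Matrix κ κ Ω) * Y := h1
  have h4 := congrArg (fun Z => (((ρ 0).1⁻¹ : GL κ Ω) : Matrix κ κ Ω) * Z *
    ((ρ 0).1 : Matrix κ κ Ω)) h3
  simp only [Matrix.mul_assoc, Units.inv_mul, Matrix.mul_one, Units.inv_mul_cancel_left] at h4
  rw [Ad_apply, inv_inv]
  simpa only [Matrix.mul_assoc] using h4

/-- No nontrivial idempotent `e` in `cutC`.  Let `𝔪 = {x | x = e x (1-e) + (1-e) x e}` and
`pr z = [[z,e],e]` the projection on it.  `fox1` of the handle `1` maps `𝔪 × 𝔪` to `𝔪`, its kernel `K`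
has dimension `≥ dim 𝔪`; elements of `K` are cocycles `c` supported on the handle `1`.
If `c = dco D + cob x`, then for the generators `γ ≠ a`: `pr (D γ γ⁻¹) = w - Ad γ w` with
`w = [D e, e]`, so `c γ = x' - Ad γ x'` with `x' = w + pr x ∈ 𝔪`, and `x'` commutes with `b`.
Hence `dim (𝔪 ⊓ centraliser b) ≥ dim 𝔪`, `b` commutes with `𝔪`, so `b` is a scalar if `e ≠ 0, 1`.
Then every trace zero `y` is in `z0 b`, so is `Ad a⁻¹ Y - Y`, which is orthogonal to `a`; so `a` is a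
scalar, `e` commutes with everything, and Schur's lemma applies. -/
theorem cutC_idem {ρ : Fin (g + 2) → GL κ Ω × GL κ Ω} {ξ : Ω}
    (hρ : ((hprod ρ : GL κ Ω) : Matrix κ κ Ω) = ξ • (1 : Matrix κ κ Ω)) (hI : Irr (gens ρ))
    (hD : AllDer k ρ) {e : Matrix κ κ Ω} (he : e ∈ cutC ρ) (hee : e * e = e) : e = 0 ∨ e = 1 := by
  have hb : Commute e ((ρ 0).2 : Matrix κ κ Ω) := he (0, false) (by simp)
  have ha : e * ((ρ 0).1 : Matrix κ κ Ω) = ((ρ 0).1 : Matrix κ κ Ω) * e := by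
    refine ext_iff_trace_mul_left.2 fun z => ?_
    have hy : z * e - e * z ∈ z0 ((ρ 0).2 : Matrix κ κ Ω) := by
      refine ⟨h83_comm hD hb (he (1, true) (by simp)) (he (1, false) (by simp)) hee ?_,
        fun p => ?_⟩
      · show e * (z * e - e * z) + (z * e - e * z) * e = z * e - e * z
        simpa using h83_mem hee z 0
      · have h1 : Commute (Polynomial.aeval ((ρ 0).2 : Matrix κ κ Ω) p) e :=
          Algebra.commute_of_mem_adjoin_singleton_of_commute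
            (Polynomial.aeval_mem_adjoin_singleton _ _) hb |>.symm
        rw [Matrix.sub_mul, trace_sub, Matrix.mul_assoc e, trace_mul_comm e, Matrix.mul_assoc,
          Matrix.mul_assoc, h1.eq, sub_self]
    obtain ⟨Y, -, hY⟩ := z0_sub hρ hD hy
    have h1 := congrArg (fun u => trace (u * ((ρ 0).1 : Matrix κ κ Ω))) hY
    simp only [Ad_apply, inv_inv, Matrix.sub_mul, trace_sub, Matrix.mul_assoc] at h1
    rw [trace_mul_comm ((ρ 0).1⁻¹ : GL κ Ω).val, Matrix.mul_assoc, Matrix.mul_assoc, Units.mul_inv,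
      Matrix.mul_one, sub_self, sub_eq_zero, trace_mul_comm e, Matrix.mul_assoc] at h1
    exact h1
  obtain ⟨c, hc⟩ := hI.schur (Y := e) fun x => by
    by_cases hx : x = (0, true)
    · rw [hx]
      exact ha
    · exact he x hx
  by_cases h1 : c = 1
  · exact Or.inr (by rw [hc, h1, one_smul])
  · have h2 : (c - 1) • e = 0 := by
      rw [sub_smul, one_smul, sub_eq_zero]
      conv_rhs => rw [← hee]
      conv_rhs => enter [1]; rw [hc]
      rw [Matrix.smul_mul, Matrix.one_mul]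
    exact Or.inl ((smul_eq_zero.1 h2).resolve_left (sub_ne_zero.2 h1))

/-- Every element of `cutC` is a scalar plus a nilpotent; the nilpotent ones form a subspace `N`
(trace zero elements) closed under products.  `N ⊆ z0 b ⊆ δ N` with `δ Y = Ad a⁻¹ Y - Y`, so by
dimension `N = z0 b`; so `Ad a⁻¹` preserves `N`, the common kernel of `N` is invariant under all
generators, it is nonzero, hence everything: `N = 0`. -/
theorem step1 {ρ : Fin (g + 2) → GL κ Ω × GL κ Ω} {ξ : Ω}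
    (hρ : ((hprod ρ : GL κ Ω) : Matrix κ κ Ω) = ξ • (1 : Matrix κ κ Ω)) (hI : Irr (gens ρ))
    (hD : AllDer k ρ) :
    (∀ Y ∈ cutC ρ, ∃ c : Ω, Y = c • (1 : Matrix κ κ Ω)) ∧
      ((ρ 0).2 : Matrix κ κ Ω).charpoly.Separable := by
  rcases isEmpty_or_nonempty κ with hκ | hκ
  · exact ⟨fun Y _ => ⟨0, Subsingleton.elim _ _⟩,
      separable_of_no_nilp fun y _ _ => Subsingleton.elim _ _⟩
  let C : Subalgebra Ω (Matrix κ κ Ω) :=
    { carrier := cutC ρ
      mul_mem' := fun {x y} hx hy j hj =>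
        (Commute.mul_left (hx j hj : Commute x _) (hy j hj : Commute y _)).eq
      add_mem' := fun {x y} hx hy j hj =>
        (Commute.add_left (hx j hj : Commute x _) (hy j hj : Commute y _)).eq
      algebraMap_mem' := fun c j _ => Algebra.commutes c _ }
  have hC : ∀ Y ∈ C, ∃ μ : Ω, IsNilpotent (Y - μ • (1 : Matrix κ κ Ω)) := fun Y hY => by
    rcases nilp_or_idem Y with h | ⟨p, h1, h2, h3⟩
    · exact h
    · have h4 : Polynomial.aeval Y p ∈ C :=
        Algebra.adjoin_le (Set.singleton_subset_iff.2 hY) (Polynomial.aeval_mem_adjoin_singleton Ω Y)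
      exact ((cutC_idem hρ hI hD h4 h1).elim h2 h3).elim
  let N : Submodule Ω (Matrix κ κ Ω) :=
    Subalgebra.toSubmodule C ⊓ LinearMap.ker (traceLinearMap κ Ω Ω)
  have hN1 : ∀ x ∈ C, IsNilpotent x → x ∈ N := fun x hx hn =>
    ⟨hx, (isNilpotent_trace_of_isNilpotent hn).eq_zero⟩
  have hN2 : ∀ x ∈ N, IsNilpotent x := fun x hx => by
    obtain ⟨μ, hμ⟩ := hC x hx.1
    have h1 := (isNilpotent_trace_of_isNilpotent hμ).eq_zero
    have h2 : trace x = 0 := hx.2
    rw [trace_sub, h2, trace_smul, trace_one, zero_sub, neg_eq_zero, smul_eq_mul,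
      mul_eq_zero] at h1
    rcases h1 with rfl | h1
    · simpa using hμ
    · exact absurd h1 (Nat.cast_ne_zero.2 Fintype.card_ne_zero)
  have hN3 : ∀ x ∈ N, ∀ y ∈ N, x * y ∈ N := fun x hx y hy => by
    have h1 : x * y ∈ C := C.mul_mem hx.1 hy.1
    obtain ⟨μ, hμ⟩ := hC _ h1
    by_cases h0 : μ = 0
    · exact hN1 _ h1 (by simpa [h0] using hμ)
    · have hu : IsUnit (μ • (1 : Matrix κ κ Ω)) := by
        rw [← Algebra.algebraMap_eq_smul_one]
        exact (IsUnit.mk0 μ h0).map _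
      have h2 := hμ.isUnit_add_right_of_commute hu ((Commute.one_right _).smul_right μ)
      rw [sub_add_cancel] at h2
      exact absurd (hN2 x hx) (isUnit_of_mul_isUnit_left h2).not_isNilpotent
  have hN4 : ∀ Y ∈ C, ∃ μ : Ω, Y - μ • (1 : Matrix κ κ Ω) ∈ N := fun Y hY => by
    obtain ⟨μ, hμ⟩ := hC Y hY
    exact ⟨μ, hN1 _ (C.sub_mem hY (C.smul_mem C.one_mem μ)) hμ⟩
  let δ : Matrix κ κ Ω →ₗ[Ω] Matrix κ κ Ω := Ad (ρ 0).1⁻¹ - LinearMap.id
  have hz : ∀ y, y * ((ρ 0).2 : Matrix κ κ Ω) = ((ρ 0).2 : Matrix κ κ Ω) * y → IsNilpotent y →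
      y ∈ N.map δ := fun y h1 h2 => by
    obtain ⟨Y, hY, rfl⟩ := z0_sub hρ hD (nilp_mem_z0 h1 h2)
    obtain ⟨μ, hμ⟩ := hN4 Y hY
    refine ⟨_, hμ, ?_⟩
    have h3 : δ 1 = 0 := by
      change Ad (ρ 0).1⁻¹ 1 - 1 = 0
      rw [Ad_apply, Matrix.mul_one, Units.mul_inv, sub_self]
    rw [map_sub, map_smul, h3, smul_zero, sub_zero]
    rfl
  have hδ : N = N.map δ := Submodule.eq_of_le_of_finrank_le
    (fun x hx => hz x (hx.1 (0, false) (by simp)) (hN2 x hx)) (Submodule.finrank_map_le _ _)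
  have hAd : ∀ x ∈ N, Ad (ρ 0).1⁻¹ x ∈ N := fun x hx => by
    have h1 : δ x ∈ N := hδ.ge (Submodule.mem_map_of_mem hx)
    simpa [δ] using N.add_mem h1 hx
  let W : Submodule Ω (κ → Ω) :=
    { carrier := {v | ∀ x ∈ N, x *ᵥ v = 0}
      add_mem' := fun hv hw x hx => by rw [mulVec_add, hv x hx, hw x hx, add_zero]
      zero_mem' := fun x _ => mulVec_zero x
      smul_mem' := fun c v hv x hx => by rw [mulVec_smul, hv x hx, smul_zero] }
  have hW : W = ⊤ := by
    refine (hI W fun j v hv x hx => ?_).resolve_left fun h => ?_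
    · by_cases hj : j = (0, true)
      · subst hj
        have h1 := hv _ (hAd x hx)
        rw [Ad_apply, inv_inv] at h1
        have h2 : x * ((ρ 0).1 : Matrix κ κ Ω) = ((ρ 0).1 : Matrix κ κ Ω) *
            ((((ρ 0).1⁻¹ : GL κ Ω) : Matrix κ κ Ω) * x * ((ρ 0).1 : Matrix κ κ Ω)) := by
          simp only [Matrix.mul_assoc, Units.mul_inv_cancel_left]
        change x *ᵥ (((ρ 0).1 : Matrix κ κ Ω) *ᵥ v) = 0
        rw [mulVec_mulVec, h2, ← mulVec_mulVec, h1, mulVec_zero]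
      · rw [mulVec_mulVec, hx.1 j hj, ← mulVec_mulVec, hv x hx, mulVec_zero]
    · obtain ⟨v, hv0, hv⟩ := exists_common_ker N hN3 hN2
      have h1 : v ∈ W := hv
      rw [h] at h1
      exact hv0 h1
  have hN0 : ∀ x ∈ N, x = 0 := fun x hx => by
    refine Matrix.ext_iff_mulVec.2 fun v => ?_
    have h1 : v ∈ W := hW ▸ Submodule.mem_top
    rw [h1 x hx, zero_mulVec]
  refine ⟨fun Y hY => ?_, separable_of_no_nilp fun y h1 h2 => hN0 y (hδ.ge (hz y h1 h2))⟩
  obtain ⟨μ, hμ⟩ := hN4 Y hY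
  exact ⟨μ, sub_eq_zero.1 (hN0 _ hμ)⟩

end Crest.Agent.R003
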