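import Crest.Agent.R003.Gauge

/-! Row 3: merged levels, generic lemmas (auxiliary file for `Swap`). -/

set_option autoImplicit false
set_option linter.unusedSectionVars false

namespace Crest.Agent.R003

open Matrix

section gen
variable {R : Type} [CommRing R] {ι Λ : Type} [LinearOrder Λ] [DecidableEq ι] [Fintype ι]

/-- `l` is `m` with the extra relations `p × q` -/
structure SwB (l m : ι → Λ) (p q : ι → Prop) : Prop where
  lt : ∀ c c', l c < l c' ↔ m c < m c' ∨ (p c ∧ q c')
  eq : ∀ c c', p c → q c' → m c = m c'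
  ne : ∀ c, p c → ¬ q c

variable {l m : ι → Λ} {p q : ι → Prop} [DecidablePred p] [DecidablePred q]

theorem swb_mask_neg (x : Matrix ι ι R) : mask p q (-x) = -mask p q x := by
  ext c c'
  simp only [mask, Matrix.of_apply, Matrix.neg_apply]
  split_ifs <;> simp

theorem swb_bd (h : ∀ c c', p c → q c' → m c = m c') (x : Matrix ι ι R) :
    BD m (1 + mask p q x) := by
  intro c c' hc
  have h1 : c ≠ c' := fun e => hc (e ▸ rfl)
  have h2 : ¬ (p c ∧ q c') := fun h' => hc (h c c' h'.1 h'.2)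
  simp [mask, h1, h2]

theorem swb_mul (h : ∀ c, p c → ¬ q c) (x y : Matrix ι ι R) : mask p q x * mask p q y = 0 := by
  ext c c'
  rw [Matrix.mul_apply, Matrix.zero_apply]
  refine Finset.sum_eq_zero fun r _ => ?_
  by_cases hr : p r
  · simp [mask, h r hr]
  · simp [mask, hr]

theorem SwB.uni_iff (h : SwB l m p q) {x : Matrix ι ι R} :
    Uni m x ↔ Uni l x ∧ mask p q x = 0 := by
  constructor
  · intro hx
    refine ⟨hx.mono fun c c' h' => (h.lt c c').2 (Or.inl h'), ?_⟩
    ext c c'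
    simp only [mask, Matrix.of_apply, Matrix.zero_apply]
    split_ifs with h1
    · rw [hx c c' (h.eq c c' h1.1 h1.2).not_lt, if_neg]
      rintro rfl
      exact h.ne _ h1.1 h1.2
    · rfl
  · rintro ⟨hx, h0⟩ c c' hc
    by_cases h1 : p c ∧ q c'
    · have := congrFun (congrFun h0 c) c'
      simp only [mask, Matrix.of_apply, Matrix.zero_apply, if_pos h1] at this
      rw [this, if_neg]
      rintro rfl
      exact h.ne _ h1.1 h1.2
    · exact hx c c' fun h2 => ((h.lt c c').1 h2).elim hc h1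

theorem SwB.uni_mask (h : SwB l m p q) (x : Matrix ι ι R) : Uni l (1 + mask p q x) :=
  uni_one_add fun c c' hc => (h.lt c c').2 (Or.inr (by
    by_contra h1
    exact hc (if_neg h1)))

theorem SwB.dpart (h : SwB l m p q) {x : Matrix ι ι R} (hx : Uni l x) :
    Par m x ∧ dpart m x = 1 + mask p q x := by
  refine ⟨fun c c' hc => hx.par c c' ((h.lt c' c).2 (Or.inl hc)), ?_⟩
  ext c c'
  simp only [R003.dpart, mask, Matrix.of_apply, Matrix.add_apply]
  by_cases h1 : p c ∧ q c'
  · have h2 : c ≠ c' := by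
      rintro rfl
      exact h.ne _ h1.1 h1.2
    rw [if_pos h1, if_pos (h.eq c c' h1.1 h1.2), Matrix.one_apply_ne h2, zero_add]
  · rw [if_neg h1, add_zero]
    split_ifs with h2
    · exact hx c c' fun h3 => ((h.lt c c').1 h3).elim h2.not_lt h1
    · rw [Matrix.one_apply_ne]
      rintro rfl
      exact h2 rfl

theorem swb_inv (h : ∀ c, p c → ¬ q c) (x : Matrix ι ι R) :
    (1 + mask p q x) * (1 + mask p q (-x)) = 1 := by
  rw [Matrix.mul_add, Matrix.add_mul, Matrix.add_mul, swb_mul h, swb_mask_neg]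
  simp

theorem swb_inv' (h : ∀ c, p c → ¬ q c) (x : Matrix ι ι R) :
    (1 + mask p q (-x)) * (1 + mask p q x) = 1 := mul_eq_one_comm.1 (swb_inv h x)

theorem SwB.kill_right (h : SwB l m p q) {x : Matrix ι ι R} (hx : Uni l x) :
    Uni m (x * (1 + mask p q (-x))) := by
  have hb := swb_bd (R := R) h.eq (-x)
  refine R003.uni_iff.2 ⟨(h.dpart hx).1.mul hb.par, ?_⟩
  rw [(h.dpart hx).1.dpart_mul hb.par, (h.dpart hx).2, hb.dpart_eq, swb_inv h.ne]

theorem SwB.kill_left (h : SwB l m p q) {x : Matrix ι ι R} (hx : Uni l x) :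
    Uni m ((1 + mask p q (-x)) * x) := by
  have hb := swb_bd (R := R) h.eq (-x)
  refine R003.uni_iff.2 ⟨hb.par.mul (h.dpart hx).1, ?_⟩
  rw [hb.par.dpart_mul (h.dpart hx).1, (h.dpart hx).2, hb.dpart_eq, swb_inv' h.ne]

end gen

namespace Prob

variable {o : Type} [CommRing o] {ι : Type} [Fintype ι] [DecidableEq ι] {P : Prob o ι}
  {Ω : Type} [Field Ω] [Algebra o Ω]

theorem swb_pre_ext {act act' : P.Pc → Prop} {d d' : P.Data Ω} (h : P.IsPre act d)
    (h' : P.IsPre act' d') (e : d.2 = d'.2) : d = d' := by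
  refine Prod.ext (funext fun i => ?_) e
  have h1 := h.fr i
  have h2 := h'.fr i
  rw [← e, h1] at h2
  have h3 := congrArg (fun Y => ((d.2.2 i)⁻¹ : GL ι Ω).val * Y * P.Linv d i) h2
  simp only [Matrix.mul_assoc, h.L_mul_Linv i, Matrix.mul_one] at h3
  rwa [← Matrix.mul_assoc, ← Matrix.mul_assoc, Units.inv_mul, Matrix.one_mul,
    Matrix.one_mul] at h3

theorem swb_Linv_eq {act act' : P.Pc → Prop} {d d' : P.Data Ω} (h : P.IsPre act d)
    (h' : P.IsPre act' d') (e : d.2.1 = d'.2.1) (i : P.I) : P.Linv d i = P.Linv d' i := by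
  have h1 := h'.L_mul_Linv i
  rw [← e] at h1
  rw [← Matrix.mul_one (P.Linv d i), ← h1, ← Matrix.mul_assoc, h.Linv_mul_L, Matrix.one_mul]

/-- a change of frame at the single slot `nx j` -/
theorem swb_slide {act : P.Pc → Prop} {d : P.Data Ω} (h : P.IsPre act d) {j : P.I}
    (hj : P.nx j ≠ j) (u : GL ι Ω) (k : P.I) :
    (P.slide d fun k => if k = P.nx j then u else 1).1 k =
      if k = j then d.1 j * (P.L d.2.1 j * u * P.Linv d j)
      else if k = P.nx j then (u⁻¹ : GL ι Ω).val * d.1 k else d.1 k := by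
  simp only [slide, EmbeddingLike.apply_eq_iff_eq]
  by_cases h1 : k = j
  · subst h1
    simp [hj.symm]
  · by_cases h2 : k = P.nx j
    · simp [h1, if_pos h2, h.L_mul_Linv]
    · simp [h1, h2, h.L_mul_Linv]

end Prob

end Crest.Agent.R003
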