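import Crest.Agent.R003.Gauge
import Crest.Agent.R003.SwapAuxB

/-! Row 3: thin problems: adjacent blocks, slides, swapping two levels. -/

set_option autoImplicit false
set_option linter.unusedSectionVars false

namespace Crest.Agent.R003

open Matrix

namespace Prob

variable {o : Type} [CommRing o] {ι : Type} [Fintype ι] [DecidableEq ι] {P : Prob o ι}
  {Ω : Type} [Field Ω] [Algebra o Ω]

theorem swapA_bwd_iff (hT : P.Thin) {j : P.I} {a b : ι} {p p' : P.Site} (hp : P.Ex p (j, a))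
    (hp' : P.Ex p' (j, b)) : P.Bwd j a b ↔ P.lev p' < P.lev p :=
  ⟨fun h => h p p' hp hp', fun h q q' hq hq' => by
    rw [(hT.ex_left hq hp).2, (hT.ex_left hq' hp').2]
    exact h⟩

theorem swapA_fwd_iff (hT : P.Thin) {j : P.I} {a b : ι} {t t' : P.Site} (hp : P.Ex (j, a) t)
    (hp' : P.Ex (j, b) t') : P.Fwd j a b ↔ P.lev t' < P.lev t :=
  ⟨fun h => h t t' hp hp', fun h q q' hq hq' => by
    rw [(hT.ex_right hq hp).2, (hT.ex_right hq' hp').2]
    exact h⟩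

theorem swapA_nfwd_iff (hT : P.Thin) {j : P.I} {a b : ι} {t t' : P.Site} (hp : P.Ex (j, a) t)
    (hp' : P.Ex (j, b) t') : P.NFwd j a b ↔ P.lev t < P.lev t' :=
  ⟨fun h => h t t' hp hp', fun h q q' hq hq' => by
    rw [(hT.ex_right hq hp).2, (hT.ex_right hq' hp').2]
    exact h⟩

/-- In a thin problem `Ex` is a bijection between the blocks of the slot `i` and those of the slot
`nx i` (`exists_ex_left/right`, `Thin.ex_left/right`, `Ex.of_blk`).  If it is not monotone, its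
inverse has a descent at two adjacent blocks (take a reversed pair `t' < t` at slot `nx i` with the
least number of sites strictly between). -/
theorem exists_adj (hT : P.Thin) (s : P.Sol Ω) {x : P.I × P.Λ × P.Λ} (hx : x ∈ P.InvSet) :
    ∃ a b, P.Adj (P.nx x.1) a b ∧ P.Bwd (P.nx x.1) a b := by
  classical
  obtain ⟨i, l, l'⟩ := x
  obtain ⟨a, a', ⟨j, t⟩, ⟨j', t'⟩, h1, h2, h3, h4, h5, h6⟩ := hx
  obtain rfl : j = P.nx i := h4.slot
  obtain rfl : j' = P.nx i := h5.slot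
  simp only at h1 h2 h3 h4 h5 ⊢
  have hne : ∃ n, ∃ c c' : ι, P.lev (P.nx i, c) < P.lev (P.nx i, c') ∧ P.Bwd (P.nx i) c c' ∧
      (Finset.univ.filter fun e => P.lev (P.nx i, c) < P.lev (P.nx i, e) ∧
        P.lev (P.nx i, e) < P.lev (P.nx i, c')).card = n :=
    ⟨_, t', t, h6, (swapA_bwd_iff hT h5 h4).2 (by rw [h1, h2]; exact h3), rfl⟩
  obtain ⟨c, c', hlt, hB, hn⟩ := Nat.find_spec hne
  refine ⟨c, c', ⟨hlt, fun e he => ?_⟩, hB⟩
  obtain ⟨σ, hσ⟩ := s.2.exists_ex_left (P.nx i, e)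
  obtain ⟨p, hp⟩ := s.2.exists_ex_left (P.nx i, c)
  obtain ⟨p', hp'⟩ := s.2.exists_ex_left (P.nx i, c')
  have hpp := hB p p' hp hp'
  rcases lt_or_ge (P.lev σ) (P.lev p) with h | h
  · refine Nat.find_min hne ?_ ⟨c, e, he.1, (swapA_bwd_iff hT hp hσ).2 h, rfl⟩
    rw [← hn]
    refine Finset.card_lt_card ⟨fun y hy => ?_, fun hs => ?_⟩
    · rw [Finset.mem_filter] at hy ⊢
      exact ⟨hy.1, hy.2.1, hy.2.2.trans he.2⟩
    · exact lt_irrefl _ (Finset.mem_filter.1 (hs (Finset.mem_filter.2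
        ⟨Finset.mem_univ e, he⟩))).2.2
  · refine Nat.find_min hne ?_ ⟨e, c', he.2, (swapA_bwd_iff hT hσ hp').2 (hpp.trans_le h), rfl⟩
    rw [← hn]
    refine Finset.card_lt_card ⟨fun y hy => ?_, fun hs => ?_⟩
    · rw [Finset.mem_filter] at hy ⊢
      exact ⟨hy.1, he.1.trans hy.2.1, hy.2.2⟩
    · exact lt_irrefl _ (Finset.mem_filter.1 (hs (Finset.mem_filter.2
        ⟨Finset.mem_univ e, he⟩))).2.1

theorem fwd_or_nfwd (hT : P.Thin) (s : P.Sol Ω) {j : P.I} {a b : ι} (h : P.Adj j a b) :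
    P.Fwd j a b ∨ P.NFwd j a b := by
  obtain ⟨t, ht⟩ := s.2.exists_ex_right (j, a)
  obtain ⟨t', ht'⟩ := s.2.exists_ex_right (j, b)
  rw [swapA_fwd_iff hT ht ht', swapA_nfwd_iff hT ht ht']
  rcases lt_trichotomy (P.lev t') (P.lev t) with h1 | h1 | h1
  · exact Or.inl h1
  · have h2 : P.Ex (j, a) t' := ht.of_blk ⟨rfl, rfl⟩ ⟨ht.slot.trans ht'.slot.symm, h1.symm⟩
    exact absurd (hT.ex_left h2 ht').2 h.lt.ne
  · exact Or.inr h1

variable (P) in
/-- levels after swapping the blocks of `a` and `b` in the slot `j` -/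
def slev (j : P.I) (a b : ι) (s : P.Site) : P.Λ :=
  if s.1 = j then Equiv.swap (P.lev (j, a)) (P.lev (j, b)) (P.lev s) else P.lev s

theorem blk_slev (j : P.I) (a b : ι) (s t : P.Site) :
    Blk (P.slev j a b) s t ↔ Blk P.lev s t := by
  unfold Blk slev
  refine and_congr_right fun h => ?_
  rw [h]
  split_ifs
  · exact (Equiv.injective _).eq_iff
  · rfl

/-- the swapped problem -/
def swap (hT : P.Thin) (j : P.I) (a b : ι) : Prob o ι where
  I := P.I
  nx := P.nx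
  Λ := P.Λ
  lev := P.slev j a b
  J := P.J
  Pc := P.Pc
  pc := P.pc
  tau := P.tau
  u := P.u
  Z := P.Z
  z := P.z
  tau_tau := P.tau_tau
  u_tau := P.u_tau
  pc_slot := P.pc_slot
  pc_exit := P.pc_exit
  pc_exit' := P.pc_exit'
  blk_pc s t h := P.blk_pc s t ((blk_slev j a b s t).1 h)
  blk_J s t := by rw [blk_slev, blk_slev, P.blk_J]
  lt_J s t h h' := absurd ((blk_slev j a b s t).2 (hT s t h)).2 h'.ne
  z_J := P.z_J
  z_cyc := P.z_cyc
  z_inj s t h := P.z_inj s t ((blk_slev j a b s t).1 h)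

section
variable {j : P.I} {a b : ι}

/-- only the order of the two blocks changes -/
theorem slev_lt_iff (h : P.Adj j a b) (c c' : ι) :
    P.slev j a b (j, c) < P.slev j a b (j, c') ↔
      (P.lev (j, c) < P.lev (j, c') ∧ ¬ (P.lev (j, c) = P.lev (j, a) ∧ P.lev (j, c') = P.lev (j, b))) ∨
      (P.lev (j, c) = P.lev (j, b) ∧ P.lev (j, c') = P.lev (j, a)) := by
  have h0 := h.lt
  have h1 := h.adj c
  have h2 := h.adj c'
  simp only [slev, if_true]
  generalize P.lev (j, a) = A at *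
  generalize P.lev (j, b) = B at *
  generalize P.lev (j, c) = x at *
  generalize P.lev (j, c') = y at *
  rw [Equiv.swap_apply_def, Equiv.swap_apply_def]
  split_ifs <;> grind

/-! The group `U° = {x ∈ U | cor x = 0}` is the intersection of the two unipotent groups; it is
normalised by all matrices `1 + y` with `y` supported on `(a ∪ b) × (a ∪ b)`.  (It is `Uni` for the
level function which merges the blocks `a` and `b`; use `Uni.conj`.) -/

/-- the level function merging the two blocks -/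
def mlev (j : P.I) (a b : ι) (c : ι) : P.Λ :=
  if P.lev (j, c) = P.lev (j, b) then P.lev (j, a) else P.lev (j, c)

theorem swb_mlev_lt (h : P.Adj j a b) (c c' : ι) :
    mlev j a b c < mlev j a b c' ↔ P.lev (j, c) < P.lev (j, c') ∧
      ¬ (P.lev (j, c) = P.lev (j, a) ∧ P.lev (j, c') = P.lev (j, b)) := by
  have hab := h.lt
  unfold mlev
  by_cases h1 : P.lev (j, c) = P.lev (j, b) <;> by_cases h2 : P.lev (j, c') = P.lev (j, b)
  · simp [h1, h2]
  · rw [if_pos h1, if_neg h2, h1]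
    refine ⟨fun h3 => ⟨lt_of_le_of_ne (not_lt.1 fun h4 => h.adj c' ⟨h3, h4⟩) (Ne.symm h2),
      fun h4 => h2 h4.2⟩, fun h3 => hab.trans h3.1⟩
  · rw [if_neg h1, if_pos h2, h2]
    refine ⟨fun h3 => ⟨h3.trans hab, fun h4 => h3.ne h4.1⟩, fun h3 =>
      lt_of_le_of_ne (not_lt.1 fun h4 => h.adj c ⟨h4, h3.1⟩) fun h4 => h3.2 ⟨h4, rfl⟩⟩
  · simp [h1, h2]

theorem swb_mlev_a {c : ι} (h : P.lev (j, c) = P.lev (j, a)) : mlev j a b c = P.lev (j, a) := by
  unfold mlev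
  split_ifs
  · rfl
  · exact h

theorem swb_mlev_b {c : ι} (h : P.lev (j, c) = P.lev (j, b)) : mlev j a b c = P.lev (j, a) :=
  if_pos h

theorem swb_up (h : P.Adj j a b) : SwB (P.lv j) (mlev j a b)
    (fun c => P.lev (j, c) = P.lev (j, a)) (fun c => P.lev (j, c) = P.lev (j, b)) := by
  refine ⟨fun c c' => ?_, fun c c' h1 h2 => (swb_mlev_a h1).trans (swb_mlev_b h2).symm,
    fun c h1 h2 => h.lt.ne (h1.symm.trans h2)⟩
  rw [swb_mlev_lt h]
  constructor
  · intro h1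
    by_cases h2 : P.lev (j, c) = P.lev (j, a) ∧ P.lev (j, c') = P.lev (j, b)
    · exact Or.inr h2
    · exact Or.inl ⟨h1, h2⟩
  · rintro (h1 | h1)
    · exact h1.1
    · change P.lev (j, c) < P.lev (j, c')
      rw [h1.1, h1.2]
      exact h.lt

theorem swb_down (h : P.Adj j a b) : SwB (fun c => P.slev j a b (j, c)) (mlev j a b)
    (fun c => P.lev (j, c) = P.lev (j, b)) (fun c => P.lev (j, c) = P.lev (j, a)) :=
  ⟨fun c c' => by rw [swb_mlev_lt h]; exact slev_lt_iff h c c',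
    fun _ _ h1 h2 => (swb_mlev_b h1).trans (swb_mlev_a h2).symm,
    fun _ h1 h2 => h.lt.ne (h2.symm.trans h1)⟩

theorem swb_cor_ne {c c' : ι} {x : Matrix ι ι Ω} (h : P.cor j a b x c c' ≠ 0) :
    Blk P.lev (j, c) (j, a) ∧ Blk P.lev (j, c') (j, b) := by
  by_contra h1
  exact h (if_neg fun h2 => h1 ⟨⟨rfl, h2.1⟩, ⟨rfl, h2.2⟩⟩)

theorem uni_mlev_iff (h : P.Adj j a b) {x : Matrix ι ι Ω} :
    Uni (mlev j a b) x ↔ Uni (P.lv j) x ∧ P.cor j a b x = 0 := by
  exact (swb_up h).uni_iff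
theorem uni_mlev_iff' (h : P.Adj j a b) {x : Matrix ι ι Ω} :
    Uni (mlev j a b) x ↔ Uni (fun c => P.slev j a b (j, c)) x ∧ P.cor j b a x = 0 := by
  exact (swb_down h).uni_iff
theorem bd_mlev_cor (x : Matrix ι ι Ω) : BD (mlev j a b) (1 + P.cor j a b x) := by
  exact swb_bd (fun c c' h1 h2 => (swb_mlev_a h1).trans (swb_mlev_b h2).symm) x
theorem bd_mlev_cor' (x : Matrix ι ι Ω) : BD (mlev j a b) (1 + P.cor j b a x) := by
  exact swb_bd (fun c c' h1 h2 => (swb_mlev_b h1).trans (swb_mlev_a h2).symm) x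
theorem cor_mul_cor (h : P.Adj j a b) (x y : Matrix ι ι Ω) : P.cor j a b x * P.cor j a b y = 0 := by
  exact swb_mul (swb_up h).ne x y
theorem cor_mul_cor' (h : P.Adj j a b) (x y : Matrix ι ι Ω) : P.cor j b a x * P.cor j b a y = 0 := by
  exact swb_mul (swb_down h).ne x y
theorem uni_cor (h : P.Adj j a b) (x : Matrix ι ι Ω) : Uni (P.lv j) (1 + P.cor j a b x) := by
  exact (swb_up h).uni_mask x
theorem uni_cor' (h : P.Adj j a b) (x : Matrix ι ι Ω) :
    Uni (fun c => P.slev j a b (j, c)) (1 + P.cor j b a x) := by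
  exact (swb_down h).uni_mask x
/-- an element of `U` is block triangular for the merged levels, with diagonal part `1 + cor x` -/
theorem Uni.dpart_mlev (h : P.Adj j a b) {x : Matrix ι ι Ω} (hx : Uni (P.lv j) x) :
    Par (mlev j a b) x ∧ dpart (mlev j a b) x = 1 + P.cor j a b x := by
  exact (swb_up h).dpart hx
theorem Uni.dpart_mlev' (h : P.Adj j a b) {x : Matrix ι ι Ω}
    (hx : Uni (fun c => P.slev j a b (j, c)) x) :
    Par (mlev j a b) x ∧ dpart (mlev j a b) x = 1 + P.cor j b a x := by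
  exact (swb_down h).dpart hx

/-- sliding the lower corner backwards (`uni_conj_rel`, `Ex.of_blk`) -/
theorem Bwd.uni {i : P.I} {a b : ι} (h : P.Bwd (P.nx i) a b) {L L' : Matrix ι ι Ω}
    (hL : L * L' = 1) (h1 : ∀ c c', L c c' ≠ 0 → P.Ex (i, c) (P.nx i, c'))
    (h2 : ∀ c' c, L' c' c ≠ 0 → P.Ex (i, c) (P.nx i, c')) (c : Matrix ι ι Ω) :
    Uni (P.lv i) (L * (1 + P.cor (P.nx i) b a c) * L') := by
  refine uni_conj_rel hL (r := fun c c' => P.Ex (i, c) (P.nx i, c')) h1 h2 ?_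
  intro a₁ a₂ b₁ b₂ hN e₁ e₂
  obtain ⟨k₁, k₂⟩ := swb_cor_ne hN
  exact h _ _ (e₂.of_blk (blk_refl _) k₂) (e₁.of_blk (blk_refl _) k₁)
/-- sliding the lower corner forwards -/
theorem Fwd.uni (h : P.Fwd j a b) {L L' : Matrix ι ι Ω}
    (hL : L * L' = 1) (h1 : ∀ c c', L c c' ≠ 0 → P.Ex (j, c) (P.nx j, c'))
    (h2 : ∀ c' c, L' c' c ≠ 0 → P.Ex (j, c) (P.nx j, c')) (c : Matrix ι ι Ω) :
    Uni (P.lv (P.nx j)) (L' * (1 + P.cor j b a c) * L) := by
  refine uni_conj_rel (mul_eq_one_comm.1 hL) (r := fun c' c => P.Ex (j, c) (P.nx j, c')) h2 h1 ?_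
  intro a₁ a₂ b₁ b₂ hN e₁ e₂
  obtain ⟨k₁, k₂⟩ := swb_cor_ne hN
  exact h _ _ (e₂.of_blk k₂ (blk_refl _)) (e₁.of_blk k₁ (blk_refl _))
/-- sliding the upper corner forwards -/
theorem NFwd.uni (h : P.NFwd j a b) {L L' : Matrix ι ι Ω}
    (hL : L * L' = 1) (h1 : ∀ c c', L c c' ≠ 0 → P.Ex (j, c) (P.nx j, c'))
    (h2 : ∀ c' c, L' c' c ≠ 0 → P.Ex (j, c) (P.nx j, c')) (c : Matrix ι ι Ω) :
    Uni (P.lv (P.nx j)) (L' * (1 + P.cor j a b c) * L) := by
  refine uni_conj_rel (mul_eq_one_comm.1 hL) (r := fun c' c => P.Ex (j, c) (P.nx j, c')) h2 h1 ?_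
  intro a₁ a₂ b₁ b₂ hN e₁ e₂
  obtain ⟨k₁, k₂⟩ := swb_cor_ne hN
  exact h _ _ (e₁.of_blk k₁ (blk_refl _)) (e₂.of_blk k₂ (blk_refl _))

/-- The good map `F : Sol × Matrix → Sol`, `F (s, c) = slide s w` with
`w (nx j) = Linv j * (1 + cor c) * L j`, `w = 1` elsewhere, replaces `X j` by `X j * (1 + cor c)`;
take `s' = F (s, -X j)`; then `s = F (s', X j)`; `Big.inZ_matrix`. -/
theorem slide_step (hB : Big o Ω) (h : P.Adj j a b) (hN : P.NFwd j a b) (hj : P.nx j ≠ j)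
    (s : P.Sol Ω) :
    ∃ s' : P.Sol Ω, P.cor j a b (s'.1.1 j) = 0 ∧ (InZ o Ω s' → InZ o Ω s) := by
  have hinv : ∀ (d : P.Sol Ω) (x y : Matrix ι ι Ω), x * y = 1 →
      P.Linv d.1 j * x * P.L d.1.2.1 j * (P.Linv d.1 j * y * P.L d.1.2.1 j) = 1 := by
    intro d x y hxy
    calc _ = P.Linv d.1 j * (x * (P.L d.1.2.1 j * P.Linv d.1 j) * y) * P.L d.1.2.1 j := by
          simp only [Matrix.mul_assoc]
      _ = 1 := by rw [d.2.L_mul_Linv, Matrix.mul_one, hxy, Matrix.mul_one, d.2.Linv_mul_L]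
  let u : P.Sol Ω × Matrix ι ι Ω → GL ι Ω := fun z =>
    ⟨P.Linv z.1.1 j * (1 + P.cor j a b z.2) * P.L z.1.1.2.1 j,
      P.Linv z.1.1 j * (1 + P.cor j a b (-z.2)) * P.L z.1.1.2.1 j,
      hinv _ _ _ (swb_inv (swb_up h).ne _), hinv _ _ _ (swb_inv' (swb_up h).ne _)⟩
  let G : P.Sol Ω × Matrix ι ι Ω → P.Data Ω := fun z =>
    P.slide z.1.1 fun k => if k = P.nx j then u z else 1
  have hGj : ∀ z, (G z).1 j = z.1.1.1 j * (1 + P.cor j a b z.2) := by
    intro z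
    simp only [G]
    rw [swb_slide z.1.2 hj, if_pos rfl]
    congr 1
    calc _ = (P.L z.1.1.2.1 j * P.Linv z.1.1 j) * (1 + P.cor j a b z.2)
          * (P.L z.1.1.2.1 j * P.Linv z.1.1 j) := by simp only [u, Matrix.mul_assoc]
      _ = _ := by rw [z.1.2.L_mul_Linv, Matrix.mul_one, Matrix.one_mul]
  have hG : ∀ z, P.IsSol (G z) := by
    intro z
    refine IsPre.slide z.1.2 _ fun k => ?_
    by_cases h1 : k = j
    · subst h1
      exact hGj z ▸ (z.1.2.uni k).mul (uni_cor h _)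
    · rw [swb_slide z.1.2 hj, if_neg h1]
      split_ifs with h2
      · subst h2
        exact (hN.uni (z.1.2.L_mul_Linv j) (z.1.2.L_supp j)
          (fun c' c => z.1.2.Linv_supp j c c') (-z.2)).mul (z.1.2.uni _)
      · exact z.1.2.uni k
  have hu : Good o Ω u := Good.unitsMk (by fun_prop) (by fun_prop) _ _
  have hF : Good o Ω fun z => (⟨G z, hG z⟩ : P.Sol Ω) :=
    Good.subtypeMk (good_slide (by fun_prop) (Good.pi fun k => Good.ite hu Good.glone)) _
  refine ⟨⟨G (s, -s.1.1 j), hG _⟩, ?_, fun hz => ?_⟩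
  · rw [hGj]
    exact ((uni_mlev_iff h).1 ((swb_up h).kill_right (s.2.uni j))).2
  · have := hF.inZ (hz.prodMk (hB.inZ_matrix (s.1.1 j)))
    convert this using 1
    refine Subtype.ext (swb_pre_ext s.2 (hG _) (Prod.ext rfl (funext fun k => ?_)))
    change s.1.2.2 k = s.1.2.2 k * (if k = P.nx j then u (s, -s.1.1 j) else 1) *
      (if k = P.nx j then u (⟨G (s, -s.1.1 j), hG _⟩, s.1.1 j) else 1)
    split_ifs
    · rw [mul_assoc, left_eq_mul]
      refine Units.ext ?_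
      change P.Linv s.1 j * (1 + P.cor j a b (-s.1.1 j)) * P.L s.1.2.1 j *
        (P.Linv (G (s, -s.1.1 j)) j * (1 + P.cor j a b (s.1.1 j)) * P.L s.1.2.1 j) = 1
      rw [swb_Linv_eq (hG (s, -s.1.1 j)) s.2 rfl]
      exact hinv _ _ _ (swb_inv' (swb_up h).ne _)
    · simp
end

/-- A point with zero corner is a solution of the swapped problem.  Retraction: slide with
`w (nx i) = 1 + cor (nx i) b a (X (nx i))`, `w = 1` elsewhere (`IsPre.slide` for the swapped problem,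
`Bwd.uni`; `L`, `Linv`, `Ex` of the two problems are definitionally equal); the new `X (nx i)` is in
`U°`, so the result is also a solution of `P`. -/
theorem swap_step (hT : P.Thin) {i : P.I} {a b : ι} (h : P.Adj (P.nx i) a b)
    (hB : P.Bwd (P.nx i) a b) (hi : P.nx i ≠ i) (s : P.Sol Ω)
    (hs : P.cor (P.nx i) a b (s.1.1 (P.nx i)) = 0)
    (hd : (swap hT (P.nx i) a b).Dense Ω) : InZ o Ω s := by
  have hlv : ∀ k, k ≠ P.nx i → (swap hT (P.nx i) a b).lv k = P.lv k := fun k hk =>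
    funext fun c => if_neg hk
  have c1 : ∀ d : P.Data Ω, (swap hT (P.nx i) a b).IsSol d → (∀ k, Uni (P.lv k) (d.1 k)) →
      P.IsSol d := fun d hd hu => ⟨hu, hd.supp, hd.fix, hd.sq, hd.fr⟩
  have hs' : (swap hT (P.nx i) a b).IsSol s.1 := by
    refine ⟨fun k => ?_, s.2.supp, s.2.fix, s.2.sq, s.2.fr⟩
    by_cases hk : k = P.nx i
    · subst hk
      exact ((uni_mlev_iff' h).1 ((uni_mlev_iff h).2 ⟨s.2.uni _, hs⟩)).1
    · rw [hlv k hk]
      exact s.2.uni k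
  let u : (swap hT (P.nx i) a b).Sol Ω → GL ι Ω := fun z =>
    ⟨1 + P.cor (P.nx i) b a (z.1.1 (P.nx i)), 1 + P.cor (P.nx i) b a (-z.1.1 (P.nx i)),
      swb_inv (swb_down h).ne _, swb_inv' (swb_down h).ne _⟩
  let G : (swap hT (P.nx i) a b).Sol Ω → (swap hT (P.nx i) a b).Data Ω := fun z =>
    (swap hT (P.nx i) a b).slide z.1 fun k => if k = (swap hT (P.nx i) a b).nx i then u z else 1
  have hGu : ∀ z k, Uni (P.lv k) ((G z).1 k) ∧ Uni ((swap hT (P.nx i) a b).lv k) ((G z).1 k) := by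
    intro z k
    simp only [G]
    rw [swb_slide (P := swap hT (P.nx i) a b) z.2 hi]
    split_ifs with h1 h2
    · subst h1
      have h0 : Uni (P.lv k) (z.1.1 k) := hlv k hi.symm ▸ z.2.uni k
      have := h0.mul (hB.uni (z.2.L_mul_Linv k) (z.2.L_supp k)
        (fun c' c => z.2.Linv_supp k c c') (z.1.1 (P.nx k)))
      rw [hlv k hi.symm]
      exact ⟨this, this⟩
    · subst h2
      have := (swb_down h).kill_left (z.2.uni (P.nx i))
      exact ⟨((uni_mlev_iff h).1 this).1, ((uni_mlev_iff' h).1 this).1⟩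
    · exact ⟨hlv k h2 ▸ z.2.uni k, z.2.uni k⟩
  have hG' : ∀ z, (swap hT (P.nx i) a b).IsSol (G z) := fun z =>
    IsPre.slide z.2 _ fun k => (hGu z k).2
  have hG : ∀ z, P.IsSol (G z) := fun z => c1 _ (hG' z) fun k => (hGu z k).1
  have hX : Good o Ω fun z : (swap hT (P.nx i) a b).Sol Ω => z.1.1 (P.nx i) :=
    (Good.apply (W := fun _ : (swap hT (P.nx i) a b).I => Matrix ι ι Ω) (P.nx i)).comp
      (Good.val Good.id).fst
  have hu : Good o Ω u := Good.unitsMk (Good.mone.madd (good_cor _ _ _ hX))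
    (Good.mone.madd (good_cor _ _ _ hX.mneg)) _ _
  have hG0 : Good o Ω G :=
    good_slide (Good.val Good.id) (Good.pi fun k => Good.ite hu Good.glone)
  have hF : Good o Ω fun z => (⟨G z, hG z⟩ : P.Sol Ω) := Good.subtypeMk hG0 _
  have := hF.inZ (hd ⟨s.1, hs'⟩)
  convert this using 1
  refine Subtype.ext (swb_pre_ext s.2 (hG _) (Prod.ext rfl (funext fun k => ?_)))
  change s.1.2.2 k = s.1.2.2 k * (if k = P.nx i then u ⟨s.1, hs'⟩ else 1)
  split_ifs
  · rw [left_eq_mul]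
    refine Units.ext ?_
    change 1 + P.cor (P.nx i) b a (s.1.1 (P.nx i)) = 1
    rw [((uni_mlev_iff' h).1 ((uni_mlev_iff h).2 ⟨s.2.uni _, hs⟩)).2, add_zero]
  · simp

theorem swapA_bsz (hT : P.Thin) (j : P.I) (a b : ι) (s : P.Site) :
    (swap hT j a b).bsz s = P.bsz s := by
  unfold bsz
  congr 1
  exact Finset.filter_congr fun t _ => blk_slev j a b s t

theorem swap_phi (hT : P.Thin) (j : P.I) (a b : ι) : (swap hT j a b).Phi = P.Phi := by
  unfold Phi zsz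
  refine Finset.sum_congr rfl fun ζ _ => ?_
  congr 2
  funext s
  exact swapA_bsz hT j a b s
theorem swap_bsz (hT : P.Thin) (j : P.I) (a b : ι) (s : P.Site) :
    (swap hT j a b).bsz s = P.bsz s := by
  exact swapA_bsz hT j a b s
theorem swap_thin (hT : P.Thin) (j : P.I) (a b : ι) : (swap hT j a b).Thin :=
  fun s t h => (blk_slev j a b s t).2 (hT s t h)

/-- relabelling of the inversions -/
def swapAφ (j : P.I) (a b : ι) (x : P.I × P.Λ × P.Λ) : P.I × P.Λ × P.Λ :=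
  if x.1 = j then (x.1, Equiv.swap (P.lev (j, a)) (P.lev (j, b)) x.2.1,
    Equiv.swap (P.lev (j, a)) (P.lev (j, b)) x.2.2) else x

theorem swapAφ_fst (j : P.I) (a b : ι) (x : P.I × P.Λ × P.Λ) : (swapAφ j a b x).1 = x.1 := by
  unfold swapAφ
  split_ifs <;> rfl

theorem swapAφ_inv (j : P.I) (a b : ι) : Function.Involutive (swapAφ (P := P) j a b) := by
  intro x
  by_cases h : x.1 = j
  · simp [swapAφ, h]
    rw [← h]
  · simp [swapAφ, h]

theorem swapA_mem (hT : P.Thin) {i : P.I} {a b : ι} (h : P.Adj (P.nx i) a b)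
    (hB : P.Bwd (P.nx i) a b) {p p' : P.Site} (hp : P.Ex p (P.nx i, a))
    (hp' : P.Ex p' (P.nx i, b)) : (i, P.lev p', P.lev p) ∈ P.InvSet := by
  obtain ⟨k, c⟩ := p
  obtain ⟨k', c'⟩ := p'
  obtain rfl : i = k := P.nx.injective hp.slot
  obtain rfl : i = k' := P.nx.injective hp'.slot
  exact ⟨c', c, _, _, rfl, rfl, hB _ _ hp hp', hp', hp, h.lt⟩

theorem swapA_image0 (hT : P.Thin) (j : P.I) (a b : ι) (y : P.I × P.Λ × P.Λ) :
    y ∈ swapAφ j a b '' (swap hT j a b).InvSet ↔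
      ∃ c c' e e', P.lev (y.1, c) = y.2.1 ∧ P.lev (y.1, c') = y.2.2 ∧
        P.slev j a b (y.1, c) < P.slev j a b (y.1, c') ∧ P.Ex (y.1, c) (P.nx y.1, e) ∧
        P.Ex (y.1, c') (P.nx y.1, e') ∧
        P.slev j a b (P.nx y.1, e') < P.slev j a b (P.nx y.1, e) := by
  have key : ∀ k c c', swapAφ j a b (k, P.slev j a b (k, c), P.slev j a b (k, c')) =
      (k, P.lev (k, c), P.lev (k, c')) := by
    intro k c c'
    by_cases h : k = j
    · simp [swapAφ, slev, h]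
    · simp [swapAφ, slev, h]
  constructor
  · rintro ⟨⟨k, l, l'⟩, ⟨c, c', ⟨j1, e⟩, ⟨j2, e'⟩, h1, h2, h3, h4, h5, h6⟩, rfl⟩
    have h4' : P.Ex (k, c) (j1, e) := h4
    have h5' : P.Ex (k, c') (j2, e') := h5
    obtain rfl : j1 = P.nx k := h4'.slot
    obtain rfl : j2 = P.nx k := h5'.slot
    obtain rfl : P.slev j a b (k, c) = l := h1
    obtain rfl : P.slev j a b (k, c') = l' := h2
    have := key k c c'
    erw [this]
    exact ⟨c, c', e, e', rfl, rfl, h3, h4', h5', h6⟩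
  · obtain ⟨k, l, l'⟩ := y
    rintro ⟨c, c', e, e', h1, h2, h3, h4, h5, h6⟩
    obtain rfl : P.lev (k, c) = l := h1
    obtain rfl : P.lev (k, c') = l' := h2
    exact ⟨(k, P.slev j a b (k, c), P.slev j a b (k, c')),
      ⟨c, c', _, _, rfl, rfl, h3, h4, h5, h6⟩, key k c c'⟩

theorem swapA_inv0 (y : P.I × P.Λ × P.Λ) : y ∈ P.InvSet ↔
    ∃ c c' e e', P.lev (y.1, c) = y.2.1 ∧ P.lev (y.1, c') = y.2.2 ∧
      P.lev (y.1, c) < P.lev (y.1, c') ∧ P.Ex (y.1, c) (P.nx y.1, e) ∧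
      P.Ex (y.1, c') (P.nx y.1, e') ∧ P.lev (P.nx y.1, e') < P.lev (P.nx y.1, e) := by
  constructor
  · rintro ⟨c, c', ⟨j1, e⟩, ⟨j2, e'⟩, h1, h2, h3, h4, h5, h6⟩
    obtain rfl : j1 = P.nx y.1 := h4.slot
    obtain rfl : j2 = P.nx y.1 := h5.slot
    exact ⟨c, c', e, e', h1, h2, by rw [h1, h2]; exact h3, h4, h5, h6⟩
  · rintro ⟨c, c', e, e', h1, h2, h3, h4, h5, h6⟩
    exact ⟨c, c', _, _, h1, h2, by rw [← h1, ← h2]; exact h3, h4, h5, h6⟩

theorem swapA_slev_ne {j k : P.I} (hk : k ≠ j) (a b c : ι) :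
    P.slev j a b (k, c) = P.lev (k, c) := if_neg hk

theorem swapA_image (hT : P.Thin) {i : P.I} {a b : ι} (h : P.Adj (P.nx i) a b)
    (hB : P.Bwd (P.nx i) a b) (hi : P.nx i ≠ i) {p p' t t' : P.Site} (hp : P.Ex p (P.nx i, a))
    (hp' : P.Ex p' (P.nx i, b)) (ht : P.Ex (P.nx i, a) t) (ht' : P.Ex (P.nx i, b) t')
    (y : P.I × P.Λ × P.Λ) :
    y ∈ swapAφ (P.nx i) a b '' (swap hT (P.nx i) a b).InvSet ↔
      (y ∈ P.InvSet ∧ y ≠ (i, P.lev p', P.lev p) ∧
        y ≠ (P.nx i, P.lev (P.nx i, a), P.lev (P.nx i, b))) ∨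
      (y = (P.nx i, P.lev (P.nx i, b), P.lev (P.nx i, a)) ∧ P.NFwd (P.nx i) a b) := by
  rw [swapA_image0, swapA_inv0]
  obtain ⟨k, l, l'⟩ := y
  simp only [ne_eq, Prod.mk.injEq]
  by_cases hk : k = P.nx i
  · subst hk
    have hne : P.nx (P.nx i) ≠ P.nx i := fun e => hi (P.nx.injective e)
    simp only [swapA_slev_ne hne, slev_lt_iff h, hi, false_and, not_false_eq_true, true_and]
    constructor
    · rintro ⟨c, c', e, e', rfl, rfl, h3 | h3, h4, h5, h6⟩
      · exact Or.inl ⟨⟨c, c', e, e', rfl, rfl, h3.1, h4, h5, h6⟩, h3.2⟩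
      · refine Or.inr ⟨h3, (swapA_nfwd_iff hT
          (h5.of_blk (s' := (P.nx i, a)) ⟨rfl, h3.2⟩ ⟨rfl, rfl⟩)
          (h4.of_blk (s' := (P.nx i, b)) ⟨rfl, h3.1⟩ ⟨rfl, rfl⟩)).2 h6⟩
    · rintro (⟨⟨c, c', e, e', rfl, rfl, h3, h4, h5, h6⟩, h7⟩ | ⟨⟨rfl, rfl⟩, hN⟩)
      · exact ⟨c, c', e, e', rfl, rfl, Or.inl ⟨h3, h7⟩, h4, h5, h6⟩
      · obtain ⟨j1, e⟩ := t
        obtain ⟨j2, e'⟩ := t'
        obtain rfl : j1 = P.nx (P.nx i) := ht.slot
        obtain rfl : j2 = P.nx (P.nx i) := ht'.slot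
        exact ⟨b, a, e', e, rfl, rfl, Or.inr ⟨rfl, rfl⟩, ht', ht, hN _ _ ht ht'⟩
  · simp only [swapA_slev_ne hk, hk, false_and, not_false_eq_true, and_true, or_false]
    by_cases hk' : k = i
    · subst hk'
      simp only [slev_lt_iff h, true_and]
      constructor
      · rintro ⟨c, c', e, e', rfl, rfl, h3, h4, h5, h6 | h6⟩
        · refine ⟨⟨c, c', e, e', rfl, rfl, h3, h4, h5, h6.1⟩, fun h7 => h6.2 ⟨?_, ?_⟩⟩
          · have h8 : P.Ex (k, c') (P.nx k, a) :=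
              hp.of_blk ⟨P.nx.injective hp.slot.symm, h7.2.symm⟩ ⟨rfl, rfl⟩
            exact (hT.ex_right h5 h8).2
          · have h8 : P.Ex (k, c) (P.nx k, b) :=
              hp'.of_blk ⟨P.nx.injective hp'.slot.symm, h7.1.symm⟩ ⟨rfl, rfl⟩
            exact (hT.ex_right h4 h8).2
        · exact absurd (hB _ _ (h4.of_blk ⟨rfl, rfl⟩ ⟨rfl, h6.2⟩)
            (h5.of_blk ⟨rfl, rfl⟩ ⟨rfl, h6.1⟩)) h3.not_gt
      · rintro ⟨⟨c, c', e, e', rfl, rfl, h3, h4, h5, h6⟩, h7⟩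
        refine ⟨c, c', e, e', rfl, rfl, h3, h4, h5, Or.inl ⟨h6, fun h8 => h7 ⟨?_, ?_⟩⟩⟩
        · exact (hT.ex_left (h4.of_blk (t' := (P.nx k, b)) ⟨rfl, rfl⟩ ⟨rfl, h8.2⟩) hp').2
        · exact (hT.ex_left (h5.of_blk (t' := (P.nx k, a)) ⟨rfl, rfl⟩ ⟨rfl, h8.1⟩) hp).2
    · have hne : P.nx k ≠ P.nx i := fun e => hk' (P.nx.injective e)
      simp only [swapA_slev_ne hne, hk', false_and, not_false_eq_true, and_true]

/-- The inversions of the swapped problem.  With `j = nx i`, `φ (k, λ, λ') = (k, swap λ, swap λ')` if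
`k = j` and the identity otherwise.  The letter `i` loses exactly the inversion formed by the two
blocks which are sent to `b` and `a`; for the letter `j` only the pair `{a, b}` changes. -/
theorem swap_inv_fwd (hT : P.Thin) (s : P.Sol Ω) {i : P.I} {a b : ι} (h : P.Adj (P.nx i) a b)
    (hB : P.Bwd (P.nx i) a b) (hi : P.nx i ≠ i) (hF : P.Fwd (P.nx i) a b) :
    (swap hT (P.nx i) a b).inv + 2 ≤ P.inv := by
  obtain ⟨p, hp⟩ := s.2.exists_ex_left (P.nx i, a)
  obtain ⟨p', hp'⟩ := s.2.exists_ex_left (P.nx i, b)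
  obtain ⟨t, ht⟩ := s.2.exists_ex_right (P.nx i, a)
  obtain ⟨t', ht'⟩ := s.2.exists_ex_right (P.nx i, b)
  have hN : ¬ P.NFwd (P.nx i) a b := fun hN => lt_asymm (hN t t' ht ht') (hF t t' ht ht')
  have hx1 := swapA_mem hT h hB hp hp'
  have hx2 : (P.nx i, P.lev (P.nx i, a), P.lev (P.nx i, b)) ∈ P.InvSet :=
    ⟨a, b, t, t', rfl, rfl, h.lt, ht, ht', hF t t' ht ht'⟩
  have hset : swapAφ (P.nx i) a b '' (swap hT (P.nx i) a b).InvSet =
      (P.InvSet \ {(i, P.lev p', P.lev p)}) \ {(P.nx i, P.lev (P.nx i, a), P.lev (P.nx i, b))} := by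
    ext y
    rw [swapA_image hT h hB hi hp hp' ht ht']
    simp only [Set.mem_diff, Set.mem_singleton_iff, hN, and_false, or_false, and_assoc]
  have hcard : (swap hT (P.nx i) a b).inv =
      (swapAφ (P.nx i) a b '' (swap hT (P.nx i) a b).InvSet).ncard :=
    (Set.ncard_image_of_injective _ (swapAφ_inv (P.nx i) a b).injective).symm
  have hfin := invSet_finite (P := P)
  have h1 := Set.ncard_diff_singleton_add_one hx1 hfin
  have h2 := Set.ncard_diff_singleton_add_one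
    (s := P.InvSet \ {(i, P.lev p', P.lev p)})
    (a := (P.nx i, P.lev (P.nx i, a), P.lev (P.nx i, b)))
    ⟨hx2, fun e => hi (congrArg Prod.fst e)⟩ hfin.diff
  rw [hcard, hset]
  unfold inv
  omega

/-- the inversion moves from the letter `i` to the letter `nx i` (`ht_nx`, `ht_lt`) -/
theorem swap_inv_nfwd (hT : P.Thin) (s : P.Sol Ω) {i : P.I} {a b : ι} (h : P.Adj (P.nx i) a b)
    (hB : P.Bwd (P.nx i) a b) (hi : ¬ P.Last i) (hF : P.NFwd (P.nx i) a b) :
    (swap hT (P.nx i) a b).inv = P.inv ∧ (swap hT (P.nx i) a b).wt < P.wt := by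
  have hi' := nx_ne_of_not_last hi
  obtain ⟨p, hp⟩ := s.2.exists_ex_left (P.nx i, a)
  obtain ⟨p', hp'⟩ := s.2.exists_ex_left (P.nx i, b)
  obtain ⟨t, ht⟩ := s.2.exists_ex_right (P.nx i, a)
  obtain ⟨t', ht'⟩ := s.2.exists_ex_right (P.nx i, b)
  have hx1 := swapA_mem hT h hB hp hp'
  have hx2 : (P.nx i, P.lev (P.nx i, a), P.lev (P.nx i, b)) ∉ P.InvSet := by
    rintro ⟨c, c', e, e', h1, h2, -, h4, h5, h6⟩
    exact lt_asymm h6 (hF _ _ (h4.of_blk ⟨rfl, h1⟩ ⟨rfl, rfl⟩) (h5.of_blk ⟨rfl, h2⟩ ⟨rfl, rfl⟩))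
  have hx3 : (P.nx i, P.lev (P.nx i, b), P.lev (P.nx i, a)) ∉
      P.InvSet \ {(i, P.lev p', P.lev p)} := by
    rintro ⟨⟨c, c', e, e', -, -, h3, -⟩, -⟩
    exact lt_asymm h3 h.lt
  have hset : swapAφ (P.nx i) a b '' (swap hT (P.nx i) a b).InvSet =
      insert (P.nx i, P.lev (P.nx i, b), P.lev (P.nx i, a))
        (P.InvSet \ {(i, P.lev p', P.lev p)}) := by
    ext y
    rw [swapA_image hT h hB hi' hp hp' ht ht']
    simp only [Set.mem_insert_iff, Set.mem_diff, Set.mem_singleton_iff, hF, and_true]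
    constructor
    · rintro (⟨h1, h2, -⟩ | h1)
      · exact Or.inr ⟨h1, h2⟩
      · exact Or.inl h1
    · rintro (h1 | ⟨h1, h2⟩)
      · exact Or.inr h1
      · exact Or.inl ⟨h1, h2, fun e => hx2 (e ▸ h1)⟩
  have hinj := (swapAφ_inv (P := P) (P.nx i) a b).injective
  have hfin := invSet_finite (P := P)
  constructor
  · have hcard : (swap hT (P.nx i) a b).inv =
        (swapAφ (P.nx i) a b '' (swap hT (P.nx i) a b).InvSet).ncard :=
      (Set.ncard_image_of_injective _ hinj).symm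
    rw [hcard, hset, Set.ncard_insert_of_notMem hx3 hfin.diff]
    exact Set.ncard_diff_singleton_add_one hx1 hfin
  · have hwt : (swap hT (P.nx i) a b).wt =
        ∑ᶠ x ∈ swapAφ (P.nx i) a b '' (swap hT (P.nx i) a b).InvSet,
          (Fintype.card P.I - P.ht x.1) := by
      rw [finsum_mem_image hinj.injOn]
      simp only [swapAφ_fst]
      rfl
    have hwt' : P.wt = ∑ᶠ x ∈ insert (i, P.lev p', P.lev p) (P.InvSet \ {(i, P.lev p', P.lev p)}),
        (Fintype.card P.I - P.ht x.1) := by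
      rw [Set.insert_diff_singleton, Set.insert_eq_of_mem hx1]
      rfl
    rw [hwt, hwt', hset, finsum_mem_insert _ hx3 hfin.diff,
      finsum_mem_insert _ (Set.notMem_diff_of_mem (Set.mem_singleton _)) hfin.diff]
    have h1 := ht_nx hi
    have h2 := ht_lt (P := P) (P.nx i)
    simp only
    omega

end Prob

end Crest.Agent.R003
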