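import Crest.Agent.R003.Split

/-! Row 3: the threefold subdivision attached to a cell. -/

set_option autoImplicit false
set_option linter.unusedSectionVars false

namespace Crest.Agent.R003

open Matrix

namespace Prob

variable {o : Type} [CommRing o] {ι : Type} [Fintype ι] [DecidableEq ι] {P : Prob o ι}
  {Ω : Type} [Field Ω] [Algebra o Ω]

/-- the copy number `k` of a site -/
abbrev up {I : Type} (s : I × ι) (k : Fin 3) : (I × Fin 3) × ι := ((s.1, k), s.2)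
/-- the underlying site -/
abbrev dn {I : Type} (x : (I × Fin 3) × ι) : I × ι := (x.1.1, x.2)

variable (P) in
/-- slots in the order `(i,2), (i,0), (i,1), (nx i, 2), ...` -/
def nx3 : Equiv.Perm (P.I × Fin 3) where
  toFun x := ![(x.1, 1), (P.nx x.1, 2), (x.1, 0)] x.2
  invFun x := ![(x.1, 2), (x.1, 0), (P.nx.symm x.1, 1)] x.2
  left_inv := by rintro ⟨i, k⟩; fin_cases k <;> simp
  right_inv := by rintro ⟨i, k⟩; fin_cases k <;> simp

namespace Cell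

variable (C : P.Cell)

/-- active site -/
abbrev A (s : P.Site) : Prop := C.act (P.pc s)

def J3 : Equiv.Perm ((P.I × Fin 3) × ι) where
  toFun x := ![if C.A (dn x) then up (P.J (dn x)) 0 else up (dn x) 1, up (P.J (C.ς (dn x))) 2,
    if C.A (P.J.symm (dn x)) then up (P.J.symm (dn x)) 1 else up (dn x) 0] x.1.2
  invFun x := ![if C.A (P.J.symm (dn x)) then up (P.J.symm (dn x)) 0 else up (dn x) 2,
    if C.A (dn x) then up (P.J (dn x)) 2 else up (dn x) 0, up (C.ς (P.J.symm (dn x))) 1] x.1.2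
  left_inv := by
    rintro ⟨⟨i, k⟩, a⟩
    fin_cases k
    · by_cases h : C.A (i, a) <;> simp [h]
    · simp [C.ς_ς]
    · by_cases h : C.A (P.J.symm (i, a)) <;> simp [h]
  right_inv := by
    rintro ⟨⟨i, k⟩, a⟩
    fin_cases k
    · by_cases h : C.A (P.J.symm (i, a)) <;> simp [h]
    · by_cases h : C.A (i, a) <;> simp [h]
    · simp [C.ς_ς]

def lev3 (x : (P.I × Fin 3) × ι) : P.Λ ×ₗ P.Λ :=
  toLex (P.lev (dn x),
    ![P.lev (dn x), P.lev (C.ς (dn x)), P.lev (C.ς (P.J.symm (dn x)))] x.1.2)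

/-- pieces: edges (old active block, sign), identities (old block, copy), new blocks, old pieces -/
abbrev Pc3 : Type := ((P.I × P.Λ) × Bool) ⊕ ((P.I × P.Λ) × Bool) ⊕ (P.I × P.Λ × P.Λ) ⊕ P.Pc

def pc3 (x : (P.I × Fin 3) × ι) : Pc3 (P := P) :=
  ![if C.A (dn x) then .inl ((x.1.1, P.lev (dn x)), true)
      else .inr (.inl ((x.1.1, P.lev (dn x)), true)),
    if C.A (dn x) then .inr (.inr (.inl (x.1.1, P.lev (dn x), P.lev (C.ς (dn x)))))
      else .inr (.inr (.inr (P.pc (dn x)))),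
    if C.A (P.J.symm (dn x)) then .inl (((P.J.symm (dn x)).1, P.lev (P.J.symm (dn x))), false)
      else .inr (.inl ((x.1.1, P.lev (dn x)), false))] x.1.2

def tau3 : Pc3 (P := P) → Pc3 (P := P)
  | .inl (b, e) => .inl (b, !e)
  | .inr (.inl b) => .inr (.inl b)
  | .inr (.inr (.inl b)) => .inr (.inr (.inl b))
  | .inr (.inr (.inr p)) => .inr (.inr (.inr (P.tau p)))

open Classical in
noncomputable def u3 : Pc3 (P := P) → oˣ
  | .inl _ => 1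
  | .inr (.inl _) => 1
  | .inr (.inr (.inl b)) =>
    if h : ∃ s : P.Site, s.1 = b.1 ∧ P.lev s = b.2.1 ∧ P.lev (C.ς s) = b.2.2 then C.ε h.choose else 1
  | .inr (.inr (.inr p)) => P.u p

def z3 (x : (P.I × Fin 3) × ι) : P.Z ⊕ Sym2 P.Site :=
  ![.inl (P.z (dn x)),
    if C.A (dn x) then .inr s(dn x, C.ς (dn x)) else .inl (P.z (dn x)),
    if C.A (P.J.symm (dn x)) then .inr s(P.J.symm (dn x), C.ς (P.J.symm (dn x)))
      else .inl (P.z (dn x))] x.1.2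

theorem A_ς (s : P.Site) : C.A (C.ς s) ↔ C.A s := by
  by_cases h : C.A s
  · simp only [A, C.ς_pc s h, C.act_tau]
  · rw [C.ς_of_not s h]
theorem A_blk {s t : P.Site} (h : Blk P.lev s t) : C.A s ↔ C.A t := by
  simp only [A, P.blk_pc s t h]
theorem u3_new (s : P.Site) :
    C.u3 (.inr (.inr (.inl (s.1, P.lev s, P.lev (C.ς s))))) = C.ε s := by
  have h : ∃ s' : P.Site, s'.1 = s.1 ∧ P.lev s' = P.lev s ∧ P.lev (C.ς s') = P.lev (C.ς s) :=
    ⟨s, rfl, rfl, rfl⟩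
  simp only [u3]
  rw [dif_pos h]
  exact C.ε_blk _ _ ⟨h.choose_spec.1, h.choose_spec.2.1⟩ h.choose_spec.2.2
theorem t3a_cases (x : (P.I × Fin 3) × ι) :
    (∃ s, x = up s 0) ∨ (∃ s, x = up s 1) ∨ ∃ s, x = up (P.J s) 2 := by
  obtain ⟨⟨i, k⟩, a⟩ := x
  fin_cases k
  · exact .inl ⟨(i, a), rfl⟩
  · exact .inr (.inl ⟨(i, a), rfl⟩)
  · exact .inr (.inr ⟨P.J.symm (i, a), by simp⟩)

theorem t3a_J0 (s : P.Site) : C.J3 (up s 0) = if C.A s then up (P.J s) 0 else up s 1 := rfl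
theorem t3a_J1 (s : P.Site) : C.J3 (up s 1) = up (P.J (C.ς s)) 2 := rfl
theorem t3a_J2 (s : P.Site) :
    C.J3 (up (P.J s) 2) = if C.A s then up s 1 else up (P.J s) 0 := by
  change (if C.A (P.J.symm (P.J s)) then up (P.J.symm (P.J s)) 1 else up (P.J s) 0) = _
  simp only [Equiv.symm_apply_apply]
theorem t3a_l0 (s : P.Site) : C.lev3 (up s 0) = toLex (P.lev s, P.lev s) := rfl
theorem t3a_l1 (s : P.Site) : C.lev3 (up s 1) = toLex (P.lev s, P.lev (C.ς s)) := rfl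
theorem t3a_l2 (s : P.Site) :
    C.lev3 (up (P.J s) 2) = toLex (P.lev (P.J s), P.lev (C.ς s)) := by
  change toLex (P.lev (P.J s), P.lev (C.ς (P.J.symm (P.J s)))) = _
  simp only [Equiv.symm_apply_apply]
theorem t3a_p0 (s : P.Site) : C.pc3 (up s 0) =
    if C.A s then .inl ((s.1, P.lev s), true) else .inr (.inl ((s.1, P.lev s), true)) := rfl
theorem t3a_p1 (s : P.Site) : C.pc3 (up s 1) = if C.A s then
    .inr (.inr (.inl (s.1, P.lev s, P.lev (C.ς s)))) else .inr (.inr (.inr (P.pc s))) := rfl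
theorem t3a_p2 (s : P.Site) : C.pc3 (up (P.J s) 2) = if C.A s then .inl ((s.1, P.lev s), false)
    else .inr (.inl (((P.J s).1, P.lev (P.J s)), false)) := by
  change (if C.A (P.J.symm (P.J s)) then
    Sum.inl (((P.J.symm (P.J s)).1, P.lev (P.J.symm (P.J s))), false)
    else Sum.inr (Sum.inl (((P.J s).1, P.lev (P.J s)), false))) = _
  simp only [Equiv.symm_apply_apply]
theorem t3a_z0 (s : P.Site) : C.z3 (up s 0) = .inl (P.z s) := rfl
theorem t3a_z1 (s : P.Site) :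
    C.z3 (up s 1) = if C.A s then .inr s(s, C.ς s) else .inl (P.z s) := rfl
theorem t3a_z2 (s : P.Site) :
    C.z3 (up (P.J s) 2) = if C.A s then .inr s(s, C.ς s) else .inl (P.z s) := by
  change (if C.A (P.J.symm (P.J s)) then Sum.inr s(P.J.symm (P.J s), C.ς (P.J.symm (P.J s)))
    else Sum.inl (P.z (P.J s))) = _
  simp only [Equiv.symm_apply_apply, P.z_J]

theorem t3a_ς_pc {s t : P.Site} (h : P.pc s = P.pc t) : P.pc (C.ς s) = P.pc (C.ς t) := by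
  by_cases hs : C.A s
  · rw [C.ς_pc s hs, C.ς_pc t (h ▸ hs), h]
  · rw [C.ς_of_not s hs, C.ς_of_not t (h ▸ hs), h]

theorem t3a_b00 (s t : P.Site) : Blk C.lev3 (up s 0) (up t 0) ↔ Blk P.lev s t := by
  simp [Blk, t3a_l0]
theorem t3a_b11 (s t : P.Site) : Blk C.lev3 (up s 1) (up t 1) ↔
    Blk P.lev s t ∧ P.lev (C.ς s) = P.lev (C.ς t) := by
  simp [Blk, t3a_l1, and_assoc]
theorem t3a_b22 (s t : P.Site) : Blk C.lev3 (up (P.J s) 2) (up (P.J t) 2) ↔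
    Blk P.lev s t ∧ P.lev (C.ς s) = P.lev (C.ς t) := by
  rw [← P.blk_J]
  simp [Blk, t3a_l2, and_assoc]
theorem t3a_bne (s t : P.Site) {k l : Fin 3} (h : k ≠ l) : ¬ Blk C.lev3 (up s k) (up t l) :=
  fun hb => h (congrArg Prod.snd hb.1)

theorem t3a_p00 (s t : P.Site) : C.pc3 (up s 0) = C.pc3 (up t 0) ↔ Blk P.lev s t := by
  have := C.A_blk (s := s) (t := t)
  rw [t3a_p0, t3a_p0]
  unfold Blk at this ⊢
  by_cases hs : C.A s <;> by_cases ht : C.A t <;> simp [hs, ht] at this ⊢ <;> exact this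
theorem t3a_p11 (s t : P.Site) : C.pc3 (up s 1) = C.pc3 (up t 1) ↔
    (C.A s ∧ Blk P.lev s t ∧ P.lev (C.ς s) = P.lev (C.ς t)) ∨ (¬ C.A s ∧ P.pc s = P.pc t) := by
  have := C.A_blk (s := s) (t := t)
  rw [t3a_p1, t3a_p1]
  by_cases hs : C.A s <;> by_cases ht : C.A t
  · simp [hs, ht, Blk, and_assoc]
  · simp only [hs, ht, if_true, if_false, true_and, not_true, false_and, or_false]
    exact ⟨fun h => by simp at h, fun h => absurd ((this h.1).1 hs) ht⟩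
  · simp only [hs, ht, if_true, if_false, false_and, not_false_iff, true_and, false_or]
    exact ⟨fun h => by simp at h, fun h => absurd (show C.act (P.pc s) from h ▸ ht) hs⟩
  · simp [hs, ht]
theorem t3a_p22 (s t : P.Site) :
    C.pc3 (up (P.J s) 2) = C.pc3 (up (P.J t) 2) ↔ Blk P.lev s t := by
  have := C.A_blk (s := s) (t := t)
  rw [t3a_p2, t3a_p2]
  by_cases hs : C.A s <;> by_cases ht : C.A t
  · simp [hs, ht, Blk]
  · simp only [hs, ht, if_true, if_false]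
    exact ⟨fun h => by simp at h, fun h => absurd ((this h).1 hs) ht⟩
  · simp only [hs, ht, if_true, if_false]
    exact ⟨fun h => by simp at h, fun h => absurd ((this h).2 ht) hs⟩
  · rw [← P.blk_J]
    simp [hs, ht, Blk]

/-- equal pieces have equal copy numbers -/
theorem t3a_pc_cases {x y : (P.I × Fin 3) × ι} (h : C.pc3 x = C.pc3 y) :
    (∃ s t, x = up s 0 ∧ y = up t 0 ∧ Blk P.lev s t) ∨
    (∃ s t, x = up s 1 ∧ y = up t 1 ∧ ((C.A s ∧ Blk P.lev s t ∧ P.lev (C.ς s) = P.lev (C.ς t)) ∨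
      (¬ C.A s ∧ P.pc s = P.pc t))) ∨
    ∃ s t, x = up (P.J s) 2 ∧ y = up (P.J t) 2 ∧ Blk P.lev s t := by
  rcases t3a_cases x with ⟨s, rfl⟩ | ⟨s, rfl⟩ | ⟨s, rfl⟩ <;>
    rcases t3a_cases y with ⟨t, rfl⟩ | ⟨t, rfl⟩ | ⟨t, rfl⟩
  · exact .inl ⟨s, t, rfl, rfl, (C.t3a_p00 s t).1 h⟩
  pick_goal 4
  · exact .inr (.inl ⟨s, t, rfl, rfl, (C.t3a_p11 s t).1 h⟩)
  pick_goal 7
  · exact .inr (.inr ⟨s, t, rfl, rfl, (C.t3a_p22 s t).1 h⟩)
  all_goals
    exfalso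
    simp only [t3a_p0, t3a_p1, t3a_p2] at h
    split_ifs at h <;> simp at h

theorem t3a_blk_cases {x y : (P.I × Fin 3) × ι} (h : Blk C.lev3 x y) :
    (∃ s t, x = up s 0 ∧ y = up t 0 ∧ Blk P.lev s t) ∨
    (∃ s t, x = up s 1 ∧ y = up t 1 ∧ Blk P.lev s t ∧ P.lev (C.ς s) = P.lev (C.ς t)) ∨
    ∃ s t, x = up (P.J s) 2 ∧ y = up (P.J t) 2 ∧ Blk P.lev s t ∧
      P.lev (C.ς s) = P.lev (C.ς t) := by
  rcases t3a_cases x with ⟨s, rfl⟩ | ⟨s, rfl⟩ | ⟨s, rfl⟩ <;>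
    rcases t3a_cases y with ⟨t, rfl⟩ | ⟨t, rfl⟩ | ⟨t, rfl⟩
  · exact .inl ⟨s, t, rfl, rfl, (C.t3a_b00 s t).1 h⟩
  pick_goal 4
  · exact .inr (.inl ⟨s, t, rfl, rfl, (C.t3a_b11 s t).1 h⟩)
  pick_goal 7
  · exact .inr (.inr ⟨s, t, rfl, rfl, (C.t3a_b22 s t).1 h⟩)
  all_goals exact absurd h (C.t3a_bne _ _ (by decide))

theorem t3a_sym {s t : P.Site} (hb : Blk P.lev s t) (h : s(s, C.ς s) = s(t, C.ς t)) : s = t := by
  rcases Sym2.eq_iff.1 h with h | h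
  · exact h.1
  · rw [h.1] at hb ⊢
    exact C.ς_blk t (blk_symm hb)

theorem t3a_step {x y : (P.I × Fin 3) × ι} (h : C.J3 x = y) : C.J3.SameCycle x y :=
  ⟨1, by simpa using h⟩

theorem t3a_c1 (s : P.Site) : C.J3.SameCycle (up s 0) (up (P.J s) 0) := by
  by_cases h : C.A s
  · exact C.t3a_step (by rw [t3a_J0, if_pos h])
  · refine (C.t3a_step (by rw [t3a_J0, if_neg h])).trans
      ((C.t3a_step (by rw [t3a_J1, C.ς_of_not s h])).trans (C.t3a_step (by rw [t3a_J2, if_neg h])))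

theorem t3a_c2 {s t : P.Site} (h : P.z s = P.z t) : C.J3.SameCycle (up s 0) (up t 0) := by
  obtain ⟨n, -, rfl⟩ := (P.z_cyc s t h).exists_pow_eq'
  clear h
  induction n with
  | zero => exact Equiv.Perm.SameCycle.refl _ _
  | succ n ih =>
    rw [pow_succ', Equiv.Perm.mul_apply]
    exact ih.trans (C.t3a_c1 _)

theorem t3a_c3 (x : (P.I × Fin 3) × ι) :
    (∃ s, C.z3 x = .inl (P.z s) ∧ C.J3.SameCycle x (up s 0)) ∨
      ∃ s, C.A s ∧ C.z3 x = .inr s(s, C.ς s) ∧ C.J3.SameCycle x (up s 1) := by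
  rcases t3a_cases x with ⟨s, rfl⟩ | ⟨s, rfl⟩ | ⟨s, rfl⟩
  · exact .inl ⟨s, rfl, Equiv.Perm.SameCycle.refl _ _⟩
  · by_cases h : C.A s
    · exact .inr ⟨s, h, by rw [t3a_z1, if_pos h], Equiv.Perm.SameCycle.refl _ _⟩
    · exact .inl ⟨s, by rw [t3a_z1, if_neg h], (C.t3a_step (by rw [t3a_J0, if_neg h])).symm⟩
  · by_cases h : C.A s
    · exact .inr ⟨s, h, by rw [t3a_z2, if_pos h], C.t3a_step (by rw [t3a_J2, if_pos h])⟩
    · exact .inl ⟨P.J s, by rw [t3a_z2, if_neg h, P.z_J], C.t3a_step (by rw [t3a_J2, if_neg h])⟩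

theorem t3_pc_slot (s t) (h : C.pc3 s = C.pc3 t) : s.1 = t.1 := by
  have h0 := C.t3a_pc_cases h
  clear h
  rcases h0 with ⟨s, t, rfl, rfl, h⟩ | ⟨s, t, rfl, rfl, h | h⟩ | ⟨s, t, rfl, rfl, h⟩
  · exact Prod.ext h.1 rfl
  · exact Prod.ext h.2.1.1 rfl
  · exact Prod.ext (P.pc_slot _ _ h.2) rfl
  · exact Prod.ext ((P.blk_J s t).2 h).1 rfl
theorem t3_pc_exit (s t) (h : C.pc3 s = tau3 (C.pc3 t)) : (C.J3 t).1 = P.nx3 s.1 := by
  rcases t3a_cases s with ⟨s, rfl⟩ | ⟨s, rfl⟩ | ⟨s, rfl⟩ <;>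
    rcases t3a_cases t with ⟨t, rfl⟩ | ⟨t, rfl⟩ | ⟨t, rfl⟩ <;>
    simp only [t3a_p0, t3a_p1, t3a_p2] at h <;>
    by_cases hs : C.A s <;> by_cases ht : C.A t <;>
    simp only [hs, ht, if_true, if_false, tau3, Sum.inl.injEq, Sum.inr.injEq, Prod.mk.injEq,
      reduceCtorEq, Bool.not_true, Bool.not_false, and_true, and_false] at h <;>
    simp only [t3a_J0, t3a_J1, t3a_J2, ht, if_true, if_false]
  · exact Prod.ext h.1.symm rfl
  · exact Prod.ext h.1.symm rfl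
  · refine Prod.ext (P.pc_exit s _ ?_) rfl
    rw [C.ς_pc t ht, P.tau_tau]
    exact P.blk_pc s t ⟨h.1, h.2.1⟩
  · refine Prod.ext (P.pc_exit s _ ?_) rfl
    rw [C.ς_of_not t ht]
    exact h
  · exact Prod.ext ((P.blk_J s t).2 h).1.symm rfl
  · exact Prod.ext h.1.symm rfl
theorem t3_pc_exit' (s t) (h : C.pc3 s = C.pc3 t) : (C.J3 s).1 = (C.J3 t).1 := by
  have h0 := C.t3a_pc_cases h
  clear h
  rcases h0 with ⟨s, t, rfl, rfl, h⟩ | ⟨s, t, rfl, rfl, h⟩ | ⟨s, t, rfl, rfl, h⟩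
  · rw [t3a_J0, t3a_J0]
    by_cases hs : C.A s
    · rw [if_pos hs, if_pos ((C.A_blk h).1 hs)]
      exact Prod.ext ((P.blk_J s t).2 h).1 rfl
    · rw [if_neg hs, if_neg (mt (C.A_blk h).2 hs)]
      exact Prod.ext h.1 rfl
  · have h1 : P.pc s = P.pc t := h.elim (fun h => P.blk_pc s t h.2.1) fun h => h.2
    exact Prod.ext (P.pc_exit' _ _ (C.t3a_ς_pc h1)) rfl
  · rw [t3a_J2, t3a_J2]
    by_cases hs : C.A s
    · rw [if_pos hs, if_pos ((C.A_blk h).1 hs)]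
      exact Prod.ext h.1 rfl
    · rw [if_neg hs, if_neg (mt (C.A_blk h).2 hs)]
      exact Prod.ext ((P.blk_J s t).2 h).1 rfl
theorem t3_blk_pc (s t) (h : Blk C.lev3 s t) : C.pc3 s = C.pc3 t := by
  have h0 := C.t3a_blk_cases h
  clear h
  rcases h0 with ⟨s, t, rfl, rfl, h⟩ | ⟨s, t, rfl, rfl, h⟩ | ⟨s, t, rfl, rfl, h⟩
  · exact (C.t3a_p00 s t).2 h
  · refine (C.t3a_p11 s t).2 ?_
    by_cases hs : C.A s
    · exact .inl ⟨hs, h⟩
    · exact .inr ⟨hs, P.blk_pc s t h.1⟩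
  · exact (C.t3a_p22 s t).2 h.1
theorem t3_blk_J (s t) : Blk C.lev3 (C.J3 s) (C.J3 t) ↔ Blk C.lev3 s t := by
  have hne : ∀ (s t : P.Site) {k l : Fin 3}, k ≠ l → (Blk C.lev3 (up s k) (up t l) ↔ False) :=
    fun s t _ _ h => iff_false_intro (C.t3a_bne s t h)
  have key : ∀ s t, Blk P.lev s t ∧ P.lev (C.ς s) = P.lev (C.ς t) →
      Blk P.lev (C.ς s) (C.ς t) ∧ P.lev s = P.lev t := fun s t h =>
    ⟨⟨P.pc_slot _ _ (C.t3a_ς_pc (P.blk_pc s t h.1)), h.2⟩, h.1.2⟩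
  rcases t3a_cases s with ⟨s, rfl⟩ | ⟨s, rfl⟩ | ⟨s, rfl⟩ <;>
    rcases t3a_cases t with ⟨t, rfl⟩ | ⟨t, rfl⟩ | ⟨t, rfl⟩
  pick_goal 5
  · rw [t3a_J1, t3a_J1, t3a_b22, t3a_b11, C.ς_ς, C.ς_ς]
    refine ⟨fun h => ?_, key s t⟩
    have := key (C.ς s) (C.ς t) (by rwa [C.ς_ς, C.ς_ς])
    rwa [C.ς_ς, C.ς_ς] at this
  all_goals
    have h1 := C.A_blk (s := s) (t := t)
    have h2 := C.ς_of_not s
    have h3 := C.ς_of_not t
    have h4 : Blk P.lev s t → P.lev s = P.lev t := fun h => h.2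
    simp only [t3a_J0, t3a_J1, t3a_J2]
    by_cases hs : C.A s <;> by_cases ht : C.A t <;>
      simp (disch := decide) only [hs, ht, if_true, if_false, t3a_b00, t3a_b11, t3a_b22, P.blk_J,
        hne] <;> simp_all
theorem t3_lt_J (s t) (h : C.pc3 s = C.pc3 t) (h' : C.lev3 s < C.lev3 t) :
    C.lev3 (C.J3 s) < C.lev3 (C.J3 t) := by
  have h0 := C.t3a_pc_cases h
  clear h
  rcases h0 with ⟨s, t, rfl, rfl, h⟩ | ⟨s, t, rfl, rfl, h | h⟩ | ⟨s, t, rfl, rfl, h⟩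
  · rw [t3a_l0, t3a_l0, h.2] at h'
    exact absurd h' (lt_irrefl _)
  · rw [t3a_l1, t3a_l1, h.2.1.2, h.2.2] at h'
    exact absurd h' (lt_irrefl _)
  · have ht : ¬ C.A t := fun ht => h.1 (show C.act (P.pc s) from h.2 ▸ ht)
    rw [t3a_l1, t3a_l1, C.ς_of_not s h.1, C.ς_of_not t ht, Prod.Lex.toLex_lt_toLex] at h'
    rw [t3a_J1, t3a_J1, t3a_l2, t3a_l2, C.ς_of_not s h.1, C.ς_of_not t ht, Prod.Lex.toLex_lt_toLex]
    exact .inl (P.lt_J s t h.2 (h'.elim id fun h => h.2))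
  · rw [t3a_l2, t3a_l2, ((P.blk_J s t).2 h).2, Prod.Lex.toLex_lt_toLex] at h'
    have h1 : P.lev (C.ς s) < P.lev (C.ς t) := h'.elim (fun h => absurd h (lt_irrefl _)) fun h => h.2
    by_cases hs : C.A s
    · rw [t3a_J2, t3a_J2, if_pos hs, if_pos ((C.A_blk h).1 hs), t3a_l1, t3a_l1,
        Prod.Lex.toLex_lt_toLex]
      exact .inr ⟨h.2, h1⟩
    · rw [C.ς_of_not s hs, C.ς_of_not t (mt (C.A_blk h).2 hs), h.2] at h1
      exact absurd h1 (lt_irrefl _)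
theorem t3_z_J (s) : C.z3 (C.J3 s) = C.z3 s := by
  rcases t3a_cases s with ⟨s, rfl⟩ | ⟨s, rfl⟩ | ⟨s, rfl⟩ <;> by_cases h : C.A s
  · rw [t3a_J0, if_pos h, t3a_z0, t3a_z0, P.z_J]
  · rw [t3a_J0, if_neg h, t3a_z1, if_neg h, t3a_z0]
  · rw [t3a_J1, t3a_z2, t3a_z1, if_pos h, if_pos ((C.A_ς s).2 h), C.ς_ς, Sym2.eq_swap]
  · rw [t3a_J1, t3a_z2, t3a_z1, C.ς_of_not s h, if_neg h, if_neg h]
  · rw [t3a_J2, if_pos h, t3a_z1, t3a_z2]
  · rw [t3a_J2, if_neg h, t3a_z0, t3a_z2, if_neg h, P.z_J]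
/-- old labels: `up s 0` and `up (J s) 0` are in the same cycle, and every site with an old label is
in the cycle of some `up s 0`; new labels: the cycle
`up s 1 ↦ up (J (ς s)) 2 ↦ up (ς s) 1 ↦ up (J s) 2 ↦ up s 1`. -/
theorem t3_z_cyc (s t) (h : C.z3 s = C.z3 t) : C.J3.SameCycle s t := by
  rcases C.t3a_c3 s with ⟨a, h1, h2⟩ | ⟨a, ha, h1, h2⟩ <;>
    rcases C.t3a_c3 t with ⟨b, h3, h4⟩ | ⟨b, hb, h3, h4⟩ <;> rw [h1, h3] at h
  · exact h2.trans ((C.t3a_c2 (Sum.inl.inj h)).trans h4.symm)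
  · simp at h
  · simp at h
  · rcases Sym2.eq_iff.1 (Sum.inr.inj h) with h | h
    · rw [h.1] at h2
      exact h2.trans h4.symm
    · rw [← h.2] at h4
      exact h2.trans ((C.t3a_step (C.t3a_J1 a)).trans
        ((C.t3a_step (by rw [t3a_J2, if_pos ((C.A_ς a).2 ha)])).trans h4.symm))
theorem t3_z_inj (s t) (h : Blk C.lev3 s t) (h' : C.z3 s = C.z3 t) : s = t := by
  have key : ∀ s t, Blk P.lev s t →
      (if C.A s then Sum.inr s(s, C.ς s) else Sum.inl (P.z s) : P.Z ⊕ Sym2 P.Site) =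
        (if C.A t then Sum.inr s(t, C.ς t) else Sum.inl (P.z t)) → s = t := fun s t h h' => by
    by_cases hs : C.A s
    · rw [if_pos hs, if_pos ((C.A_blk h).1 hs)] at h'
      exact C.t3a_sym h (Sum.inr.inj h')
    · rw [if_neg hs, if_neg (mt (C.A_blk h).2 hs)] at h'
      exact P.z_inj s t h (Sum.inl.inj h')
  have h0 := C.t3a_blk_cases h
  clear h
  rcases h0 with ⟨s, t, rfl, rfl, h⟩ | ⟨s, t, rfl, rfl, h⟩ | ⟨s, t, rfl, rfl, h⟩
  · rw [P.z_inj s t h (Sum.inl.inj h')]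
  · rw [key s t h.1 h']
  · rw [t3a_z2, t3a_z2] at h'
    rw [key s t h.1 h']

/-- the subdivided problem -/
noncomputable def t3 : Prob o ι where
  I := P.I × Fin 3
  nx := P.nx3
  Λ := P.Λ ×ₗ P.Λ
  lev := C.lev3
  J := C.J3
  Pc := Pc3 (P := P)
  dPc := Classical.decEq _
  pc := C.pc3
  tau := tau3
  u := C.u3
  Z := P.Z ⊕ Sym2 P.Site
  z := C.z3
  tau_tau := by rintro (⟨b, e⟩ | b | b | p) <;> simp [tau3, P.tau_tau]
  u_tau := by rintro (⟨b, e⟩ | b | b | p) <;> simp [tau3, u3, P.u_tau]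
  pc_slot := C.t3_pc_slot
  pc_exit := C.t3_pc_exit
  pc_exit' := C.t3_pc_exit'
  blk_pc := C.t3_blk_pc
  blk_J := C.t3_blk_J
  lt_J := C.t3_lt_J
  z_J := C.t3_z_J
  z_cyc := C.t3_z_cyc
  z_inj := C.t3_z_inj

end Cell

end Prob

end Crest.Agent.R003
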