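import Crest.Agent.R003.Defs2

/-! Row 3: words in a group; one face. -/

set_option autoImplicit false
set_option linter.unusedSectionVars false

namespace Crest.Agent.R003

open Matrix

/-- value of a word (`true` = the letter, `false` = its inverse) -/
def wev {E G : Type} [Group G] (A : E → G) (w : List (E × Bool)) : G :=
  (w.map fun x => if x.2 then A x.1 else (A x.1)⁻¹).prod

/-- inverse letter -/
abbrev ng {E : Type} (x : E × Bool) : E × Bool := (x.1, !x.2)

/-- every letter occurs at most once, and together with its inverse -/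
structure WOk {E : Type} (w : List (E × Bool)) : Prop where
  nodup : w.Nodup
  neg : ∀ x ∈ w, ng x ∈ w

/-- the word `[a₁,b₁][a₂,b₂]...` -/
def kword {E : Type} (K : List (E × E)) : List (E × Bool) :=
  K.flatMap fun p => [(p.1, true), (p.2, true), (p.1, false), (p.2, false)]

variable {o : Type} [CommRing o] {E : Type}

/-- solutions of a list of faces -/
abbrev WS (Ω : Type) [Field Ω] [Algebra o Ω] (κ : Type) [Fintype κ] [DecidableEq κ]
    (F : List (List (E × Bool) × oˣ)) : Type :=
  {A : E → GL κ Ω // ∀ f ∈ F,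
    ((wev A f.1 : GL κ Ω) : Matrix κ κ Ω) = algebraMap o Ω (f.2 : o) • (1 : Matrix κ κ Ω)}

variable {Ω : Type} [Field Ω] [Algebra o Ω] {κ : Type} [Fintype κ] [DecidableEq κ]

theorem wev_nil {G : Type} [Group G] (A : E → G) : wev A [] = 1 := rfl
theorem wev_cons {G : Type} [Group G] (A : E → G) (x : E × Bool) (w : List (E × Bool)) :
    wev A (x :: w) = wev A [x] * wev A w := by simp [wev]
theorem wev_append {G : Type} [Group G] (A : E → G) (v w : List (E × Bool)) :
    wev A (v ++ w) = wev A v * wev A w := by simp [wev]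
theorem wev_ng {G : Type} [Group G] (A : E → G) (x : E × Bool) : wev A [ng x] = (wev A [x])⁻¹ := by
  rcases x with ⟨e, _ | _⟩ <;> simp [wev]
theorem wev_congr {G : Type} [Group G] {A B : E → G} {w : List (E × Bool)}
    (h : ∀ x ∈ w, A x.1 = B x.1) : wev A w = wev B w := by
  unfold wev; congr 1; exact List.map_congr_left fun x hx => by rw [h x hx]
theorem good_wev {X : Type} [Coord Ω X] {A : X → E → GL κ Ω} (hA : ∀ e, Good o Ω (fun x => A x e))
    (w : List (E × Bool)) : Good o Ω (fun x => wev (A x) w) :=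
  Good.listProd (f := fun x (y : E × Bool) => if y.2 then A x y.1 else (A x y.1)⁻¹) _
    fun y _ => (hA y.1).ite (hA y.1).uinv

theorem w1_ng_ng (x : E × Bool) : ng (ng x) = x := by simp [ng]

theorem w1_ng_ne (x : E × Bool) : ng x ≠ x := by
  rcases x with ⟨e, _ | _⟩ <;> simp [ng]

/-- a nonempty word contains `x x⁻¹` or an interlaced pair (take a pair `x ... x⁻¹` at minimal
distance; a letter between them has its inverse outside). -/
theorem WOk.split {R : List (E × Bool)} (h : WOk R) (hne : R ≠ []) :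
    (∃ W₀ x W₁, R = W₀ ++ x :: ng x :: W₁) ∨
    ∃ W₀ a W₁ b W₂ W₃ W₄, R = W₀ ++ a :: W₁ ++ b :: W₂ ++ ng a :: W₃ ++ ng b :: W₄ := by
  have key : ∀ (n : ℕ) (U : List (E × Bool)) (x : E × Bool) (M V : List (E × Bool)),
      M.length < n → R = U ++ x :: M ++ ng x :: V → (∃ W₀ x W₁, R = W₀ ++ x :: ng x :: W₁) ∨
      ∃ W₀ a W₁ b W₂ W₃ W₄, R = W₀ ++ a :: W₁ ++ b :: W₂ ++ ng a :: W₃ ++ ng b :: W₄ := by
    intro n
    induction n with
    | zero => intro U x M V hn; omega
    | succ n ih =>
      intro U x M V hn e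
      rcases M with _ | ⟨y, M⟩
      · exact Or.inl ⟨U, x, V, by simp [e]⟩
      have h1 := h.neg y (by simp [e])
      have h2 := h.nodup
      rw [e] at h1 h2
      simp only [List.mem_append, List.mem_cons] at h1
      rcases h1 with (h1 | h1 | h1 | h1) | h1 | h1
      · obtain ⟨U₁, U₂, rfl⟩ := List.append_of_mem h1
        exact Or.inr ⟨U₁, ng y, U₂, x, [], M, V, by simp [e, w1_ng_ng]⟩
      · subst h1
        simp [List.nodup_append, w1_ng_ng] at h2
      · exact absurd h1 (w1_ng_ne y)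
      · obtain ⟨M₁, M₂, rfl⟩ := List.append_of_mem h1
        refine ih (U ++ [x]) y M₁ (M₂ ++ ng x :: V) ?_ (by simp [e])
        simp at hn
        omega
      · have h3 : y = x := by simpa [w1_ng_ng] using congrArg ng h1
        subst h3
        simp [List.nodup_append] at h2
      · obtain ⟨V₁, V₂, rfl⟩ := List.append_of_mem h1
        exact Or.inr ⟨U, x, [], y, M, V₁, V₂, by simp [e]⟩
  rcases R with _ | ⟨x, R⟩
  · exact absurd rfl hne
  have h1 := h.neg x (by simp)
  rcases List.mem_cons.1 h1 with h1 | h1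
  · exact absurd h1 (w1_ng_ne x)
  obtain ⟨M, V, rfl⟩ := List.append_of_mem h1
  exact key _ [] x M V (Nat.lt_succ_self _) (by simp)

theorem w1_kword {G : Type} [Group G] (A : E → G) (K : List (E × E)) :
    wev A (kword K) = hprod fun i : Fin K.length => (A (K.get i).1, A (K.get i).2) := by
  have h1 : ∀ K : List (E × E), wev A (kword K) = (K.map fun p => cm (A p.1) (A p.2)).prod := by
    intro K
    induction K with
    | nil => rfl
    | cons p K ih =>
      rw [List.map_cons, List.prod_cons, ← ih, kword, List.flatMap_cons, wev_append]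
      simp [wev, kword, cm, mul_assoc]
  rw [h1, hprod]
  conv_lhs => rw [← List.map_get_finRange K, List.map_map]
  rfl

/-- the standard face: the good map `CSV × (E → GL) → WS`, which puts the handles on the letters
of `K` and keeps the other letters, hits every point (`g = K.length`). -/
theorem std_face [Finite E] (hB : Big o Ω) (hCS : CS Ω κ o) (K : List (E × E)) (c : oˣ)
    (h : WOk (kword K)) (A : WS Ω κ [(kword K, c)]) : InZ o Ω A := by
  classical
  let ι : Fin K.length × Bool → E := fun i => if i.2 then (K.get i.1).1 else (K.get i.1).2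
  have hι : Function.Injective ι := by
    obtain ⟨h1, h2⟩ := List.nodup_flatMap.1 h.nodup
    have h3 : ∀ i j : Fin K.length × Bool, i.1 < j.1 → ι i ≠ ι j := by
      rintro ⟨i, b⟩ ⟨j, b'⟩ hij e
      have h5 := List.pairwise_iff_get.1 h2 i j hij
      refine h5 (a := (ι (i, b), true)) ?_ ?_
      · cases b <;> simp [ι]
      · rw [e]
        cases b' <;> simp [ι]
    rintro ⟨i, b⟩ ⟨j, b'⟩ e
    rcases lt_trichotomy i j with hij | rfl | hij
    · exact absurd e (h3 _ _ hij)
    · have h4 := h1 (K.get i) (List.get_mem _ _)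
      have h5 : (K.get i).1 ≠ (K.get i).2 := fun e => by
        rw [e] at h4
        simp at h4
      cases b <;> cases b'
      exacts [rfl, absurd e.symm h5, absurd e h5, rfl]
    · exact absurd e.symm (h3 _ _ hij)
  let φ : CSV Ω κ K.length (algebraMap o Ω (c : o)) × (E → GL κ Ω) → E → GL κ Ω := fun p =>
    Function.extend ι (fun i => if i.2 then (p.1.1 i.1).1 else (p.1.1 i.1).2) p.2
  have hφ : Good o Ω φ := Good.pi fun e => by
    simp only [φ, Function.extend_def]
    exact Good.dite (fun _ => Good.ite ((Good.apply _).comp Good.id.fst.val).fst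
      ((Good.apply _).comp Good.id.fst.val).snd) fun _ => (Good.apply _).comp Good.id.snd
  have hs : ∀ p, ∀ f ∈ [(kword K, c)], ((wev (φ p) f.1 : GL κ Ω) : Matrix κ κ Ω) =
      algebraMap o Ω (f.2 : o) • (1 : Matrix κ κ Ω) := by
    intro p f hf
    rw [List.mem_singleton.1 hf, w1_kword, ← p.1.2]
    congr 2
    funext i
    refine Prod.ext ?_ ?_
    · exact hι.extend_apply (fun i => if i.2 then (p.1.1 i.1).1 else (p.1.1 i.1).2) p.2 (i, true)
    · exact hι.extend_apply (fun i => if i.2 then (p.1.1 i.1).1 else (p.1.1 i.1).2) p.2 (i, false)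
  have hφ' : Good o Ω fun p => (⟨φ p, hs p⟩ : WS Ω κ [(kword K, c)]) := hφ
  have := hφ'.inZ (InZ.prodMk
    (hCS _ c ⟨_, w1_kword A.1 K ▸ A.2 _ (List.mem_singleton_self _)⟩)
    (InZ.pi fun e => hB.inZ_GL (A.1 e)))
  convert this using 1
  refine Subtype.ext (funext fun e => ?_)
  by_cases he : ∃ i, ι i = e
  · obtain ⟨⟨i, b⟩, rfl⟩ := he
    simp only [φ, hι.extend_apply]
    cases b <;> rfl
  · simp only [φ, Function.extend_apply' _ _ _ he]

theorem w1_transfer {Φ : (E → GL κ Ω) → E → GL κ Ω} (hΦ : Good o Ω Φ)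
    (hs : Function.Surjective Φ) {w w' : List (E × Bool)} (hw : ∀ A, wev (Φ A) w = wev A w')
    {c : oˣ} (h : ∀ A : WS Ω κ [(w', c)], InZ o Ω A) (A : WS Ω κ [(w, c)]) : InZ o Ω A := by
  obtain ⟨A, hA⟩ := A
  obtain ⟨B, rfl⟩ := hs A
  have h1 : ∀ B : WS Ω κ [(w', c)], ∀ f ∈ [(w, c)], ((wev (Φ B.1) f.1 : GL κ Ω) : Matrix κ κ Ω) =
      algebraMap o Ω (f.2 : o) • (1 : Matrix κ κ Ω) := by
    intro B f hf
    rw [List.mem_singleton.1 hf, hw]
    exact B.2 _ (List.mem_singleton_self _)
  exact ((hΦ.comp Good.id.val).subtypeMk h1).inZ (h ⟨B, fun f hf => by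
    rw [List.mem_singleton.1 hf, ← hw]
    exact hA _ (List.mem_singleton_self _)⟩)

theorem WOk.w1_perm {v w : List (E × Bool)} (h : WOk v) (e : v.Perm w) : WOk w :=
  ⟨e.nodup_iff.1 h.nodup, fun x hx => e.mem_iff.1 (h.neg x (e.mem_iff.2 hx))⟩

theorem WOk.w1_right {v w : List (E × Bool)} (h : WOk (v ++ w)) (hv : ∀ x ∈ v, ng x ∈ v) :
    WOk w := by
  refine ⟨h.nodup.of_append_right, fun x hx => ?_⟩
  rcases List.mem_append.1 (h.neg x (List.mem_append_right _ hx)) with h1 | h1
  · exact absurd hx (List.disjoint_of_nodup_append h.nodup (w1_ng_ng x ▸ hv _ h1))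
  · exact h1

theorem w1_kneg (K : List (E × E)) : ∀ x ∈ kword K, ng x ∈ kword K := by
  intro x hx
  obtain ⟨p, hp, hx⟩ := List.mem_flatMap.1 hx
  refine List.mem_flatMap.2 ⟨p, hp, ?_⟩
  simp only [List.mem_cons, List.not_mem_nil, or_false] at hx
  rcases hx with rfl | rfl | rfl | rfl <;> simp

theorem w1_good_upd [DecidableEq E] {X : Type} [Coord Ω X] {f : X → E → GL κ Ω} {g : X → GL κ Ω}
    (hf : Good o Ω f) (hg : Good o Ω g) (a : E) :
    Good o Ω fun x => Function.update (f x) a (g x) := Good.pi fun e => by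
  simp only [Function.update_apply]
  exact hg.ite ((Good.apply e).comp hf)

theorem w1_inter {K : List (E × E)} {W₀ W₁ W₂ W₃ W₄ : List (E × Bool)} {a b : E × Bool}
    (hab : a.1 ≠ b.1)
    (hL : ∀ z ∈ kword K ++ (W₀ ++ W₃ ++ W₂ ++ W₁ ++ W₄), z.1 ≠ a.1 ∧ z.1 ≠ b.1) :
    ∃ Φ : (E → GL κ Ω) → E → GL κ Ω, Good o Ω Φ ∧ Function.Surjective Φ ∧ ∀ A,
      wev (Φ A) (kword K ++ (W₀ ++ a :: W₁ ++ b :: W₂ ++ ng a :: W₃ ++ ng b :: W₄)) =
        wev A (kword (K ++ [(a.1, b.1)]) ++ (W₀ ++ W₃ ++ W₂ ++ W₁ ++ W₄)) := by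
  classical
  let sg : Bool → GL κ Ω → GL κ Ω := fun s g => if s then g else g⁻¹
  have sg2 : ∀ s g, sg s (sg s g) = g := fun s g => by cases s <;> simp [sg]
  have sgw : ∀ (A : E → GL κ Ω) (x : E × Bool), wev A [x] = sg x.2 (A x.1) := fun A x => by
    simp [wev, sg]
  let up : (E → GL κ Ω) → GL κ Ω → GL κ Ω → E → GL κ Ω := fun A x y =>
    Function.update (Function.update A a.1 x) b.1 y
  have ua : ∀ A x y, up A x y a.1 = x := fun A x y => by simp [up, hab]
  have ub : ∀ A x y, up A x y b.1 = y := fun A x y => by simp [up]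
  have uw : ∀ A x y (W : List (E × Bool)),
      (∀ z ∈ W, z ∈ kword K ++ (W₀ ++ W₃ ++ W₂ ++ W₁ ++ W₄)) → wev (up A x y) W = wev A W :=
    fun A x y W hW => wev_congr fun z hz => by
      simp [up, (hL z (hW z hz)).1, (hL z (hW z hz)).2]
  have uK := fun A x y => uw A x y (kword K) fun z hz => by simp [hz]
  have u0 := fun A x y => uw A x y W₀ fun z hz => by simp [hz]
  have u1 := fun A x y => uw A x y W₁ fun z hz => by simp [hz]
  have u2 := fun A x y => uw A x y W₂ fun z hz => by simp [hz]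
  have u3 := fun A x y => uw A x y W₃ fun z hz => by simp [hz]
  have u4 := fun A x y => uw A x y W₄ fun z hz => by simp [hz]
  refine ⟨fun B => up B (sg a.2 ((wev B W₀)⁻¹ * B a.1 * (wev B W₀ * wev B W₃ * wev B W₂)))
    (sg b.2 ((wev B W₀ * wev B W₃ * wev B W₂ * wev B W₁)⁻¹ * B b.1 * (wev B W₀ * wev B W₃))),
    ?_, fun A => ?_, fun B => ?_⟩
  · have g : ∀ W, Good o Ω fun B : E → GL κ Ω => wev B W := good_wev fun e => Good.apply e
    have gs : ∀ s {f : (E → GL κ Ω) → GL κ Ω}, Good o Ω f → Good o Ω fun B => sg s (f B) :=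
      fun s f hf => hf.ite hf.uinv
    exact w1_good_upd (w1_good_upd Good.id (gs _ ((((g _).uinv.glmul (Good.apply _))).glmul
      (((g _).glmul (g _)).glmul (g _)))) _) (gs _ ((((((g _).glmul (g _)).glmul (g _)).glmul
        (g _)).uinv.glmul (Good.apply _)).glmul ((g _).glmul (g _)))) _
  · refine ⟨up A (wev A W₀ * sg a.2 (A a.1) * (wev A W₀ * wev A W₃ * wev A W₂)⁻¹)
      (wev A W₀ * wev A W₃ * wev A W₂ * wev A W₁ * sg b.2 (A b.1) * (wev A W₀ * wev A W₃)⁻¹), ?_⟩
    simp only [ua, ub, u0, u1, u2, u3]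
    simp only [mul_assoc, inv_mul_cancel_left, inv_mul_cancel, mul_one, _root_.mul_inv_rev, sg2]
    funext e
    by_cases h1 : e = b.1
    · rw [h1, ub]
    by_cases h2 : e = a.1
    · rw [h2, ua]
    · simp [up, h1, h2]
  · have e : kword (K ++ [(a.1, b.1)]) =
        kword K ++ [(a.1, true), (b.1, true), (a.1, false), (b.1, false)] := by simp [kword]
    have e' : wev B [(a.1, true), (b.1, true), (a.1, false), (b.1, false)] =
        cm (B a.1) (B b.1) := by simp [wev, cm, mul_assoc]
    simp only [e, wev_append, e']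
    rw [wev_cons _ a, wev_cons _ b, wev_cons _ (ng a), wev_cons _ (ng b), wev_ng, wev_ng, sgw, sgw]
    simp only [ua, ub, uK, u0, u1, u2, u3, u4, sg2, cm]
    group

/-- Induction on the length of `R` using `WOk.split` (for `R`).  Cancelling `x x⁻¹` does not change
the solutions.  For an interlaced pair, with `c = W₃ W₂`, `b₁ = W₁ b W₂`, `a₁ = c⁻¹ a`:
`a W₁ b W₂ a⁻¹ W₃ b⁻¹ = c [a₁, b₁] W₁`, hence with `a₂ = (W₀ c) a₁ (W₀ c)⁻¹`,
`b₂ = (W₀ c) b₁ (W₀ c)⁻¹` the word is `kword K * [a₂, b₂] * W₀ W₃ W₂ W₁ W₄`.  The substitution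
back (`Function.update` of the two letters) is a good map `WS new → WS old` hitting every point. -/
theorem face_ind [Finite E] (hB : Big o Ω) (hCS : CS Ω κ o) (K : List (E × E))
    (R : List (E × Bool)) (c : oˣ) (h : WOk (kword K ++ R)) (A : WS Ω κ [(kword K ++ R, c)]) :
    InZ o Ω A := by
  induction hn : R.length using Nat.strong_induction_on generalizing K R with
  | _ n ih =>
  by_cases hR : R = []
  · subst hR
    rw [List.append_nil] at h
    exact w1_transfer Good.id Function.surjective_id (fun A => by rw [List.append_nil])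
      (std_face hB hCS K c h) A
  rcases (h.w1_right (w1_kneg K)).split hR with ⟨W₀, x, W₁, rfl⟩ | ⟨W₀, a, W₁, b, W₂, W₃, W₄, rfl⟩
  · have h1 : WOk ([x, ng x] ++ (kword K ++ (W₀ ++ W₁))) := by
      refine h.w1_perm (Multiset.coe_eq_coe.1 ?_)
      simp only [← Multiset.coe_add, ← Multiset.cons_coe, ← Multiset.singleton_add,
        Multiset.coe_nil]
      abel
    refine w1_transfer Good.id Function.surjective_id (fun A => ?_)
      (fun A => ih _ ?_ K (W₀ ++ W₁) (h1.w1_right (by simp [w1_ng_ng])) A rfl) A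
    · simp only [wev_append]
      rw [wev_cons _ x, wev_cons _ (ng x), wev_ng, mul_inv_cancel_left]
    · simp [← hn]
  · have h1 : WOk ([(a.1, true), (b.1, true), (a.1, false), (b.1, false)] ++
        (kword K ++ (W₀ ++ W₃ ++ W₂ ++ W₁ ++ W₄))) := by
      refine h.w1_perm (Multiset.coe_eq_coe.1 ?_)
      rcases a with ⟨a, _ | _⟩ <;> rcases b with ⟨b, _ | _⟩ <;>
        simp only [← Multiset.coe_add, ← Multiset.cons_coe, ← Multiset.singleton_add,
          Multiset.coe_nil, ng, Bool.not_true, Bool.not_false] <;> abel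
    have h2 : WOk (kword (K ++ [(a.1, b.1)]) ++ (W₀ ++ W₃ ++ W₂ ++ W₁ ++ W₄)) := by
      refine h1.w1_perm ?_
      rw [← List.append_assoc, kword, kword, List.flatMap_append]
      exact List.perm_append_comm.append_right _
    have h3 := List.disjoint_of_nodup_append h1.nodup
    have h4 := h1.nodup.of_append_left
    obtain ⟨Φ, g, s, e⟩ := w1_inter (o := o) (Ω := Ω) (κ := κ) (K := K) (W₀ := W₀) (W₁ := W₁)
      (W₂ := W₂) (W₃ := W₃) (W₄ := W₄) (a := a) (b := b) (fun e => by simp [e] at h4)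
      (fun z hz => ⟨fun e => h3 (by rcases z with ⟨z, _ | _⟩ <;> simp_all) hz,
        fun e => h3 (by rcases z with ⟨z, _ | _⟩ <;> simp_all) hz⟩)
    refine w1_transfer g s e (fun A => ih _ ?_ _ _ h2 A rfl) A
    simp [← hn]
    omega

theorem single_face [Finite E] (hB : Big o Ω) (hCS : CS Ω κ o) (w : List (E × Bool)) (c : oˣ)
    (h : WOk w) (A : WS Ω κ [(w, c)]) : InZ o Ω A :=
  face_ind hB hCS [] w c h A

end Crest.Agent.R003
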