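import Mathlib

/-!
# Row 3, Zariski framework.
`Coord Ω X`: a family of coordinate functions on a type `X` of points.
`Good o Ω f`: the map `f` is polynomial with coefficients in `o` (in the coordinates).
`Good Ω Ω f` is "regular".  `IsInt o Ω x`: all coordinates of `x` come from `o`.
`Cl Ω S`: Zariski closure.  `InZ o Ω x`: `x` is in the closure of the integral points.
-/

set_option autoImplicit false
set_option linter.unusedSectionVars false

namespace Crest.Agent.R003

class Coord (Ω : Type) (X : Type) where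
  κ : Type
  c : κ → X → Ω

section inst
variable {Ω : Type}
instance coordSelf : Coord Ω Ω := ⟨Unit, fun _ x => x⟩
instance coordUnit : Coord Ω Unit := ⟨Empty, fun k _ => k.elim⟩
instance coordProd {X Y : Type} [Coord Ω X] [Coord Ω Y] : Coord Ω (X × Y) :=
  ⟨Coord.κ Ω X ⊕ Coord.κ Ω Y, fun k p => Sum.elim (fun k => Coord.c k p.1) (fun k => Coord.c k p.2) k⟩
instance coordPi {ι : Type} {X : ι → Type} [∀ i, Coord Ω (X i)] : Coord Ω (∀ i, X i) :=
  ⟨Σ i, Coord.κ Ω (X i), fun k f => Coord.c k.2 (f k.1)⟩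
instance coordSubtype {X : Type} [Coord Ω X] {p : X → Prop} : Coord Ω (Subtype p) :=
  ⟨Coord.κ Ω X, fun k x => Coord.c k x.1⟩
instance coordMatrix {m n : Type} : Coord Ω (Matrix m n Ω) :=
  inferInstanceAs (Coord Ω (m → n → Ω))
instance coordUnits {M : Type} [Monoid M] [Coord Ω M] : Coord Ω Mˣ :=
  ⟨Coord.κ Ω M ⊕ Coord.κ Ω M,
    fun k u => Sum.elim (fun k => Coord.c k (u : M)) (fun k => Coord.c k ((u⁻¹ : Mˣ) : M)) k⟩
end inst

variable (o : Type) [CommRing o] (Ω : Type) [Field Ω] [Algebra o Ω]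

/-- polynomial functions on `X` with coefficients in `o` -/
def GA (X : Type) [Coord Ω X] : Subalgebra o (X → Ω) :=
  Algebra.adjoin o (Set.range (Coord.c (Ω := Ω) (X := X)))

variable {X Y Z : Type} [Coord Ω X] [Coord Ω Y] [Coord Ω Z]

/-- integral point -/
def IsInt (x : X) : Prop := ∀ k : Coord.κ Ω X, Coord.c k x ∈ (algebraMap o Ω).range

/-- polynomial map with coefficients in `o` -/
@[fun_prop]
def Good (f : X → Y) : Prop := ∀ k : Coord.κ Ω Y, (fun x => Coord.c k (f x)) ∈ GA o Ω X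

/-- Zariski closure -/
def Cl (S : Set X) : Set X := {x | ∀ φ ∈ GA Ω Ω X, (∀ y ∈ S, φ y = 0) → φ x = 0}

/-- in the closure of the integral points -/
def InZ (x : X) : Prop := x ∈ Cl Ω {y : X | IsInt o Ω y}

variable {o Ω}

theorem GA.comp {f : X → Y} (hf : Good o Ω f) {φ : Y → Ω} (hφ : φ ∈ GA o Ω Y) :
    (fun x => φ (f x)) ∈ GA o Ω X := by
  induction hφ using Algebra.adjoin_induction with
  | mem φ h => obtain ⟨k, rfl⟩ := h; exact hf k
  | algebraMap r => exact (GA o Ω X).algebraMap_mem r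
  | add a b _ _ ha hb => exact (GA o Ω X).add_mem ha hb
  | mul a b _ _ ha hb => exact (GA o Ω X).mul_mem ha hb

theorem good_iff_mem {φ : X → Ω} : Good o Ω φ ↔ φ ∈ GA o Ω X :=
  ⟨fun h => h (), fun h _ => h⟩

theorem isInt_iff_mem {x : Ω} : IsInt o Ω x ↔ x ∈ (algebraMap o Ω).range :=
  ⟨fun h => h (), fun h _ => h⟩

theorem GA.coord (k : Coord.κ Ω X) : Coord.c k ∈ GA o Ω X := Algebra.subset_adjoin ⟨k, rfl⟩

@[fun_prop] theorem Good.id : Good o Ω (fun x : X => x) := fun k => GA.coord k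

@[fun_prop] theorem Good.comp {g : Y → Z} {f : X → Y} (hg : Good o Ω g) (hf : Good o Ω f) :
    Good o Ω (fun x => g (f x)) := fun k => GA.comp hf (hg k)

@[fun_prop] theorem Good.const {y : Y} (hy : IsInt o Ω y) : Good o Ω (fun _ : X => y) := by
  intro k
  obtain ⟨r, hr⟩ := hy k
  have := (GA o Ω X).algebraMap_mem r
  convert this using 1
  funext x; simp [← hr, Algebra.algebraMap_eq_smul_one]

theorem isInt_self (y : Y) : IsInt Ω Ω y := fun k => ⟨Coord.c k y, rfl⟩

theorem Good.const' (y : Y) : Good Ω Ω (fun _ : X => y) := Good.const (isInt_self y)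

@[fun_prop] theorem Good.apply {ι : Type} {W : ι → Type} [∀ i, Coord Ω (W i)] (i : ι) :
    Good o Ω (fun f : ∀ i, W i => f i) := fun k =>
  Algebra.subset_adjoin ⟨(⟨i, k⟩ : Σ i, Coord.κ Ω (W i)), rfl⟩

@[fun_prop] theorem Good.pi {ι : Type} {W : ι → Type} [∀ i, Coord Ω (W i)] {f : X → ∀ i, W i}
    (hf : ∀ i, Good o Ω (fun x => f x i)) : Good o Ω (fun x i => f x i) := fun k => hf k.1 k.2

@[fun_prop] theorem Good.fst {f : X → Y × Z} (hf : Good o Ω f) : Good o Ω (fun x => (f x).1) :=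
  fun k => hf (Sum.inl k)

@[fun_prop] theorem Good.snd {f : X → Y × Z} (hf : Good o Ω f) : Good o Ω (fun x => (f x).2) :=
  fun k => hf (Sum.inr k)

@[fun_prop] theorem Good.prodMk {f : X → Y} {g : X → Z} (hf : Good o Ω f) (hg : Good o Ω g) :
    Good o Ω (fun x => (f x, g x)) := fun k => by
  rcases k with k | k
  · exact hf k
  · exact hg k

@[fun_prop] theorem Good.val {p : Y → Prop} {f : X → Subtype p} (hf : Good o Ω f) :
    Good o Ω (fun x => (f x).1) := hf

@[fun_prop] theorem Good.subtypeMk {p : Y → Prop} {f : X → Y} (hf : Good o Ω f) (h : ∀ x, p (f x)) :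
    Good o Ω (fun x => (⟨f x, h x⟩ : Subtype p)) := hf

theorem good_subtype_iff {p : Y → Prop} {f : X → Subtype p} :
    Good o Ω f ↔ Good o Ω (fun x => (f x).1) := Iff.rfl

theorem Good.unit (f : X → Unit) : Good o Ω f := fun k => k.elim

/-! scalar valued -/
@[fun_prop] theorem Good.add {f g : X → Ω} (hf : Good o Ω f) (hg : Good o Ω g) :
    Good o Ω (fun x => f x + g x) := fun k => (GA o Ω X).add_mem (hf k) (hg k)
@[fun_prop] theorem Good.mul {f g : X → Ω} (hf : Good o Ω f) (hg : Good o Ω g) :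
    Good o Ω (fun x => f x * g x) := fun k => (GA o Ω X).mul_mem (hf k) (hg k)
@[fun_prop] theorem Good.neg {f : X → Ω} (hf : Good o Ω f) :
    Good o Ω (fun x => - f x) := fun k => (GA o Ω X).neg_mem (hf k)
@[fun_prop] theorem Good.sub {f g : X → Ω} (hf : Good o Ω f) (hg : Good o Ω g) :
    Good o Ω (fun x => f x - g x) := fun k => (GA o Ω X).sub_mem (hf k) (hg k)
@[fun_prop] theorem Good.pow {f : X → Ω} (hf : Good o Ω f) (n : ℕ) :
    Good o Ω (fun x => f x ^ n) := fun k => (GA o Ω X).pow_mem (hf k) n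
@[fun_prop] theorem Good.sum {ι : Type} {s : Finset ι} {f : X → ι → Ω}
    (hf : ∀ i, Good o Ω (fun x => f x i)) : Good o Ω (fun x => ∑ i ∈ s, f x i) := by
  intro k
  have := (GA o Ω X).sum_mem (t := s) (f := fun i x => f x i) (fun i _ => hf i k)
  convert this using 1
  funext x; simp [Coord.c]
@[fun_prop] theorem Good.prod {ι : Type} {s : Finset ι} {f : X → ι → Ω}
    (hf : ∀ i, Good o Ω (fun x => f x i)) : Good o Ω (fun x => ∏ i ∈ s, f x i) := by
  intro k
  have := (GA o Ω X).prod_mem (t := s) (f := fun i x => f x i) (fun i _ => hf i k)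
  convert this using 1
  funext x; simp [Coord.c]
@[fun_prop] theorem Good.ite {p : Prop} [Decidable p] {f g : X → Y} (hf : Good o Ω f)
    (hg : Good o Ω g) : Good o Ω (fun x => if p then f x else g x) := by
  split_ifs
  · exact hf
  · exact hg
theorem Good.dite {p : Prop} [Decidable p] {f : X → p → Y} {g : X → ¬ p → Y}
    (hf : ∀ h, Good o Ω (fun x => f x h)) (hg : ∀ h, Good o Ω (fun x => g x h)) :
    Good o Ω (fun x => if h : p then f x h else g x h) := by
  split_ifs with h
  · exact hf h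
  · exact hg h

theorem isInt_zero : IsInt o Ω (0 : Ω) := isInt_iff_mem.2 (zero_mem _)
theorem isInt_one : IsInt o Ω (1 : Ω) := isInt_iff_mem.2 (one_mem _)
theorem isInt_algebraMap (r : o) : IsInt o Ω (algebraMap o Ω r) := isInt_iff_mem.2 ⟨r, rfl⟩
theorem isInt_intCast (n : ℤ) : IsInt o Ω (n : Ω) := isInt_iff_mem.2 (intCast_mem _ n)
theorem isInt_natCast (n : ℕ) : IsInt o Ω (n : Ω) := isInt_iff_mem.2 (natCast_mem _ n)
@[fun_prop] theorem Good.zero : Good o Ω (fun _ : X => (0 : Ω)) := Good.const isInt_zero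
@[fun_prop] theorem Good.one : Good o Ω (fun _ : X => (1 : Ω)) := Good.const isInt_one
@[fun_prop] theorem Good.algMap (r : o) : Good o Ω (fun _ : X => algebraMap o Ω r) :=
  Good.const (isInt_algebraMap r)

/-! matrix valued -/
section matrix
variable {l m n : Type}
theorem good_matrix {f : X → Matrix m n Ω} (hf : ∀ i j, Good o Ω (fun x => f x i j)) :
    Good o Ω f := fun k => hf k.1 k.2.1 k.2.2
theorem Good.entry {f : X → Matrix m n Ω} (hf : Good o Ω f) (i : m) (j : n) :
    Good o Ω (fun x => f x i j) := fun k => hf ⟨i, j, k⟩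
@[fun_prop] theorem Good.of {f : X → m → n → Ω} (hf : ∀ i j, Good o Ω (fun x => f x i j)) :
    Good o Ω (fun x => Matrix.of (f x)) := good_matrix hf
@[fun_prop] theorem Good.madd {f g : X → Matrix m n Ω} (hf : Good o Ω f) (hg : Good o Ω g) :
    Good o Ω (fun x => f x + g x) := good_matrix fun i j => (hf.entry i j).add (hg.entry i j)
@[fun_prop] theorem Good.msub {f g : X → Matrix m n Ω} (hf : Good o Ω f) (hg : Good o Ω g) :
    Good o Ω (fun x => f x - g x) := good_matrix fun i j => (hf.entry i j).sub (hg.entry i j)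
@[fun_prop] theorem Good.mneg {f : X → Matrix m n Ω} (hf : Good o Ω f) :
    Good o Ω (fun x => - f x) := good_matrix fun i j => (hf.entry i j).neg
@[fun_prop] theorem Good.msmul {a : X → Ω} {f : X → Matrix m n Ω} (ha : Good o Ω a)
    (hf : Good o Ω f) : Good o Ω (fun x => a x • f x) :=
  good_matrix fun i j => ha.mul (hf.entry i j)
@[fun_prop] theorem Good.mmul [Fintype m] {f : X → Matrix l m Ω} {g : X → Matrix m n Ω}
    (hf : Good o Ω f) (hg : Good o Ω g) : Good o Ω (fun x => f x * g x) :=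
  good_matrix fun i j => by
    simp only [Matrix.mul_apply]
    exact Good.sum fun k => (hf.entry i k).mul (hg.entry k j)
@[fun_prop] theorem Good.msum {ι : Type} {s : Finset ι} {f : X → ι → Matrix m n Ω}
    (hf : ∀ i, Good o Ω (fun x => f x i)) : Good o Ω (fun x => ∑ i ∈ s, f x i) :=
  good_matrix fun i j => by
    simp only [Matrix.sum_apply]
    exact Good.sum fun k => (hf k).entry i j
@[fun_prop] theorem Good.submatrix {m' n' : Type} {f : X → Matrix m n Ω} (hf : Good o Ω f)
    (r : m' → m) (c : n' → n) : Good o Ω (fun x => (f x).submatrix r c) :=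
  good_matrix fun i j => hf.entry (r i) (c j)
@[fun_prop] theorem Good.transpose {f : X → Matrix m n Ω} (hf : Good o Ω f) :
    Good o Ω (fun x => (f x).transpose) := good_matrix fun i j => hf.entry j i
@[fun_prop] theorem Good.mzero : Good o Ω (fun _ : X => (0 : Matrix m n Ω)) :=
  good_matrix fun _ _ => Good.zero
@[fun_prop] theorem Good.mone [DecidableEq m] : Good o Ω (fun _ : X => (1 : Matrix m m Ω)) :=
  good_matrix fun i j => by simp only [Matrix.one_apply]; fun_prop
@[fun_prop] theorem Good.diagonal [DecidableEq m] {f : X → m → Ω}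
    (hf : ∀ i, Good o Ω (fun x => f x i)) : Good o Ω (fun x => Matrix.diagonal (f x)) :=
  good_matrix fun i j => by
    simp only [Matrix.diagonal_apply]; exact Good.ite (hf i) Good.zero
@[fun_prop] theorem Good.fromBlocks {m' n' : Type} {a : X → Matrix m n Ω} {b : X → Matrix m n' Ω}
    {c : X → Matrix m' n Ω} {d : X → Matrix m' n' Ω} (ha : Good o Ω a) (hb : Good o Ω b)
    (hc : Good o Ω c) (hd : Good o Ω d) :
    Good o Ω (fun x => Matrix.fromBlocks (a x) (b x) (c x) (d x)) :=
  good_matrix fun i j => by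
    rcases i with i | i <;> rcases j with j | j
    · exact ha.entry i j
    · exact hb.entry i j
    · exact hc.entry i j
    · exact hd.entry i j
@[fun_prop] theorem Good.det [Fintype m] [DecidableEq m] {f : X → Matrix m m Ω}
    (hf : Good o Ω f) : Good o Ω (fun x => (f x).det) := by
  simp only [Matrix.det_apply']
  exact Good.sum fun σ => (Good.const (isInt_intCast _)).mul (Good.prod fun i => hf.entry _ _)
@[fun_prop] theorem Good.adjugate [Fintype m] [DecidableEq m] {f : X → Matrix m m Ω}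
    (hf : Good o Ω f) : Good o Ω (fun x => (f x).adjugate) :=
  good_matrix fun i j => by
    simp only [Matrix.adjugate_apply]
    refine Good.det (good_matrix fun a b => ?_)
    simp only [Matrix.updateRow_apply, Pi.single_apply]
    exact Good.ite (Good.ite Good.one Good.zero) (hf.entry a b)
@[fun_prop] theorem Good.trace [Fintype m] {f : X → Matrix m m Ω}
    (hf : Good o Ω f) : Good o Ω (fun x => (f x).trace) :=
  Good.sum (s := Finset.univ) fun i => hf.entry i i
@[fun_prop] theorem Good.mpow [Fintype m] [DecidableEq m] {f : X → Matrix m m Ω}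
    (hf : Good o Ω f) (k : ℕ) : Good o Ω (fun x => f x ^ k) := by
  induction k with
  | zero => simpa using Good.mone
  | succ k ih => simpa [pow_succ] using ih.mmul hf
theorem isInt_matrix {A : Matrix m n Ω} : IsInt o Ω A ↔ ∀ i j, IsInt o Ω (A i j) :=
  ⟨fun h i j k => h ⟨i, j, k⟩, fun h k => h k.1 k.2.1 k.2.2⟩
end matrix

/-! units -/
section units
variable {M : Type} [Monoid M] [Coord Ω M]
@[fun_prop] theorem Good.uval {f : X → Mˣ} (hf : Good o Ω f) :
    Good o Ω (fun x => (f x : M)) := fun k => hf (Sum.inl k)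
@[fun_prop] theorem Good.uinv {f : X → Mˣ} (hf : Good o Ω f) :
    Good o Ω (fun x => (f x)⁻¹) := fun k => by
  rcases k with k | k
  · exact hf (Sum.inr k)
  · exact hf (Sum.inl k)
@[fun_prop] theorem Good.uinv' {f : X → Mˣ} (hf : Good o Ω f) :
    Good o Ω (fun x => (f x).inv) := fun k => hf (Sum.inr k)
theorem good_units {f : X → Mˣ} (h1 : Good o Ω (fun x => (f x : M)))
    (h2 : Good o Ω (fun x => ((f x)⁻¹ : Mˣ).val)) : Good o Ω f := fun k => by
  rcases k with k | k
  · exact h1 k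
  · exact h2 k
theorem isInt_units {u : Mˣ} : IsInt o Ω u ↔ IsInt o Ω (u : M) ∧ IsInt o Ω ((u⁻¹ : Mˣ) : M) :=
  ⟨fun h => ⟨fun k => h (Sum.inl k), fun k => h (Sum.inr k)⟩, fun h k => by
    rcases k with k | k
    · exact h.1 k
    · exact h.2 k⟩
@[fun_prop] theorem Good.unitsMk {a b : X → M} (ha : Good o Ω a) (hb : Good o Ω b)
    (h1 : ∀ x, a x * b x = 1) (h2 : ∀ x, b x * a x = 1) :
    Good o Ω (fun x => (⟨a x, b x, h1 x, h2 x⟩ : Mˣ)) := good_units ha hb
@[fun_prop] theorem Good.glmul {m : Type} [Fintype m] [DecidableEq m] {f g : X → GL m Ω}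
    (hf : Good o Ω f) (hg : Good o Ω g) : Good o Ω (fun x => f x * g x) :=
  good_units (hf.uval.mmul hg.uval) (by
    simp only [mul_inv_rev, Units.val_mul]; exact hg.uinv.uval.mmul hf.uinv.uval)
@[fun_prop] theorem Good.glone {m : Type} [Fintype m] [DecidableEq m] :
    Good o Ω (fun _ : X => (1 : GL m Ω)) :=
  good_units Good.mone (by simpa using Good.mone)
@[fun_prop] theorem Good.scmul {f g : X → Ωˣ}
    (hf : Good o Ω f) (hg : Good o Ω g) : Good o Ω (fun x => f x * g x) :=
  good_units (hf.uval.mul hg.uval) (by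
    simp only [mul_inv_rev, Units.val_mul]; exact hg.uinv.uval.mul hf.uinv.uval)
theorem Good.listProd {m ι : Type} [Fintype m] [DecidableEq m] (l : List ι) {f : X → ι → GL m Ω}
    (hf : ∀ i ∈ l, Good o Ω (fun x => f x i)) : Good o Ω (fun x => (l.map (f x)).prod) := by
  induction l with
  | nil => simpa using Good.glone
  | cons a l ih =>
    simp only [List.map_cons, List.prod_cons]
    exact (hf a (by simp)).glmul (ih fun i hi => hf i (by simp [hi]))
end units

/-! closure -/
theorem Good.isInt {f : X → Y} (hf : Good o Ω f) {x : X} (hx : IsInt o Ω x) : IsInt o Ω (f x) := by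
  intro k
  have : ∀ φ ∈ GA o Ω X, φ x ∈ (algebraMap o Ω).range := by
    intro φ hφ
    induction hφ using Algebra.adjoin_induction with
    | mem φ h => obtain ⟨k, rfl⟩ := h; exact hx k
    | algebraMap r => exact ⟨r, by simp⟩
    | add a b _ _ ha hb => exact add_mem ha hb
    | mul a b _ _ ha hb => exact mul_mem ha hb
  exact this _ (hf k)

theorem Good.reg {f : X → Y} (hf : Good o Ω f) : Good Ω Ω f := by
  intro k
  have : ∀ φ ∈ GA o Ω X, φ ∈ GA Ω Ω X := by
    intro φ hφ
    induction hφ using Algebra.adjoin_induction with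
    | mem φ h => exact Algebra.subset_adjoin h
    | algebraMap r => exact (GA Ω Ω X).algebraMap_mem (algebraMap o Ω r)
    | add a b _ _ ha hb => exact add_mem ha hb
    | mul a b _ _ ha hb => exact mul_mem ha hb
  exact this _ (hf k)

theorem subset_Cl (S : Set X) : S ⊆ Cl Ω S := fun x hx _ _ h => h x hx

theorem Cl_mono {S T : Set X} (h : S ⊆ T) : Cl Ω S ⊆ Cl Ω T :=
  fun _ hx φ hφ hT => hx φ hφ fun y hy => hT y (h hy)

theorem Cl_subset_Cl {S T : Set X} (h : S ⊆ Cl Ω T) : Cl Ω S ⊆ Cl Ω T :=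
  fun _ hx φ hφ hT => hx φ hφ fun y hy => h hy φ hφ hT

/-- a regular map sends closures to closures -/
theorem Good.map_Cl {f : X → Y} (hf : Good Ω Ω f) {S : Set X} {T : Set Y}
    (h : ∀ x ∈ S, f x ∈ Cl Ω T) {x : X} (hx : x ∈ Cl Ω S) : f x ∈ Cl Ω T :=
  fun φ hφ hT => hx (fun x => φ (f x)) (GA.comp hf hφ) fun y hy => h y hy φ hφ hT

theorem Cl.eq_zero {S : Set X} {x : X} (hx : x ∈ Cl Ω S) {φ : X → Ω} (hφ : Good Ω Ω φ)
    (h : ∀ y ∈ S, φ y = 0) : φ x = 0 := hx φ (good_iff_mem.1 hφ) h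

theorem mem_Cl {S : Set X} {x : X}
    (h : ∀ φ : X → Ω, Good Ω Ω φ → (∀ y ∈ S, φ y = 0) → φ x = 0) : x ∈ Cl Ω S :=
  fun φ hφ => h φ (good_iff_mem.2 hφ)

theorem IsInt.inZ {x : X} (hx : IsInt o Ω x) : InZ o Ω x := subset_Cl _ hx

theorem Good.inZ {f : X → Y} (hf : Good o Ω f) {x : X} (hx : InZ o Ω x) : InZ o Ω (f x) :=
  hf.reg.map_Cl (fun _ hy => (hf.isInt hy).inZ) hx

/-- a regular map sending integral points into `InZ` preserves `InZ` -/
theorem Good.inZ' {f : X → Y} (hf : Good Ω Ω f) (h : ∀ x, IsInt o Ω x → InZ o Ω (f x)) {x : X}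
    (hx : InZ o Ω x) : InZ o Ω (f x) := hf.map_Cl h hx

theorem Cl_prod {S : Set X} {T : Set Y} {x : X} {y : Y} (hx : x ∈ Cl Ω S) (hy : y ∈ Cl Ω T) :
    (x, y) ∈ Cl Ω (S ×ˢ T) := by
  have h1 : ∀ x' ∈ S, (x', y) ∈ Cl Ω (S ×ˢ T) := fun x' hx' =>
    Good.map_Cl (f := fun y : Y => (x', y)) ((Good.const' x').prodMk Good.id)
      (fun y' hy' => subset_Cl _ (Set.mk_mem_prod hx' hy')) hy
  exact Good.map_Cl (f := fun x : X => (x, y)) (Good.id.prodMk (Good.const' y)) h1 hx

theorem isInt_prod {x : X} {y : Y} : IsInt o Ω (x, y) ↔ IsInt o Ω x ∧ IsInt o Ω y :=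
  ⟨fun h => ⟨fun k => h (Sum.inl k), fun k => h (Sum.inr k)⟩, fun h k => by
    rcases k with k | k
    · exact h.1 k
    · exact h.2 k⟩

theorem isInt_pi {ι : Type} {W : ι → Type} [∀ i, Coord Ω (W i)] {f : ∀ i, W i} :
    IsInt o Ω f ↔ ∀ i, IsInt o Ω (f i) := ⟨fun h i k => h ⟨i, k⟩, fun h k => h k.1 k.2⟩

theorem isInt_subtype {p : X → Prop} {x : Subtype p} : IsInt o Ω x ↔ IsInt o Ω x.1 := Iff.rfl

theorem InZ.prodMk {x : X} {y : Y} (hx : InZ o Ω x) (hy : InZ o Ω y) : InZ o Ω (x, y) :=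
  Cl_mono (fun _ h => isInt_prod.2 h) (Cl_prod hx hy)

/-- removing the zero set of a regular function not vanishing at `x` -/
theorem Cl_inter_ne {S : Set X} {x : X} (hx : x ∈ Cl Ω S) {h : X → Ω} (hh : Good Ω Ω h)
    (hne : h x ≠ 0) : x ∈ Cl Ω {y | y ∈ S ∧ h y ≠ 0} := by
  refine mem_Cl fun φ hφ hS => ?_
  have := Cl.eq_zero hx (hφ.mul hh) fun y hy => by
    by_cases hy0 : h y = 0
    · simp [hy0]
    · simp [hS y ⟨hy, hy0⟩]
  exact (mul_eq_zero.1 this).resolve_right hne

example {m : Type} [Fintype m] [DecidableEq m] :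
    Good o Ω (fun p : GL m Ω × Matrix m m Ω × (m → Ωˣ) =>
      (p.1 : Matrix m m Ω) * p.2.1 * ((p.1⁻¹ : GL m Ω) : Matrix m m Ω) +
        Matrix.of fun i j => if i = j then (p.2.2 i : Ω) else 0) := by
  fun_prop

example {m : Type} [Fintype m] [DecidableEq m] (a b : m) :
    Good o Ω (fun p : {q : (m → Matrix m m Ω) × Matrix m m Ω // q.2 = 1} =>
      p.1.1 a a b * p.1.2 b a) := by
  fun_prop

example {m : Type} [Fintype m] [DecidableEq m] (a b : m) (f : X → Matrix m m Ω) (hf : Good o Ω f) :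
    Good o Ω (fun p => Matrix.of fun i j => if i = a then f p i j else (f p * f p) b j) := by
  fun_prop

end Crest.Agent.R003
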