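import Crest.Agent.R003.Z

/-! Row 3: density lemmas for the Zariski framework. -/

set_option autoImplicit false
set_option linter.unusedSectionVars false

namespace Crest.Agent.R003

variable (o : Type) [CommRing o] (Ω : Type) [Field Ω] [Algebra o Ω]

/-- `o` has a unit whose image in `Ω` has infinite order. -/
def Big : Prop := ∃ u : oˣ, ∀ n : ℕ, 0 < n → algebraMap o Ω ((u ^ n : oˣ) : o) ≠ 1

variable {o Ω}
variable {X Y : Type} [Coord Ω X] [Coord Ω Y]

/-- every polynomial function is the evaluation of a polynomial in the coordinates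
(`Algebra.adjoin_range_eq_range_aeval`). -/
theorem Good.exists_mvPolynomial {φ : X → Ω} (hφ : Good Ω Ω φ) :
    ∃ p : MvPolynomial (Coord.κ Ω X) Ω, ∀ x, φ x = MvPolynomial.eval (fun k => Coord.c k x) p := by
  have h := good_iff_mem.1 hφ
  clear hφ
  induction h using Algebra.adjoin_induction with
  | mem φ h => obtain ⟨k, rfl⟩ := h; exact ⟨MvPolynomial.X k, fun x => by simp⟩
  | algebraMap r => exact ⟨MvPolynomial.C r, fun x => by simp⟩
  | add a b _ _ ha hb =>
    obtain ⟨p, hp⟩ := ha
    obtain ⟨q, hq⟩ := hb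
    exact ⟨p + q, fun x => by simp [hp x, hq x]⟩
  | mul a b _ _ ha hb =>
    obtain ⟨p, hp⟩ := ha
    obtain ⟨q, hq⟩ := hb
    exact ⟨p * q, fun x => by simp [hp x, hq x]⟩

/-- evaluation of a fixed polynomial at good functions is good (induction on the polynomial). -/
theorem Good.aeval {σ : Type} (p : MvPolynomial σ o) {f : X → σ → Ω}
    (hf : ∀ k, Good o Ω (fun x => f x k)) : Good o Ω (fun x => MvPolynomial.aeval (f x) p) := by
  induction p using MvPolynomial.induction_on with
  | C a => simpa using Good.algMap a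
  | add p q hp hq => simpa using hp.add hq
  | mul_X p k hp => simpa using hp.mul (hf k)

/-- evaluation of a fixed one-variable polynomial at a good matrix function. -/
theorem Good.polyAeval {m : Type} [Fintype m] [DecidableEq m] (p : Polynomial o)
    {f : X → Matrix m m Ω} (hf : Good o Ω f) : Good o Ω (fun x => Polynomial.aeval (f x) p) := by
  induction p using Polynomial.induction_on' with
  | add p q hp hq => simpa using hp.madd hq
  | monomial k a =>
    simp only [Polynomial.aeval_monomial, Matrix.algebraMap_eq_diagonal]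
    exact (Good.diagonal fun _ => Good.algMap a).mmul (hf.mpow k)

/-- an infinite subset of the line is dense (a regular function on `Ω` is a polynomial function;
a nonzero polynomial has finitely many roots). -/
theorem Cl_of_infinite {S : Set Ω} (hS : S.Infinite) (x : Ω) : x ∈ Cl Ω S := by
  have key : ∀ φ ∈ GA Ω Ω Ω, ∃ p : Polynomial Ω, ∀ t, φ t = p.eval t := by
    intro φ h
    induction h using Algebra.adjoin_induction with
    | mem φ h => obtain ⟨k, rfl⟩ := h; exact ⟨Polynomial.X, fun x => by simp [Coord.c]⟩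
    | algebraMap r => exact ⟨Polynomial.C r, fun x => by simp⟩
    | add a b _ _ ha hb =>
      obtain ⟨p, hp⟩ := ha
      obtain ⟨q, hq⟩ := hb
      exact ⟨p + q, fun x => by simp [hp x, hq x]⟩
    | mul a b _ _ ha hb =>
      obtain ⟨p, hp⟩ := ha
      obtain ⟨q, hq⟩ := hb
      exact ⟨p * q, fun x => by simp [hp x, hq x]⟩
  intro φ hφ h0
  obtain ⟨p, hp⟩ := key φ hφ
  have : p = 0 := Polynomial.eq_zero_of_infinite_isRoot p
    (hS.mono fun y hy => by simpa [← hp] using h0 y hy)
  simp [hp, this]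

/-- an infinite subset of `Ωˣ` is dense (a regular function times a power of `u` is a polynomial
in `u`). -/
theorem Cl_units_of_infinite {S : Set Ωˣ} (hS : S.Infinite) (x : Ωˣ) : x ∈ Cl Ω S := by
  have key : ∀ φ ∈ GA Ω Ω Ωˣ, ∃ N : ℕ, ∃ p : Polynomial Ω, ∀ t : Ωˣ,
      φ t * (t : Ω) ^ N = p.eval (t : Ω) := by
    intro φ h
    induction h using Algebra.adjoin_induction with
    | mem φ h =>
      obtain ⟨k, rfl⟩ := h
      rcases k with k | k
      · exact ⟨0, Polynomial.X, fun x => by simp [Coord.c]⟩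
      · exact ⟨1, 1, fun x => by simp [Coord.c]⟩
    | algebraMap r => exact ⟨0, Polynomial.C r, fun x => by simp⟩
    | add a b _ _ ha hb =>
      obtain ⟨N, p, hp⟩ := ha
      obtain ⟨K, q, hq⟩ := hb
      refine ⟨N + K, p * Polynomial.X ^ K + q * Polynomial.X ^ N, fun x => ?_⟩
      simp only [Pi.add_apply, Polynomial.eval_add, Polynomial.eval_mul, Polynomial.eval_pow,
        Polynomial.eval_X, ← hp x, ← hq x]
      ring
    | mul a b _ _ ha hb =>
      obtain ⟨N, p, hp⟩ := ha
      obtain ⟨K, q, hq⟩ := hb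
      refine ⟨N + K, p * q, fun x => ?_⟩
      simp only [Pi.mul_apply, Polynomial.eval_mul, ← hp x, ← hq x]
      ring
  intro φ hφ h0
  obtain ⟨N, p, hp⟩ := key φ hφ
  have h1 : p = 0 := Polynomial.eq_zero_of_infinite_isRoot p
    ((hS.image (Units.val_injective.injOn)).mono (by
      rintro _ ⟨y, hy, rfl⟩
      simp [← hp, h0 y hy]))
  have h2 := hp x
  rw [h1, Polynomial.eval_zero] at h2
  exact (mul_eq_zero.1 h2).resolve_right (pow_ne_zero _ x.ne_zero)

theorem Big.z2a_infinite (h : Big o Ω) : {y : Ωˣ | IsInt o Ω y}.Infinite := by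
  obtain ⟨u, hu⟩ := h
  have h1 : ¬ IsOfFinOrder (Units.map (algebraMap o Ω : o →* Ω) u) := by
    rw [isOfFinOrder_iff_pow_eq_one]
    rintro ⟨n, hn, h⟩
    refine hu n hn ?_
    have := congrArg Units.val h
    simpa using this
  refine Set.infinite_of_injective_forall_mem (injective_pow_iff_not_isOfFinOrder.2 h1) fun n => ?_
  refine isInt_units.2 ⟨isInt_iff_mem.2 ⟨(u ^ n : oˣ), by simp⟩,
    isInt_iff_mem.2 ⟨((u ^ n)⁻¹ : oˣ), ?_⟩⟩
  rw [← map_pow, ← map_inv]
  rfl

theorem Big.inZ_scalar (h : Big o Ω) (x : Ω) : InZ o Ω x := by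
  refine Cl_of_infinite ((h.z2a_infinite.image (Units.val_injective.injOn)).mono ?_) x
  rintro _ ⟨y, hy, rfl⟩
  exact (isInt_units.1 hy).1

theorem Big.inZ_unit (h : Big o Ω) (x : Ωˣ) : InZ o Ω x := by
  exact Cl_units_of_infinite h.z2a_infinite x

/-- finite products (induction with `Function.update`, or `Fintype.induction_empty_option`). -/
theorem Cl_pi {ι : Type} [Finite ι] {W : ι → Type} [∀ i, Coord Ω (W i)] {S : ∀ i, Set (W i)}
    {f : ∀ i, W i} (hf : ∀ i, f i ∈ Cl Ω (S i)) : f ∈ Cl Ω {g : ∀ i, W i | ∀ i, g i ∈ S i} := by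
  classical
  have := Fintype.ofFinite ι
  have key : ∀ s : Finset ι, ∀ g : ∀ i, W i, (∀ i, g i ∈ Cl Ω (S i)) → (∀ i ∉ s, g i ∈ S i) →
      g ∈ Cl Ω {g : ∀ i, W i | ∀ i, g i ∈ S i} := by
    intro s
    induction s using Finset.induction_on with
    | empty => exact fun g _ h => subset_Cl _ fun i => h i (by simp)
    | insert a s ha ih =>
      intro g h1 h2
      have hgood : Good Ω Ω (fun w : W a => Function.update g a w) := by
        refine Good.pi fun i => ?_
        by_cases hi : i = a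
        · subst hi
          simpa using Good.id
        · simpa [Function.update_of_ne hi] using Good.const' (g i)
      have := hgood.map_Cl (S := S a) (T := {g : ∀ i, W i | ∀ i, g i ∈ S i}) (fun w hw => by
        refine ih _ (fun i => ?_) (fun i hi => ?_)
        · by_cases hia : i = a
          · subst hia
            simpa using subset_Cl _ hw
          · simpa [Function.update_of_ne hia] using h1 i
        · by_cases hia : i = a
          · subst hia
            simpa using hw
          · simpa [Function.update_of_ne hia] using h2 i (by simp [hia, hi])) (h1 a)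
      simpa using this
  exact key Finset.univ f hf (by simp)

theorem InZ.pi {ι : Type} [Finite ι] {W : ι → Type} [∀ i, Coord Ω (W i)] {f : ∀ i, W i}
    (hf : ∀ i, InZ o Ω (f i)) : InZ o Ω f := by
  exact Cl_mono (fun _ hg => isInt_pi.2 hg) (Cl_pi hf)

theorem Big.inZ_matrix (h : Big o Ω) {m n : Type} [Finite m] [Finite n] (A : Matrix m n Ω) :
    InZ o Ω A := by
  exact InZ.pi (W := fun _ : m => n → Ω) (f := A) fun i => InZ.pi fun j => h.inZ_scalar (A i j)

/-- `GL` is generated by transvections and invertible diagonal matrices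
(`Matrix.diagonal_transvection_induction_of_det_ne_zero`); multiplication is good. -/
theorem Big.inZ_GL (h : Big o Ω) {m : Type} [Fintype m] [DecidableEq m] (g : GL m Ω) :
    InZ o Ω g := by
  have key : ∀ A : Matrix m m Ω, A.det ≠ 0 → ∀ g : GL m Ω, (g : Matrix m m Ω) = A → InZ o Ω g := by
    intro A hA
    refine Matrix.diagonal_transvection_induction_of_det_ne_zero
      (fun A => ∀ g : GL m Ω, (g : Matrix m m Ω) = A → InZ o Ω g) A hA ?_ ?_ ?_
    · intro D hD g hg
      rw [Matrix.det_diagonal, Finset.prod_ne_zero_iff] at hD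
      have hgood : Good o Ω (fun d : m → Ωˣ => (⟨Matrix.diagonal fun i => (d i : Ω),
          Matrix.diagonal fun i => (((d i)⁻¹ : Ωˣ) : Ω), by simp [Matrix.diagonal_mul_diagonal],
          by simp [Matrix.diagonal_mul_diagonal]⟩ : GL m Ω)) :=
        Good.unitsMk (Good.diagonal fun i => (Good.apply i).uval)
          (Good.diagonal fun i => (Good.apply i).uinv.uval) _ _
      have := hgood.inZ (x := fun i => Units.mk0 (D i) (hD i (Finset.mem_univ i)))
        (InZ.pi fun i => h.inZ_unit _)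
      convert this using 1
      exact Units.ext hg
    · rintro ⟨i, j, hij, c⟩ g hg
      have ht : ∀ {f : Ω → Ω}, Good o Ω f → Good o Ω fun c => Matrix.transvection i j (f c) := by
        intro f hf
        refine Good.madd Good.mone (good_matrix fun a b => ?_)
        simp only [Matrix.single_apply]
        exact Good.ite hf Good.zero
      have hgood : Good o Ω (fun c : Ω => (⟨Matrix.transvection i j c,
          Matrix.transvection i j (-c), by simp [Matrix.transvection_mul_transvection_same i j hij],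
          by simp [Matrix.transvection_mul_transvection_same i j hij]⟩ : GL m Ω)) :=
        Good.unitsMk (ht Good.id) (ht Good.id.neg) _ _
      have := hgood.inZ (h.inZ_scalar c)
      convert this using 1
      exact Units.ext hg
    · intro A B hA hB h1 h2 g hg
      have hgood : Good o Ω (fun p : GL m Ω × GL m Ω => p.1 * p.2) := Good.id.fst.glmul Good.id.snd
      have := hgood.inZ ((h1 (Matrix.GeneralLinearGroup.mkOfDetNeZero A hA) rfl).prodMk
        (h2 (Matrix.GeneralLinearGroup.mkOfDetNeZero B hB) rfl))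
      convert this using 1
      exact Units.ext hg
  exact key _ (Matrix.GeneralLinearGroup.det_ne_zero g) g rfl

/-- the principal open set `h ≠ 0`, with `1/h` as an additional coordinate -/
abbrev Loc (h : X → Ω) : Type := {p : X × Ωˣ // (p.2 : Ω) = h p.1}

theorem h2_loc {h : X → Ω} (hh : Good Ω Ω h) {φ : Loc h → Ω} (hφ : φ ∈ GA Ω Ω (Loc h)) :
    ∃ (N : ℕ) (ψ : X → Ω), Good Ω Ω ψ ∧ ∀ q : Loc h, φ q * h q.1.1 ^ N = ψ q.1.1 := by
  induction hφ using Algebra.adjoin_induction with
  | mem φ hφ =>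
    obtain ⟨k, rfl⟩ := hφ
    rcases k with k | k | k
    · exact ⟨0, Coord.c k, good_iff_mem.2 (GA.coord k), fun q => by rw [pow_zero, mul_one]; rfl⟩
    · exact ⟨0, h, hh, fun q => by rw [pow_zero, mul_one]; exact q.2⟩
    · refine ⟨1, fun _ => 1, Good.one, fun q => ?_⟩
      rw [pow_one, ← q.2]
      exact q.1.2.inv_mul
  | algebraMap r => exact ⟨0, fun _ => r, Good.const' r, fun q => by simp⟩
  | add a b _ _ ha hb =>
    obtain ⟨N, ψ, h1, h2⟩ := ha
    obtain ⟨N', ψ', h1', h2'⟩ := hb
    refine ⟨N + N', fun x => ψ x * h x ^ N' + ψ' x * h x ^ N,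
      (h1.mul (hh.pow _)).add (h1'.mul (hh.pow _)), fun q => ?_⟩
    simp only [← h2 q, ← h2' q, Pi.add_apply]
    ring
  | mul a b _ _ ha hb =>
    obtain ⟨N, ψ, h1, h2⟩ := ha
    obtain ⟨N', ψ', h1', h2'⟩ := hb
    refine ⟨N + N', fun x => ψ x * ψ' x, h1.mul h1', fun q => ?_⟩
    simp only [← h2 q, ← h2' q, Pi.mul_apply]
    ring

/-- every regular function on `Loc h` is `ψ / h ^ N` with `ψ` regular on `X` (induction on the
adjoin); then use `Cl_inter_ne`. -/
theorem Cl_loc {h : X → Ω} (hh : Good Ω Ω h) {S : Set X} (p : Loc h) (hx : p.1.1 ∈ Cl Ω S) :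
    p ∈ Cl Ω {q : Loc h | q.1.1 ∈ S} := by
  intro φ hφ hS
  obtain ⟨N, ψ, h1, h2⟩ := h2_loc hh hφ
  have hne : h p.1.1 ≠ 0 := p.2 ▸ p.1.2.ne_zero
  have h3 : ψ p.1.1 = 0 := Cl.eq_zero (Cl_inter_ne hx hh hne) h1 fun y hy => by
    have := h2 ⟨(y, Units.mk0 (h y) hy.2), rfl⟩
    rw [hS _ hy.1, zero_mul] at this
    exact this.symm
  rw [← h2 p] at h3
  exact (mul_eq_zero.1 h3).resolve_right (pow_ne_zero _ hne)

/-- a rational curve: if `γ` is regular on `{t | q t ≠ 0}` and `γ t ∈ Cl T` for infinitely many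
`t`, then `γ t₀ ∈ Cl T` for all `t₀`. -/
theorem Cl_curve {q : Ω → Ω} (hq : Good Ω Ω q) {γ : Loc q → Y} (hγ : Good Ω Ω γ) {T : Set Y}
    (hinf : {t : Ω | ∃ p : Loc q, p.1.1 = t ∧ γ p ∈ Cl Ω T}.Infinite) (p₀ : Loc q) :
    γ p₀ ∈ Cl Ω T := by
  refine hγ.map_Cl (fun p hp => ?_) (Cl_loc hq p₀ (Cl_of_infinite hinf _))
  obtain ⟨p', h1, h2⟩ := hp
  have : p' = p := Subtype.ext (Prod.ext h1 (Units.ext (by rw [p'.2, p.2, h1])))
  exact this ▸ h2

/-- the cover obtained by extracting an `r`-th root of a regular unit -/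
abbrev Root (r : ℕ) (d : X → Ωˣ) : Type := {p : X × Ωˣ // p.2 ^ r = d p.1}

/-- evaluation of regular functions at a point -/
def h2_ev (x : X) : GA Ω Ω X →+* Ω :=
  (Pi.evalRingHom (fun _ : X => Ω) x).comp (GA Ω Ω X).val.toRingHom

theorem h2_root {r : ℕ} (hr : 0 < r) {d : X → Ωˣ} (hd : Good Ω Ω d) {φ : Root r d → Ω}
    (hφ : φ ∈ GA Ω Ω (Root r d)) : ∃ P : Polynomial (GA Ω Ω X),
      ∀ q : Root r d, φ q = (P.map (h2_ev q.1.1)).eval (q.1.2 : Ω) := by
  induction hφ using Algebra.adjoin_induction with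
  | mem φ hφ =>
    obtain ⟨k, rfl⟩ := hφ
    rcases k with k | k | k
    · refine ⟨Polynomial.C ⟨Coord.c k, GA.coord k⟩, fun q => ?_⟩
      rw [Polynomial.map_C, Polynomial.eval_C]
      rfl
    · refine ⟨Polynomial.X, fun q => ?_⟩
      rw [Polynomial.map_X, Polynomial.eval_X]
      rfl
    · refine ⟨Polynomial.C ⟨_, good_iff_mem.1 hd.uinv.uval⟩ * Polynomial.X ^ (r - 1), fun q => ?_⟩
      rw [Polynomial.map_mul, Polynomial.map_pow, Polynomial.map_C, Polynomial.map_X,
        Polynomial.eval_mul, Polynomial.eval_pow, Polynomial.eval_C, Polynomial.eval_X]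
      change ((q.1.2⁻¹ : Ωˣ) : Ω) = (((d q.1.1)⁻¹ : Ωˣ) : Ω) * (q.1.2 : Ω) ^ (r - 1)
      rw [← q.2, ← Units.val_pow_eq_pow_val, ← Units.val_mul]
      congr 1
      obtain ⟨n, rfl⟩ := Nat.exists_eq_add_one_of_ne_zero hr.ne'
      rw [Nat.add_sub_cancel, pow_succ, mul_inv_rev, inv_mul_cancel_right]
  | algebraMap a =>
    refine ⟨Polynomial.C (algebraMap Ω _ a), fun q => ?_⟩
    rw [Polynomial.map_C, Polynomial.eval_C]
    rfl
  | add a b _ _ ha hb =>
    obtain ⟨P, h⟩ := ha
    obtain ⟨P', h'⟩ := hb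
    exact ⟨P + P', fun q => by rw [Polynomial.map_add, Polynomial.eval_add, ← h, ← h']; rfl⟩
  | mul a b _ _ ha hb =>
    obtain ⟨P, h⟩ := ha
    obtain ⟨P', h'⟩ := hb
    exact ⟨P * P', fun q => by rw [Polynomial.map_mul, Polynomial.eval_mul, ← h, ← h']; rfl⟩

theorem h2_mod [IsAlgClosed Ω] [CharZero Ω] {r : ℕ} (hr : 0 < r) {a : Ω} (ha : a ≠ 0)
    {P : Polynomial Ω} (h : ∀ α : Ω, α ^ r = a → P.eval α = 0) :
    P %ₘ (Polynomial.X ^ r - Polynomial.C a) = 0 := by
  classical
  have hm := Polynomial.monic_X_pow_sub_C a hr.ne'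
  have hs := Polynomial.separable_X_pow_sub_C a (n := r) (Nat.cast_ne_zero.2 hr.ne') ha
  refine Polynomial.eq_zero_of_degree_lt_of_eval_finset_eq_zero
    (Polynomial.X ^ r - Polynomial.C a).roots.toFinset ?_ fun α hα => ?_
  · rw [Multiset.toFinset_card_of_nodup (Polynomial.nodup_roots hs),
      IsAlgClosed.card_roots_eq_natDegree, ← Polynomial.degree_eq_natDegree hm.ne_zero]
    exact Polynomial.degree_modByMonic_lt P hm
  · have h1 := (Polynomial.mem_roots hm.ne_zero).1 (Multiset.mem_toFinset.1 hα)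
    have h2 := congrArg (Polynomial.eval α)
      (Polynomial.modByMonic_add_div P (Polynomial.X ^ r - Polynomial.C a))
    rw [Polynomial.eval_add, Polynomial.eval_mul, h1.eq_zero, zero_mul, add_zero] at h2
    rw [h2]
    refine h α ?_
    simpa [sub_eq_zero] using h1.eq_zero

/-- every regular function on `Root r d` is `∑_{k<r} F_k(x) α^k` with `F_k` regular on `X`
(`α⁻¹ = α^(r-1) d⁻¹`); over a point `y ∈ S` there are `r` distinct roots, so all `F_k y = 0`. -/
theorem Cl_root [IsAlgClosed Ω] [CharZero Ω] {r : ℕ} (hr : 0 < r) {d : X → Ωˣ} (hd : Good Ω Ω d)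
    {S : Set X} (p : Root r d) (hx : p.1.1 ∈ Cl Ω S) :
    p ∈ Cl Ω {q : Root r d | q.1.1 ∈ S} := by
  intro φ hφ hS
  obtain ⟨P, hP⟩ := h2_root hr hd hφ
  let δ : GA Ω Ω X := ⟨_, good_iff_mem.1 hd.uval⟩
  have hm := Polynomial.monic_X_pow_sub_C δ hr.ne'
  have hmap : ∀ y : X, (P %ₘ (Polynomial.X ^ r - Polynomial.C δ)).map (h2_ev y) =
      P.map (h2_ev y) %ₘ (Polynomial.X ^ r - Polynomial.C (d y : Ω)) := fun y => by
    rw [Polynomial.map_modByMonic _ hm, Polynomial.map_sub, Polynomial.map_pow, Polynomial.map_X,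
      Polynomial.map_C]
    rfl
  have h1 : ∀ y ∈ S, (P %ₘ (Polynomial.X ^ r - Polynomial.C δ)).map (h2_ev y) = 0 := fun y hy => by
    rw [hmap]
    refine h2_mod hr (d y).ne_zero fun α hα => ?_
    have h0 : α ≠ 0 := fun h0 => (d y).ne_zero (by rw [← hα, h0, zero_pow hr.ne'])
    have := hP ⟨(y, Units.mk0 α h0), Units.ext (by rw [Units.val_pow_eq_pow_val]; exact hα)⟩
    rw [hS _ hy] at this
    exact this.symm
  have h2 : (P %ₘ (Polynomial.X ^ r - Polynomial.C δ)).map (h2_ev p.1.1) = 0 := by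
    ext n
    rw [Polynomial.coeff_map, Polynomial.coeff_zero]
    refine hx _ ((P %ₘ (Polynomial.X ^ r - Polynomial.C δ)).coeff n).2 fun y hy => ?_
    have := congrArg (Polynomial.coeff · n) (h1 y hy)
    simp only [Polynomial.coeff_map, Polynomial.coeff_zero] at this
    exact this
  have h3 := congrArg (Polynomial.eval (p.1.2 : Ω)) (Polynomial.modByMonic_add_div
    (P.map (h2_ev p.1.1)) (Polynomial.X ^ r - Polynomial.C (d p.1.1 : Ω)))
  rw [← hmap, h2, zero_add, Polynomial.eval_mul, Polynomial.eval_sub, Polynomial.eval_pow,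
    Polynomial.eval_X, Polynomial.eval_C, ← Units.val_pow_eq_pow_val, p.2, sub_self,
    zero_mul] at h3
  rw [hP, ← h3]

/-- roots for the indices in `s`, and `1` elsewhere -/
abbrev h2_R {ι : Type} (r : ℕ) (d : X → ι → Ωˣ) (s : Set ι) : Type :=
  {p : X × (ι → Ωˣ) // (∀ i ∈ s, p.2 i ^ r = d p.1 i) ∧ ∀ i, i ∉ s → p.2 i = 1}

theorem h2_roots [IsAlgClosed Ω] [CharZero Ω] {r : ℕ} (hr : 0 < r) {ι : Type}
    {d : X → ι → Ωˣ} (hd : Good Ω Ω d) {S : Set X} {s : Set ι} (hs : s.Finite)
    (p : h2_R r d s) (hx : p.1.1 ∈ Cl Ω S) : p ∈ Cl Ω {q : h2_R r d s | q.1.1 ∈ S} := by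
  classical
  induction s, hs using Set.Finite.induction_on with
  | empty =>
    let f : X → h2_R r d ∅ := fun x => ⟨(x, fun _ => 1), fun _ h => h.elim, fun _ _ => rfl⟩
    have hf : Good Ω Ω f := good_subtype_iff.2 (Good.id.prodMk (Good.const' _))
    have e : f p.1.1 = p := Subtype.ext (Prod.ext rfl (funext fun i => (p.2.2 i id).symm))
    exact e ▸ hf.map_Cl (fun y hy => subset_Cl _ hy) hx
  | @insert a s ha _ ih =>
    let p' : h2_R r d s := ⟨(p.1.1, Function.update p.1.2 a 1),
      fun i hi => by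
        have hia : i ≠ a := fun h => ha (h ▸ hi)
        simp only [Function.update_of_ne hia]
        exact p.2.1 i (Or.inr hi),
      fun i hi => by
        by_cases hia : i = a
        · simp only [hia, Function.update_self]
        · simp only [Function.update_of_ne hia]
          exact p.2.2 i fun h => h.elim hia hi⟩
    have hd' : Good Ω Ω fun q : h2_R r d s => d q.1.1 a :=
      (Good.apply a).comp (hd.comp Good.id.val.fst)
    have h1 := Cl_root hr hd' ⟨(p', p.1.2 a), p.2.1 a (Or.inl rfl)⟩ (ih p' hx)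
    let f : Root r (fun q : h2_R r d s => d q.1.1 a) → h2_R r d (insert a s) := fun q =>
      ⟨(q.1.1.1.1, Function.update q.1.1.1.2 a q.1.2),
        fun i hi => by
          by_cases hia : i = a
          · simp only [hia, Function.update_self]
            exact q.2
          · simp only [Function.update_of_ne hia]
            exact q.1.1.2.1 i (hi.resolve_left hia),
        fun i hi => by
          have hia : i ≠ a := fun h => hi (Or.inl h)
          simp only [Function.update_of_ne hia]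
          exact q.1.1.2.2 i fun h => hi (Or.inr h)⟩
    have hf : Good Ω Ω f := by
      refine good_subtype_iff.2 (Good.id.val.fst.val.fst.prodMk (Good.pi fun i => ?_))
      simp only [Function.update_apply]
      exact Good.ite Good.id.val.snd ((Good.apply i).comp Good.id.val.fst.val.snd)
    have e : f ⟨(p', p.1.2 a), p.2.1 a (Or.inl rfl)⟩ = p :=
      Subtype.ext (Prod.ext rfl (by simp [f, p']))
    exact e ▸ hf.map_Cl (fun y hy => subset_Cl _ hy) h1

/-- several roots at once (induction on `ι`, or directly). -/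
theorem Cl_roots [IsAlgClosed Ω] [CharZero Ω] {r : ℕ} (hr : 0 < r) {ι : Type} [Finite ι]
    {d : X → ι → Ωˣ} (hd : Good Ω Ω d) {S : Set X}
    (p : {p : X × (ι → Ωˣ) // ∀ i, p.2 i ^ r = d p.1 i}) (hx : p.1.1 ∈ Cl Ω S) :
    p ∈ Cl Ω {q : {p : X × (ι → Ωˣ) // ∀ i, p.2 i ^ r = d p.1 i} | q.1.1 ∈ S} := by
  have h1 := h2_roots hr hd (Set.finite_univ (α := ι))
    ⟨p.1, fun i _ => p.2 i, fun i h => (h trivial).elim⟩ hx
  let f : h2_R r d Set.univ → {p : X × (ι → Ωˣ) // ∀ i, p.2 i ^ r = d p.1 i} := fun q =>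
    ⟨q.1, fun i => q.2.1 i trivial⟩
  have hf : Good Ω Ω f := good_subtype_iff.2 Good.id.val
  exact hf.map_Cl (S := {q | q.1.1 ∈ S}) (T := {q | q.1.1 ∈ S}) (fun y hy => subset_Cl _ hy) h1

end Crest.Agent.R003
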